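import Vale.Agent.P095.AFComp1

/-!
# P095: AF algebras have strict comparison
-/

open Filter Topology TopologicalSpace
open scoped BoundedContinuousFunction ComplexOrder

namespace Vale.Agent.P095

open Vale.Agent.P101

universe u

namespace AFComp

variable {A : Type u} [CStarAlgebra A]

theorem spec_bound {x : A} {t : ℝ} (ht : t ∈ spectrum ℝ x) : ‖t‖ ≤ ‖x‖ := by
  have h := spectrum.norm_le_norm_mul_of_mem ht
  exact h.trans ((mul_le_mul_of_nonneg_left (norm_one_le A) (norm_nonneg x)).trans (mul_one _).le)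

theorem tendsto_cfc {x : ℕ → A} {y : A} (hx : ∀ m, IsSelfAdjoint (x m)) (hy : IsSelfAdjoint y)
    (h : Tendsto x atTop (𝓝 y)) (f : ℝ → ℝ) (hf : Continuous f) :
    Tendsto (fun m => cfc f (x m)) atTop (𝓝 (cfc f y)) := by
  refine Filter.Tendsto.cfc (isCompact_closedBall (0 : ℝ) (‖y‖ + 1)) f h ?_
    (Eventually.of_forall hx) ?_ hy hf.continuousOn
  · have h1 : ∀ᶠ m in atTop, ‖x m‖ < ‖y‖ + 1 :=
      h.norm.eventually (gt_mem_nhds (lt_add_one ‖y‖))
    filter_upwards [h1] with m hm t ht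
    rw [mem_closedBall_zero_iff]
    exact (spec_bound ht).trans hm.le
  · intro t ht
    rw [mem_closedBall_zero_iff]
    exact (spec_bound ht).trans (by linarith)

theorem tendsto_state {ω : Ultrafilter ℕ} {σ : ℕ → (A →ₗ[ℂ] ℂ)} (h1 : ∀ m, σ m 1 = 1)
    (h2 : ∀ m x, 0 ≤ σ m (star x * x)) {τ : A →ₗ[ℂ] ℂ}
    (hτ : ∀ x, Tendsto (fun m => σ m x) (ω : Filter ℕ) (𝓝 (τ x))) {x : ℕ → A} {y : A}
    (h : Tendsto x (ω : Filter ℕ) (𝓝 y)) :
    Tendsto (fun m => σ m (x m)) (ω : Filter ℕ) (𝓝 (τ y)) := by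
  have h3 : Tendsto (fun m => σ m (x m - y)) (ω : Filter ℕ) (𝓝 0) := by
    rw [tendsto_zero_iff_norm_tendsto_zero]
    refine squeeze_zero (fun _ => norm_nonneg _)
      (fun m => PureExt.IsPos.norm_le (h2 m) (h1 m) (x m - y)) ?_
    have := (h.sub_const y).norm
    rwa [sub_self, norm_zero] at this
  have h4 := h3.add (hτ y)
  rw [zero_add] at h4
  refine h4.congr fun m => ?_
  rw [map_sub, sub_add_cancel]

theorem norm_sq_sub_le {x y : A} {δ : ℝ} (hδ : ‖x - y‖ ≤ δ) (hδ1 : δ ≤ 1) :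
    ‖star x * x - star y * y‖ ≤ (2 * ‖y‖ + 1) * δ := by
  have h1 : star x * x - star y * y = star x * (x - y) + star (x - y) * y := by
    rw [star_sub, mul_sub, sub_mul]
    abel
  have h2 : ‖x‖ ≤ ‖y‖ + 1 := by
    have : x = (x - y) + y := by abel
    calc ‖x‖ = ‖(x - y) + y‖ := by rw [← this]
      _ ≤ ‖x - y‖ + ‖y‖ := norm_add_le _ _
      _ ≤ _ := by linarith
  have h0 := norm_nonneg (x - y)
  rw [h1]
  calc ‖star x * (x - y) + star (x - y) * y‖ ≤ ‖x‖ * ‖x - y‖ + ‖x - y‖ * ‖y‖ := by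
        refine (norm_add_le _ _).trans (add_le_add ?_ ?_)
        · refine (norm_mul_le _ _).trans ?_
          rw [norm_star]
        · refine (norm_mul_le _ _).trans ?_
          rw [norm_star]
    _ ≤ (‖y‖ + 1) * δ + δ * ‖y‖ := by
        refine add_le_add (mul_le_mul h2 hδ h0 (by positivity))
          (mul_le_mul_of_nonneg_right hδ (norm_nonneg _))
    _ = _ := by ring

theorem norm_comm_sub_le {x y x' y' : A} {δ : ℝ} (hx : ‖x' - x‖ ≤ δ) (hy : ‖y' - y‖ ≤ δ)
    (hδ1 : δ ≤ 1) : ‖x' * y' - x * y‖ ≤ (‖x‖ + ‖y‖ + 1) * δ := by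
  have h1 : x' * y' - x * y = (x' - x) * y' + x * (y' - y) := by
    rw [sub_mul, mul_sub]
    abel
  have h2 : ‖y'‖ ≤ ‖y‖ + 1 := by
    have : y' = (y' - y) + y := by abel
    calc ‖y'‖ = ‖(y' - y) + y‖ := by rw [← this]
      _ ≤ ‖y' - y‖ + ‖y‖ := norm_add_le _ _
      _ ≤ _ := by linarith
  have h0 := norm_nonneg (x' - x)
  rw [h1]
  calc ‖(x' - x) * y' + x * (y' - y)‖ ≤ ‖x' - x‖ * ‖y'‖ + ‖x‖ * ‖y' - y‖ :=
        (norm_add_le _ _).trans (add_le_add (norm_mul_le _ _) (norm_mul_le _ _))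
    _ ≤ δ * (‖y‖ + 1) + ‖x‖ * δ :=
        add_le_add (mul_le_mul hx h2 (norm_nonneg _) (h0.trans hx))
          (mul_le_mul_of_nonneg_left hy (norm_nonneg _))
    _ = _ := by ring

theorem norm_rank_le {y : A} (n : ℕ) :
    ‖cfc (fun t : ℝ => min 1 (n * t)) (star y * y)‖ ≤ 1 := by
  refine norm_cfc_le zero_le_one fun t ht => ?_
  have h3 : 0 ≤ t := spectrum_star_mul_self_nonneg (b := y) t ht
  have h4 : 0 ≤ (n : ℝ) * t := mul_nonneg (Nat.cast_nonneg _) h3
  rw [Real.norm_eq_abs, abs_of_nonneg (le_min zero_le_one h4)]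
  exact min_le_left _ _

end AFComp

open AFComp

/-- Unital AF algebras have strict comparison of positive elements by traces. -/
theorem strictComparison_of_isAF {A : Type u} [CStarAlgebra A] [SeparableSpace A]
    (h : IsAF A) : StrictComparison A := by
  classical
  intro a b ha hb _ hlt ε hε
  obtain ⟨y, rfl⟩ := ha
  obtain ⟨w, rfl⟩ := hb
  obtain ⟨d, hd⟩ := exists_dense_seq A
  obtain ⟨K, hK0, hKε⟩ : ∃ K : ℕ, 0 < K ∧ (K : ℝ)⁻¹ < ε / 2 := by
    obtain ⟨K, hK⟩ := exists_nat_one_div_lt (half_pos hε)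
    refine ⟨K + 1, Nat.succ_pos _, ?_⟩
    rw [one_div] at hK
    exact_mod_cast hK
  by_contra hcon
  push Not at hcon
  -- accuracies
  let δ : ℕ → ℝ := fun m => 1 / ((m : ℝ) + 1) ^ 2
  have hδ0 : ∀ m, 0 < δ m := fun m => by positivity
  have hδ1 : ∀ m, δ m ≤ 1 := fun m => by
    have h1 : (1 : ℝ) ≤ ((m : ℝ) + 1) ^ 2 := by
      have := Nat.cast_nonneg (α := ℝ) m
      nlinarith
    exact div_le_one_of_le₀ h1 (by positivity)
  have hδle : ∀ m, δ m ≤ 1 / ((m : ℝ) + 1) := fun m => by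
    have h1 : (m : ℝ) + 1 ≤ ((m : ℝ) + 1) ^ 2 := by
      have := Nat.cast_nonneg (α := ℝ) m
      nlinarith
    exact one_div_le_one_div_of_le (by positivity) h1
  have hmδ : ∀ m : ℕ, (m : ℝ) * δ m ≤ 1 / ((m : ℝ) + 1) := fun m => by
    have h1 : (0 : ℝ) < (m : ℝ) + 1 := by positivity
    show (m : ℝ) * (1 / ((m : ℝ) + 1) ^ 2) ≤ _
    rw [mul_one_div, div_le_div_iff₀ (by positivity) h1]
    nlinarith [Nat.cast_nonneg (α := ℝ) m]
  have hδt : Tendsto δ atTop (𝓝 0) :=
    squeeze_zero (fun m => (hδ0 m).le) hδle tendsto_one_div_add_atTop_nhds_zero_nat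
  obtain ⟨C, hCd⟩ : ∃ C : ℝ, C = 2 * ‖y‖ + 2 * ‖w‖ + 2 + ‖star y * y‖ := ⟨_, rfl⟩
  have hC : 0 < C := by rw [hCd]; positivity
  -- the threshold
  obtain ⟨M0, hM0⟩ := exists_nat_one_div_lt (show (0 : ℝ) < ε / 2 / (C * C + C) by positivity)
  have hdich : ∀ m : ℕ, M0 < m → ∃ (σ : A →ₗ[ℂ] ℂ) (am bm : A), σ 1 = 1 ∧
      (∀ x, 0 ≤ σ (star x * x)) ∧ IsSelfAdjoint am ∧ IsSelfAdjoint bm ∧
      ‖am - star y * y‖ ≤ C * δ m ∧ ‖bm - star w * w‖ ≤ C * δ m ∧
      (∀ i < m, ∀ j < m, ‖σ (d i * d j) - σ (d j * d i)‖ ≤ 2 * ((‖d i‖ + ‖d j‖ + 1) * δ m)) ∧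
      ∀ j : ℕ, (σ (cfc (fun t : ℝ => min 1 (j * t)) bm)).re ≤
        (σ (cfc (fun t : ℝ => min 1 (K * t)) am)).re + j / m := by
    intro m hm
    have hm0 : 0 < m := lt_of_le_of_lt (Nat.zero_le _) hm
    obtain ⟨k, n, φ, hφ⟩ := h (insert y (insert w ((Finset.range m).image d))) (δ m) (hδ0 m)
    obtain ⟨v, hv⟩ := hφ y (Finset.mem_insert_self _ _)
    obtain ⟨v', hv'⟩ := hφ w (Finset.mem_insert_of_mem (Finset.mem_insert_self _ _))
    have hdd : ∀ i < m, ∃ x, ‖φ x - d i‖ < δ m := fun i hi =>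
      hφ (d i) (Finset.mem_insert_of_mem (Finset.mem_insert_of_mem
        (Finset.mem_image_of_mem d (Finset.mem_range.2 hi))))
    have e1 : ‖φ (star v * v) - star y * y‖ ≤ C * δ m := by
      rw [map_mul, map_star]
      refine (norm_sq_sub_le hv.le (hδ1 m)).trans (mul_le_mul_of_nonneg_right ?_ (hδ0 m).le)
      rw [hCd]
      linarith [norm_nonneg w, norm_nonneg (star y * y)]
    have e2 : ‖φ (star v' * v') - star w * w‖ ≤ C * δ m := by
      rw [map_mul, map_star]
      refine (norm_sq_sub_le hv'.le (hδ1 m)).trans (mul_le_mul_of_nonneg_right ?_ (hδ0 m).le)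
      rw [hCd]
      linarith [norm_nonneg y, norm_nonneg (star y * y)]
    rcases fin_step φ v v' K m hK0 hm0 with ⟨z, hz1, hz2⟩ | ⟨σ, h1, h2, h3, h4⟩
    · exfalso
      have h5 := hcon z
      have h6 : star z * (star w * w) * z - star y * y =
          (star z * φ (star v' * v') * z - φ (star v * v)) +
          (star z * ((star w * w) - φ (star v' * v')) * z + (φ (star v * v) - star y * y)) := by
        rw [mul_sub, sub_mul]
        abel
      have h7 : ‖φ (star v * v)‖ ≤ C := by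
        rw [map_mul, map_star]
        have h8 := norm_sq_sub_le hv.le (hδ1 m)
        have h9 : ‖star (φ v) * φ v‖ ≤ ‖star (φ v) * φ v - star y * y‖ + ‖star y * y‖ := by
          have : star (φ v) * φ v = (star (φ v) * φ v - star y * y) + star y * y := by abel
          calc ‖star (φ v) * φ v‖ = ‖(star (φ v) * φ v - star y * y) + star y * y‖ := by
                rw [← this]
            _ ≤ _ := norm_add_le _ _
        have h10 : (2 * ‖y‖ + 1) * δ m ≤ 2 * ‖y‖ + 1 :=
          mul_le_of_le_one_right (by positivity) (hδ1 m)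
        rw [hCd]
        linarith [norm_nonneg w]
      have h8 : ‖star z * ((star w * w) - φ (star v' * v')) * z‖ ≤ (m * C) * (C * δ m) := by
        calc ‖star z * ((star w * w) - φ (star v' * v')) * z‖
            ≤ ‖star z‖ * ‖(star w * w) - φ (star v' * v')‖ * ‖z‖ :=
              (norm_mul_le _ _).trans (mul_le_mul_of_nonneg_right (norm_mul_le _ _)
                (norm_nonneg _))
          _ = ‖z‖ ^ 2 * ‖φ (star v' * v') - star w * w‖ := by
              rw [norm_star, norm_sub_rev]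
              ring
          _ ≤ (m * C) * (C * δ m) := by
              refine mul_le_mul (hz1.trans ?_) e2 (norm_nonneg _) (by positivity)
              exact mul_le_mul_of_nonneg_left h7 (Nat.cast_nonneg _)
      have h9 : ε ≤ (K : ℝ)⁻¹ + ((m * C) * (C * δ m) + C * δ m) := by
        refine h5.trans ?_
        rw [h6]
        exact (norm_add_le _ _).trans (add_le_add hz2 ((norm_add_le _ _).trans
          (add_le_add h8 e1)))
      have h10 : (m * C) * (C * δ m) + C * δ m ≤ (C * C + C) * (1 / ((m : ℝ) + 1)) := by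
        have h11 : (m * C) * (C * δ m) = (C * C) * (m * δ m) := by ring
        rw [h11, add_mul]
        exact add_le_add (mul_le_mul_of_nonneg_left (hmδ m) (by positivity))
          (mul_le_mul_of_nonneg_left (hδle m) hC.le)
      have h11 : 1 / ((m : ℝ) + 1) < ε / 2 / (C * C + C) := by
        refine lt_of_le_of_lt ?_ hM0
        refine one_div_le_one_div_of_le (by positivity) ?_
        have : (M0 : ℝ) ≤ m := by exact_mod_cast hm.le
        linarith
      have h12 : (C * C + C) * (1 / ((m : ℝ) + 1)) < ε / 2 := by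
        have h13 : 0 < C * C + C := by positivity
        calc (C * C + C) * (1 / ((m : ℝ) + 1)) < (C * C + C) * (ε / 2 / (C * C + C)) :=
              mul_lt_mul_of_pos_left h11 h13
          _ = ε / 2 := mul_div_cancel₀ _ h13.ne'
      linarith
    · refine ⟨σ, φ (star v * v), φ (star v' * v'), h1, h2, (IsSelfAdjoint.star_mul_self v).map φ,
        (IsSelfAdjoint.star_mul_self v').map φ, e1, e2, ?_, h4⟩
      intro i hi j hj
      obtain ⟨x, hx⟩ := hdd i hi
      obtain ⟨x', hx'⟩ := hdd j hj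
      have h5 : σ (d i * d j) - σ (d j * d i) =
          -σ (φ x * φ x' - d i * d j) + σ (φ x' * φ x - d j * d i) := by
        rw [map_sub, map_sub, h3 x x']
        ring
      have h6 := (PureExt.IsPos.norm_le h2 h1 (φ x * φ x' - d i * d j)).trans
        (norm_comm_sub_le hx.le hx'.le (hδ1 m))
      have h7 := (PureExt.IsPos.norm_le h2 h1 (φ x' * φ x - d j * d i)).trans
        (norm_comm_sub_le hx'.le hx.le (hδ1 m))
      rw [h5]
      refine (norm_add_le _ _).trans ?_
      rw [norm_neg]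
      have h8 : (‖d j‖ + ‖d i‖ + 1) * δ m = (‖d i‖ + ‖d j‖ + 1) * δ m := by ring
      linarith
  -- the limit
  choose σ am bm h1 h2 h3 h4 h5 h6 h7 h8 using fun m : ℕ => hdich (m + (M0 + 1)) (by omega)
  have hshift : Tendsto (fun m : ℕ => m + (M0 + 1)) atTop atTop := tendsto_add_atTop_nat _
  let ω : Ultrafilter ℕ := hyperfilter ℕ
  have hω : (ω : Filter ℕ) ≤ atTop := by
    rw [← Nat.cofinite_eq_atTop]
    exact hyperfilter_le_cofinite
  obtain ⟨τ, hτ1, hτ2, hτ⟩ := exists_limit_state ω σ h1 h2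
  have hδs : Tendsto (fun m => C * δ (m + (M0 + 1))) atTop (𝓝 0) := by
    have := (hδt.comp hshift).const_mul C
    rwa [mul_zero] at this
  have ham : Tendsto am atTop (𝓝 (star y * y)) := by
    rw [tendsto_iff_norm_sub_tendsto_zero]
    exact squeeze_zero (fun _ => norm_nonneg _) h5 hδs
  have hbm : Tendsto bm atTop (𝓝 (star w * w)) := by
    rw [tendsto_iff_norm_sub_tendsto_zero]
    exact squeeze_zero (fun _ => norm_nonneg _) h6 hδs
  have hτc : Continuous τ := AddMonoidHomClass.continuous_of_bound τ 1 fun x => by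
    rw [one_mul]
    exact PureExt.IsPos.norm_le hτ2 hτ1 x
  have htr : IsTrace τ := by
    refine ⟨hτ1, hτ2, ?_⟩
    refine DenseRange.induction_on₂ hd ?_ ?_
    · exact isClosed_eq (hτc.comp continuous_mul) (hτc.comp (continuous_snd.mul continuous_fst))
    · intro i j
      have h9 : Tendsto (fun m => σ m (d i * d j) - σ m (d j * d i)) (ω : Filter ℕ) (𝓝 0) := by
        rw [tendsto_zero_iff_norm_tendsto_zero]
        have h10 : Tendsto (fun m => 2 * ((‖d i‖ + ‖d j‖ + 1) * δ (m + (M0 + 1)))) atTop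
            (𝓝 0) := by
          have := ((hδt.comp hshift).const_mul (‖d i‖ + ‖d j‖ + 1)).const_mul 2
          rwa [mul_zero, mul_zero] at this
        refine squeeze_zero' (Eventually.of_forall fun _ => norm_nonneg _) ?_ (h10.mono_left hω)
        have h11 : ∀ᶠ m in atTop, max i j < m + (M0 + 1) :=
          hshift.eventually (eventually_gt_atTop (max i j))
        filter_upwards [hω h11] with m hm
        exact h7 m i (lt_of_le_of_lt (le_max_left _ _) hm) j (lt_of_le_of_lt (le_max_right _ _) hm)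
      have h10 := (hτ (d i * d j)).sub (hτ (d j * d i))
      exact sub_eq_zero.1 (tendsto_nhds_unique h10 h9)
  have hc : ∀ c : ℝ, Continuous fun t : ℝ => min 1 (c * t) := fun c => by fun_prop
  have hle : ∀ j : ℕ, (τ (cfc (fun t : ℝ => min 1 (j * t)) (star w * w))).re ≤
      (τ (cfc (fun t : ℝ => min 1 (K * t)) (star y * y))).re := by
    intro j
    have e1 := tendsto_state h1 h2 hτ
      ((tendsto_cfc h4 (IsSelfAdjoint.star_mul_self w) hbm _ (hc j)).mono_left hω)
    have e2 := tendsto_state h1 h2 hτ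
      ((tendsto_cfc h3 (IsSelfAdjoint.star_mul_self y) ham _ (hc K)).mono_left hω)
    have e3 : Tendsto (fun m : ℕ => (j : ℝ) / ((m + (M0 + 1) : ℕ) : ℝ)) (ω : Filter ℕ) (𝓝 0) :=
      ((tendsto_const_div_atTop_nhds_zero_nat (j : ℝ)).comp hshift).mono_left hω
    have e4 := (Complex.continuous_re.tendsto _).comp e1
    have e5 := ((Complex.continuous_re.tendsto _).comp e2).add e3
    rw [add_zero] at e5
    exact le_of_tendsto_of_tendsto e4 e5 (Eventually.of_forall fun m => h8 m j)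
  have hrank : rankFn τ (star w * w) ≤ rankFn τ (star y * y) := by
    refine ciSup_le fun j => (hle j).trans ?_
    refine le_ciSup (f := fun n : ℕ => (τ (cfc (fun t : ℝ => min 1 (n * t)) (star y * y))).re)
      ⟨1, ?_⟩ K
    rintro _ ⟨n, rfl⟩
    exact (Complex.re_le_norm _).trans ((PureExt.IsPos.norm_le hτ2 hτ1 _).trans (norm_rank_le n))
  exact absurd (hlt τ htr) (not_lt.2 hrank)

end Vale.Agent.P095
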