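import Mathlib

/-!
# P095: characters of a subalgebra extend to pure states

If a character `χ` of a unital star subalgebra `F` of a C*-algebra `B` extends to a state of `B`,
then it extends to a pure state.
-/

open Filter Topology
open scoped ComplexOrder

namespace Vale.Agent.P095

namespace PureExt

variable {B : Type*} [CStarAlgebra B]

/-- Positive linear functionals. -/
def IsPos (φ : B →ₗ[ℂ] ℂ) : Prop := ∀ x, 0 ≤ φ (star x * x)

theorem ofReal_re_of_nonneg {z : ℂ} (h : 0 ≤ z) : ((z.re : ℝ) : ℂ) = z := by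
  rw [Complex.nonneg_iff] at h
  apply Complex.ext
  · simp
  · simpa using h.2

theorem IsPos.map_star {φ : B →ₗ[ℂ] ℂ} (h : IsPos φ) (x : B) : φ (star x) = star (φ x) := by
  -- polarisation with `1`
  have key : ∀ y : B, (φ (star y)) + φ y = star (φ (star y) + φ y) := by
    intro y
    have h1 := h (1 + y)
    have h2 := h 1
    have h3 := h y
    have e : φ (star y) + φ y = φ (star (1 + y) * (1 + y)) - φ (star 1 * 1) - φ (star y * y) := by
      rw [← map_add, ← map_sub, ← map_sub]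
      congr 1
      rw [star_add, star_one]
      noncomm_ring
    rw [e, star_sub, star_sub]
    rw [← ofReal_re_of_nonneg h1, ← ofReal_re_of_nonneg h2, ← ofReal_re_of_nonneg h3]
    simp
  have k1 := key x
  have k2 := key (Complex.I • x)
  rw [star_smul, map_smul, map_smul] at k2
  simp only [smul_eq_mul, Complex.star_def, Complex.conj_I, map_add, map_mul] at k1 k2
  have i1 := congrArg Complex.im k1
  have i2 := congrArg Complex.im k2
  simp only [Complex.add_im, Complex.conj_im, Complex.mul_im, Complex.neg_re, Complex.neg_im,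
    Complex.I_re, Complex.I_im, Complex.conj_re, map_neg, Complex.conj_I] at i1 i2
  apply Complex.ext
  · simp only [Complex.star_def, Complex.conj_re]
    linarith
  · simp only [Complex.star_def, Complex.conj_im]
    linarith

/-- Cauchy-Schwarz with `1`. -/
theorem IsPos.cs_one {φ : B →ₗ[ℂ] ℂ} (h : IsPos φ) (x : B) :
    ‖φ x‖ ^ 2 ≤ (φ 1).re * (φ (star x * x)).re := by
  have h1 : 0 ≤ φ 1 := by
    have := h 1
    rwa [star_one, one_mul] at this
  have h1' : ((φ 1).re : ℂ) = φ 1 := ofReal_re_of_nonneg h1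
  have hx' : ((φ (star x * x)).re : ℂ) = φ (star x * x) := ofReal_re_of_nonneg (h x)
  have hr1 : 0 ≤ (φ 1).re := (Complex.nonneg_iff.1 h1).1
  have hrx : 0 ≤ (φ (star x * x)).re := (Complex.nonneg_iff.1 (h x)).1
  -- positivity of `x + l • 1`
  have key : ∀ l : ℂ, 0 ≤ (φ (star x * x)).re + 2 * (star l * φ x).re + ‖l‖ ^ 2 * (φ 1).re := by
    intro l
    have h2 := (Complex.nonneg_iff.1 (h (x + l • 1))).1
    have e : φ (star (x + l • 1) * (x + l • 1)) =
        φ (star x * x) + (star l * φ x + l * φ (star x)) + star l * l * φ 1 := by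
      rw [star_add, star_smul, star_one]
      have : (star x + star l • (1 : B)) * (x + l • 1) =
          star x * x + (star l • x + l • star x) + (star l * l) • (1 : B) := by
        rw [add_mul, mul_add, mul_add, smul_mul_assoc, smul_mul_assoc, mul_smul_comm, mul_one,
          one_mul, one_mul, smul_smul]
        abel
      rw [this, map_add, map_add, map_add, map_smul, map_smul, map_smul]
      simp only [smul_eq_mul]
    rw [e, h.map_star x] at h2
    have e2 : l * star (φ x) = star (star l * φ x) := by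
      rw [star_mul, star_star, mul_comm]
    have e3 : (star l * l * φ 1).re = ‖l‖ ^ 2 * (φ 1).re := by
      have e4 : star l * l = ((‖l‖ ^ 2 : ℝ) : ℂ) := by
        rw [Complex.star_def, mul_comm, Complex.mul_conj, Complex.normSq_eq_norm_sq]
      rw [e4, Complex.re_ofReal_mul]
    rw [e2, Complex.add_re, Complex.add_re, Complex.add_re, e3] at h2
    simp only [Complex.star_def, Complex.conj_re] at h2 ⊢
    linarith
  rcases hr1.eq_or_lt with h0 | h0
  · -- `φ 1 = 0`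
    rw [← h0, zero_mul]
    by_contra hne
    push Not at hne
    have hpos : 0 < ‖φ x‖ ^ 2 := hne
    -- take `l = - t * φ x`
    have h3 := key (-(((((φ (star x * x)).re + 1) / ‖φ x‖ ^ 2 : ℝ) : ℂ) * φ x))
    rw [← h0, mul_zero, add_zero] at h3
    have e5 : (star (-(((((φ (star x * x)).re + 1) / ‖φ x‖ ^ 2 : ℝ) : ℂ) * φ x)) * φ x).re =
        -((φ (star x * x)).re + 1) := by
      rw [star_neg, star_mul, Complex.star_def, Complex.conj_ofReal, neg_mul, Complex.neg_re]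
      have e6 : (starRingEnd ℂ) (φ x) * ((((φ (star x * x)).re + 1) / ‖φ x‖ ^ 2 : ℝ) : ℂ) * φ x =
          ((((φ (star x * x)).re + 1) / ‖φ x‖ ^ 2 * ‖φ x‖ ^ 2 : ℝ) : ℂ) := by
        rw [mul_comm, ← mul_assoc, Complex.mul_conj, Complex.normSq_eq_norm_sq]
        push_cast
        ring
      rw [e6, Complex.ofReal_re, div_mul_cancel₀ _ hpos.ne']
    rw [e5] at h3
    linarith
  · have h3 := key (-(φ x / φ 1))
    have e5 : (star (-(φ x / φ 1)) * φ x).re = -(‖φ x‖ ^ 2 / (φ 1).re) := by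
      have e6 : star (-(φ x / φ 1)) * φ x = ((-(‖φ x‖ ^ 2 / (φ 1).re) : ℝ) : ℂ) := by
        rw [← h1', star_neg, Complex.star_def, map_div₀, Complex.conj_ofReal, neg_mul,
          div_mul_eq_mul_div, mul_comm ((starRingEnd ℂ) (φ x)), Complex.mul_conj,
          Complex.normSq_eq_norm_sq]
        push_cast
        simp
      rw [e6, Complex.ofReal_re]
    have e7 : ‖-(φ x / φ 1)‖ ^ 2 * (φ 1).re = ‖φ x‖ ^ 2 / (φ 1).re := by
      rw [norm_neg, norm_div, ← h1', Complex.norm_real, Real.norm_eq_abs, Complex.ofReal_re,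
        abs_of_pos h0]
      field_simp
    rw [e5, e7] at h3
    have h4 : ‖φ x‖ ^ 2 / (φ 1).re ≤ (φ (star x * x)).re := by linarith
    rw [div_le_iff₀ h0] at h4
    linarith

theorem IsPos.norm_le {φ : B →ₗ[ℂ] ℂ} (h : IsPos φ) (h1 : φ 1 = 1) (x : B) : ‖φ x‖ ≤ ‖x‖ := by
  let _ := CStarAlgebra.spectralOrder B
  have _ := CStarAlgebra.spectralOrderedRing B
  have h2 := h.cs_one x
  rw [h1, Complex.one_re, one_mul] at h2
  -- `‖x‖² - x* x ≥ 0`
  have h3 : 0 ≤ algebraMap ℝ B (‖x‖ ^ 2) - star x * x := by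
    rw [sub_nonneg]
    have h4 := IsSelfAdjoint.le_algebraMap_norm_self (a := star x * x) (.star_mul_self x)
    rwa [CStarRing.norm_star_mul_self, ← sq] at h4
  obtain ⟨y, hy⟩ := CStarAlgebra.nonneg_iff_eq_star_mul_self.1 h3
  have h5 := h y
  rw [← hy, map_sub] at h5
  have e : φ (algebraMap ℝ B (‖x‖ ^ 2)) = ((‖x‖ ^ 2 : ℝ) : ℂ) := by
    rw [IsScalarTower.algebraMap_apply ℝ ℂ B, Algebra.algebraMap_eq_smul_one, map_smul, h1,
      smul_eq_mul, mul_one]
    rfl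
  rw [e] at h5
  have h6 := (Complex.nonneg_iff.1 h5).1
  rw [Complex.sub_re, Complex.ofReal_re] at h6
  exact abs_le_of_sq_le_sq' (by nlinarith) (norm_nonneg x) |>.2

theorem IsPos.eq_zero {φ : B →ₗ[ℂ] ℂ} (h : IsPos φ) {x : B} (hx : φ (star x * x) = 0) :
    φ x = 0 := by
  have h2 := h.cs_one x
  rw [hx, Complex.zero_re, mul_zero] at h2
  have h3 : ‖φ x‖ = 0 := by nlinarith [norm_nonneg (φ x)]
  exact norm_eq_zero.1 h3

theorem IsPos.eq_zero_of_one {φ : B →ₗ[ℂ] ℂ} (h : IsPos φ) (h1 : φ 1 = 0) (x : B) :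
    φ x = 0 := by
  have h2 := h.cs_one x
  rw [h1, Complex.zero_re, zero_mul] at h2
  have h3 : ‖φ x‖ = 0 := by nlinarith [norm_nonneg (φ x)]
  exact norm_eq_zero.1 h3

/-- The set of states extending `χ`, as functions. -/
def extSet (F : StarSubalgebra ℂ B) (χ : F → ℂ) : Set (B → ℂ) :=
  {f | ∃ φ : B →ₗ[ℂ] ℂ, (φ : B → ℂ) = f ∧ φ 1 = 1 ∧ IsPos φ ∧ ∀ y : F, φ y = χ y}

theorem isCompact_extSet (F : StarSubalgebra ℂ B) (χ : F → ℂ) : IsCompact (extSet F χ) := by
  have hK : IsCompact (Set.pi Set.univ (fun x : B => Metric.closedBall (0 : ℂ) ‖x‖)) :=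
    isCompact_univ_pi fun x => isCompact_closedBall _ _
  have hsub : extSet F χ ⊆ Set.pi Set.univ (fun x : B => Metric.closedBall (0 : ℂ) ‖x‖) := by
    rintro _ ⟨φ, rfl, h1, h2, -⟩ x _
    rw [mem_closedBall_zero_iff]
    exact h2.norm_le h1 x
  have hcl : IsClosed (extSet F χ) := by
    have e : extSet F χ = (⋂ x : B, ⋂ y : B, {f : B → ℂ | f (x + y) = f x + f y}) ∩
        ((⋂ c : ℂ, ⋂ x : B, {f : B → ℂ | f (c • x) = c * f x}) ∩
        ({f : B → ℂ | f 1 = 1} ∩ ((⋂ x : B, {f : B → ℂ | 0 ≤ f (star x * x)}) ∩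
        ⋂ y : F, {f : B → ℂ | f y = χ y}))) := by
      ext f
      simp only [extSet, Set.mem_inter_iff, Set.mem_iInter, Set.mem_ofPred_eq]
      constructor
      · rintro ⟨φ, rfl, h1, h2, h3⟩
        exact ⟨fun x y => map_add φ x y, fun c x => by rw [map_smul, smul_eq_mul], h1, h2, h3⟩
      · rintro ⟨ha, hs, h1, h2, h3⟩
        exact ⟨{ toFun := f, map_add' := ha, map_smul' := fun c x => by simpa using hs c x },
          rfl, h1, h2, h3⟩
    rw [e]
    refine IsClosed.inter (isClosed_iInter fun x => isClosed_iInter fun y =>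
      isClosed_eq (by fun_prop) (by fun_prop)) ?_
    refine IsClosed.inter (isClosed_iInter fun c => isClosed_iInter fun x =>
      isClosed_eq (by fun_prop) (by fun_prop)) ?_
    refine IsClosed.inter (isClosed_eq (continuous_apply _) continuous_const) ?_
    refine IsClosed.inter (isClosed_iInter fun x =>
      isClosed_le continuous_const (continuous_apply _)) ?_
    exact isClosed_iInter fun y => isClosed_eq (continuous_apply _) continuous_const
  exact hK.of_isClosed_subset hcl hsub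

/-- A character which extends to a state extends to a pure state. -/
theorem exists_pure_extension (F : StarSubalgebra ℂ B) (χ : F →⋆ₐ[ℂ] ℂ) (φ₀ : B →ₗ[ℂ] ℂ)
    (h1 : φ₀ 1 = 1) (hpos : IsPos φ₀) (hext : ∀ y : F, φ₀ y = χ y) :
    ∃ φ : B →ₗ[ℂ] ℂ, φ 1 = 1 ∧ IsPos φ ∧ (∀ y : F, φ y = χ y) ∧
      ∀ (ψ : B →ₗ[ℂ] ℂ) (c : ℝ), IsPos ψ → (∀ x, ψ (star x * x) ≤ c * φ (star x * x)) →
        ∀ x, ψ x = ψ 1 * φ x := by
  obtain ⟨f, hf⟩ := (isCompact_extSet F χ).extremePoints_nonempty ⟨φ₀, φ₀, rfl, h1, hpos, hext⟩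
  obtain ⟨⟨φ, rfl, hφ1, hφp, hφe⟩, hextr⟩ := hf
  refine ⟨φ, hφ1, hφp, hφe, ?_⟩
  intro ψ c hψ hψc x
  -- a big constant
  set c' : ℝ := |c| + 1 with hc'
  have hc'0 : 0 < c' := by positivity
  have hcc : c < c' := by
    have := le_abs_self c
    linarith
  have hψ1 : 0 ≤ ψ 1 := by
    have := hψ 1
    rwa [star_one, one_mul] at this
  obtain ⟨s, hs0, hs⟩ : ∃ s : ℝ, 0 ≤ s ∧ ψ 1 = s :=
    ⟨(ψ 1).re, (Complex.nonneg_iff.1 hψ1).1, (ofReal_re_of_nonneg hψ1).symm⟩
  have hsc : s ≤ c := by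
    have h2 := hψc 1
    rw [star_one, one_mul, hφ1, mul_one, hs] at h2
    exact_mod_cast h2
  rcases hs0.eq_or_lt with h0 | h0
  · rw [hψ.eq_zero_of_one (by rw [hs, ← h0]; simp) x, hs, ← h0]
    simp
  set t : ℝ := s / c' with ht
  have ht0 : 0 < t := by positivity
  have ht1 : t < 1 := by
    rw [ht, div_lt_one hc'0]
    linarith
  -- the two states
  let φ₁ : B →ₗ[ℂ] ℂ := ((s : ℂ)⁻¹) • ψ
  let φ₂ : B →ₗ[ℂ] ℂ := (((1 - t : ℝ) : ℂ)⁻¹) • (φ - ((c' : ℂ)⁻¹) • ψ)
  have hs' : (s : ℂ) ≠ 0 := by exact_mod_cast h0.ne'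
  have hc'' : (c' : ℂ) ≠ 0 := by exact_mod_cast hc'0.ne'
  have h1t : ((1 - t : ℝ) : ℂ) ≠ 0 := by
    have : (1 - t) ≠ 0 := by linarith
    exact_mod_cast this
  have hφ₁p : IsPos φ₁ := by
    intro y
    show 0 ≤ (s : ℂ)⁻¹ * ψ (star y * y)
    have h2 : (0 : ℂ) ≤ (s : ℂ)⁻¹ := by
      rw [← Complex.ofReal_inv]
      exact_mod_cast (inv_nonneg.2 hs0)
    exact mul_nonneg h2 (hψ y)
  have hle : ∀ y, ψ (star y * y) ≤ c' * φ (star y * y) := by
    intro y
    refine (hψc y).trans ?_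
    have h2 : (c : ℂ) ≤ (c' : ℂ) := by exact_mod_cast hcc.le
    exact mul_le_mul_of_nonneg_right h2 (hφp y)
  have hφ₂p : IsPos φ₂ := by
    intro y
    show 0 ≤ ((1 - t : ℝ) : ℂ)⁻¹ * (φ (star y * y) - (c' : ℂ)⁻¹ * ψ (star y * y))
    have h2 : (0 : ℂ) ≤ ((1 - t : ℝ) : ℂ)⁻¹ := by
      rw [← Complex.ofReal_inv]
      have : 0 ≤ (1 - t)⁻¹ := inv_nonneg.2 (by linarith)
      exact_mod_cast this
    refine mul_nonneg h2 ?_
    rw [sub_nonneg]
    have h3 : (0 : ℂ) ≤ (c' : ℂ)⁻¹ := by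
      rw [← Complex.ofReal_inv]
      exact_mod_cast (inv_nonneg.2 hc'0.le)
    calc (c' : ℂ)⁻¹ * ψ (star y * y) ≤ (c' : ℂ)⁻¹ * (c' * φ (star y * y)) :=
          mul_le_mul_of_nonneg_left (hle y) h3
      _ = φ (star y * y) := by rw [← mul_assoc, inv_mul_cancel₀ hc'', one_mul]
  have hφ₁1 : φ₁ 1 = 1 := by
    show (s : ℂ)⁻¹ * ψ 1 = 1
    rw [hs, inv_mul_cancel₀ hs']
  have hφ₂1 : φ₂ 1 = 1 := by
    show ((1 - t : ℝ) : ℂ)⁻¹ * (φ 1 - (c' : ℂ)⁻¹ * ψ 1) = 1
    rw [hφ1, hs]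
    have : (1 : ℂ) - (c' : ℂ)⁻¹ * s = ((1 - t : ℝ) : ℂ) := by
      rw [ht]
      push_cast
      rw [div_eq_inv_mul]
    rw [this, inv_mul_cancel₀ h1t]
  have hψ0 : ∀ y : F, χ y = 0 → ψ y = 0 := by
    intro y hy
    apply hψ.eq_zero
    have h2 : φ (star (y : B) * y) = 0 := by
      have h3 := hφe (star y * y)
      rw [map_mul, hy, mul_zero] at h3
      exact h3
    have h3 := hle y
    rw [h2, mul_zero] at h3
    exact le_antisymm h3 (hψ y)
  have hφ₁e : ∀ y : F, φ₁ y = χ y := by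
    intro y
    have h2 : ψ ((y - algebraMap ℂ F (χ y) : F) : B) = 0 := by
      apply hψ0
      rw [map_sub, AlgHomClass.commutes, sub_eq_zero]
      rfl
    have h3 : ((y - algebraMap ℂ F (χ y) : F) : B) = (y : B) - (χ y) • (1 : B) := by
      rw [← Algebra.algebraMap_eq_smul_one]
      rfl
    rw [h3, map_sub, map_smul, sub_eq_zero] at h2
    show (s : ℂ)⁻¹ * ψ y = χ y
    rw [h2, hs, smul_eq_mul, mul_comm, mul_assoc, mul_inv_cancel₀ hs', mul_one]
  have hcomb : ∀ y, φ y = (t : ℂ) * φ₁ y + ((1 - t : ℝ) : ℂ) * φ₂ y := by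
    intro y
    show φ y = (t : ℂ) * ((s : ℂ)⁻¹ * ψ y) + ((1 - t : ℝ) : ℂ) * (((1 - t : ℝ) : ℂ)⁻¹ *
      (φ y - (c' : ℂ)⁻¹ * ψ y))
    rw [← mul_assoc ((1 - t : ℝ) : ℂ), mul_inv_cancel₀ h1t, one_mul]
    have : (t : ℂ) * ((s : ℂ)⁻¹ * ψ y) = (c' : ℂ)⁻¹ * ψ y := by
      rw [ht]
      push_cast
      field_simp
    rw [this]
    ring
  have hφ₂e : ∀ y : F, φ₂ y = χ y := by
    intro y
    have h2 := hcomb y
    rw [hφe, hφ₁e] at h2
    have h3 : ((1 - t : ℝ) : ℂ) * φ₂ y = ((1 - t : ℝ) : ℂ) * χ y := by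
      have h4 : ((1 - t : ℝ) : ℂ) * φ₂ y = χ y - (t : ℂ) * χ y := by
        rw [eq_sub_iff_add_eq, add_comm]
        exact h2.symm
      rw [h4]
      push_cast
      ring
    exact mul_left_cancel₀ h1t h3
  have hseg : (φ : B → ℂ) ∈ openSegment ℝ (φ₁ : B → ℂ) (φ₂ : B → ℂ) := by
    refine ⟨t, 1 - t, ht0, by linarith, by ring, ?_⟩
    ext y
    rw [Pi.add_apply, Pi.smul_apply, Pi.smul_apply, hcomb y, Complex.real_smul, Complex.real_smul]
  have h2 := hextr ⟨φ₁, rfl, hφ₁1, hφ₁p, hφ₁e⟩ ⟨φ₂, rfl, hφ₂1, hφ₂p, hφ₂e⟩ hseg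
  have h3 : φ₁ x = φ x := congrFun h2 x
  rw [← h3, hs]
  show ψ x = s * ((s : ℂ)⁻¹ * ψ x)
  rw [← mul_assoc, mul_inv_cancel₀ hs', one_mul]

end PureExt

end Vale.Agent.P095
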