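import Vale.Agent.P095.AFDefs
import Vale.Agent.P095.PureExt

open Filter Topology TopologicalSpace
open scoped BoundedContinuousFunction ComplexOrder

namespace Vale.Agent.P095

open Vale.Agent.P101

universe u

namespace AFComp

/-- block diagonal conjugation -/
noncomputable def theta {k : ℕ} {n : Fin k → ℕ} (U : ∀ i, unitary (Matrix (Fin (n i)) (Fin (n i)) ℂ)) :
    (∀ i, Fin (n i) → ℂ) →⋆ₐ[ℂ] (∀ i, Matrix (Fin (n i)) (Fin (n i)) ℂ) where
  toFun d i := (U i : Matrix (Fin (n i)) (Fin (n i)) ℂ) * Matrix.diagonal (d i) * star (U i : Matrix (Fin (n i)) (Fin (n i)) ℂ)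
  map_one' := by
    funext i
    simp only [Pi.one_apply]
    rw [show Matrix.diagonal (1 : Fin (n i) → ℂ) = 1 from Matrix.diagonal_one, mul_one]
    exact Unitary.mul_star_self_of_mem (U i).2
  map_mul' x y := by
    funext i
    simp only [Pi.mul_apply]
    rw [show Matrix.diagonal (x i * y i) = Matrix.diagonal (x i) * Matrix.diagonal (y i) from
      (Matrix.diagonal_mul_diagonal _ _).symm]
    have h := Unitary.star_mul_self_of_mem (U i).2
    calc _ = (U i : Matrix (Fin (n i)) (Fin (n i)) ℂ) * Matrix.diagonal (x i) * 1 * (Matrix.diagonal (y i) * star (U i : Matrix (Fin (n i)) (Fin (n i)) ℂ)) := by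
          rw [mul_one]
          simp only [mul_assoc]
      _ = _ := by
          rw [← h]
          simp only [mul_assoc]
  map_zero' := by
    funext i
    simp
  map_add' x y := by
    funext i
    simp only [Pi.add_apply]
    rw [show Matrix.diagonal (x i + y i) = Matrix.diagonal (x i) + Matrix.diagonal (y i) from
      (Matrix.diagonal_add _ _).symm, mul_add, add_mul]
  commutes' c := by
    funext i
    rw [Pi.algebraMap_apply, Pi.algebraMap_apply]
    have e : Matrix.diagonal (algebraMap ℂ (Fin (n i) → ℂ) c) =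
        c • (1 : Matrix (Fin (n i)) (Fin (n i)) ℂ) := by
      rw [Matrix.smul_one_eq_diagonal]
      rfl
    rw [e, mul_smul_comm, mul_one, smul_mul_assoc, Unitary.mul_star_self_of_mem (U i).2,
      Algebra.algebraMap_eq_smul_one]
  map_star' x := by
    funext i
    simp only [Pi.star_apply]
    rw [star_mul, star_mul, star_star, ← mul_assoc]
    congr 2
    rw [Matrix.star_eq_conjTranspose, Matrix.diagonal_conjTranspose]

theorem theta_apply {k : ℕ} {n : Fin k → ℕ} (U : ∀ i, unitary (Matrix (Fin (n i)) (Fin (n i)) ℂ))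
    (d : ∀ i, Fin (n i) → ℂ) (i : Fin k) :
    theta U d i = (U i : Matrix (Fin (n i)) (Fin (n i)) ℂ) * Matrix.diagonal (d i) * star (U i : Matrix (Fin (n i)) (Fin (n i)) ℂ) := rfl

theorem trace_theta {k : ℕ} {n : Fin k → ℕ} (U : ∀ i, unitary (Matrix (Fin (n i)) (Fin (n i)) ℂ))
    (d : ∀ i, Fin (n i) → ℂ) (i : Fin k) : (theta U d i).trace = ∑ j, d i j := by
  rw [theta_apply, Matrix.trace_mul_comm, ← mul_assoc, Unitary.star_mul_self_of_mem (U i).2,
    one_mul, Matrix.trace_diagonal]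

/-- diagonalisation of the blocks of `v* v` -/
theorem exists_diag {k : ℕ} {n : Fin k → ℕ} (v : ∀ i, Matrix (Fin (n i)) (Fin (n i)) ℂ) :
    ∃ (U : ∀ i, unitary (Matrix (Fin (n i)) (Fin (n i)) ℂ)) (l : ∀ i, Fin (n i) → ℝ),
      (∀ i j, 0 ≤ l i j) ∧ star v * v = theta U (fun i j => (l i j : ℂ)) := by
  have h : ∀ i, (star (v i) * v i).PosSemidef := fun i => by
    rw [Matrix.star_eq_conjTranspose]
    exact Matrix.posSemidef_conjTranspose_mul_self (v i)
  refine ⟨fun i => (h i).1.eigenvectorUnitary, fun i => (h i).1.eigenvalues, fun i j =>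
    (h i).eigenvalues_nonneg j, ?_⟩
  funext i
  rw [theta_apply]
  have := (h i).1.spectral_theorem
  rw [Unitary.conjStarAlgAut_apply] at this
  exact this

theorem cfc_gen {E : Type*} [CStarAlgebra E] {A : Type u} [CStarAlgebra A] (ψ : E →⋆ₐ[ℂ] A)
    (d d' : E) (hsa : IsSelfAdjoint d) (f : ℝ → ℝ) (hf : Continuous f) {ι : Type*}
    (ev : ι → (E →⋆ₐ[ℂ] ℂ)) (hsep : ∀ x y, (∀ i, ev i x = ev i y) → x = y) (l : ι → ℝ)
    (h1 : ∀ i, ev i d = (l i : ℂ)) (h2 : ∀ i, ev i d' = (f (l i) : ℂ)) :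
    cfc f (ψ d) = ψ d' := by
  have hψ : Continuous ψ := AddMonoidHomClass.continuous_of_bound ψ 1 fun x => by
    rw [one_mul]
    exact NonUnitalStarAlgHom.norm_apply_le ψ x
  rw [← StarAlgHom.map_cfc ψ f d hf.continuousOn hψ hsa (hsa.map ψ)]
  congr 1
  apply hsep
  intro i
  have hev : Continuous (ev i) := AddMonoidHomClass.continuous_of_bound (ev i) 1 fun x => by
    rw [one_mul]
    exact NonUnitalStarAlgHom.norm_apply_le (ev i) x
  have h3 := StarAlgHom.map_cfc (ev i) f d hf.continuousOn hev hsa (hsa.map (ev i))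
  rw [h3, h1, h2]
  exact cfc_algebraMap (A := ℂ) (l i) f

/-- functional calculus through a star homomorphism of a diagonal algebra -/
theorem cfc_diag {A : Type u} [CStarAlgebra A] {k : ℕ} {n : Fin k → ℕ}
    (ψ : (∀ i, Fin (n i) → ℂ) →⋆ₐ[ℂ] A) (l : ∀ i, Fin (n i) → ℝ) (f : ℝ → ℝ) (hf : Continuous f) :
    cfc f (ψ fun i j => (l i j : ℂ)) = ψ fun i j => (f (l i j) : ℂ) := by
  have hsa : IsSelfAdjoint (fun i j => (l i j : ℂ) : ∀ i, Fin (n i) → ℂ) := by
    rw [isSelfAdjoint_iff]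
    funext i j
    exact Complex.conj_ofReal _
  refine cfc_gen ψ _ _ hsa f hf (ι := Σ i, Fin (n i))
    (fun ij => (Pi.evalStarAlgHom ℂ (fun _ : Fin (n ij.1) => ℂ) ij.2).comp
      (Pi.evalStarAlgHom ℂ (fun i => (Fin (n i) → ℂ)) ij.1)) ?_ (fun ij => l ij.1 ij.2) ?_ ?_
  · intro x y h
    funext i j
    exact h ⟨i, j⟩
  · rintro ⟨i, j⟩
    rfl
  · rintro ⟨i, j⟩
    rfl

theorem norm_diag_le {A : Type u} [CStarAlgebra A] {k : ℕ} {n : Fin k → ℕ}
    (ψ : (∀ i, Fin (n i) → ℂ) →⋆ₐ[ℂ] A) (d : ∀ i, Fin (n i) → ℂ) {c : ℝ} (hc : 0 ≤ c)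
    (hd : ∀ i j, ‖d i j‖ ≤ c) : ‖ψ d‖ ≤ c :=
  (NonUnitalStarAlgHom.norm_apply_le ψ d).trans
    ((pi_norm_le_iff_of_nonneg hc).2 fun i => (pi_norm_le_iff_of_nonneg hc).2 fun j => hd i j)

theorem norm_one_le (A : Type u) [CStarAlgebra A] : ‖(1 : A)‖ ≤ 1 := by
  have h : ‖(1 : A)‖ * ‖(1 : A)‖ = ‖(1 : A)‖ := by
    rw [← CStarRing.norm_star_mul_self, star_one, one_mul]
  nlinarith [norm_nonneg (1 : A)]

theorem nonneg_of_norm_one {A : Type u} [CStarAlgebra A] (g : A →L[ℂ] ℂ) (hg : ‖g‖ ≤ 1)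
    (h1 : g 1 = 1) (x : A) : 0 ≤ g (star x * x) := by
  have hle : ∀ y, ‖g y‖ ≤ ‖y‖ := fun y =>
    (g.le_opNorm y).trans ((mul_le_mul_of_nonneg_right hg (norm_nonneg _)).trans (one_mul _).le)
  have him : ∀ b : A, IsSelfAdjoint b → (g b).im = 0 := by
    intro b hb
    have key : ∀ t : ℝ, ((g b).im + t) ^ 2 ≤ ‖b‖ ^ 2 + t ^ 2 := by
      intro t
      have e1 : g (b + ((t : ℂ) * Complex.I) • (1 : A)) = g b + t * Complex.I := by
        rw [map_add, map_smul, h1, smul_eq_mul, mul_one]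
      have e3 : star (b + ((t : ℂ) * Complex.I) • (1 : A)) * (b + ((t : ℂ) * Complex.I) • (1 : A)) =
          star b * b + ((t ^ 2 : ℝ) : ℂ) • (1 : A) := by
        have e4 : star ((t : ℂ) * Complex.I) = -((t : ℂ) * Complex.I) := by
          simp
        rw [star_add, star_smul, star_one, e4, hb.star_eq]
        simp only [add_mul, mul_add, smul_mul_assoc, mul_smul_comm, one_mul, mul_one, neg_smul,
          neg_mul, smul_add, smul_neg, smul_smul]
        have e5 : (t : ℂ) * Complex.I * ((t : ℂ) * Complex.I) = -((t ^ 2 : ℝ) : ℂ) := by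
          push_cast
          linear_combination (t : ℂ) ^ 2 * Complex.I_sq
        rw [e5, neg_smul]
        abel
      have e2 : ‖b + ((t : ℂ) * Complex.I) • (1 : A)‖ ^ 2 ≤ ‖b‖ ^ 2 + t ^ 2 := by
        rw [pow_two ‖b + ((t : ℂ) * Complex.I) • (1 : A)‖, ← CStarRing.norm_star_mul_self, e3]
        refine (norm_add_le _ _).trans (add_le_add ?_ ?_)
        · rw [CStarRing.norm_star_mul_self, pow_two]
        · rw [norm_smul, Complex.norm_real, Real.norm_eq_abs, abs_of_nonneg (sq_nonneg t)]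
          calc t ^ 2 * ‖(1 : A)‖ ≤ t ^ 2 * 1 :=
                mul_le_mul_of_nonneg_left (norm_one_le A) (sq_nonneg t)
            _ = t ^ 2 := mul_one _
      have e6 : |(g b).im + t| ≤ ‖g (b + ((t : ℂ) * Complex.I) • (1 : A))‖ := by
        rw [e1]
        have := Complex.abs_im_le_norm (g b + t * Complex.I)
        simpa using this
      have e7 := e6.trans (hle _)
      calc ((g b).im + t) ^ 2 = |(g b).im + t| ^ 2 := (sq_abs _).symm
        _ ≤ ‖b + ((t : ℂ) * Complex.I) • (1 : A)‖ ^ 2 := pow_le_pow_left₀ (abs_nonneg _) e7 2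
        _ ≤ _ := e2
    by_contra hne
    have h2 := key ((‖b‖ ^ 2 + 1) / (2 * (g b).im))
    have h3 : 2 * (g b).im * ((‖b‖ ^ 2 + 1) / (2 * (g b).im)) = ‖b‖ ^ 2 + 1 := by
      field_simp
    nlinarith [sq_nonneg (g b).im]
  have hb := IsSelfAdjoint.star_mul_self x
  rw [Complex.nonneg_iff]
  refine ⟨?_, (him _ hb).symm⟩
  have h2 : ‖((‖star x * x‖ : ℝ) : ℂ) • (1 : A) - star x * x‖ ≤ ‖star x * x‖ := by
    have e1 : ((‖star x * x‖ : ℝ) : ℂ) • (1 : A) - star x * x =
        cfc (fun t : ℝ => ‖star x * x‖ - t) (star x * x) := by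
      rw [cfc_sub (fun _ : ℝ => ‖star x * x‖) (fun t : ℝ => t) (star x * x), cfc_id' ℝ (star x * x),
        cfc_const (‖star x * x‖) (star x * x), Algebra.algebraMap_eq_smul_one]
      rfl
    rw [e1]
    refine norm_cfc_le (norm_nonneg _) fun t ht => ?_
    have h3 : 0 ≤ t := spectrum_star_mul_self_nonneg (b := x) t ht
    have hnt : Nontrivial A := by
      rcases subsingleton_or_nontrivial A with hs | hs
      · rw [spectrum.of_subsingleton] at ht
        exact ht.elim
      · exact hs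
    have h4 : ‖t‖ ≤ ‖star x * x‖ := spectrum.norm_le_norm_of_mem ht
    rw [Real.norm_eq_abs, abs_of_nonneg h3] at h4
    rw [Real.norm_eq_abs, abs_le]
    constructor <;> linarith
  have h3 := (Complex.re_le_norm _).trans ((hle _).trans h2)
  rw [map_sub, map_smul, h1, smul_eq_mul, mul_one, Complex.sub_re, Complex.ofReal_re] at h3
  linarith

theorem exists_state_proj {A : Type u} [CStarAlgebra A] (e : A) (he : e * e = e)
    (he' : star e = e) (h0 : e ≠ 0) :
    ∃ g : A →ₗ[ℂ] ℂ, g 1 = 1 ∧ (∀ x, 0 ≤ g (star x * x)) ∧ g e = 1 := by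
  obtain ⟨g, hg1, hg2⟩ := exists_dual_vector'' ℂ (1 + e)
  have hle : ∀ y, ‖g y‖ ≤ ‖y‖ := fun y =>
    (g.le_opNorm y).trans ((mul_le_mul_of_nonneg_right hg1 (norm_nonneg _)).trans (one_mul _).le)
  have hpos : 0 < ‖e‖ := norm_pos_iff.2 h0
  have hen : ‖e‖ = 1 := by
    have h1 : ‖e‖ * ‖e‖ = ‖e‖ := by
      rw [← CStarRing.norm_star_mul_self, he', he]
    exact (mul_eq_left₀ hpos.ne').1 h1
  have h2 : 2 ≤ ‖1 + e‖ := by
    have h3 : (1 + e) * e = (2 : ℂ) • e := by
      rw [add_mul, one_mul, he, two_smul]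
    have h4 := norm_mul_le (1 + e) e
    rw [h3, norm_smul, hen] at h4
    simpa using h4
  have h5 : (g 1).re + (g e).re = ‖1 + e‖ := by
    rw [← Complex.add_re, ← map_add, hg2]
    simp
  have h6 : ‖g 1‖ ≤ 1 := (hle 1).trans (norm_one_le A)
  have h7 : ‖g e‖ ≤ 1 := (hle e).trans hen.le
  have h8 := Complex.re_le_norm (g 1)
  have h9 := Complex.re_le_norm (g e)
  have hone : ∀ z : ℂ, ‖z‖ ≤ 1 → 1 ≤ z.re → z = 1 := by
    intro z hz1 hz2
    have hz3 : z.re ^ 2 + z.im ^ 2 ≤ 1 := by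
      have := Complex.sq_norm z
      rw [Complex.normSq_apply] at this
      nlinarith [norm_nonneg z]
    have hz4 := Complex.re_le_norm z
    apply Complex.ext
    · simp only [Complex.one_re]
      linarith
    · simp only [Complex.one_im]
      have : z.im ^ 2 ≤ 0 := by nlinarith
      exact pow_eq_zero_iff (two_ne_zero) |>.1 (le_antisymm this (sq_nonneg _))
  have h10 : g 1 = 1 := hone _ h6 (by linarith)
  have h11 : g e = 1 := hone _ h7 (by linarith)
  exact ⟨g.toLinearMap, h10, fun x => nonneg_of_norm_one g hg1 h10 x, h11⟩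

theorem exists_block_state {A : Type u} [CStarAlgebra A] {k : ℕ} {n : Fin k → ℕ}
    (φ : (∀ i, Matrix (Fin (n i)) (Fin (n i)) ℂ) →⋆ₐ[ℂ] A) (i : Fin k)
    (hi : φ (Pi.single i 1) ≠ 0) :
    ∃ σ : A →ₗ[ℂ] ℂ, σ 1 = 1 ∧ (∀ x, 0 ≤ σ (star x * x)) ∧
      ∀ x : (∀ i, Matrix (Fin (n i)) (Fin (n i)) ℂ), σ (φ x) = (n i : ℂ)⁻¹ * (x i).trace := by
  classical
  have hn : 0 < n i := by
    rcases Nat.eq_zero_or_pos (n i) with h | h
    · exfalso
      apply hi
      have : IsEmpty (Fin (n i)) := by rw [h]; infer_instance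
      have h2 : (1 : Matrix (Fin (n i)) (Fin (n i)) ℂ) = 0 := Subsingleton.elim _ _
      rw [h2, Pi.single_zero, map_zero]
    · exact h
  let o : Fin (n i) := ⟨0, hn⟩
  let E : Fin (n i) → Fin (n i) → (∀ i, Matrix (Fin (n i)) (Fin (n i)) ℂ) := fun p q =>
    Pi.single i (Matrix.single p q 1)
  have hEE : ∀ p q (x : ∀ i, Matrix (Fin (n i)) (Fin (n i)) ℂ) p' q', E p q * x * E p' q' =
      x i q p' • E p q' := by
    intro p q x p' q'
    funext j
    rcases eq_or_ne j i with rfl | hj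
    · simp only [E, Pi.mul_apply, Pi.single_eq_same, Pi.smul_apply]
      rw [Matrix.single_mul_mul_single, one_mul, mul_one, Matrix.smul_single, smul_eq_mul, mul_one]
    · simp only [E, Pi.mul_apply, Pi.single_eq_of_ne hj, Pi.smul_apply, zero_mul, smul_zero]
  have hstar : ∀ p q, star (E p q) = E q p := by
    intro p q
    funext j
    rcases eq_or_ne j i with rfl | hj
    · simp only [E, Pi.star_apply, Pi.single_eq_same]
      rw [Matrix.star_eq_conjTranspose, Matrix.conjTranspose_single, star_one]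
    · simp only [E, Pi.star_apply, Pi.single_eq_of_ne hj, star_zero]
  have hone : ∀ p q, E p q * 1 * E q p = E p p := by
    intro p q
    rw [hEE, Pi.one_apply, Matrix.one_apply_eq, one_smul]
  have hE0 : φ (E o o) ≠ 0 := by
    intro h
    apply hi
    have h1 : (Pi.single i 1 : ∀ i, Matrix (Fin (n i)) (Fin (n i)) ℂ) = ∑ q, E q q := by
      funext j
      rw [Finset.sum_apply]
      rcases eq_or_ne j i with rfl | hj
      · simp only [E, Pi.single_eq_same]
        exact (Matrix.sum_single_one).symm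
      · simp only [E, Pi.single_eq_of_ne hj, Finset.sum_const_zero]
    rw [h1, map_sum]
    refine Finset.sum_eq_zero fun q _ => ?_
    have h2 : E q q = E q o * E o o * E o q := by
      rw [hEE]
      simp [E]
    rw [h2, map_mul, map_mul, h, mul_zero, zero_mul]
  obtain ⟨ρ, hρ1, hρ2, hρ3⟩ := exists_state_proj (φ (E o o))
    (by
      rw [← map_mul]
      congr 1
      have := hone o o
      rwa [mul_one] at this) (by rw [← map_star, hstar]) hE0
  let σ : A →ₗ[ℂ] ℂ := (n i : ℂ)⁻¹ • ∑ q, ρ ∘ₗ (LinearMap.mulLeft ℂ (φ (E o q))) ∘ₗ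
    (LinearMap.mulRight ℂ (φ (E q o)))
  have hσ : ∀ a, σ a = (n i : ℂ)⁻¹ * ∑ q, ρ (φ (E o q) * (a * φ (E q o))) := by
    intro a
    simp only [σ, LinearMap.smul_apply, LinearMap.sum_apply, LinearMap.comp_apply,
      LinearMap.mulLeft_apply, LinearMap.mulRight_apply, smul_eq_mul]
  have hσφ : ∀ x : (∀ i, Matrix (Fin (n i)) (Fin (n i)) ℂ),
      σ (φ x) = (n i : ℂ)⁻¹ * (x i).trace := by
    intro x
    rw [hσ, Matrix.trace]
    congr 1
    refine Finset.sum_congr rfl fun q _ => ?_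
    rw [← map_mul, ← map_mul, ← mul_assoc, hEE, map_smul, map_smul, hρ3, smul_eq_mul, mul_one]
    rfl
  refine ⟨σ, ?_, ?_, hσφ⟩
  · rw [← map_one φ, hσφ, Pi.one_apply, Matrix.trace_one, Fintype.card_fin,
      inv_mul_cancel₀ (by exact_mod_cast hn.ne')]
  · intro x
    rw [hσ]
    refine mul_nonneg ?_ (Finset.sum_nonneg fun q _ => ?_)
    · rw [inv_nonneg]
      exact Nat.cast_nonneg _
    · have h1 : φ (E o q) * (star x * x * φ (E q o)) =
          star (x * φ (E q o)) * (x * φ (E q o)) := by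
        rw [star_mul, ← map_star, hstar]
        simp only [mul_assoc]
      rw [h1]
      exact hρ2 _

theorem exists_limit_state {A : Type u} [CStarAlgebra A] (ω : Ultrafilter ℕ)
    (σ : ℕ → (A →ₗ[ℂ] ℂ)) (h1 : ∀ m, σ m 1 = 1) (h2 : ∀ m x, 0 ≤ σ m (star x * x)) :
    ∃ τ : A →ₗ[ℂ] ℂ, τ 1 = 1 ∧ (∀ x, 0 ≤ τ (star x * x)) ∧
      ∀ x, Tendsto (fun m => σ m x) (ω : Filter ℕ) (𝓝 (τ x)) := by
  have hex : ∀ x : A, ∃ c, Tendsto (fun m => σ m x) (ω : Filter ℕ) (𝓝 c) := by
    intro x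
    have hK : IsCompact (Metric.closedBall (0 : ℂ) ‖x‖) := isCompact_closedBall _ _
    obtain ⟨c, -, hc⟩ := hK.ultrafilter_le_nhds (ω.map fun m => σ m x) (by
      rw [le_principal_iff]
      refine mem_map.2 (Eventually.of_forall fun m => ?_)
      rw [mem_closedBall_zero_iff]
      exact PureExt.IsPos.norm_le (h2 m) (h1 m) x)
    exact ⟨c, hc⟩
  choose L hL using hex
  let τ : A →ₗ[ℂ] ℂ :=
    { toFun := L
      map_add' := fun x y => by
        refine tendsto_nhds_unique (hL (x + y)) (((hL x).add (hL y)).congr fun m => ?_)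
        rw [map_add]
      map_smul' := fun c x => by
        refine tendsto_nhds_unique (hL (c • x)) (((hL x).const_smul c).congr fun m => ?_)
        rw [map_smul] }
  refine ⟨τ, ?_, ?_, hL⟩
  · refine tendsto_nhds_unique (hL 1) (tendsto_const_nhds.congr fun m => (h1 m).symm)
  · intro x
    exact ge_of_tendsto (hL (star x * x)) (Eventually.of_forall fun m => h2 m x)

end AFComp

end Vale.Agent.P095
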