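import Vale.Agent.P095.AFComp0


/-!
# P095: AF algebras, the finite-dimensional comparison step
-/

open Filter Topology TopologicalSpace
open scoped BoundedContinuousFunction ComplexOrder

namespace Vale.Agent.P095

open Vale.Agent.P101

universe u

namespace AFComp

theorem exists_injOn {n : ℕ} (S T : Finset (Fin n)) (h : S.card ≤ T.card) :
    ∃ π : Fin n → Fin n, (∀ q ∈ S, π q ∈ T) ∧ ∀ q ∈ S, ∀ q' ∈ S, π q = π q' → q = q' := by
  classical
  obtain ⟨T', hT', hc⟩ := Finset.exists_subset_card_eq h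
  let e : S ≃ T' := Finset.equivOfCardEq hc.symm
  refine ⟨fun q => if h : q ∈ S then e ⟨q, h⟩ else q, fun q hq => ?_, fun q hq q' hq' hqq => ?_⟩
  · simp only [dif_pos hq]
    exact hT' (e ⟨q, hq⟩).2
  · simp only [dif_pos hq, dif_pos hq'] at hqq
    have := e.injective (Subtype.ext hqq)
    exact congrArg Subtype.val this

theorem pi_matrix {n : ℕ} (P : Fin n → Prop) [DecidablePred P] (π : Fin n → Fin n)
    (hπ : ∀ q q', P q → P q' → π q = π q' → q = q') (s : Fin n → ℝ) (g : Fin n → ℂ) :
    star (Matrix.of fun p q => if P q ∧ p = π q then (s q : ℂ) else 0) * Matrix.diagonal g *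
      (Matrix.of fun p q => if P q ∧ p = π q then (s q : ℂ) else 0) =
      Matrix.diagonal fun q => if P q then (s q : ℂ) ^ 2 * g (π q) else 0 := by
  ext q q'
  rw [Matrix.mul_apply]
  simp_rw [Matrix.mul_diagonal, Matrix.star_apply, Matrix.of_apply]
  by_cases hP : P q
  · by_cases hq : q = q'
    · subst hq
      rw [Matrix.diagonal_apply_eq, if_pos hP, Finset.sum_eq_single (π q)]
      · simp only [hP, true_and, if_true, Complex.star_def, Complex.conj_ofReal]
        ring
      · intro p _ hp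
        simp [hp]
      · intro h
        exact absurd (Finset.mem_univ _) h
    · rw [Matrix.diagonal_apply_ne _ hq]
      refine Finset.sum_eq_zero fun p _ => ?_
      by_cases h1 : p = π q
      · by_cases h2 : P q' ∧ p = π q'
        · exact absurd (hπ q q' hP h2.1 (h1.symm.trans h2.2)) hq
        · rw [if_neg h2, mul_zero]
      · rw [if_neg (fun h => h1 h.2), star_zero, zero_mul, zero_mul]
  · have h0 : ∑ p, star (if P q ∧ p = π q then (s q : ℂ) else 0) * g p *
        (if P q' ∧ p = π q' then (s q' : ℂ) else 0) = 0 := by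
      refine Finset.sum_eq_zero fun p _ => ?_
      rw [if_neg (fun h => hP h.1), star_zero, zero_mul, zero_mul]
    rw [h0]
    rcases eq_or_ne q q' with rfl | hq
    · rw [Matrix.diagonal_apply_eq, if_neg hP]
    · rw [Matrix.diagonal_apply_ne _ hq]

theorem killed {A : Type u} [CStarAlgebra A] {k : ℕ} {n : Fin k → ℕ}
    (φ : (∀ i, Matrix (Fin (n i)) (Fin (n i)) ℂ) →⋆ₐ[ℂ] A)
    (x : ∀ i, Matrix (Fin (n i)) (Fin (n i)) ℂ) (hx : ∀ i, φ (Pi.single i 1) ≠ 0 → x i = 0) :
    φ x = 0 := by
  classical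
  have h1 : (1 : ∀ i, Matrix (Fin (n i)) (Fin (n i)) ℂ) = ∑ i, Pi.single i 1 := by
    rw [Finset.univ_sum_single]
    rfl
  have h2 : x = ∑ i, Pi.single i 1 * x := by
    rw [← Finset.sum_mul, ← h1, one_mul]
  rw [h2, map_sum]
  refine Finset.sum_eq_zero fun i _ => ?_
  by_cases hi : φ (Pi.single i 1) = 0
  · rw [map_mul, hi, zero_mul]
  · have h3 : (Pi.single i 1 : ∀ i, Matrix (Fin (n i)) (Fin (n i)) ℂ) * x = 0 := by
      funext j
      rcases eq_or_ne j i with rfl | hj
      · rw [Pi.mul_apply, hx j hi, mul_zero, Pi.zero_apply]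
      · rw [Pi.mul_apply, Pi.single_eq_of_ne hj, zero_mul, Pi.zero_apply]
    rw [h3, map_zero]

theorem fin_step {A : Type u} [CStarAlgebra A] {k : ℕ} {n : Fin k → ℕ}
    (φ : (∀ i, Matrix (Fin (n i)) (Fin (n i)) ℂ) →⋆ₐ[ℂ] A)
    (v w : ∀ i, Matrix (Fin (n i)) (Fin (n i)) ℂ) (K m : ℕ) (hK : 0 < K) (hm : 0 < m) :
    (∃ z : A, ‖z‖ ^ 2 ≤ m * ‖φ (star v * v)‖ ∧
      ‖star z * φ (star w * w) * z - φ (star v * v)‖ ≤ (K : ℝ)⁻¹) ∨
    ∃ σ : A →ₗ[ℂ] ℂ, σ 1 = 1 ∧ (∀ x, 0 ≤ σ (star x * x)) ∧
      (∀ x y : (∀ i, Matrix (Fin (n i)) (Fin (n i)) ℂ), σ (φ x * φ y) = σ (φ y * φ x)) ∧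
      ∀ j : ℕ, (σ (cfc (fun t : ℝ => min 1 (j * t)) (φ (star w * w)))).re ≤
        (σ (cfc (fun t : ℝ => min 1 (K * t)) (φ (star v * v)))).re + j / m := by
  classical
  have hK' : (0 : ℝ) < K := by exact_mod_cast hK
  have hm' : (0 : ℝ) < m := by exact_mod_cast hm
  obtain ⟨U, l, hl, hU⟩ := exists_diag v
  obtain ⟨V, μ, hμ, hV⟩ := exists_diag w
  rw [hU, hV]
  by_cases H : ∀ i, φ (Pi.single i 1) ≠ 0 →
      (Finset.univ.filter fun j => (K : ℝ)⁻¹ < l i j).card ≤
        (Finset.univ.filter fun j => (m : ℝ)⁻¹ < μ i j).card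
  · left
    have hex : ∀ i, ∃ π : Fin (n i) → Fin (n i), φ (Pi.single i 1) ≠ 0 →
        (∀ q, (K : ℝ)⁻¹ < l i q → (m : ℝ)⁻¹ < μ i (π q)) ∧
        ∀ q q', (K : ℝ)⁻¹ < l i q → (K : ℝ)⁻¹ < l i q' → π q = π q' → q = q' := by
      intro i
      by_cases hi : φ (Pi.single i 1) ≠ 0
      · obtain ⟨π, h1, h2⟩ := exists_injOn _ _ (H i hi)
        refine ⟨π, fun _ => ⟨fun q hq => ?_, fun q q' hq hq' => ?_⟩⟩
        · exact (Finset.mem_filter.1 (h1 q (Finset.mem_filter.2 ⟨Finset.mem_univ _, hq⟩))).2
        · exact h2 q (Finset.mem_filter.2 ⟨Finset.mem_univ _, hq⟩) q'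
            (Finset.mem_filter.2 ⟨Finset.mem_univ _, hq'⟩)
      · exact ⟨id, fun h => absurd h hi⟩
    choose π hπ using hex
    let P : ∀ i, Fin (n i) → Prop := fun i q => φ (Pi.single i 1) ≠ 0 ∧ (K : ℝ)⁻¹ < l i q
    let s : ∀ i, Fin (n i) → ℝ := fun i q => √((μ i (π i q))⁻¹)
    let M : ∀ i, Matrix (Fin (n i)) (Fin (n i)) ℂ := fun i =>
      Matrix.of fun p q => if P i q ∧ p = π i q then (s i q : ℂ) else 0
    have hM : ∀ i (g : Fin (n i) → ℂ), star (M i) * Matrix.diagonal g * M i =
        Matrix.diagonal fun q => if P i q then (s i q : ℂ) ^ 2 * g (π i q) else 0 := fun i g =>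
      pi_matrix (P i) (π i) (fun q q' h1 h2 => (hπ i h1.1).2 q q' h1.2 h2.2) (s i) g
    have hs : ∀ i q, P i q → (s i q : ℂ) ^ 2 = ((μ i (π i q))⁻¹ : ℝ) := by
      intro i q _
      rw [← Complex.ofReal_pow, Real.sq_sqrt (inv_nonneg.2 (hμ i _))]
    have hμpos : ∀ i q, P i q → (m : ℝ)⁻¹ < μ i (π i q) := fun i q h => (hπ i h.1).1 q h.2
    let W : ∀ i, Matrix (Fin (n i)) (Fin (n i)) ℂ := fun i =>
      (V i : Matrix (Fin (n i)) (Fin (n i)) ℂ) * M i * star (U i : Matrix (Fin (n i)) (Fin (n i)) ℂ)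
    have hWg : ∀ g : ∀ i, Fin (n i) → ℂ, star W * theta V g * W =
        theta U (fun i q => if P i q then (s i q : ℂ) ^ 2 * g i (π i q) else 0) := by
      intro g
      funext i
      rw [theta_apply, ← hM]
      show star ((V i : Matrix (Fin (n i)) (Fin (n i)) ℂ) * M i *
        star (U i : Matrix (Fin (n i)) (Fin (n i)) ℂ)) * theta V g i *
        ((V i : Matrix (Fin (n i)) (Fin (n i)) ℂ) * M i *
          star (U i : Matrix (Fin (n i)) (Fin (n i)) ℂ)) = _
      rw [theta_apply, star_mul, star_mul, star_star]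
      have h := Unitary.star_mul_self_of_mem (V i).2
      calc _ = (U i : Matrix (Fin (n i)) (Fin (n i)) ℂ) * (star (M i) *
            ((star (V i : Matrix (Fin (n i)) (Fin (n i)) ℂ) * V i) * Matrix.diagonal (g i) *
            (star (V i : Matrix (Fin (n i)) (Fin (n i)) ℂ) * V i)) * M i) *
              star (U i : Matrix (Fin (n i)) (Fin (n i)) ℂ) := by
            simp only [mul_assoc]
        _ = _ := by
            rw [h, one_mul, mul_one]
    have hW1 : star W * theta V (fun i j => (μ i j : ℂ)) * W =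
        theta U (fun i q => if P i q then 1 else 0) := by
      rw [hWg]
      congr 1
      funext i q
      by_cases hP : P i q
      · rw [if_pos hP, if_pos hP, hs i q hP, ← Complex.ofReal_mul,
          inv_mul_cancel₀ ((inv_pos.2 hm').trans (hμpos i q hP)).ne', Complex.ofReal_one]
      · rw [if_neg hP, if_neg hP]
    have hW2 : star W * W = theta U (fun i q => if P i q then (((μ i (π i q))⁻¹ : ℝ) : ℂ) else 0) := by
      have h1 := hWg 1
      rw [map_one, mul_one] at h1
      rw [h1]
      congr 1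
      funext i q
      by_cases hP : P i q
      · rw [if_pos hP, if_pos hP, hs i q hP, Pi.one_apply, Pi.one_apply, mul_one]
      · rw [if_neg hP, if_neg hP]
    let R : ∀ i, Matrix (Fin (n i)) (Fin (n i)) ℂ := theta U (fun i j => ((√(l i j) : ℝ) : ℂ))
    have hR : star R = R := by
      show star (theta U _) = theta U _
      rw [← map_star]
      congr 1
      funext i j
      exact Complex.conj_ofReal _
    have hRR : R * R = theta U (fun i j => (l i j : ℂ)) := by
      show theta U _ * theta U _ = _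
      rw [← map_mul]
      congr 1
      funext i j
      rw [Pi.mul_apply, Pi.mul_apply, ← Complex.ofReal_mul, Real.mul_self_sqrt (hl i j)]
    refine ⟨φ (W * R), ?_, ?_⟩
    · rw [map_mul]
      have h1 : ‖φ W‖ ^ 2 ≤ m := by
        rw [pow_two, ← CStarRing.norm_star_mul_self, ← map_star, ← map_mul, hW2]
        refine norm_diag_le (φ.comp (theta U)) _ hm'.le fun i q => ?_
        by_cases hP : P i q
        · rw [if_pos hP, Complex.norm_real, Real.norm_eq_abs,
            abs_of_nonneg (inv_nonneg.2 (hμ i _))]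
          have h2 := hμpos i q hP
          exact (inv_lt_comm₀ hm' ((inv_pos.2 hm').trans h2)).1 h2 |>.le
        · rw [if_neg hP, norm_zero]
          exact hm'.le
      have h2 : ‖φ R‖ ^ 2 = ‖φ (theta U (fun i j => (l i j : ℂ)))‖ := by
        rw [pow_two, ← CStarRing.norm_star_mul_self, ← map_star, ← map_mul, hR, hRR]
      calc ‖φ W * φ R‖ ^ 2 ≤ (‖φ W‖ * ‖φ R‖) ^ 2 :=
            pow_le_pow_left₀ (norm_nonneg _) (norm_mul_le _ _) 2
        _ = ‖φ W‖ ^ 2 * ‖φ R‖ ^ 2 := mul_pow _ _ _
        _ ≤ m * ‖φ R‖ ^ 2 := mul_le_mul_of_nonneg_right h1 (sq_nonneg _)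
        _ = _ := by rw [h2]
    · rw [← map_star, ← map_mul, ← map_mul, ← map_sub]
      have h1 : star (W * R) * theta V (fun i j => (μ i j : ℂ)) * (W * R) =
          theta U (fun i q => if P i q then (l i q : ℂ) else 0) := by
        calc _ = R * (star W * theta V (fun i j => (μ i j : ℂ)) * W) * R := by
              rw [star_mul, hR]
              simp only [mul_assoc]
          _ = _ := by
              rw [hW1]
              show theta U _ * _ * theta U _ = _
              rw [← map_mul, ← map_mul]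
              congr 1
              funext i q
              simp only [Pi.mul_apply]
              by_cases hP : P i q
              · rw [if_pos hP, if_pos hP, mul_one, ← Complex.ofReal_mul,
                  Real.mul_self_sqrt (hl i q)]
              · rw [if_neg hP, if_neg hP, mul_zero, zero_mul]
      rw [h1]
      have h2 : φ (theta U (fun i q => if P i q then (l i q : ℂ) else 0) -
          theta U (fun i j => (l i j : ℂ))) =
          φ (theta U (fun i q => if φ (Pi.single i 1) ≠ 0 ∧ ¬ (K : ℝ)⁻¹ < l i q then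
            -(l i q : ℂ) else 0)) := by
        rw [← sub_eq_zero, ← map_sub]
        refine killed φ _ fun i hi => ?_
        rw [← map_sub, ← map_sub, theta_apply]
        have h3 : (((fun i q => if P i q then (l i q : ℂ) else 0) - fun i j => (l i j : ℂ)) -
            fun i q => if φ (Pi.single i 1) ≠ 0 ∧ ¬ (K : ℝ)⁻¹ < l i q then
            -(l i q : ℂ) else 0 : ∀ i, Fin (n i) → ℂ) i = 0 := by
          funext q
          simp only [Pi.sub_apply, Pi.zero_apply, P, hi, ne_eq, not_false_eq_true, true_and]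
          by_cases hq : (K : ℝ)⁻¹ < l i q
          · simp [hq]
          · simp [hq]
        rw [h3]
        simp
      rw [h2]
      refine norm_diag_le (φ.comp (theta U)) _ (inv_nonneg.2 hK'.le) fun i q => ?_
      by_cases hP : φ (Pi.single i 1) ≠ 0 ∧ ¬ (K : ℝ)⁻¹ < l i q
      · rw [if_pos hP, norm_neg, Complex.norm_real, Real.norm_eq_abs, abs_of_nonneg (hl i q)]
        exact not_lt.1 hP.2
      · rw [if_neg hP, norm_zero]
        exact inv_nonneg.2 hK'.le
  · right
    push Not at H
    obtain ⟨i, hi, hcard⟩ := H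
    obtain ⟨σ, h1, h2, h3⟩ := exists_block_state φ i hi
    refine ⟨σ, h1, h2, ?_, ?_⟩
    · intro x y
      rw [← map_mul, ← map_mul, h3, h3, Pi.mul_apply, Pi.mul_apply, Matrix.trace_mul_comm]
    · intro j
      have hc : ∀ c : ℝ, Continuous fun t : ℝ => min 1 (c * t) := fun c => by fun_prop
      have e1 : ∀ (U : ∀ i, unitary (Matrix (Fin (n i)) (Fin (n i)) ℂ)) (l : ∀ i, Fin (n i) → ℝ)
          (c : ℝ), (σ (cfc (fun t : ℝ => min 1 (c * t)) (φ (theta U (fun i j => (l i j : ℂ)))))).re =
          (n i : ℝ)⁻¹ * ∑ q, min 1 (c * l i q) := by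
        intro U l c
        have e2 := cfc_diag (φ.comp (theta U)) l _ (hc c)
        have e3 : cfc (fun t : ℝ => min 1 (c * t)) (φ (theta U (fun i j => (l i j : ℂ)))) =
            φ (theta U fun i j => ((min 1 (c * l i j) : ℝ) : ℂ)) := e2
        rw [e3, h3, trace_theta]
        rw [← Complex.ofReal_sum, ← Complex.ofReal_natCast, ← Complex.ofReal_inv,
          ← Complex.ofReal_mul, Complex.ofReal_re]
      rw [e1 V μ j, e1 U l K]
      have e4 : ∑ q, min 1 ((j : ℝ) * μ i q) ≤ ∑ q, min 1 ((K : ℝ) * l i q) + n i * (j / m) := by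
        calc ∑ q, min 1 ((j : ℝ) * μ i q)
            ≤ ∑ q, ((if (m : ℝ)⁻¹ < μ i q then 1 else 0) + (j : ℝ) / m) := by
              refine Finset.sum_le_sum fun q _ => ?_
              by_cases hq : (m : ℝ)⁻¹ < μ i q
              · rw [if_pos hq]
                have : (0 : ℝ) ≤ j / m := by positivity
                linarith [min_le_left 1 ((j : ℝ) * μ i q)]
              · rw [if_neg hq, zero_add, div_eq_mul_inv]
                exact (min_le_right _ _).trans
                  (mul_le_mul_of_nonneg_left (not_lt.1 hq) (Nat.cast_nonneg _))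
          _ = ((Finset.univ.filter fun j => (m : ℝ)⁻¹ < μ i j).card : ℝ) + n i * (j / m) := by
              rw [Finset.sum_add_distrib, Finset.sum_boole, Finset.sum_const, Finset.card_univ,
                Fintype.card_fin, nsmul_eq_mul]
          _ ≤ ((Finset.univ.filter fun j => (K : ℝ)⁻¹ < l i j).card : ℝ) + n i * (j / m) := by
              have : ((Finset.univ.filter fun j => (m : ℝ)⁻¹ < μ i j).card : ℝ) ≤
                  ((Finset.univ.filter fun j => (K : ℝ)⁻¹ < l i j).card : ℝ) := by
                exact_mod_cast hcard.le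
              linarith
          _ ≤ ∑ q, min 1 ((K : ℝ) * l i q) + n i * (j / m) := by
              have : ((Finset.univ.filter fun j => (K : ℝ)⁻¹ < l i j).card : ℝ) ≤
                  ∑ q, min 1 ((K : ℝ) * l i q) := by
                rw [← Finset.sum_boole]
                refine Finset.sum_le_sum fun q _ => ?_
                by_cases hq : (K : ℝ)⁻¹ < l i q
                · rw [if_pos hq]
                  have : 1 ≤ (K : ℝ) * l i q := by
                    rw [inv_lt_iff_one_lt_mul₀ hK'] at hq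
                    linarith
                  exact le_min le_rfl this
                · rw [if_neg hq]
                  exact le_min zero_le_one (mul_nonneg hK'.le (hl i q))
              linarith
      calc (n i : ℝ)⁻¹ * ∑ q, min 1 ((j : ℝ) * μ i q)
          ≤ (n i : ℝ)⁻¹ * (∑ q, min 1 ((K : ℝ) * l i q) + n i * (j / m)) :=
            mul_le_mul_of_nonneg_left e4 (by positivity)
        _ = (n i : ℝ)⁻¹ * ∑ q, min 1 ((K : ℝ) * l i q) + ((n i : ℝ)⁻¹ * n i) * (j / m) := by ring
        _ ≤ (n i : ℝ)⁻¹ * ∑ q, min 1 ((K : ℝ) * l i q) + 1 * (j / m) := by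
            have h5 : (n i : ℝ)⁻¹ * n i ≤ 1 := inv_mul_le_one
            have h6 : (0 : ℝ) ≤ j / m := by positivity
            linarith [mul_le_mul_of_nonneg_right h5 h6]
        _ = _ := by rw [one_mul]

end AFComp

end Vale.Agent.P095
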