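import Vale.Agent.P095.NDefs

/-!
# P095: AF algebras (local definition)
-/

namespace Vale.Agent.P095

/-- Locally finite-dimensional (for separable algebras: AF) unital `C⋆`-algebras: every finite set
is approximated by the image of a unital star homomorphism from a finite direct sum of matrix
algebras. -/
def IsAF (A : Type*) [CStarAlgebra A] : Prop :=
  ∀ (F : Finset A) (ε : ℝ), 0 < ε → ∃ (k : ℕ) (n : Fin k → ℕ)
    (φ : (∀ i, Matrix (Fin (n i)) (Fin (n i)) ℂ) →⋆ₐ[ℂ] A), ∀ a ∈ F, ∃ x, ‖φ x - a‖ < ε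

end Vale.Agent.P095
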