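import Vale.Agent.P095.NDefs

/-!
# P095, target T5: the excision step
-/

open Filter Topology TopologicalSpace
open scoped BoundedContinuousFunction ComplexOrder

namespace Vale.Agent.P095

open Vale.Agent.P101

universe u v w

namespace ExcStep

section Core

variable {A : Type*} [CStarAlgebra A] [PartialOrder A] [StarOrderedRing A]

/-- the bump function -/
noncomputable def bump (ε T : ℝ) (s : ℝ) : ℝ := max 0 ((s - (1 - ε) * T) / (ε * T))

theorem continuous_bump (ε T : ℝ) : Continuous (bump ε T) := by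
  unfold bump
  fun_prop

theorem bump_nonneg (ε T s : ℝ) : 0 ≤ bump ε T s := le_max_left _ _

theorem bump_le_one {ε T s : ℝ} (hε : 0 < ε) (hT : 0 < T) (hs : s ≤ T) : bump ε T s ≤ 1 := by
  refine max_le zero_le_one ?_
  rw [div_le_one (by positivity)]
  linarith

theorem bump_top {ε T : ℝ} (hε : 0 < ε) (hT : 0 < T) : bump ε T T = 1 := by
  unfold bump
  rw [show T - (1 - ε) * T = ε * T by ring, div_self (by positivity), max_eq_right zero_le_one]

theorem bump_eq_zero {ε T s : ℝ} (hε : 0 < ε) (hT : 0 < T) (hs : s ≤ (1 - ε) * T) :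
    bump ε T s = 0 := by
  refine max_eq_left ?_
  exact div_nonpos_of_nonpos_of_nonneg (by linarith) (by positivity)

theorem sqrt_trick {y z : A} (hy : 0 ≤ y) (hy1 : ‖y‖ ≤ 1) (hz : star z = z) {r : ℝ}
    (h : ‖z * y * z‖ ≤ r) : ‖y * z‖ ≤ √r := by
  set s := CFC.sqrt y with hs
  have hs0 : 0 ≤ s := CFC.sqrt_nonneg y
  have hss : s * s = y := CFC.sqrt_mul_sqrt_self y hy
  have hsa : star s = s := (IsSelfAdjoint.of_nonneg hs0).star_eq
  have h1 : ‖s‖ ≤ 1 := by
    have h2 : ‖s‖ * ‖s‖ = ‖y‖ := by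
      rw [← CStarRing.norm_star_mul_self, hsa, hss]
    nlinarith [norm_nonneg s]
  have h2 : ‖s * z‖ * ‖s * z‖ ≤ r := by
    rw [← CStarRing.norm_star_mul_self, star_mul, hz, hsa]
    have : z * s * (s * z) = z * y * z := by
      rw [← hss]
      simp only [mul_assoc]
    rw [this]
    exact h
  have h3 : ‖s * z‖ ≤ √r := Real.le_sqrt_of_sq_le (by rw [pow_two]; exact h2)
  rw [← hss, mul_assoc]
  calc ‖s * (s * z)‖ ≤ ‖s‖ * ‖s * z‖ := norm_mul_le _ _
    _ ≤ 1 * ‖s * z‖ := mul_le_mul_of_nonneg_right h1 (norm_nonneg _)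
    _ = ‖s * z‖ := one_mul _
    _ ≤ √r := h3

theorem spec_le {c : A} (hc : 0 ≤ c) {s : ℝ} (hs : s ∈ spectrum ℝ c) : 0 ≤ s ∧ s ≤ ‖c‖ := by
  rcases subsingleton_or_nontrivial A with hA | hA
  · simp [spectrum.of_subsingleton] at hs
  exact ⟨spectrum_nonneg_of_nonneg hc hs,
    (le_abs_self s).trans (spectrum.norm_le_norm_of_mem hs)⟩

/-- One step, given the right power. -/
theorem core [Nontrivial A] (p a : A) (hp : 0 ≤ p) (hp1 : ‖p‖ ≤ 1) (ha : 0 ≤ a) {ε : ℝ}
    (hε : 0 < ε) (hε1 : ε < 1)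
    (hT : 0 < ‖p * p * a * (p * p)‖)
    (hT2 : ‖p * a * p‖ ≤ (1 + ε) * ‖p * p * a * (p * p)‖) :
    ∃ (z : A) (t : ℝ), 0 ≤ z ∧ ‖z‖ = 1 ∧ (∀ w, w * p = p → w * z = z) ∧
      (∀ w, p * w = p → z * w = z) ∧
      ‖z * a * z - (t : ℂ) • (z * z)‖ ≤ ε * ‖a‖ + 2 * ‖a‖ * √(2 * ε) := by
  have hpsa : star p = p := (IsSelfAdjoint.of_nonneg hp).star_eq
  set c := p * p * a * (p * p) with hc
  have hbn : 0 ≤ p * a * p := by
    have := star_left_conjugate_nonneg ha p
    rwa [hpsa] at this
  have hcb : c = p * (p * a * p) * p := by rw [hc]; simp only [mul_assoc]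
  have hc0 : 0 ≤ c := by
    rw [hcb]
    have := star_left_conjugate_nonneg hbn p
    rwa [hpsa] at this
  have hcsa : IsSelfAdjoint c := .of_nonneg hc0
  set T := ‖c‖ with hTdef
  set g := bump ε T with hg
  have hgc : Continuous g := continuous_bump ε T
  have hgc' : ContinuousOn g (spectrum ℝ c) := hgc.continuousOn
  set z := cfc g c with hz
  have hz0 : 0 ≤ z := cfc_nonneg fun s _ => bump_nonneg _ _ _
  have hzsa : star z = z := (IsSelfAdjoint.of_nonneg hz0).star_eq
  have hz1 : ‖z‖ = 1 := by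
    refine le_antisymm ?_ ?_
    · refine norm_cfc_le zero_le_one fun s hs => ?_
      rw [Real.norm_of_nonneg (bump_nonneg _ _ _)]
      exact bump_le_one hε hT (spec_le hc0 hs).2
    · have hmem : T ∈ spectrum ℝ c := CStarAlgebra.norm_mem_spectrum_of_nonneg hc0
      have := norm_apply_le_norm_cfc g c hmem
      rwa [hg, bump_top hε hT, norm_one] at this
  -- `z c z`
  have hzcz : z * c * z = cfc (fun s => g s * s * g s) c := by
    rw [cfc_mul (fun s => g s * s) g c (hgc'.mul continuousOn_id) hgc',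
      cfc_mul g (fun s => s) c hgc' continuousOn_id, cfc_id' ℝ c]
  have hzz : z * z = cfc (fun s => g s * g s) c := by
    rw [cfc_mul g g c hgc' hgc']
  have hlow : ((1 - ε) * T) • (z * z) ≤ z * c * z := by
    rw [hzcz, hzz, ← cfc_const_mul ((1 - ε) * T) (fun s => g s * g s) c (hgc'.mul hgc')]
    refine cfc_mono (fun s hs => ?_) ?_ ?_
    · rcases le_total s ((1 - ε) * T) with h | h
      · rw [hg, bump_eq_zero hε hT h]
        simp
      · have h1 : 0 ≤ g s * g s := mul_self_nonneg _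
        nlinarith
    · exact continuousOn_const.mul (hgc'.mul hgc')
    · exact ((hgc'.mul continuousOn_id).mul hgc')
  have hdist : ‖z * c * z - T • (z * z)‖ ≤ ε * T := by
    rw [hzcz, hzz, ← cfc_const_mul T (fun s => g s * g s) c (hgc'.mul hgc'),
      ← cfc_sub (fun s => g s * s * g s) (fun s => T * (g s * g s)) c
        ((hgc'.mul continuousOn_id).mul hgc') (continuousOn_const.mul (hgc'.mul hgc'))]
    refine norm_cfc_le (by positivity) fun s hs => ?_
    rw [Real.norm_eq_abs]
    have h1 := (spec_le hc0 hs).2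
    have h2 : 0 ≤ g s := bump_nonneg _ _ _
    have h3 : g s ≤ 1 := bump_le_one hε hT h1
    have e : g s * s * g s - T * (g s * g s) = -(g s * g s * (T - s)) := by ring
    rw [e, abs_neg, abs_of_nonneg (mul_nonneg (mul_nonneg h2 h2) (by linarith))]
    rcases le_total s ((1 - ε) * T) with h | h
    · rw [hg, bump_eq_zero hε hT h]
      simp only [mul_zero, zero_mul]
      positivity
    · have h4 : g s * g s ≤ 1 := mul_le_one₀ h3 h2 h3
      have h5 : T - s ≤ ε * T := by linarith
      calc g s * g s * (T - s) ≤ 1 * (T - s) :=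
            mul_le_mul_of_nonneg_right h4 (by linarith)
        _ ≤ ε * T := by linarith
  -- upper bound by `p²`
  have hpp : 0 ≤ p * p := by
    have := star_mul_self_nonneg p
    rwa [hpsa] at this
  have hpp1 : ‖p * p‖ ≤ 1 := (norm_mul_le _ _).trans (mul_le_one₀ hp1 (norm_nonneg _) hp1)
  have hup : c ≤ ((1 + ε) * T) • (p * p) := by
    have h1 : p * a * p ≤ algebraMap ℝ A ((1 + ε) * T) := by
      refine (IsSelfAdjoint.le_algebraMap_norm_self (IsSelfAdjoint.of_nonneg hbn)).trans ?_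
      exact algebraMap_mono A hT2
    have h2 := star_left_conjugate_le_conjugate h1 p
    rw [hpsa, ← hcb] at h2
    refine h2.trans (le_of_eq ?_)
    rw [Algebra.algebraMap_eq_smul_one, mul_smul_comm, mul_one, smul_mul_assoc]
  have hup2 : z * c * z ≤ ((1 + ε) * T) • (z * (p * p) * z) := by
    have h2 := star_left_conjugate_le_conjugate hup z
    rw [hzsa] at h2
    refine h2.trans (le_of_eq ?_)
    rw [mul_smul_comm, smul_mul_assoc]
  -- the element `y = 1 - p²`
  set y := 1 - p * p with hy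
  have hy0 : 0 ≤ y := by
    rw [hy, sub_nonneg]
    have := (IsSelfAdjoint.le_algebraMap_norm_self (IsSelfAdjoint.of_nonneg hpp)).trans
      (algebraMap_mono A hpp1)
    rwa [map_one] at this
  have hy1 : ‖y‖ ≤ 1 := by
    rw [CStarAlgebra.norm_le_one_iff_of_nonneg y hy0, hy]
    exact sub_le_self _ hpp
  have hzyz : ‖z * y * z‖ ≤ 2 * ε := by
    have h0 : 0 ≤ z * y * z := by
      have := star_left_conjugate_nonneg hy0 z
      rwa [hzsa] at this
    have h1 : z * y * z ≤ (2 * ε) • (z * z) := by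
      have h2 : ((1 - ε) * T) • (z * z) ≤ ((1 + ε) * T) • (z * (p * p) * z) := hlow.trans hup2
      have h3 : (1 - ε) • (z * z) ≤ (1 + ε) • (z * (p * p) * z) := by
        have := smul_le_smul_of_nonneg_left h2 (inv_nonneg.2 hT.le)
        rw [smul_smul, smul_smul] at this
        have e1 : T⁻¹ * ((1 - ε) * T) = 1 - ε := by field_simp
        have e2 : T⁻¹ * ((1 + ε) * T) = 1 + ε := by field_simp
        rwa [e1, e2] at this
      have h4 : (1 + ε) • (z * y * z) ≤ (2 * ε) • (z * z) := by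
        have e : (1 + ε) • (z * y * z) = (1 + ε) • (z * z) - (1 + ε) • (z * (p * p) * z) := by
          rw [hy, mul_sub, sub_mul, mul_one, smul_sub]
        rw [e]
        refine (sub_le_sub_left h3 _).trans (le_of_eq ?_)
        rw [← sub_smul]
        congr 1
        ring
      refine le_trans ?_ h4
      have h5 : 0 ≤ ε • (z * y * z) := smul_nonneg hε.le h0
      rw [add_smul, one_smul]
      exact le_add_of_nonneg_right h5
    refine (CStarAlgebra.norm_le_norm_of_nonneg_of_le h0 h1).trans ?_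
    rw [norm_smul, Real.norm_of_nonneg (by positivity)]
    have : ‖z * z‖ ≤ 1 := (norm_mul_le _ _).trans (by rw [hz1, one_mul])
    calc 2 * ε * ‖z * z‖ ≤ 2 * ε * 1 := mul_le_mul_of_nonneg_left this (by positivity)
      _ = 2 * ε := mul_one _
  have hyz : ‖y * z‖ ≤ √(2 * ε) := sqrt_trick hy0 hy1 hzsa hzyz
  have hzy : ‖z * y‖ ≤ √(2 * ε) := by
    have : star (y * z) = z * y := by
      rw [star_mul, hzsa, (IsSelfAdjoint.of_nonneg hy0).star_eq]
    rw [← this, norm_star]
    exact hyz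
  have hTa : T ≤ ‖a‖ := by
    rw [hTdef, hc]
    calc ‖p * p * a * (p * p)‖ ≤ ‖p * p‖ * ‖a‖ * ‖p * p‖ := by
          refine (norm_mul_le _ _).trans ?_
          exact mul_le_mul_of_nonneg_right (norm_mul_le _ _) (norm_nonneg _)
      _ ≤ 1 * ‖a‖ * 1 := by gcongr
      _ = ‖a‖ := by ring
  refine ⟨z, T, hz0, hz1, ?_, ?_, ?_⟩
  · -- `w z = z`
    intro w hw
    obtain ⟨h, hh, hgh⟩ : ∃ h : ℝ → ℝ, Continuous h ∧ ∀ s, g s = s * h s := by
      have hT' : 0 < (1 - ε) * T := mul_pos (by linarith) hT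
      refine ⟨fun s => g s / max s ((1 - ε) * T), ?_, fun s => ?_⟩
      · exact hgc.div (by fun_prop) fun s => (lt_of_lt_of_le hT' (le_max_right _ _)).ne'
      · rcases le_total s ((1 - ε) * T) with h | h
        · simp only [hg, bump_eq_zero hε hT h, zero_div, mul_zero]
        · simp only [max_eq_left h]
          have : s ≠ 0 := (lt_of_lt_of_le hT' h).ne'
          field_simp
    have e : z = c * cfc h c := by
      have : z = cfc (fun s => s * h s) c := by
        rw [hz]
        exact cfc_congr fun s _ => hgh s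
      rw [this, cfc_mul (fun s => s) h c continuousOn_id hh.continuousOn, cfc_id' ℝ c]
    have e2 : w * c = c := by
      rw [hcb, ← mul_assoc, ← mul_assoc, hw]
    rw [e, ← mul_assoc, e2]
  · intro w hw
    obtain ⟨h, hh, hgh⟩ : ∃ h : ℝ → ℝ, Continuous h ∧ ∀ s, g s = h s * s := by
      have hT' : 0 < (1 - ε) * T := mul_pos (by linarith) hT
      refine ⟨fun s => g s / max s ((1 - ε) * T), ?_, fun s => ?_⟩
      · exact hgc.div (by fun_prop) fun s => (lt_of_lt_of_le hT' (le_max_right _ _)).ne'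
      · rcases le_total s ((1 - ε) * T) with h | h
        · simp only [hg, bump_eq_zero hε hT h, zero_div, zero_mul]
        · simp only [max_eq_left h]
          have : s ≠ 0 := (lt_of_lt_of_le hT' h).ne'
          field_simp
    have e : z = cfc h c * c := by
      have : z = cfc (fun s => h s * s) c := by
        rw [hz]
        exact cfc_congr fun s _ => hgh s
      rw [this, cfc_mul h (fun s => s) c hh.continuousOn continuousOn_id, cfc_id' ℝ c]
    have e2 : c * w = c := by
      rw [hcb, mul_assoc, hw]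
    rw [e, mul_assoc, e2]
  · have e1 : z * a * z - (T : ℂ) • (z * z) =
        z * y * a * z + z * (p * p) * a * (y * z) + (z * c * z - T • (z * z)) := by
      rw [Complex.coe_smul, hy, hc]
      noncomm_ring
    rw [e1]
    have n1 : ‖z * y * a * z‖ ≤ ‖a‖ * √(2 * ε) := by
      calc ‖z * y * a * z‖ ≤ ‖z * y‖ * ‖a‖ * ‖z‖ := by
            refine (norm_mul_le _ _).trans ?_
            exact mul_le_mul_of_nonneg_right (norm_mul_le _ _) (norm_nonneg _)
        _ ≤ √(2 * ε) * ‖a‖ * 1 := by gcongr; exact hz1.le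
        _ = ‖a‖ * √(2 * ε) := by ring
    have n2 : ‖z * (p * p) * a * (y * z)‖ ≤ ‖a‖ * √(2 * ε) := by
      calc ‖z * (p * p) * a * (y * z)‖ ≤ ‖z‖ * ‖p * p‖ * ‖a‖ * ‖y * z‖ := by
            refine (norm_mul_le _ _).trans ?_
            refine mul_le_mul_of_nonneg_right ((norm_mul_le _ _).trans ?_) (norm_nonneg _)
            exact mul_le_mul_of_nonneg_right (norm_mul_le _ _) (norm_nonneg _)
        _ ≤ 1 * 1 * ‖a‖ * √(2 * ε) := by gcongr; exact hz1.le
        _ = ‖a‖ * √(2 * ε) := by ring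
    have n3 : ε * T ≤ ε * ‖a‖ := mul_le_mul_of_nonneg_left hTa hε.le
    have := norm_add₃_le (a := z * y * a * z) (b := z * (p * p) * a * (y * z))
      (c := z * c * z - T • (z * z))
    linarith

end Core

theorem exists_eps (M δ : ℝ) (hδ : 0 < δ) :
    ∃ ε : ℝ, 0 < ε ∧ ε < 1 ∧ ε * M + 2 * M * √(2 * ε) ≤ δ := by
  have hc : ContinuousAt (fun ε : ℝ => ε * M + 2 * M * √(2 * ε)) 0 := by
    have : Continuous (fun ε : ℝ => ε * M + 2 * M * √(2 * ε)) := by fun_prop
    exact this.continuousAt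
  rw [Metric.continuousAt_iff] at hc
  obtain ⟨r, hr, H⟩ := hc δ hδ
  refine ⟨min (r / 2) (1 / 2), by positivity, (min_le_right _ _).trans_lt (by norm_num), ?_⟩
  have h1 : dist (min (r / 2) (1 / 2)) 0 < r := by
    rw [Real.dist_eq, sub_zero, abs_of_pos (by positivity)]
    exact (min_le_left _ _).trans_lt (by linarith)
  have h2 := H h1
  rw [Real.dist_eq] at h2
  have h3 : (0 : ℝ) * M + 2 * M * √(2 * 0) = 0 := by simp
  rw [h3, sub_zero] at h2
  exact (le_abs_self _).trans h2.le

/-- the powers -/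
theorem exists_power {N : ℕ → ℝ} (h1 : ∀ j, 1 ≤ N j) {ε : ℝ} (hε : 0 < ε) :
    ∃ j, N j ≤ (1 + ε) * N (j + 1) := by
  by_contra hcon
  push Not at hcon
  have h2 : ∀ j, (1 + ε) ^ j * N j ≤ N 0 := by
    intro j
    induction j with
    | zero => rw [pow_zero, one_mul]
    | succ j ih =>
      refine le_trans ?_ ih
      rw [pow_succ, mul_assoc]
      exact mul_le_mul_of_nonneg_left (hcon j).le (by positivity)
  obtain ⟨j, hj⟩ := pow_unbounded_of_one_lt (N 0) (show 1 < 1 + ε by linarith)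
  have h3 := h2 j
  have h4 : (1 + ε) ^ j * 1 ≤ (1 + ε) ^ j * N j :=
    mul_le_mul_of_nonneg_left (h1 j) (by positivity)
  linarith

end ExcStep

open ExcStep

/-- The excision step: below a positive `u` of norm one there is `z` of norm one which compresses
`a` to a scalar, up to `δ`. -/
theorem excision_step {A : Type u} [CStarAlgebra A] (u : A) (hu : IsPos u) (hu1 : ‖u‖ = 1) (a : A)
    (ha : IsSelfAdjoint a) (δ : ℝ) (hδ : 0 < δ) : ∃ (z : A) (t : ℝ), IsPos z ∧ ‖z‖ = 1 ∧
      (∀ w, w * u = u → w * z = z) ∧ (∀ w, u * w = u → z * w = z) ∧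
      ‖z * a * z - (t : ℂ) • (z * z)‖ ≤ δ := by
  let _ := CStarAlgebra.spectralOrder A
  have _ := CStarAlgebra.spectralOrderedRing A
  have hnt : Nontrivial A := by
    refine nontrivial_of_ne u 0 fun h => ?_
    rw [h, norm_zero] at hu1
    exact zero_ne_one hu1
  have hu0 : 0 ≤ u := by
    obtain ⟨y, rfl⟩ := hu
    exact star_mul_self_nonneg y
  have husa : IsSelfAdjoint u := .of_nonneg hu0
  set a' : A := a + algebraMap ℝ A (‖a‖ + 1) with ha'
  have ha'1 : 1 ≤ a' := by
    have h1 := IsSelfAdjoint.neg_algebraMap_norm_le_self ha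
    have h2 : a' = 1 + (a - -algebraMap ℝ A ‖a‖) := by
      rw [ha', map_add, map_one]
      abel
    rw [h2]
    exact le_add_of_nonneg_right (sub_nonneg.2 h1)
  have ha'0 : 0 ≤ a' := zero_le_one.trans ha'1
  obtain ⟨ε, hε, hε1, hεδ⟩ := exists_eps ‖a'‖ δ hδ
  set p : ℕ → A := fun j => u ^ 2 ^ j with hp
  have hpp : ∀ j, p j * p j = p (j + 1) := by
    intro j
    simp only [hp]
    rw [← pow_add]
    congr 1
    rw [pow_succ]
    ring
  have hp0 : ∀ j, 0 ≤ p j := fun j => by
    simp only [hp]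
    rcases j with _ | j
    · rw [pow_zero, pow_one]; exact hu0
    · have : u ^ 2 ^ (j + 1) = star (u ^ 2 ^ j) * u ^ 2 ^ j := by
        rw [star_pow, husa.star_eq, ← pow_add]
        congr 1
        rw [pow_succ]
        ring
      rw [this]
      exact star_mul_self_nonneg _
  have hp1 : ∀ j, ‖p j‖ = 1 := by
    intro j
    have := husa.nnnorm_pow_two_pow j
    have h2 : ‖u ^ 2 ^ j‖ = ‖u‖ ^ 2 ^ j := by
      rw [← coe_nnnorm, this, NNReal.coe_pow, coe_nnnorm]
    simp only [hp]
    rw [h2, hu1, one_pow]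
  have hN : ∀ j, 1 ≤ ‖p j * a' * p j‖ := by
    intro j
    have hsa : star (p j) = p j := (IsSelfAdjoint.of_nonneg (hp0 j)).star_eq
    have h1 := star_left_conjugate_le_conjugate ha'1 (p j)
    rw [hsa, mul_one, hpp] at h1
    have h2 := CStarAlgebra.norm_le_norm_of_nonneg_of_le (hp0 (j + 1)) h1
    rwa [hp1] at h2
  obtain ⟨j, hj⟩ := exists_power hN hε
  rw [← hpp j] at hj
  obtain ⟨z, t, hz0, hz1, hzl, hzr, hzt⟩ := core (p j) a' (hp0 j) (hp1 j).le ha'0 hε hε1
    (lt_of_lt_of_le one_pos (by rw [hpp j]; exact hN (j + 1))) hj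
  have hpu : p j = u * u ^ (2 ^ j - 1) := by
    simp only [hp]
    rw [← pow_succ']
    congr 1
    have : 1 ≤ 2 ^ j := Nat.one_le_two_pow
    omega
  have hpu' : p j = u ^ (2 ^ j - 1) * u := by
    simp only [hp]
    rw [← pow_succ]
    congr 1
    have : 1 ≤ 2 ^ j := Nat.one_le_two_pow
    omega
  refine ⟨z, t - (‖a‖ + 1), CStarAlgebra.nonneg_iff_eq_star_mul_self.1 hz0, hz1,
    fun w hw => hzl w ?_, fun w hw => hzr w ?_, ?_⟩
  · rw [hpu, ← mul_assoc, hw]
  · rw [hpu', mul_assoc, hw]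
  · refine le_trans (le_of_eq ?_) (hzt.trans hεδ)
    congr 1
    rw [ha', Complex.ofReal_sub, sub_smul, Complex.coe_smul (‖a‖ + 1),
      Algebra.algebraMap_eq_smul_one, mul_add, add_mul, mul_smul_comm, mul_one, smul_mul_assoc]
    abel

end Vale.Agent.P095
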