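import Vale.Agent.P095.TDefs

/-!
# P095: elementary facts on tracial states and the seminorm `sq τ x = re τ(x⋆x)`
-/

open Filter Topology TopologicalSpace
open scoped BoundedContinuousFunction ComplexOrder

namespace Vale.Agent.P095

open Vale.Agent.P101

universe u v w

section

variable {B : Type*} [CStarAlgebra B] [PartialOrder B] [StarOrderedRing B]

/-- a positive tracial functional is nonnegative on positive elements -/
theorem IsPosTrace.nonneg_of {φ : B →ₗ[ℂ] ℂ} (hφ : ∀ x, 0 ≤ φ (star x * x)) {a : B} (ha : 0 ≤ a) :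
    0 ≤ φ a := by
  obtain ⟨b, rfl⟩ := CStarAlgebra.nonneg_iff_eq_star_mul_self.1 ha
  exact hφ b

theorem IsPosTrace.re_mono {φ : B →ₗ[ℂ] ℂ} (hφ : ∀ x, 0 ≤ φ (star x * x)) {a b : B} (h : a ≤ b) :
    (φ a).re ≤ (φ b).re := by
  have h1 := IsPosTrace.nonneg_of hφ (sub_nonneg.2 h)
  rw [map_sub] at h1
  have := (Complex.nonneg_iff.1 h1).1
  rw [Complex.sub_re] at this
  linarith

end

section

variable {B : Type*} [CStarAlgebra B] {φ : B →ₗ[ℂ] ℂ}

theorem sq_nonneg' (hφ : ∀ x, 0 ≤ φ (star x * x)) (x : B) : 0 ≤ sq φ x :=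
  (Complex.nonneg_iff.1 (hφ x)).1

theorem apply_eq_sq (hφ : ∀ x, 0 ≤ φ (star x * x)) (x : B) :
    φ (star x * x) = ((sq φ x : ℝ) : ℂ) := by
  apply Complex.ext
  · rfl
  · rw [Complex.ofReal_im]
    exact ((Complex.nonneg_iff.1 (hφ x)).2).symm

theorem sq_sa {x : B} (hx : IsSelfAdjoint x) : sq φ x = (φ (x * x)).re := by
  rw [sq, hx.star_eq]

@[simp] theorem sq_zero : sq φ 0 = 0 := by simp [sq]

theorem sq_smul (c : ℂ) (x : B) : sq φ (c • x) = ‖c‖ ^ 2 * sq φ x := by
  rw [sq, star_smul, smul_mul_smul_comm, map_smul, sq]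
  have : star c * c = ((‖c‖ ^ 2 : ℝ) : ℂ) := by
    rw [Complex.star_def, ← Complex.normSq_eq_conj_mul_self, Complex.normSq_eq_norm_sq]
  rw [this, smul_eq_mul, Complex.re_ofReal_mul]

theorem sq_neg (x : B) : sq φ (-x) = sq φ x := by
  rw [sq, star_neg, neg_mul_neg, sq]

/-- parallelogram law -/
theorem sq_add_add_sq_sub (x y : B) :
    sq φ (x + y) + sq φ (x - y) = 2 * sq φ x + 2 * sq φ y := by
  simp only [sq, ← Complex.add_re, ← map_add]
  have : star (x + y) * (x + y) + star (x - y) * (x - y) =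
      star x * x + star x * x + (star y * y + star y * y) := by
    rw [star_add, star_sub]
    noncomm_ring
  rw [this, map_add, map_add, map_add]
  simp only [Complex.add_re]
  ring

theorem sq_add_le (hφ : ∀ x, 0 ≤ φ (star x * x)) (x y : B) :
    sq φ (x + y) ≤ 2 * sq φ x + 2 * sq φ y := by
  have h1 := sq_add_add_sq_sub (φ := φ) x y
  have h2 := sq_nonneg' hφ (x - y)
  linarith

theorem sq_sub_le (hφ : ∀ x, 0 ≤ φ (star x * x)) (x y : B) :
    sq φ (x - y) ≤ 2 * sq φ x + 2 * sq φ y := by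
  have h1 := sq_add_add_sq_sub (φ := φ) x y
  have h2 := sq_nonneg' hφ (x + y)
  linarith

theorem sq_star (htr : ∀ x y, φ (x * y) = φ (y * x)) (x : B) : sq φ (star x) = sq φ x := by
  rw [sq, star_star, htr, sq]

/-- `sq (a x) ≤ sq x` for a contraction `a` -/
theorem sq_mul_le (hφ : ∀ x, 0 ≤ φ (star x * x)) {a : B} (ha : ‖a‖ ≤ 1) (x : B) :
    sq φ (a * x) ≤ sq φ x := by
  let _ := CStarAlgebra.spectralOrder B
  have _ := CStarAlgebra.spectralOrderedRing B
  have h1 : star a * a ≤ 1 := by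
    have h2 : ‖star a * a‖ ≤ 1 := by
      rw [CStarRing.norm_star_mul_self]
      nlinarith [norm_nonneg a]
    exact (CStarAlgebra.norm_le_one_iff_of_nonneg (star a * a) (star_mul_self_nonneg a)).1 h2
  have h3 : star x * (star a * a) * x ≤ star x * 1 * x := star_left_conjugate_le_conjugate h1 x
  have h4 := IsPosTrace.re_mono hφ h3
  rw [mul_one] at h4
  rw [sq, star_mul]
  have : star x * star a * (a * x) = star x * (star a * a) * x := by noncomm_ring
  rw [this]
  exact h4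

theorem sq_mul_le' (hφ : ∀ x, 0 ≤ φ (star x * x)) (htr : ∀ x y, φ (x * y) = φ (y * x))
    {a : B} (ha : ‖a‖ ≤ 1) (x : B) : sq φ (x * a) ≤ sq φ x := by
  rw [← sq_star htr (x * a), star_mul, ← sq_star htr x]
  exact sq_mul_le hφ (by rwa [norm_star]) (star x)

/-- `sq x ≤ ‖x‖² φ(1)`. -/
theorem sq_le_one (hφ : ∀ x, 0 ≤ φ (star x * x)) {a : B} (ha : ‖a‖ ≤ 1) :
    sq φ a ≤ (φ 1).re := by
  have := sq_mul_le hφ ha 1
  rw [mul_one] at this
  refine this.trans ?_
  rw [sq, star_one, one_mul]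

/-- `φ` is real on selfadjoint elements (as `4x = (x+1)² - (x-1)²`) -/
theorem im_eq_zero (hφ : ∀ x, 0 ≤ φ (star x * x)) {x : B} (hx : IsSelfAdjoint x) :
    (φ x).im = 0 := by
  have h1 := hφ (x + 1)
  have h2 := hφ (x - 1)
  have h3 : star (x + 1) * (x + 1) - star (x - 1) * (x - 1) = (4 : ℂ) • x := by
    rw [star_add, star_sub, star_one, hx.star_eq]
    have : (4 : ℂ) • x = x + x + x + x := by
      rw [show (4 : ℂ) = 1 + 1 + 1 + 1 by norm_num, add_smul, add_smul, add_smul, one_smul]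
    rw [this]
    noncomm_ring
  have h4 : φ ((4 : ℂ) • x) = φ (star (x + 1) * (x + 1)) - φ (star (x - 1) * (x - 1)) := by
    rw [← map_sub, h3]
  rw [map_smul, smul_eq_mul] at h4
  have h5 := congrArg Complex.im h4
  rw [Complex.sub_im, (Complex.nonneg_iff.1 h1).2.symm, (Complex.nonneg_iff.1 h2).2.symm] at h5
  simp at h5
  exact h5

theorem apply_star (hφ : ∀ x, 0 ≤ φ (star x * x)) (x : B) : φ (star x) = star (φ x) := by
  have h1 : IsSelfAdjoint (x + star x) := IsSelfAdjoint.add_star_self x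
  have h2 : IsSelfAdjoint (Complex.I • (x - star x)) := by
    rw [IsSelfAdjoint, star_smul, star_sub, star_star, Complex.star_def, Complex.conj_I, neg_smul,
      ← smul_neg, neg_sub]
  have h3 := im_eq_zero hφ h1
  have h4 := im_eq_zero hφ h2
  rw [map_add, Complex.add_im] at h3
  rw [map_smul, map_sub, smul_eq_mul, Complex.mul_im, Complex.I_re, Complex.I_im, zero_mul,
    zero_add, one_mul, Complex.sub_re] at h4
  apply Complex.ext
  · rw [Complex.star_def, Complex.conj_re]; linarith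
  · rw [Complex.star_def, Complex.conj_im]; linarith

/-- Cauchy-Schwarz against `1`, for a state and selfadjoint `x`. -/
theorem re_sq_le (hφ : ∀ x, 0 ≤ φ (star x * x)) (h1 : φ 1 = 1) {x : B} (hx : IsSelfAdjoint x) :
    (φ x).re ^ 2 ≤ sq φ x := by
  have h := sq_nonneg' hφ (x - (((φ x).re : ℝ) : ℂ) • (1 : B))
  have hsa : IsSelfAdjoint (x - (((φ x).re : ℝ) : ℂ) • (1 : B)) := by
    refine hx.sub ?_
    rw [IsSelfAdjoint, star_smul, star_one, Complex.star_def, Complex.conj_ofReal]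
  rw [sq_sa hsa] at h
  have h2 : (x - (((φ x).re : ℝ) : ℂ) • (1 : B)) * (x - (((φ x).re : ℝ) : ℂ) • (1 : B)) =
      x * x - (2 * (((φ x).re : ℝ) : ℂ)) • x + ((((φ x).re : ℝ) : ℂ) * (((φ x).re : ℝ) : ℂ)) • 1 := by
    rw [sub_mul, mul_sub, mul_sub, smul_mul_assoc, one_mul, mul_smul_comm, mul_one,
      smul_mul_smul_comm, mul_one, two_mul, add_smul]
    abel
  rw [h2, map_add, map_sub, map_smul, map_smul, h1, Complex.add_re, Complex.sub_re, smul_eq_mul,
    smul_eq_mul, mul_one, ← Complex.ofReal_mul, Complex.ofReal_re] at h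
  have h3 : (2 * (((φ x).re : ℝ) : ℂ) * φ x).re = 2 * (φ x).re * (φ x).re := by
    rw [show (2 * (((φ x).re : ℝ) : ℂ)) = ((2 * (φ x).re : ℝ) : ℂ) by push_cast; ring,
      Complex.re_ofReal_mul]
  rw [h3] at h
  rw [sq_sa hx]
  nlinarith

end

end Vale.Agent.P095
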