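import Vale.Agent.P095.NDefs
import Vale.Agent.P095.TraceAux
import Vale.Agent.P095.ExcisionStep
import Vale.Agent.P101.Intertwine

/-!
# P095, row E4: excision of states on positive elements

For every nonzero positive element `y` of a separable unital C*-algebra there is an excisable state
which is nonzero on `y`.
-/

open Filter Topology TopologicalSpace
open scoped BoundedContinuousFunction ComplexOrder

namespace Vale.Agent.P095

open Vale.Agent.P101

universe u v w

namespace Excision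

/-! ### Auxiliary functions -/

/-- `1` near the support of `k1`, zero below `1/2`. -/
noncomputable def k0 (t : ℝ) : ℝ := max 0 (min 1 (4 * t - 2))

/-- `1` at `1`, zero below `3/4`. -/
noncomputable def k1 (t : ℝ) : ℝ := max 0 (min 1 (4 * t - 3))

/-- `rr t * t = k0 t`. -/
noncomputable def rr (t : ℝ) : ℝ := k0 t / max t (1 / 2)

theorem continuous_k0 : Continuous k0 := by
  unfold k0
  fun_prop

theorem continuous_k1 : Continuous k1 := by
  unfold k1
  fun_prop

theorem continuous_rr : Continuous rr := by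
  unfold rr
  refine continuous_k0.div (by fun_prop) fun t => ?_
  have : (1 : ℝ) / 2 ≤ max t (1 / 2) := le_max_right _ _
  linarith

theorem k0_nonneg (t : ℝ) : 0 ≤ k0 t := le_max_left _ _

theorem k0_le_one (t : ℝ) : k0 t ≤ 1 := max_le zero_le_one (min_le_left _ _)

theorem k1_nonneg (t : ℝ) : 0 ≤ k1 t := le_max_left _ _

theorem k1_le_one (t : ℝ) : k1 t ≤ 1 := max_le zero_le_one (min_le_left _ _)

theorem k0_zero : k0 0 = 0 := by
  unfold k0
  norm_num

theorem k0_one : k0 1 = 1 := by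
  unfold k0
  norm_num

theorem k1_one : k1 1 = 1 := by
  unfold k1
  norm_num

theorem k0_mul_k1 (t : ℝ) : k0 t * k1 t = k1 t := by
  rcases le_total t (3 / 4) with h | h
  · have : k1 t = 0 := by
      unfold k1
      exact max_eq_left ((min_le_right _ _).trans (by linarith))
    rw [this, mul_zero]
  · have : k0 t = 1 := by
      unfold k0
      rw [min_eq_left (by linarith), max_eq_right zero_le_one]
    rw [this, one_mul]

theorem rr_mul (t : ℝ) : rr t * t = k0 t := by
  unfold rr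
  rcases le_total t (1 / 2) with h | h
  · have : k0 t = 0 := by
      unfold k0
      exact max_eq_left ((min_le_right _ _).trans (by linarith))
    rw [this, zero_div, zero_mul]
  · rw [max_eq_left h]
    field_simp

theorem rr_nonneg (t : ℝ) : 0 ≤ rr t := by
  unfold rr
  have : (1 : ℝ) / 2 ≤ max t (1 / 2) := le_max_right _ _
  exact div_nonneg (k0_nonneg t) (by linarith)

theorem rr_le_two (t : ℝ) : rr t ≤ 2 := by
  unfold rr
  have : (1 : ℝ) / 2 ≤ max t (1 / 2) := le_max_right _ _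
  rw [div_le_iff₀ (by linarith)]
  linarith [k0_le_one t]

theorem k0_le_two_mul {t : ℝ} (h0 : 0 ≤ t) (h1 : t ≤ 1) : k0 t ≤ 2 * t := by
  unfold k0
  refine max_le (by linarith) ?_
  rcases le_total t (1 / 2) with h | h
  · exact (min_le_right _ _).trans (by linarith)
  · exact (min_le_left _ _).trans (by linarith)

section Elements

variable {A : Type u} [CStarAlgebra A]

theorem isPos_of_nonneg' [PartialOrder A] [StarOrderedRing A] {x : A} (hx : 0 ≤ x) : IsPos x :=
  CStarAlgebra.nonneg_iff_eq_star_mul_self.1 hx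

theorem nonneg_of_isPos [PartialOrder A] [StarOrderedRing A] {x : A} (hx : IsPos x) : 0 ≤ x :=
  CStarAlgebra.nonneg_iff_eq_star_mul_self.2 hx

theorem isSelfAdjoint_of_isPos {x : A} (hx : IsPos x) : IsSelfAdjoint x := by
  obtain ⟨y, rfl⟩ := hx
  exact IsSelfAdjoint.star_mul_self y

/-- left multiplication by `w` fixes functions of `v` vanishing at `0`, if it fixes `v` -/
theorem fix_cfc {w v : A} (hv : IsSelfAdjoint v) (h : w * v = v) (g : ℝ → ℝ) (hg : Continuous g)
    (hg0 : g 0 = 0) : w * cfc g v = cfc g v := by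
  have h1 : (0 : A) * (1 - w) = (1 - w) * v := by
    rw [zero_mul, sub_mul, one_mul, h, sub_self]
  have h2 := cfc_intertwine (IsSelfAdjoint.zero A) hv h1 g hg
  rw [cfc_apply_zero, hg0, map_zero, zero_mul, sub_mul, one_mul] at h2
  exact (sub_eq_zero.1 h2.symm).symm

theorem spectrum_subset {v : A} (hv : IsPos v) (hv1 : ‖v‖ ≤ 1) :
    spectrum ℝ v ⊆ Set.Icc 0 1 := by
  let _ := CStarAlgebra.spectralOrder A
  have _ := CStarAlgebra.spectralOrderedRing A
  intro x hx
  rcases subsingleton_or_nontrivial A with hA | hA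
  · have : spectrum ℝ v = ∅ := spectrum.of_subsingleton v
    rw [this] at hx
    exact absurd hx (Set.notMem_empty x)
  · have h0 := spectrum_nonneg_of_nonneg (nonneg_of_isPos hv) hx
    have h1 := spectrum.norm_le_norm_of_mem hx
    rw [Real.norm_eq_abs] at h1
    exact ⟨h0, (le_abs_self x).trans (h1.trans hv1)⟩

theorem norm_cfc_k1 {v : A} (hv : IsPos v) (hv1 : ‖v‖ = 1) : ‖cfc k1 v‖ = 1 := by
  let _ := CStarAlgebra.spectralOrder A
  have _ := CStarAlgebra.spectralOrderedRing A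
  have hA : Nontrivial A := by
    by_contra hA
    rw [not_nontrivial_iff_subsingleton] at hA
    rw [Subsingleton.elim v 0, norm_zero] at hv1
    exact zero_ne_one hv1
  have hsa := isSelfAdjoint_of_isPos hv
  apply le_antisymm
  · refine norm_cfc_le zero_le_one fun x _ => ?_
    rw [Real.norm_eq_abs, abs_of_nonneg (k1_nonneg x)]
    exact k1_le_one x
  · have h1 : (1 : ℝ) ∈ spectrum ℝ v := by
      have := CStarAlgebra.norm_mem_spectrum_of_nonneg (nonneg_of_isPos hv)
      rwa [hv1] at this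
    have h2 := norm_apply_le_norm_cfc k1 v h1 continuous_k1.continuousOn hsa
    rwa [k1_one, norm_one] at h2

theorem norm_cfc_k0 {v : A} (hv : IsPos v) (hv1 : ‖v‖ = 1) : ‖cfc k0 v‖ = 1 := by
  let _ := CStarAlgebra.spectralOrder A
  have _ := CStarAlgebra.spectralOrderedRing A
  have hA : Nontrivial A := by
    by_contra hA
    rw [not_nontrivial_iff_subsingleton] at hA
    rw [Subsingleton.elim v 0, norm_zero] at hv1
    exact zero_ne_one hv1
  have hsa := isSelfAdjoint_of_isPos hv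
  apply le_antisymm
  · refine norm_cfc_le zero_le_one fun x _ => ?_
    rw [Real.norm_eq_abs, abs_of_nonneg (k0_nonneg x)]
    exact k0_le_one x
  · have h1 : (1 : ℝ) ∈ spectrum ℝ v := by
      have := CStarAlgebra.norm_mem_spectrum_of_nonneg (nonneg_of_isPos hv)
      rwa [hv1] at this
    have h2 := norm_apply_le_norm_cfc k0 v h1 continuous_k0.continuousOn hsa
    rwa [k0_one, norm_one] at h2

theorem cfc_k0_mul_k1 {v : A} (hv : IsSelfAdjoint v) : cfc k0 v * cfc k1 v = cfc k1 v := by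
  rw [← cfc_mul k0 k1 v continuous_k0.continuousOn continuous_k1.continuousOn]
  exact cfc_congr fun t _ => k0_mul_k1 t

theorem cfc_rr_mul {v : A} (hv : IsSelfAdjoint v) : cfc rr v * v = cfc k0 v := by
  have h1 : cfc rr v * cfc (fun t : ℝ => t) v = cfc (fun t => rr t * t) v :=
    (cfc_mul rr (fun t : ℝ => t) v continuous_rr.continuousOn continuous_id.continuousOn).symm
  rw [cfc_id' ℝ v] at h1
  rw [h1]
  exact cfc_congr fun t _ => rr_mul t

theorem mul_cfc_rr {v : A} (hv : IsSelfAdjoint v) : v * cfc rr v = cfc k0 v := by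
  have h1 : cfc (fun t : ℝ => t) v * cfc rr v = cfc (fun t => t * rr t) v :=
    (cfc_mul (fun t : ℝ => t) rr v continuous_id.continuousOn continuous_rr.continuousOn).symm
  rw [cfc_id' ℝ v] at h1
  rw [h1]
  exact cfc_congr fun t _ => by rw [mul_comm]; exact rr_mul t

theorem norm_cfc_rr (v : A) : ‖cfc rr v‖ ≤ 2 := by
  refine norm_cfc_le (by norm_num) fun x _ => ?_
  rw [Real.norm_eq_abs, abs_of_nonneg (rr_nonneg x)]
  exact rr_le_two x

end Elements

section States

variable {A : Type u} [CStarAlgebra A]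

/-- A state. -/
structure IsState (f : A →ₗ[ℂ] ℂ) : Prop where
  map_one : f 1 = 1
  nonneg : ∀ x, 0 ≤ f (star x * x)

/-- Norm attaining functionals on positive elements are positive. -/
theorem exists_state {w : A} (hw : IsPos w) (hw1 : ‖w‖ = 1) :
    ∃ f : A →ₗ[ℂ] ℂ, IsState f ∧ f w = 1 := by
  let _ := CStarAlgebra.spectralOrder A
  have _ := CStarAlgebra.spectralOrderedRing A
  have hA : Nontrivial A := by
    by_contra hA
    rw [not_nontrivial_iff_subsingleton] at hA
    rw [Subsingleton.elim w 0, norm_zero] at hw1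
    exact zero_ne_one hw1
  obtain ⟨g, hg, hgw⟩ := exists_dual_vector ℂ w (by rw [hw1]; exact one_ne_zero)
  rw [hw1] at hgw
  have hgle : ∀ x, ‖g x‖ ≤ ‖x‖ := fun x => by
    have := g.le_opNorm x
    rwa [hg, one_mul] at this
  have hw0 := nonneg_of_isPos hw
  have hwle : w ≤ 1 := (CStarAlgebra.norm_le_one_iff_of_nonneg w hw0).1 hw1.le
  -- `‖a‖ ≤ c` if `-c ≤ a ≤ c`
  have hnorm : ∀ (a : A) (c : ℝ), 0 ≤ c → a ≤ algebraMap ℝ A c → -algebraMap ℝ A c ≤ a →
      ‖a‖ ≤ c := by
    intro a c hc h1 h2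
    have hsa : IsSelfAdjoint a := by
      have h3 : 0 ≤ a + algebraMap ℝ A c := by
        have := sub_nonneg.2 h2
        rwa [sub_neg_eq_add] at this
      have h4 : a = (a + algebraMap ℝ A c) - algebraMap ℝ A c := by abel
      rw [h4]
      exact h3.isSelfAdjoint.sub (IsSelfAdjoint.algebraMap A (IsSelfAdjoint.all c))
    rcases CStarAlgebra.norm_or_neg_norm_mem_spectrum hsa with h | h
    · exact (le_algebraMap_iff_spectrum_le hsa).1 h1 _ h
    · have h5 : algebraMap ℝ A (-c) ≤ a := by rwa [map_neg]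
      have := (algebraMap_le_iff_le_spectrum hsa).1 h5 _ h
      linarith
  have hg1 : g 1 = 1 := by
    have h1 : ‖g 1‖ ≤ 1 := by
      have := hgle 1
      rwa [norm_one] at this
    have h2 : ‖(2 : ℂ) • w - 1‖ ≤ 1 := by
      refine hnorm _ 1 zero_le_one ?_ ?_
      · rw [_root_.map_one, two_smul, sub_le_iff_le_add]
        exact add_le_add hwle hwle
      · rw [_root_.map_one, two_smul, neg_le_sub_iff_le_add]
        exact le_add_of_nonneg_left (add_nonneg hw0 hw0)
    have h3 : ‖g ((2 : ℂ) • w - 1)‖ ≤ 1 := (hgle _).trans h2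
    rw [map_sub, map_smul, hgw, smul_eq_mul] at h3
    have h4 : ‖(2 : ℂ) - g 1‖ ≤ 1 := by simpa using h3
    have h5 : ((2 : ℂ) - g 1).re ≤ 1 := (Complex.re_le_norm _).trans h4
    have h6 : (g 1).re ≤ 1 := (Complex.re_le_norm _).trans h1
    have h7 : (g 1).re = 1 := by
      rw [Complex.sub_re] at h5
      norm_num at h5
      linarith
    have h8 : (g 1).im = 0 := by
      have h9 := Complex.sq_norm (g 1)
      rw [Complex.normSq_apply, h7] at h9
      have h10 : ‖g 1‖ ^ 2 ≤ 1 := by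
        have := norm_nonneg (g 1)
        nlinarith
      nlinarith [mul_self_nonneg (g 1).im]
    exact Complex.ext h7 h8
  have hcalg : ∀ c : ℝ, g (algebraMap ℝ A c) = c := by
    intro c
    rw [IsScalarTower.algebraMap_apply ℝ ℂ A, Algebra.algebraMap_eq_smul_one, map_smul, hg1,
      smul_eq_mul, mul_one]
    rfl
  -- real on selfadjoint elements
  have hreal : ∀ x : A, IsSelfAdjoint x → (g x).im = 0 := by
    intro x hx
    have key : ∀ t : ℝ, ((g x).im + t) ^ 2 ≤ ‖x‖ ^ 2 + t ^ 2 := by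
      intro t
      have h1 : ‖x + (Complex.I * t) • (1 : A)‖ ^ 2 ≤ ‖x‖ ^ 2 + t ^ 2 := by
        rw [pow_two, ← CStarRing.norm_star_mul_self]
        have h2 : star (x + (Complex.I * t) • (1 : A)) * (x + (Complex.I * t) • (1 : A)) =
            x * x + (((t ^ 2 : ℝ) : ℂ)) • (1 : A) := by
          rw [star_add, star_smul, star_one, hx.star_eq, add_mul, mul_add, mul_add,
            mul_smul_comm, mul_one, smul_mul_assoc, one_mul, smul_mul_smul_comm, mul_one]
          have h3 : star (Complex.I * (t : ℂ)) = -(Complex.I * t) := by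
            rw [Complex.star_def, map_mul, Complex.conj_I, Complex.conj_ofReal, neg_mul]
          have h4 : -(Complex.I * (t : ℂ)) * (Complex.I * t) = ((t ^ 2 : ℝ) : ℂ) := by
            have : Complex.I * Complex.I = -1 := Complex.I_mul_I
            push_cast
            linear_combination (-(t : ℂ) ^ 2) * this
          rw [h3, h4, neg_smul]
          abel
        rw [h2]
        refine (norm_add_le _ _).trans ?_
        rw [norm_smul, norm_one, mul_one, Complex.norm_real, Real.norm_eq_abs,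
          abs_of_nonneg (sq_nonneg t)]
        have h5 : ‖x * x‖ ≤ ‖x‖ ^ 2 := by
          rw [pow_two]
          exact norm_mul_le _ _
        linarith
      have h2 : ‖g (x + (Complex.I * t) • (1 : A))‖ ^ 2 ≤ ‖x‖ ^ 2 + t ^ 2 :=
        (pow_le_pow_left₀ (norm_nonneg _) (hgle _) 2).trans h1
      rw [map_add, map_smul, hg1, smul_eq_mul, mul_one] at h2
      have h3 : ((g x).im + t) ^ 2 ≤ ‖g x + Complex.I * t‖ ^ 2 := by
        rw [Complex.sq_norm, Complex.normSq_apply]
        have e1 : (g x + Complex.I * (t : ℂ)).im = (g x).im + t := by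
          simp
        rw [e1]
        nlinarith [mul_self_nonneg (g x + Complex.I * (t : ℂ)).re]
      exact h3.trans h2
    by_contra hne
    set β := (g x).im with hβ
    have h1 := key ((‖x‖ ^ 2 + 1) / β)
    have h2 : 2 * β * ((‖x‖ ^ 2 + 1) / β) = 2 * (‖x‖ ^ 2 + 1) := by
      field_simp
    nlinarith [sq_nonneg β, sq_nonneg ‖x‖]
  refine ⟨g.toLinearMap, ⟨hg1, fun x => ?_⟩, by simpa using hgw⟩
  show 0 ≤ g (star x * x)
  have hsa : IsSelfAdjoint (star x * x) := IsSelfAdjoint.star_mul_self x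
  set a := star x * x with ha
  have ha0 : 0 ≤ a := star_mul_self_nonneg x
  have h1 : ‖algebraMap ℝ A ‖a‖ - a‖ ≤ ‖a‖ := by
    refine hnorm _ _ (norm_nonneg _) (sub_le_self _ ha0) ?_
    have h2 : a ≤ algebraMap ℝ A ‖a‖ := IsSelfAdjoint.le_algebraMap_norm_self hsa
    have h3 : 0 ≤ algebraMap ℝ A ‖a‖ - a := sub_nonneg.2 h2
    have h4 : 0 ≤ algebraMap ℝ A ‖a‖ := ha0.trans h2
    exact (neg_nonpos.2 h4).trans h3
  have h2 := (hgle _).trans h1
  rw [map_sub, hcalg] at h2
  have h3 := (Complex.re_le_norm _).trans h2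
  rw [Complex.sub_re, Complex.ofReal_re] at h3
  rw [Complex.nonneg_iff]
  exact ⟨by linarith, (hreal a hsa).symm⟩

variable {f : A →ₗ[ℂ] ℂ}

theorem IsState.norm_le (hf : IsState f) (x : A) : ‖f x‖ ≤ ‖x‖ := by
  let _ := CStarAlgebra.spectralOrder A
  have _ := CStarAlgebra.spectralOrderedRing A
  set c := f x with hc
  have h1 := (Complex.nonneg_iff.1 (hf.nonneg (x - c • (1 : A)))).1
  have e : star (x - c • (1 : A)) * (x - c • (1 : A)) =
      star x * x - c • star x - star c • x + (star c * c) • (1 : A) := by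
    rw [star_sub, star_smul, star_one, sub_mul, mul_sub, mul_sub,
      mul_smul_comm, mul_one, smul_mul_assoc, one_mul, smul_mul_smul_comm, one_mul]
    abel
  rw [e, map_add, map_sub, map_sub, map_smul, map_smul, map_smul, map_star_of_nonneg hf.nonneg,
    hf.map_one, ← hc, smul_eq_mul, smul_eq_mul, smul_eq_mul, mul_one] at h1
  have e2 : c * star c = ((‖c‖ ^ 2 : ℝ) : ℂ) := by
    rw [Complex.star_def, Complex.mul_conj, Complex.normSq_eq_norm_sq]
  have e3 : star c * c = ((‖c‖ ^ 2 : ℝ) : ℂ) := by rw [mul_comm, e2]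
  rw [e2, e3, Complex.add_re, Complex.sub_re, Complex.sub_re, Complex.ofReal_re] at h1
  have h2 : star x * x ≤ algebraMap ℝ A (‖x‖ ^ 2) := CStarAlgebra.star_mul_le_algebraMap_norm_sq
  obtain ⟨y, hy⟩ := CStarAlgebra.nonneg_iff_eq_star_mul_self.1 (sub_nonneg.2 h2)
  have h3 := (Complex.nonneg_iff.1 (hf.nonneg y)).1
  rw [← hy, map_sub, Complex.sub_re] at h3
  have h4 : f (algebraMap ℝ A (‖x‖ ^ 2)) = ((‖x‖ ^ 2 : ℝ) : ℂ) := by
    rw [IsScalarTower.algebraMap_apply ℝ ℂ A, Algebra.algebraMap_eq_smul_one (R := ℂ), map_smul,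
      hf.map_one, smul_eq_mul, mul_one]
    rfl
  rw [h4, Complex.ofReal_re] at h3
  exact le_of_sq_le_sq (by linarith) (norm_nonneg _)

/-- The multiplicative domain at a positive contraction of full value. -/
theorem IsState.mul_right (hf : IsState f) {w : A} (hw : IsPos w) (hw1 : ‖w‖ ≤ 1) (h : f w = 1)
    (x : A) : f (x * w) = f x := by
  let _ := CStarAlgebra.spectralOrder A
  have _ := CStarAlgebra.spectralOrderedRing A
  have hw0 := nonneg_of_isPos hw
  have hwsa := isSelfAdjoint_of_isPos hw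
  have hwle : w ≤ 1 := (CStarAlgebra.norm_le_one_iff_of_nonneg w hw0).1 hw1
  have h1 : 0 ≤ 1 - w := sub_nonneg.2 hwle
  have h1' : ‖1 - w‖ ≤ 1 :=
    (CStarAlgebra.norm_le_one_iff_of_nonneg _ h1).2 (sub_le_self 1 hw0)
  have hsa1 : IsSelfAdjoint (1 - w) := (IsSelfAdjoint.one A).sub hwsa
  have h2 : f (star (1 - w) * (1 - w)) = 0 := by
    obtain ⟨s, hs⟩ := CStarAlgebra.nonneg_iff_eq_star_mul_self.1 h1
    have hs1 : ‖s‖ ≤ 1 := by
      rw [hs, CStarRing.norm_star_mul_self] at h1'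
      nlinarith [norm_nonneg s]
    have hs2 : s * star s ≤ 1 := by
      refine (CStarAlgebra.norm_le_one_iff_of_nonneg _ (mul_star_self_nonneg s)).1 ?_
      rw [CStarRing.norm_self_mul_star]
      nlinarith [norm_nonneg s]
    have h3 : star (1 - w) * (1 - w) ≤ 1 - w := by
      rw [hsa1.star_eq]
      calc (1 - w) * (1 - w) = star s * (s * star s) * s := by
            rw [hs]
            noncomm_ring
        _ ≤ star s * 1 * s := star_left_conjugate_le_conjugate hs2 s
        _ = 1 - w := by rw [mul_one, ← hs]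
    have h4 := IsPosTrace.re_mono hf.nonneg h3
    rw [map_sub, hf.map_one, h, sub_self, Complex.zero_re] at h4
    have h5 := Complex.nonneg_iff.1 (hf.nonneg (1 - w))
    exact Complex.ext (le_antisymm h4 h5.1) h5.2.symm
  have h3 := map_mul_eq_zero_of_null hf.nonneg h2 x
  rw [mul_sub, mul_one, map_sub, sub_eq_zero] at h3
  exact h3.symm

theorem IsState.mul_left (hf : IsState f) {w : A} (hw : IsPos w) (hw1 : ‖w‖ ≤ 1) (h : f w = 1)
    (x : A) : f (w * x) = f x := by
  have h1 := hf.mul_right hw hw1 h (star x)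
  have h2 : star (w * x) = star x * w := by
    rw [star_mul, (isSelfAdjoint_of_isPos hw).star_eq]
  rw [← h2, map_star_of_nonneg hf.nonneg, map_star_of_nonneg hf.nonneg] at h1
  exact star_injective h1

/-- limits of states along an ultrafilter -/
theorem exists_limit (F : ℕ → A →ₗ[ℂ] ℂ) (hF : ∀ n, IsState (F n)) (ω : Ultrafilter ℕ) :
    ∃ lam : A →ₗ[ℂ] ℂ, IsState lam ∧
      ∀ x, Tendsto (fun n => F n x) (ω : Filter ℕ) (𝓝 (lam x)) := by
  have hex : ∀ x, ∃ c, Tendsto (fun n => F n x) (ω : Filter ℕ) (𝓝 c) := by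
    intro x
    have hK : IsCompact (Metric.closedBall (0 : ℂ) ‖x‖) := isCompact_closedBall _ _
    obtain ⟨c, -, hc⟩ := hK.ultrafilter_le_nhds (ω.map fun n => F n x) (by
      rw [le_principal_iff]
      refine mem_map.2 (Eventually.of_forall fun n => ?_)
      rw [mem_closedBall_zero_iff]
      exact (hF n).norm_le x)
    exact ⟨c, hc⟩
  choose L hL using hex
  let lam : A →ₗ[ℂ] ℂ :=
    { toFun := L
      map_add' := fun x y => tendsto_nhds_unique (hL (x + y)) (((hL x).add (hL y)).congr fun n => by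
        rw [map_add])
      map_smul' := fun c x => tendsto_nhds_unique (hL (c • x)) (((hL x).const_smul c).congr
        fun n => by rw [map_smul]) }
  refine ⟨lam, ⟨?_, ?_⟩, hL⟩
  · exact tendsto_nhds_unique (hL 1) (tendsto_const_nhds.congr fun n => ((hF n).map_one).symm)
  · intro x
    exact ge_of_tendsto (hL (star x * x)) (Eventually.of_forall fun n => (hF n).nonneg x)

end States

section Estimates

variable {A : Type u} [CStarAlgebra A]

theorem conj_identity {z x a : A} (hz : IsSelfAdjoint z) (t : ℂ) (hx : cfc k0 z * x = x)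
    (hx' : x * cfc k0 z = x) :
    x * a * x - t • (x * x) =
      x * (cfc rr z * (z * a * z - t • (z * z)) * cfc rr z) * x := by
  have h1 := cfc_rr_mul hz
  have h2 := mul_cfc_rr hz
  have e1 : x * (cfc rr z * (z * a * z) * cfc rr z) * x = x * a * x := by
    calc x * (cfc rr z * (z * a * z) * cfc rr z) * x =
        (x * (cfc rr z * z)) * a * ((z * cfc rr z) * x) := by noncomm_ring
      _ = x * a * x := by rw [h1, h2, hx, hx']
  have e2 : x * (cfc rr z * (z * z) * cfc rr z) * x = x * x := by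
    calc x * (cfc rr z * (z * z) * cfc rr z) * x =
        (x * (cfc rr z * z)) * ((z * cfc rr z) * x) := by noncomm_ring
      _ = x * x := by rw [h1, h2, hx, hx']
  rw [mul_sub, sub_mul, mul_sub, sub_mul, mul_smul_comm, smul_mul_assoc, mul_smul_comm,
    smul_mul_assoc, e1, e2]

theorem norm_conj_le {R y : A} (hR : ‖R‖ ≤ 2) {δ : ℝ} (hy : ‖y‖ ≤ δ) : ‖R * y * R‖ ≤ 4 * δ := by
  have hδ : 0 ≤ δ := (norm_nonneg _).trans hy
  calc ‖R * y * R‖ ≤ ‖R‖ * ‖y‖ * ‖R‖ :=
        (norm_mul_le _ _).trans (mul_le_mul_of_nonneg_right (norm_mul_le _ _) (norm_nonneg _))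
    _ ≤ 2 * δ * 2 := by
        refine mul_le_mul (mul_le_mul hR hy (norm_nonneg _) (by norm_num)) hR (norm_nonneg _) ?_
        positivity
    _ = 4 * δ := by ring

theorem est_x {z x a : A} (hz : IsSelfAdjoint z) {t : ℂ} (hx : cfc k0 z * x = x)
    (hxsa : IsSelfAdjoint x) (hx1 : ‖x‖ ≤ 1) {δ : ℝ}
    (h : ‖z * a * z - t • (z * z)‖ ≤ δ) : ‖x * a * x - t • (x * x)‖ ≤ 4 * δ := by
  have hx' : x * cfc k0 z = x := by
    have h1 := congrArg star hx
    rwa [star_mul, hxsa.star_eq, (cfc_predicate k0 z : IsSelfAdjoint (cfc k0 z)).star_eq] at h1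
  rw [conj_identity hz t hx hx']
  have h2 := norm_conj_le (norm_cfc_rr z) h
  set Y := cfc rr z * (z * a * z - t • (z * z)) * cfc rr z
  have hδ : 0 ≤ 4 * δ := (norm_nonneg _).trans h2
  calc ‖x * Y * x‖ ≤ ‖x‖ * ‖Y‖ * ‖x‖ :=
        (norm_mul_le _ _).trans (mul_le_mul_of_nonneg_right (norm_mul_le _ _) (norm_nonneg _))
    _ ≤ 1 * (4 * δ) * 1 := by
        refine mul_le_mul (mul_le_mul hx1 h2 (norm_nonneg _) (by norm_num)) hx1 (norm_nonneg _) ?_
        linarith
    _ = 4 * δ := by ring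

theorem isPos_cfc_k0 {v : A} : IsPos (cfc k0 v) := by
  let _ := CStarAlgebra.spectralOrder A
  have _ := CStarAlgebra.spectralOrderedRing A
  exact isPos_of_nonneg' (cfc_nonneg fun x _ => k0_nonneg x)

theorem isPos_cfc_k1 {v : A} : IsPos (cfc k1 v) := by
  let _ := CStarAlgebra.spectralOrder A
  have _ := CStarAlgebra.spectralOrderedRing A
  exact isPos_of_nonneg' (cfc_nonneg fun x _ => k1_nonneg x)

theorem est_lam {f : A →ₗ[ℂ] ℂ} (hf : IsState f) {z a : A} (hz : IsPos z) (hz1 : ‖z‖ = 1)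
    (hfz : f (cfc k0 z) = 1) {t : ℂ} {δ : ℝ} (h : ‖z * a * z - t • (z * z)‖ ≤ δ) :
    ‖f a - t‖ ≤ 4 * δ := by
  have hsa := isSelfAdjoint_of_isPos hz
  have hk : ‖cfc k0 z‖ ≤ 1 := (norm_cfc_k0 hz hz1).le
  have h1 : f (cfc k0 z * a * cfc k0 z) = f a := by
    rw [hf.mul_right isPos_cfc_k0 hk hfz, hf.mul_left isPos_cfc_k0 hk hfz]
  have h2 : f (cfc k0 z * cfc k0 z) = 1 := by
    rw [hf.mul_right isPos_cfc_k0 hk hfz, hfz]
  have h3 : cfc k0 z * a * cfc k0 z - t • (cfc k0 z * cfc k0 z) =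
      cfc rr z * (z * a * z - t • (z * z)) * cfc rr z := by
    rw [mul_sub, sub_mul, mul_smul_comm, smul_mul_assoc]
    have e1 : cfc rr z * (z * a * z) * cfc rr z = cfc k0 z * a * cfc k0 z := by
      calc cfc rr z * (z * a * z) * cfc rr z = (cfc rr z * z) * a * (z * cfc rr z) := by
            noncomm_ring
        _ = _ := by rw [cfc_rr_mul hsa, mul_cfc_rr hsa]
    have e2 : cfc rr z * (z * z) * cfc rr z = cfc k0 z * cfc k0 z := by
      calc cfc rr z * (z * z) * cfc rr z = (cfc rr z * z) * (z * cfc rr z) := by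
            noncomm_ring
        _ = _ := by rw [cfc_rr_mul hsa, mul_cfc_rr hsa]
    rw [e1, e2]
  have h4 : f a - t = f (cfc rr z * (z * a * z - t • (z * z)) * cfc rr z) := by
    rw [← h3, map_sub, map_smul, h1, h2, smul_eq_mul, mul_one]
  rw [h4]
  exact (hf.norm_le _).trans (norm_conj_le (norm_cfc_rr z) h)

end Estimates

section Chain

variable {A : Type u} [CStarAlgebra A]

/-- A chain of positive elements excising the elements `a n`. -/
structure IsChain' (a v : ℕ → A) (t : ℕ → ℝ) : Prop where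
  pos : ∀ n, IsPos (v n)
  norm : ∀ n, ‖v n‖ = 1
  fix : ∀ n, cfc k0 (v n) * v (n + 1) = v (n + 1)
  exc : ∀ n, ‖v (n + 1) * a n * v (n + 1) - (t n : ℂ) • (v (n + 1) * v (n + 1))‖ ≤
    1 / ((n : ℝ) + 1)

theorem exists_chain (a : ℕ → A) (ha : ∀ n, IsSelfAdjoint (a n)) (y : A) (hy : IsPos y)
    (hy1 : ‖y‖ = 1) : ∃ (v : ℕ → A) (t : ℕ → ℝ), IsChain' a v t ∧ v 0 = y := by
  have step : ∀ (n : ℕ) (v : {v : A // IsPos v ∧ ‖v‖ = 1}), ∃ (z : {v : A // IsPos v ∧ ‖v‖ = 1})
      (t : ℝ), cfc k0 v.1 * z.1 = z.1 ∧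
        ‖z.1 * a n * z.1 - (t : ℂ) • (z.1 * z.1)‖ ≤ 1 / ((n : ℝ) + 1) := by
    intro n v
    obtain ⟨z, t, h1, h2, h3, -, h5⟩ := excision_step (cfc k1 v.1) isPos_cfc_k1
      (norm_cfc_k1 v.2.1 v.2.2) (a n) (ha n) (1 / ((n : ℝ) + 1)) (by positivity)
    exact ⟨⟨z, h1, h2⟩, t, h3 _ (cfc_k0_mul_k1 (isSelfAdjoint_of_isPos v.2.1)), h5⟩
  choose nx t h1 h2 using step
  let v : ℕ → {v : A // IsPos v ∧ ‖v‖ = 1} := fun n => Nat.rec ⟨y, hy, hy1⟩ (fun n v => nx n v) n
  exact ⟨fun n => (v n).1, fun n => t n (v n), ⟨fun n => (v n).2.1, fun n => (v n).2.2,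
    fun n => h1 n (v n), fun n => h2 n (v n)⟩, rfl⟩

variable {a v : ℕ → A} {t : ℕ → ℝ}

theorem IsChain'.fix_lt (h : IsChain' a v t) {n m : ℕ} (hnm : n < m) :
    cfc k0 (v n) * v m = v m := by
  induction m, hnm using Nat.le_induction with
  | base => exact h.fix n
  | succ m hm ih =>
    have h1 := fix_cfc (isSelfAdjoint_of_isPos (h.pos m)) ih k0 continuous_k0 k0_zero
    rw [← h.fix m, ← mul_assoc, h1]

theorem IsChain'.fix_k0 (h : IsChain' a v t) {n m : ℕ} (hnm : n < m) :
    cfc k0 (v n) * cfc k0 (v m) = cfc k0 (v m) :=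
  fix_cfc (isSelfAdjoint_of_isPos (h.pos m)) (h.fix_lt hnm) k0 continuous_k0 k0_zero

theorem IsChain'.exists_state (h : IsChain' a v t) :
    ∃ lam : A →ₗ[ℂ] ℂ, IsState lam ∧ ∀ n, lam (cfc k0 (v n)) = 1 := by
  have h1 : ∀ n, ∃ f : A →ₗ[ℂ] ℂ, IsState f ∧ f (cfc k0 (v n)) = 1 := fun n =>
    Excision.exists_state isPos_cfc_k0 (norm_cfc_k0 (h.pos n) (h.norm n))
  choose F hF hF1 using h1
  obtain ⟨lam, hlam, hlim⟩ := exists_limit F hF (hyperfilter ℕ)
  refine ⟨lam, hlam, fun m => ?_⟩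
  refine tendsto_nhds_unique (hlim (cfc k0 (v m))) (tendsto_const_nhds.congr' ?_)
  have h2 : ∀ᶠ n in (hyperfilter ℕ : Filter ℕ), m ≤ n :=
    Nat.hyperfilter_le_atTop (eventually_ge_atTop m)
  filter_upwards [h2] with n hn
  rcases hn.eq_or_lt with rfl | hlt
  · exact (hF1 m).symm
  · have h3 := (hF n).mul_right isPos_cfc_k0 (norm_cfc_k0 (h.pos n) (h.norm n)).le (hF1 n)
      (cfc k0 (v m))
    rw [h.fix_k0 hlt, hF1 n] at h3
    exact h3

/-- The excision property of a chain for an element. -/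
def Exc (v : ℕ → A) (lam : A →ₗ[ℂ] ℂ) (b : A) : Prop :=
  Tendsto (fun m => ‖v m * b * v m - lam b • (v m * v m)‖) atTop (𝓝 0)

theorem IsChain'.exc_of (h : IsChain' a v t) {lam : A →ₗ[ℂ] ℂ} (hlam : IsState lam)
    (h1 : ∀ n, lam (cfc k0 (v n)) = 1) {b : A} (hb : ∀ k : ℕ, ∃ n ≥ k, a n = b) :
    Exc v lam b := by
  rw [Exc, Metric.tendsto_atTop]
  intro ε hε
  obtain ⟨k, hk⟩ := exists_nat_one_div_lt (show (0 : ℝ) < ε / 8 by positivity)
  obtain ⟨n, hn, rfl⟩ := hb k
  refine ⟨n + 2, fun m hm => ?_⟩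
  rw [dist_zero_right, norm_norm]
  set δ : ℝ := 1 / ((n : ℝ) + 1) with hδ
  have hδε : δ < ε / 8 := by
    refine lt_of_le_of_lt ?_ hk
    have : (k : ℝ) ≤ n := by exact_mod_cast hn
    exact one_div_le_one_div_of_le (by positivity) (by linarith)
  have h2 := h.exc n
  have h3 : ‖v m * a n * v m - (t n : ℂ) • (v m * v m)‖ ≤ 4 * δ :=
    est_x (isSelfAdjoint_of_isPos (h.pos (n + 1))) (h.fix_lt (show n + 1 < m by omega))
      (isSelfAdjoint_of_isPos (h.pos m)) (h.norm m).le h2
  have h4 : ‖lam (a n) - (t n : ℂ)‖ ≤ 4 * δ :=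
    est_lam hlam (h.pos (n + 1)) (h.norm (n + 1)) (h1 (n + 1)) h2
  have h5 : v m * a n * v m - lam (a n) • (v m * v m) =
      (v m * a n * v m - (t n : ℂ) • (v m * v m)) - (lam (a n) - (t n : ℂ)) • (v m * v m) := by
    rw [sub_smul]
    abel
  rw [h5]
  have h6 : ‖v m * v m‖ ≤ 1 := by
    refine (norm_mul_le _ _).trans ?_
    rw [h.norm m, one_mul]
  have h7 : ‖(lam (a n) - (t n : ℂ)) • (v m * v m)‖ ≤ 4 * δ := by
    rw [norm_smul]
    calc ‖lam (a n) - (t n : ℂ)‖ * ‖v m * v m‖ ≤ 4 * δ * 1 :=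
          mul_le_mul h4 h6 (norm_nonneg _) ((norm_nonneg _).trans h4)
      _ = 4 * δ := mul_one _
  have h8 := norm_sub_le (v m * a n * v m - (t n : ℂ) • (v m * v m))
    ((lam (a n) - (t n : ℂ)) • (v m * v m))
  linarith

theorem exc_of_closure (hv : ∀ n, ‖v n‖ = 1) {lam : A →ₗ[ℂ] ℂ} (hlam : IsState lam) {b : A}
    (hb : ∀ ε > 0, ∃ c, Exc v lam c ∧ ‖b - c‖ < ε) : Exc v lam b := by
  rw [Exc, Metric.tendsto_atTop]
  intro ε hε
  obtain ⟨c, hc, hbc⟩ := hb (ε / 4) (by positivity)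
  rw [Exc, Metric.tendsto_atTop] at hc
  obtain ⟨N, hN⟩ := hc (ε / 4) (by positivity)
  refine ⟨N, fun m hm => ?_⟩
  have h1 := hN m hm
  rw [dist_zero_right, norm_norm] at h1 ⊢
  have hvv : ‖v m * v m‖ ≤ 1 := by
    refine (norm_mul_le _ _).trans ?_
    rw [hv m, one_mul]
  have h2 : v m * b * v m - lam b • (v m * v m) = v m * (b - c) * v m +
      (v m * c * v m - lam c • (v m * v m)) - lam (b - c) • (v m * v m) := by
    rw [map_sub, sub_smul]
    noncomm_ring
  have h3 : ‖v m * (b - c) * v m‖ ≤ ‖b - c‖ := by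
    calc ‖v m * (b - c) * v m‖ ≤ ‖v m‖ * ‖b - c‖ * ‖v m‖ :=
          (norm_mul_le _ _).trans (mul_le_mul_of_nonneg_right (norm_mul_le _ _) (norm_nonneg _))
      _ = ‖b - c‖ := by rw [hv m, one_mul, mul_one]
  have h4 : ‖lam (b - c) • (v m * v m)‖ ≤ ‖b - c‖ := by
    rw [norm_smul]
    calc ‖lam (b - c)‖ * ‖v m * v m‖ ≤ ‖b - c‖ * 1 :=
          mul_le_mul (hlam.norm_le _) hvv (norm_nonneg _) (norm_nonneg _)
      _ = ‖b - c‖ := mul_one _
  rw [h2]
  have h5 := norm_sub_le (v m * (b - c) * v m + (v m * c * v m - lam c • (v m * v m)))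
    (lam (b - c) • (v m * v m))
  have h6 := norm_add_le (v m * (b - c) * v m) (v m * c * v m - lam c • (v m * v m))
  linarith

theorem Exc.add_smul {lam : A →ₗ[ℂ] ℂ} {b c : A} (hb : Exc v lam b) (hc : Exc v lam c) (μ : ℂ) :
    Exc v lam (b + μ • c) := by
  have h1 : Tendsto (fun m => ‖v m * b * v m - lam b • (v m * v m)‖ +
      ‖μ‖ * ‖v m * c * v m - lam c • (v m * v m)‖) atTop (𝓝 (0 + ‖μ‖ * 0)) :=
    hb.add (hc.const_mul _)
  rw [mul_zero, add_zero] at h1
  refine squeeze_zero (fun _ => norm_nonneg _) (fun m => ?_) h1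
  have h2 : v m * (b + μ • c) * v m - lam (b + μ • c) • (v m * v m) =
      (v m * b * v m - lam b • (v m * v m)) + μ • (v m * c * v m - lam c • (v m * v m)) := by
    rw [map_add, map_smul, smul_eq_mul, _root_.add_smul, mul_add, add_mul, mul_smul_comm,
      smul_mul_assoc, smul_sub, smul_smul]
    abel
  rw [h2]
  refine (norm_add_le _ _).trans ?_
  rw [norm_smul]

end Chain

end Excision

open Excision in
/-- Every nonzero positive element is seen by an excisable state. -/
theorem exists_excisable {A : Type u} [CStarAlgebra A] [SeparableSpace A] (y : A) (hy : IsPos y)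
    (hy0 : y ≠ 0) : ∃ lam : A →ₗ[ℂ] ℂ, Excisable lam ∧ (∀ a, 0 ≤ lam (star a * a)) ∧
      (∀ a, lam (star a) = star (lam a)) ∧ 0 < (lam y).re := by
  classical
  let _ := CStarAlgebra.spectralOrder A
  have _ := CStarAlgebra.spectralOrderedRing A
  have hn : 0 < ‖y‖ := norm_pos_iff.2 hy0
  -- dense sequence of selfadjoint elements
  obtain ⟨d, hd⟩ := exists_dense_seq (selfAdjoint A)
  -- the normalised element
  set y₁ : A := (‖y‖⁻¹ : ℝ) • y with hy₁
  have hy₁p : IsPos y₁ := isPos_of_nonneg' (smul_nonneg (inv_nonneg.2 hn.le) (nonneg_of_isPos hy))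
  have hy₁n : ‖y₁‖ = 1 := by
    rw [hy₁, norm_smul, Real.norm_eq_abs, abs_of_nonneg (inv_nonneg.2 hn.le),
      inv_mul_cancel₀ hn.ne']
  obtain ⟨v, t, hch, hv0⟩ := exists_chain (fun n => ((d (Nat.unpair n).1 : selfAdjoint A) : A))
    (fun n => (d (Nat.unpair n).1).2) y₁ hy₁p hy₁n
  obtain ⟨lam, hlam, hlam1⟩ := hch.exists_state
  have hexc_d : ∀ j, Exc v lam (d j : A) := by
    intro j
    refine hch.exc_of hlam hlam1 fun k => ⟨Nat.pair j k, Nat.right_le_pair j k, ?_⟩
    rw [Nat.unpair_pair]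
  have hexc_sa : ∀ b : A, IsSelfAdjoint b → Exc v lam b := by
    intro b hb
    refine exc_of_closure hch.norm hlam fun ε hε => ?_
    obtain ⟨j, hj⟩ := (Metric.denseRange_iff.1 hd) ⟨b, hb⟩ ε hε
    refine ⟨d j, hexc_d j, ?_⟩
    rw [Subtype.dist_eq, dist_eq_norm] at hj
    exact hj
  have hexc : ∀ b : A, Exc v lam b := by
    intro b
    have h1 := (hexc_sa (realPart b : A) (realPart b).2).add_smul
      (hexc_sa (imaginaryPart b : A) (imaginaryPart b).2) Complex.I
    rwa [realPart_add_I_smul_imaginaryPart] at h1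
  refine ⟨lam, ?_, hlam.nonneg, map_star_of_nonneg hlam.nonneg, ?_⟩
  · intro F δ hδ
    have h1 : ∀ᶠ m in atTop, ∀ b ∈ F, ‖v m * b * v m - lam b • (v m * v m)‖ ≤ δ := by
      rw [Filter.eventually_all_finset]
      intro b _
      exact ((hexc b).eventually (gt_mem_nhds hδ)).mono fun m hm => hm.le
    obtain ⟨m, hm⟩ := h1.exists
    exact ⟨v m, hch.pos m, hch.norm m, hm⟩
  · have h1 := hlam1 0
    rw [hv0] at h1
    have h2 : cfc k0 y₁ ≤ y₁ + y₁ := by
      have hsa := isSelfAdjoint_of_isPos hy₁p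
      have h3 : cfc k0 y₁ ≤ cfc (fun x : ℝ => x + x) y₁ := by
        refine cfc_mono (fun x hx => ?_) continuous_k0.continuousOn (by fun_prop)
        have h4 := spectrum_subset hy₁p hy₁n.le hx
        linarith [k0_le_two_mul h4.1 h4.2]
      rwa [cfc_add y₁ (fun x : ℝ => x) (fun x : ℝ => x) (by fun_prop) (by fun_prop),
        cfc_id' ℝ y₁] at h3
    have h3 := IsPosTrace.re_mono hlam.nonneg h2
    rw [h1, map_add, Complex.add_re, Complex.one_re] at h3
    have h4 : lam y₁ = ((‖y‖⁻¹ : ℝ) : ℂ) * lam y := by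
      rw [hy₁, ← Complex.coe_smul, map_smul, smul_eq_mul]
    rw [h4, Complex.re_ofReal_mul] at h3
    have h5 : 0 < ‖y‖⁻¹ * (lam y).re := by linarith
    exact (pos_iff_pos_of_mul_pos h5).1 (inv_pos.2 hn)

end Vale.Agent.P095
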