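import Vale.Agent.P095.AFExcOf
import Vale.Agent.P095.Excision

/-!
# P095: separable AF algebras have excisable approximations
-/

open Filter Topology TopologicalSpace
open scoped BoundedContinuousFunction ComplexOrder

namespace Vale.Agent.P095

open Vale.Agent.P101

universe u v w

theorem excApprox_of_isAF {A : Type u} [CStarAlgebra A] [SeparableSpace A] (h : IsAF A) :
    ExcApprox A :=
  excApprox_of_isAF_of (fun y hy hy0 => exists_excisable y hy hy0) h

end Vale.Agent.P095
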