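import Vale.Agent.P095.AFDefs

/-!
# P095: AF algebras have excisable approximations
-/

open Filter Topology TopologicalSpace
open scoped BoundedContinuousFunction ComplexOrder

namespace Vale.Agent.P095

open Vale.Agent.P101

universe u v w

namespace AFExc

section Theta

variable {A : Type u} [CStarAlgebra A]

/-- One block of the approximating map. -/
noncomputable def blk {k : ℕ} (lam : A →ₗ[ℂ] ℂ) (b c : Fin k → A) : A →ₗ[ℂ] A :=
  ∑ i, ∑ j, (LinearMap.toSpanSingleton ℂ A (star (c i) * c j)).comp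
    (lam.comp ((LinearMap.mulLeft ℂ (star (b i))).comp (LinearMap.mulRight ℂ (b j))))

theorem blk_apply {k : ℕ} (lam : A →ₗ[ℂ] ℂ) (b c : Fin k → A) (a : A) :
    blk lam b c a = ∑ i, ∑ j, lam (star (b i) * a * b j) • (star (c i) * c j) := by
  unfold blk
  rw [LinearMap.sum_apply]
  refine Finset.sum_congr rfl fun i _ => ?_
  rw [LinearMap.sum_apply]
  refine Finset.sum_congr rfl fun j _ => ?_
  show lam (star (b i) * (a * b j)) • (star (c i) * c j) = _
  rw [mul_assoc]

/-- Positivity. -/
theorem blk_pos {k : ℕ} (lam : A →ₗ[ℂ] ℂ) (h0 : ∀ a, 0 ≤ lam (star a * a))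
    (hstar : ∀ a, lam (star a) = star (lam a)) (b c : Fin k → A) (y : A) :
    ∃ (m : ℕ) (z : Fin m → A), blk lam b c (star y * y) = ∑ l, star (z l) * z l := by
  classical
  let G : Matrix (Fin k) (Fin k) ℂ := fun i j => lam (star (y * b i) * (y * b j))
  have hq : ∀ x : Fin k → ℂ, 0 ≤ star x ⬝ᵥ (G.mulVec x) := by
    intro x
    have h1 := h0 (∑ i, x i • (y * b i))
    have h2 : star x ⬝ᵥ (G.mulVec x) =
        lam (star (∑ i, x i • (y * b i)) * ∑ i, x i • (y * b i)) := by
      rw [star_sum, Finset.sum_mul_sum, map_sum, dotProduct]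
      refine Finset.sum_congr rfl fun i _ => ?_
      rw [map_sum, Matrix.mulVec, dotProduct, Finset.mul_sum]
      refine Finset.sum_congr rfl fun j _ => ?_
      rw [star_smul, smul_mul_smul_comm, map_smul, smul_eq_mul]
      show star (x i) * (G i j * x j) = star (x i) * x j * G i j
      ring
    rw [h2]
    exact h1
  have hG : G.PosSemidef := by
    refine Matrix.PosSemidef.of_dotProduct_mulVec_nonneg ?_ hq
    ext i j
    rw [Matrix.conjTranspose_apply]
    show star (lam (star (y * b j) * (y * b i))) = lam (star (y * b i) * (y * b j))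
    rw [← hstar, star_mul, star_star]
  obtain ⟨m, v, hv⟩ := Matrix.posSemidef_iff_eq_sum_vecMulVec.1 hG
  refine ⟨m, fun l => ∑ j, star (v l j) • c j, ?_⟩
  rw [blk_apply]
  have h3 : ∀ i j, lam (star (b i) * (star y * y) * b j) = ∑ l, v l i * star (v l j) := by
    intro i j
    have h4 : lam (star (b i) * (star y * y) * b j) = G i j := by
      show _ = lam (star (y * b i) * (y * b j))
      rw [star_mul]
      simp only [mul_assoc]
    rw [h4, hv, Matrix.sum_apply]
    exact Finset.sum_congr rfl fun l _ => rfl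
  have h5 : ∀ l, star (∑ j, star (v l j) • c j) * (∑ j, star (v l j) • c j) =
      ∑ i, ∑ j, (v l i * star (v l j)) • (star (c i) * c j) := by
    intro l
    rw [star_sum, Finset.sum_mul_sum]
    refine Finset.sum_congr rfl fun i _ => Finset.sum_congr rfl fun j _ => ?_
    rw [star_smul, star_star, smul_mul_smul_comm]
  have h6 : ∑ l, star (∑ j, star (v l j) • c j) * (∑ j, star (v l j) • c j) =
      ∑ l, ∑ i, ∑ j, (v l i * star (v l j)) • (star (c i) * c j) :=
    Finset.sum_congr rfl fun l _ => h5 l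
  refine Eq.trans ?_ h6.symm
  conv_rhs => rw [Finset.sum_comm]
  refine Finset.sum_congr rfl fun i _ => ?_
  conv_rhs => rw [Finset.sum_comm]
  refine Finset.sum_congr rfl fun j _ => ?_
  rw [h3, Finset.sum_smul]

/-- A linear map which is unital and maps `y* y` to positive elements is bounded by `6`. -/
theorem norm_le_of_positive (Θ : A →ₗ[ℂ] A) (h1 : Θ 1 = 1)
    (hpos : ∀ y, ∃ (m : ℕ) (z : Fin m → A), Θ (star y * y) = ∑ l, star (z l) * z l) (a : A) :
    ‖Θ a‖ ≤ 6 * ‖a‖ := by
  let _ := CStarAlgebra.spectralOrder A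
  let _ := CStarAlgebra.spectralOrderedRing A
  have hp : ∀ x : A, 0 ≤ x → 0 ≤ Θ x := by
    intro x hx
    obtain ⟨y, rfl⟩ := CStarAlgebra.nonneg_iff_eq_star_mul_self.1 hx
    obtain ⟨m, z, hz⟩ := hpos y
    rw [hz]
    exact Finset.sum_nonneg fun l _ => star_mul_self_nonneg _
  have hsa : ∀ h : A, IsSelfAdjoint h → ‖Θ h‖ ≤ 3 * ‖h‖ := by
    intro h hh
    have e1 : algebraMap ℝ A ‖h‖ = (‖h‖ : ℂ) • (1 : A) := by
      rw [Algebra.algebraMap_eq_smul_one]
      exact (Complex.coe_smul ‖h‖ (1 : A)).symm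
    have h2 : 0 ≤ h + (‖h‖ : ℂ) • (1 : A) := by
      have := hh.neg_algebraMap_norm_le_self
      rw [e1] at this
      have h3 := sub_nonneg.2 this
      rwa [sub_neg_eq_add] at h3
    have h3 : h + (‖h‖ : ℂ) • (1 : A) ≤ ((2 * ‖h‖ : ℝ) : ℂ) • (1 : A) := by
      have := hh.le_algebraMap_norm_self
      rw [e1] at this
      calc h + (‖h‖ : ℂ) • (1 : A) ≤ (‖h‖ : ℂ) • (1 : A) + (‖h‖ : ℂ) • (1 : A) := by gcongr
        _ = ((2 * ‖h‖ : ℝ) : ℂ) • (1 : A) := by
          rw [← add_smul]; congr 1; push_cast; ring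
    have h4 := hp _ h2
    have h5 := hp _ (sub_nonneg.2 h3)
    rw [map_sub, sub_nonneg, map_smul, h1] at h5
    have h6 : ‖Θ (h + (‖h‖ : ℂ) • (1 : A))‖ ≤ 2 * ‖h‖ := by
      rw [CStarAlgebra.norm_le_iff_le_algebraMap _ (by positivity) h4,
        Algebra.algebraMap_eq_smul_one, ← Complex.coe_smul]
      exact h5
    rcases subsingleton_or_nontrivial A with hA | hA
    · have : Θ h = 0 := Subsingleton.elim _ _
      rw [this, norm_zero]
      positivity
    rw [map_add, map_smul, h1] at h6
    calc ‖Θ h‖ = ‖(Θ h + (‖h‖ : ℂ) • (1 : A)) - (‖h‖ : ℂ) • (1 : A)‖ := by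
          rw [add_sub_cancel_right]
      _ ≤ ‖Θ h + (‖h‖ : ℂ) • (1 : A)‖ + ‖(‖h‖ : ℂ) • (1 : A)‖ := norm_sub_le _ _
      _ ≤ 2 * ‖h‖ + ‖h‖ := by
          gcongr
          rw [norm_smul, Complex.norm_real, norm_norm, CStarRing.norm_one, mul_one]
      _ = 3 * ‖h‖ := by ring
  have hre : ‖(realPart a : A)‖ ≤ ‖a‖ := realPart.norm_le a
  have him : ‖(imaginaryPart a : A)‖ ≤ ‖a‖ := imaginaryPart.norm_le a
  have hdec := realPart_add_I_smul_imaginaryPart a
  calc ‖Θ a‖ = ‖Θ (realPart a : A) + Complex.I • Θ (imaginaryPart a : A)‖ := by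
        rw [← map_smul, ← map_add, hdec]
    _ ≤ ‖Θ (realPart a : A)‖ + ‖Complex.I • Θ (imaginaryPart a : A)‖ := norm_add_le _ _
    _ ≤ 3 * ‖a‖ + 3 * ‖a‖ := by
        rw [norm_smul, Complex.norm_I, one_mul]
        refine add_le_add ((hsa _ (realPart a).2).trans ?_) ((hsa _ (imaginaryPart a).2).trans ?_)
        · gcongr
        · gcongr
    _ = 6 * ‖a‖ := by ring

end Theta

end AFExc

open AFExc in
/-- AF algebras have excisable approximations, given that there are enough excisable
functionals. -/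
theorem excApprox_of_isAF_of {A : Type u} [CStarAlgebra A]
    (hE : ∀ y : A, IsPos y → y ≠ 0 → ∃ lam : A →ₗ[ℂ] ℂ, Excisable lam ∧
      (∀ a, 0 ≤ lam (star a * a)) ∧ (∀ a, lam (star a) = star (lam a)) ∧ 0 < (lam y).re)
    (h : IsAF A) : ExcApprox A := by
  classical
  intro F ε hε
  rcases subsingleton_or_nontrivial A with hA | hA
  · refine ⟨0, 0, Fin.elim0, Fin.elim0, Fin.elim0, fun p => Fin.elim0 p, fun a _ => ?_⟩
    rw [Subsingleton.elim (_ - a) 0, norm_zero]
    exact hε
  obtain ⟨m, n, φ, hφ⟩ := h F (ε / 8) (by positivity)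
  -- matrix units
  let E : ∀ p, Fin (n p) → Fin (n p) → A := fun p i j => φ (Pi.single p (Matrix.single i j 1))
  have hEmul : ∀ p i j l, E p i j * E p j l = E p i l := by
    intro p i j l
    show φ _ * φ _ = φ _
    rw [← map_mul, ← Pi.single_mul, Matrix.single_mul_single_same, one_mul]
  have hEstar : ∀ p i j, star (E p i j) = E p j i := by
    intro p i j
    show star (φ _) = φ _
    rw [← map_star]
    congr 1
    rw [← Pi.single_star]
    congr 1
    rw [Matrix.star_eq_conjTranspose, Matrix.conjTranspose_single, star_one]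
  have hEx : ∀ p i j l k (x : ∀ i, Matrix (Fin (n i)) (Fin (n i)) ℂ),
      E p i j * φ x * E p l k = x p j l • E p i k := by
    intro p i j l k x
    show φ _ * φ _ * φ _ = _ • φ _
    rw [← map_mul, ← map_mul, ← map_smul]
    congr 1
    funext q
    by_cases hq : q = p
    · subst hq
      simp only [Pi.mul_apply, Pi.single_eq_same, Pi.smul_apply]
      rw [Matrix.single_mul_mul_single, one_mul, mul_one, Matrix.smul_single, smul_eq_mul,
        mul_one]
    · simp only [Pi.mul_apply, Pi.single_eq_of_ne hq, Pi.smul_apply, zero_mul, mul_zero, smul_zero]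
  -- live blocks
  have hdead : ∀ p, (¬ ∃ i, E p i i ≠ 0) → ∀ i j, E p i j = 0 := by
    intro p hp i j
    push Not at hp
    rw [← hEmul p i i j, hp i, zero_mul]
  -- excisable functionals
  have hsel : ∀ p, ∃ lam : A →ₗ[ℂ] ℂ, Excisable lam ∧
      (∀ a, 0 ≤ lam (star a * a)) ∧ (∀ a, lam (star a) = star (lam a)) ∧
      ((∃ i, E p i i ≠ 0) → ∃ i, 0 < (lam (E p i i)).re) := by
    intro p
    by_cases hp : ∃ i, E p i i ≠ 0
    · obtain ⟨i, hi⟩ := hp
      obtain ⟨lam, h1, h2, h3, h4⟩ := hE (E p i i) ⟨E p i i, by rw [hEstar, hEmul]⟩ hi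
      exact ⟨lam, h1, h2, h3, fun _ => ⟨i, h4⟩⟩
    · obtain ⟨lam, h1, h2, h3, h4⟩ := hE 1 ⟨1, by rw [star_one, mul_one]⟩ one_ne_zero
      exact ⟨lam, h1, h2, h3, fun h => absurd h hp⟩
  choose lam hl1 hl2 hl3 hl4 using hsel
  let K : ℕ := ∑ p, n p
  have hK : ∀ p, n p ≤ K := fun p => Finset.single_le_sum (f := n) (fun _ _ => Nat.zero_le _)
    (Finset.mem_univ p)
  -- the elements `b` and `c`
  have hbc : ∀ p, ∃ b c : Fin K → A, ∀ x : ∀ i, Matrix (Fin (n i)) (Fin (n i)) ℂ,
      blk (lam p) b c (φ x) = φ (Pi.single p (x p)) := by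
    intro p
    by_cases hp : ∃ i, E p i i ≠ 0
    · obtain ⟨i0, hi0⟩ := hl4 p hp
      let r : ℝ := (lam p (E p i0 i0)).re
      have hr : 0 < r := hi0
      have hr2 : lam p (E p i0 i0) = (r : ℂ) := by
        have h1 := hl2 p (E p i0 i0)
        rw [hEstar, hEmul] at h1
        exact Complex.ext rfl (by
          rw [Complex.ofReal_im]
          exact (Complex.nonneg_iff.1 h1).2.symm)
      let s : ℝ := (Real.sqrt r)⁻¹
      have hs : s * s * r = 1 := by
        have h1 := Real.mul_self_sqrt hr.le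
        have h2 : Real.sqrt r ≠ 0 := (Real.sqrt_pos.2 hr).ne'
        show (Real.sqrt r)⁻¹ * (Real.sqrt r)⁻¹ * r = 1
        rw [← mul_inv, h1, inv_mul_cancel₀ hr.ne']
      let b : Fin K → A := fun j => if hj : (j : ℕ) < n p then (s : ℂ) • E p ⟨j, hj⟩ i0 else 0
      let c : Fin K → A := fun j => if hj : (j : ℕ) < n p then E p i0 ⟨j, hj⟩ else 0
      refine ⟨b, c, fun x => ?_⟩
      rw [blk_apply]
      -- reduce the sum over `Fin K` to the sum over `Fin (n p)`
      have hsum : ∀ f : Fin K → A, (∀ j : Fin K, ¬ (j : ℕ) < n p → f j = 0) →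
          ∑ j, f j = ∑ j : Fin (n p), f (Fin.castLE (hK p) j) := by
        intro f hf
        rw [← Finset.sum_image (s := Finset.univ) (g := Fin.castLE (hK p)) (f := f)
          (fun a _ b _ hab => Fin.castLE_injective (hK p) hab)]
        symm
        apply Finset.sum_subset (Finset.subset_univ _)
        intro j _ hj
        apply hf
        intro hlt
        apply hj
        rw [Finset.mem_image]
        exact ⟨⟨j, hlt⟩, Finset.mem_univ _, rfl⟩
      have hc0 : ∀ j : Fin K, ¬ (j : ℕ) < n p → c j = 0 := fun j hj => dif_neg hj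
      have hbv : ∀ j : Fin (n p), b (Fin.castLE (hK p) j) = (s : ℂ) • E p j i0 := by
        intro j
        exact dif_pos j.2
      have hcv : ∀ j : Fin (n p), c (Fin.castLE (hK p) j) = E p i0 j := by
        intro j
        exact dif_pos j.2
      rw [hsum _ fun i hi => by
        refine Finset.sum_eq_zero fun j _ => ?_
        rw [hc0 i hi, star_zero, zero_mul, smul_zero]]
      have hterm : ∀ i : Fin (n p), (∑ j, (lam p) (star (b (Fin.castLE (hK p) i)) * φ x * b j) •
          (star (c (Fin.castLE (hK p) i)) * c j)) = ∑ j : Fin (n p), x p i j • E p i j := by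
        intro i
        rw [hsum _ fun j hj => by rw [hc0 j hj, mul_zero, smul_zero]]
        refine Finset.sum_congr rfl fun j _ => ?_
        rw [hbv, hbv, hcv, hcv, hEstar, hEmul, star_smul, hEstar, smul_mul_assoc, smul_mul_assoc,
          mul_smul_comm, hEx, map_smul, map_smul, map_smul, hr2]
        congr 1
        rw [Complex.star_def, Complex.conj_ofReal, smul_eq_mul, smul_eq_mul, smul_eq_mul]
        have h1 : (s : ℂ) * s * r = 1 := by exact_mod_cast hs
        calc (s : ℂ) * (s * (x p i j * r)) = (s : ℂ) * s * r * x p i j := by ring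
          _ = x p i j := by rw [h1, one_mul]
      rw [Finset.sum_congr rfl fun i _ => hterm i]
      have hmat : (Pi.single p (x p) : ∀ i, Matrix (Fin (n i)) (Fin (n i)) ℂ) =
          ∑ i : Fin (n p), ∑ j : Fin (n p),
            x p i j • (Pi.single p (Matrix.single i j (1 : ℂ)) :
              ∀ i, Matrix (Fin (n i)) (Fin (n i)) ℂ) := by
        funext q
        simp only [Finset.sum_apply, Pi.smul_apply]
        by_cases hq : q = p
        · subst hq
          simp only [Pi.single_eq_same]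
          conv_lhs => rw [Matrix.matrix_eq_sum_single (x q)]
          refine Finset.sum_congr rfl fun i _ => Finset.sum_congr rfl fun j _ => ?_
          rw [Matrix.smul_single, smul_eq_mul, mul_one]
        · simp only [Pi.single_eq_of_ne hq, smul_zero, Finset.sum_const_zero]
      rw [hmat, map_sum]
      refine Finset.sum_congr rfl fun i _ => ?_
      rw [map_sum]
      refine Finset.sum_congr rfl fun j _ => ?_
      rw [map_smul]
    · refine ⟨fun _ => 0, fun _ => 0, fun x => ?_⟩
      rw [blk_apply]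
      have h1 : φ (Pi.single p (x p)) = 0 := by
        have hmat : (Pi.single p (x p) : ∀ i, Matrix (Fin (n i)) (Fin (n i)) ℂ) =
            ∑ i : Fin (n p), ∑ j : Fin (n p),
              x p i j • (Pi.single p (Matrix.single i j (1 : ℂ)) :
                ∀ i, Matrix (Fin (n i)) (Fin (n i)) ℂ) := by
          funext q
          simp only [Finset.sum_apply, Pi.smul_apply]
          by_cases hq : q = p
          · subst hq
            simp only [Pi.single_eq_same]
            conv_lhs => rw [Matrix.matrix_eq_sum_single (x q)]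
            refine Finset.sum_congr rfl fun i _ => Finset.sum_congr rfl fun j _ => ?_
            rw [Matrix.smul_single, smul_eq_mul, mul_one]
          · simp only [Pi.single_eq_of_ne hq, smul_zero, Finset.sum_const_zero]
        rw [hmat, map_sum]
        refine Finset.sum_eq_zero fun i _ => ?_
        rw [map_sum]
        refine Finset.sum_eq_zero fun j _ => ?_
        rw [map_smul]
        have := hdead p hp i j
        show x p i j • E p i j = 0
        rw [this, smul_zero]
      rw [h1]
      refine Finset.sum_eq_zero fun i _ => Finset.sum_eq_zero fun j _ => ?_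
      rw [mul_zero (star (0 : A)), smul_zero]
  choose b c hbc using hbc
  let Θ : A →ₗ[ℂ] A := ∑ p, blk (lam p) (b p) (c p)
  have hΘφ : ∀ x, Θ (φ x) = φ x := by
    intro x
    show (∑ p, blk (lam p) (b p) (c p)) (φ x) = φ x
    rw [LinearMap.sum_apply, Finset.sum_congr rfl fun p _ => hbc p x, ← map_sum]
    congr 1
    exact Finset.univ_sum_single x
  have hΘ1 : Θ 1 = 1 := by
    have := hΘφ 1
    rwa [map_one] at this
  have hΘpos : ∀ y, ∃ (m : ℕ) (z : Fin m → A), Θ (star y * y) = ∑ l, star (z l) * z l := by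
    intro y
    choose M z hz using fun p => blk_pos (lam p) (hl2 p) (hl3 p) (b p) (c p) y
    let e : (Σ p, Fin (M p)) ≃ Fin (Fintype.card (Σ p, Fin (M p))) := Fintype.equivFin _
    refine ⟨_, fun l => z (e.symm l).1 (e.symm l).2, ?_⟩
    have h7 : ∑ l, star (z (e.symm l).1 (e.symm l).2) * z (e.symm l).1 (e.symm l).2 =
        ∑ q : (Σ p, Fin (M p)), star (z q.1 q.2) * z q.1 q.2 :=
      e.symm.sum_comp (fun q : (Σ p, Fin (M p)) => star (z q.1 q.2) * z q.1 q.2)
    rw [h7, Fintype.sum_sigma]
    show (∑ p, blk (lam p) (b p) (c p)) (star y * y) = _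
    rw [LinearMap.sum_apply]
    exact Finset.sum_congr rfl fun p _ => hz p
  have hΘn := norm_le_of_positive Θ hΘ1 hΘpos
  refine ⟨m, K, lam, b, c, hl1, fun a ha => ?_⟩
  obtain ⟨x, hx⟩ := hφ a ha
  have h1 : (∑ p, ∑ i, ∑ j, lam p (star (b p i) * a * b p j) • (star (c p i) * c p j)) = Θ a := by
    show _ = (∑ p, blk (lam p) (b p) (c p)) a
    rw [LinearMap.sum_apply]
    exact Finset.sum_congr rfl fun p _ => (blk_apply _ _ _ _).symm
  rw [h1]
  calc ‖Θ a - a‖ = ‖(φ x - a) - Θ (φ x - a)‖ := by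
        rw [map_sub, hΘφ]
        congr 1
        abel
    _ ≤ ‖φ x - a‖ + ‖Θ (φ x - a)‖ := norm_sub_le _ _
    _ ≤ ‖φ x - a‖ + 6 * ‖φ x - a‖ := by gcongr; exact hΘn _
    _ = 7 * ‖φ x - a‖ := by ring
    _ < ε := by linarith

end Vale.Agent.P095
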