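import Vale.Agent.P095.AFComp

/-!
# P095: unital AF algebras have tracial states
-/

open Filter Topology TopologicalSpace
open scoped BoundedContinuousFunction ComplexOrder

namespace Vale.Agent.P095

open Vale.Agent.P101

universe u

open AFComp

/-- Nonzero unital AF algebras have a tracial state. -/
theorem exists_trace_of_isAF {A : Type u} [CStarAlgebra A] [SeparableSpace A] [Nontrivial A]
    (h : IsAF A) : ∃ τ : A →ₗ[ℂ] ℂ, IsTrace τ := by
  classical
  obtain ⟨d, hd⟩ := exists_dense_seq A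
  let δ : ℕ → ℝ := fun m => 1 / ((m : ℝ) + 1)
  have hδ0 : ∀ m, 0 < δ m := fun m => by positivity
  have hδ1 : ∀ m, δ m ≤ 1 := fun m => by
    have h1 : (1 : ℝ) ≤ (m : ℝ) + 1 := by
      have := Nat.cast_nonneg (α := ℝ) m
      linarith
    exact div_le_one_of_le₀ h1 (by positivity)
  have hδt : Tendsto δ atTop (𝓝 0) := tendsto_one_div_add_atTop_nhds_zero_nat
  have hdich : ∀ m : ℕ, ∃ σ : A →ₗ[ℂ] ℂ, σ 1 = 1 ∧
      (∀ x, 0 ≤ σ (star x * x)) ∧
      (∀ i < m, ∀ j < m, ‖σ (d i * d j) - σ (d j * d i)‖ ≤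
        2 * ((‖d i‖ + ‖d j‖ + 1) * δ m)) := by
    intro m
    obtain ⟨k, n, φ, hφ⟩ := h ((Finset.range m).image d) (δ m) (hδ0 m)
    have hdd : ∀ i < m, ∃ x, ‖φ x - d i‖ < δ m := fun i hi =>
      hφ (d i) (Finset.mem_image_of_mem d (Finset.mem_range.2 hi))
    have hex : ∃ i, φ (Pi.single i 1) ≠ 0 := by
      by_contra hcon
      push Not at hcon
      have h1 := killed φ 1 (fun i hi => absurd (hcon i) hi)
      rw [map_one] at h1
      exact one_ne_zero h1
    obtain ⟨i0, hi0⟩ := hex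
    obtain ⟨σ, h1, h2, h3⟩ := exists_block_state φ i0 hi0
    refine ⟨σ, h1, h2, ?_⟩
    intro i hi j hj
    obtain ⟨x, hx⟩ := hdd i hi
    obtain ⟨x', hx'⟩ := hdd j hj
    have h4 : σ (φ x * φ x') = σ (φ x' * φ x) := by
      rw [← map_mul, ← map_mul, h3, h3, Pi.mul_apply, Pi.mul_apply, Matrix.trace_mul_comm]
    have h5 : σ (d i * d j) - σ (d j * d i) =
        -σ (φ x * φ x' - d i * d j) + σ (φ x' * φ x - d j * d i) := by
      rw [map_sub, map_sub, h4]
      ring
    have h6 := (PureExt.IsPos.norm_le h2 h1 (φ x * φ x' - d i * d j)).trans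
      (norm_comm_sub_le hx.le hx'.le (hδ1 m))
    have h7 := (PureExt.IsPos.norm_le h2 h1 (φ x' * φ x - d j * d i)).trans
      (norm_comm_sub_le hx'.le hx.le (hδ1 m))
    rw [h5]
    refine (norm_add_le _ _).trans ?_
    rw [norm_neg]
    have h8 : (‖d j‖ + ‖d i‖ + 1) * δ m = (‖d i‖ + ‖d j‖ + 1) * δ m := by ring
    linarith
  choose σ h1 h2 h7 using hdich
  let ω : Ultrafilter ℕ := hyperfilter ℕ
  have hω : (ω : Filter ℕ) ≤ atTop := by
    rw [← Nat.cofinite_eq_atTop]
    exact hyperfilter_le_cofinite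
  obtain ⟨τ, hτ1, hτ2, hτ⟩ := exists_limit_state ω σ h1 h2
  have hτc : Continuous τ := AddMonoidHomClass.continuous_of_bound τ 1 fun x => by
    rw [one_mul]
    exact PureExt.IsPos.norm_le hτ2 hτ1 x
  refine ⟨τ, hτ1, hτ2, ?_⟩
  refine DenseRange.induction_on₂ hd ?_ ?_
  · exact isClosed_eq (hτc.comp continuous_mul) (hτc.comp (continuous_snd.mul continuous_fst))
  · intro i j
    have h9 : Tendsto (fun m => σ m (d i * d j) - σ m (d j * d i)) (ω : Filter ℕ) (𝓝 0) := by
      rw [tendsto_zero_iff_norm_tendsto_zero]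
      have h10 : Tendsto (fun m => 2 * ((‖d i‖ + ‖d j‖ + 1) * δ m)) atTop (𝓝 0) := by
        have := (hδt.const_mul (‖d i‖ + ‖d j‖ + 1)).const_mul 2
        rwa [mul_zero, mul_zero] at this
      refine squeeze_zero' (Eventually.of_forall fun _ => norm_nonneg _) ?_ (h10.mono_left hω)
      filter_upwards [hω (eventually_gt_atTop (max i j))] with m hm
      exact h7 m i (lt_of_le_of_lt (le_max_left _ _) hm) j (lt_of_le_of_lt (le_max_right _ _) hm)
    have h10 := (hτ (d i * d j)).sub (hτ (d j * d i))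
    exact sub_eq_zero.1 (tendsto_nhds_unique h10 h9)

end Vale.Agent.P095
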