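import Mathlib
import Vale.Agent.P101.Statement

/-!
# P095: definitions used in the statements

Group actions, cocycle conjugacy, the Jiang-Su algebra (with strong self-absorption), `Z`-stability
and equivariant `Z`-stability.
-/

open Filter Topology
open scoped TensorProduct BoundedContinuousFunction ComplexOrder

namespace Vale.Agent.P095

open Vale.Agent.P101

universe u v w x

/-- The actions `α` of `G` on `A` and `β` of `G` on `T` are cocycle conjugate. -/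
def CocycleConjugate {G : Type*} [Group G] {A : Type u} {T : Type w} [CStarAlgebra A]
    [CStarAlgebra T] (α : G →* (A ≃⋆ₐ[ℂ] A)) (β : G →* (T ≃⋆ₐ[ℂ] T)) : Prop :=
  ∃ (Φ : A ≃⋆ₐ[ℂ] T) (c : G → T), (∀ g, c g ∈ unitary T) ∧
    (∀ g h, c (g * h) = c g * β g (c h)) ∧ ∀ g a, Φ (α g a) = c g * β g (Φ a) * star (c g)

/-- `Z` is strongly self-absorbing: there are a tensor product `W` of `Z` with itself and an
isomorphism of `Z` with `W` which is approximately unitarily equivalent to the first factor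
embedding. -/
def StronglySelfAbsorbing (Z : Type u) [CStarAlgebra Z] : Prop :=
  ∃ (W : Type u) (_ : CStarAlgebra W) (j₁ j₂ : Z →⋆ₐ[ℂ] W), IsTensor j₁ j₂ ∧
    ∃ φ : Z ≃⋆ₐ[ℂ] W, ∀ (F : Finset Z) (ε : ℝ), 0 < ε →
      ∃ u ∈ unitary W, ∀ z ∈ F, ‖u * φ z * star u - j₁ z‖ < ε

/-- `A` is `Z`-stable: `A` is isomorphic to a tensor product of `A` and `Z`. -/
def ZStable (Z : Type v) [CStarAlgebra Z] (A : Type u) [CStarAlgebra A] : Prop :=
  ∃ (T : Type u) (_ : CStarAlgebra T) (ιA : A →⋆ₐ[ℂ] T) (ιZ : Z →⋆ₐ[ℂ] T),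
    IsTensor ιA ιZ ∧ Nonempty (A ≃⋆ₐ[ℂ] T)

/-- `β` is the action `α ⊗ id` of `G` on the tensor product `T` of `A` and `Z`. -/
def IsTensorAction {G : Type*} [Group G] {A : Type u} {Z : Type v} {T : Type w} [CStarAlgebra A]
    [CStarAlgebra Z] [CStarAlgebra T] (α : G →* (A ≃⋆ₐ[ℂ] A)) (ιA : A →⋆ₐ[ℂ] T)
    (ιZ : Z →⋆ₐ[ℂ] T) (β : G →* (T ≃⋆ₐ[ℂ] T)) : Prop :=
  (∀ g a, β g (ιA a) = ιA (α g a)) ∧ ∀ g z, β g (ιZ z) = ιZ z

/-- `α` is equivariantly `Z`-stable: on every tensor product `T` of `A` and `Z` there is the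
action `α ⊗ id`, and `α` is cocycle conjugate to it. -/
def EquivariantlyZStable (Z : Type v) [CStarAlgebra Z] {G : Type*} [Group G] {A : Type u}
    [CStarAlgebra A] (α : G →* (A ≃⋆ₐ[ℂ] A)) : Prop :=
  ∀ (T : Type u) [CStarAlgebra T] (ιA : A →⋆ₐ[ℂ] T) (ιZ : Z →⋆ₐ[ℂ] T), IsTensor ιA ιZ →
    ∃ β : G →* (T ≃⋆ₐ[ℂ] T), IsTensorAction α ιA ιZ β ∧ CocycleConjugate α β

end Vale.Agent.P095
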