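import Vale.Agent.P101.Flip
import Vale.Agent.P101.CC
import Vale.Agent.P101.Copies
import Vale.Agent.P095.Defs

/-!
# P095: fixed point algebras, equivariant commuting copies, the action on `F_ω(A)`
-/

open Filter Topology
open scoped BoundedContinuousFunction

namespace Vale.Agent.P095

open Vale.Agent.P101

universe u

section Fixed

variable {G : Type*} [Group G] {B : Type*} [CStarAlgebra B]

/-- The fixed point algebra of an action. -/
def fixedAlg (β : G →* (B ≃⋆ₐ[ℂ] B)) : StarSubalgebra ℂ B where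
  carrier := {x | ∀ g, β g x = x}
  mul_mem' := fun ha hb g => by rw [map_mul, ha g, hb g]
  add_mem' := fun ha hb g => by rw [map_add, ha g, hb g]
  algebraMap_mem' := fun c g => AlgHomClass.commutes (β g) c
  star_mem' := fun ha g => by rw [map_star, ha g]

theorem mem_fixedAlg {β : G →* (B ≃⋆ₐ[ℂ] B)} {x : B} : x ∈ fixedAlg β ↔ ∀ g, β g x = x := Iff.rfl

theorem continuous_act (β : G →* (B ≃⋆ₐ[ℂ] B)) (g : G) : Continuous (β g) :=
  AddMonoidHomClass.continuous_of_bound (β g) 1 fun x => by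
    rw [one_mul]
    exact NonUnitalStarAlgHom.norm_apply_le (β g) x

theorem norm_act (β : G →* (B ≃⋆ₐ[ℂ] B)) (g : G) (x : B) : ‖β g x‖ = ‖x‖ :=
  NonUnitalStarAlgHom.norm_map (β g) (β g).injective x

instance isClosed_fixedAlg (β : G →* (B ≃⋆ₐ[ℂ] B)) : IsClosed (fixedAlg β : Set B) := by
  have : (fixedAlg β : Set B) = ⋂ g, {x | β g x = x} := by
    ext x
    simp [fixedAlg]
  rw [this]
  exact isClosed_iInter fun g => isClosed_eq (continuous_act β g) continuous_id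

/-- Equivariant commuting copies: every separable closed invariant star subalgebra `S` has an
equivariant copy commuting with `S`; the copy of an element of the (null) set `J` is in `J`. -/
def HasEqCopies (β : G →* (B ≃⋆ₐ[ℂ] B)) (J : Set B) : Prop :=
  ∀ S : StarSubalgebra ℂ B, IsClosed (S : Set B) → TopologicalSpace.IsSeparable (S : Set B) →
    (∀ g, ∀ x ∈ S, β g x ∈ S) →
    ∃ Φ : S →⋆ₐ[ℂ] B, (∀ x y : S, Commute (Φ x) (y : B)) ∧
      (∀ g (x y : S), (y : B) = β g x → Φ y = β g (Φ x)) ∧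
      ∀ x : S, (x : B) ∈ J → Φ x ∈ J

end Fixed

section Ultra

variable {G : Type*} [Group G] {A : Type u} [CStarAlgebra A]

theorem seqMap_comp_apply {A B C : Type u} [CStarAlgebra A] [CStarAlgebra B] [CStarAlgebra C]
    (φ : B →⋆ₐ[ℂ] C) (ψ : A →⋆ₐ[ℂ] B) (y : ℕ →ᵇ A) :
    seqMap φ (seqMap ψ y) = seqMap (φ.comp ψ) y := by
  ext n
  rfl

/-- The map induced by an automorphism on the ultrapower, as an automorphism. -/
noncomputable def ultraEquiv (ω : Ultrafilter ℕ) (f : A ≃⋆ₐ[ℂ] A) :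
    Ultra ω A ≃⋆ₐ[ℂ] Ultra ω A :=
  StarAlgEquiv.ofBijective (ultraMap ω (f : A →⋆ₐ[ℂ] A)) (by
    have h1 : ∀ x, ultraMap ω ((f.symm : A ≃⋆ₐ[ℂ] A) : A →⋆ₐ[ℂ] A)
        (ultraMap ω (f : A →⋆ₐ[ℂ] A) x) = x := by
      intro x
      obtain ⟨y, rfl⟩ := Ultra.mk_surjective x
      rw [ultraMap_mk, ultraMap_mk]
      congr 1
      ext n
      exact f.symm_apply_apply (y n)
    have h2 : ∀ x, ultraMap ω (f : A →⋆ₐ[ℂ] A)
        (ultraMap ω ((f.symm : A ≃⋆ₐ[ℂ] A) : A →⋆ₐ[ℂ] A) x) = x := by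
      intro x
      obtain ⟨y, rfl⟩ := Ultra.mk_surjective x
      rw [ultraMap_mk, ultraMap_mk]
      congr 1
      ext n
      exact f.apply_symm_apply (y n)
    exact Function.bijective_iff_has_inverse.2 ⟨_, h1, h2⟩)

theorem ultraEquiv_mk (ω : Ultrafilter ℕ) (f : A ≃⋆ₐ[ℂ] A) (y : ℕ →ᵇ A) :
    ultraEquiv ω f (Ultra.mk ω y) = Ultra.mk ω (seqMap (f : A →⋆ₐ[ℂ] A) y) :=
  ultraMap_mk _ _

/-- The action on the ultrapower. -/
noncomputable def ultraAct (ω : Ultrafilter ℕ) (α : G →* (A ≃⋆ₐ[ℂ] A)) :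
    G →* (Ultra ω A ≃⋆ₐ[ℂ] Ultra ω A) where
  toFun g := ultraEquiv ω (α g)
  map_one' := by
    ext x
    obtain ⟨y, rfl⟩ := Ultra.mk_surjective x
    rw [ultraEquiv_mk, map_one]
    rfl
  map_mul' g h := by
    ext x
    obtain ⟨y, rfl⟩ := Ultra.mk_surjective x
    rw [StarAlgEquiv.mul_apply, ultraEquiv_mk, ultraEquiv_mk, ultraEquiv_mk, map_mul]
    rfl

theorem ultraAct_mk (ω : Ultrafilter ℕ) (α : G →* (A ≃⋆ₐ[ℂ] A)) (g : G) (y : ℕ →ᵇ A) :
    ultraAct ω α g (Ultra.mk ω y) = Ultra.mk ω (seqMap (α g : A →⋆ₐ[ℂ] A) y) :=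
  ultraMap_mk _ _

theorem ultraAct_diag (ω : Ultrafilter ℕ) (α : G →* (A ≃⋆ₐ[ℂ] A)) (g : G) (a : A) :
    ultraAct ω α g (Ultra.diag ω a) = Ultra.diag ω (α g a) := by
  rw [Ultra.diag_apply, Ultra.diag_apply, ultraAct_mk]
  rfl

theorem ultraAct_mem (ω : Ultrafilter ℕ) (α : G →* (A ≃⋆ₐ[ℂ] A)) (g : G) {x : Ultra ω A}
    (hx : x ∈ centralSeq ω A) : ultraAct ω α g x ∈ centralSeq ω A := by
  rw [mem_centralSeq_iff] at hx ⊢
  intro a
  have h1 := (hx ((α g)⁻¹ a)).map (ultraAct ω α g)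
  rw [ultraAct_diag] at h1
  have h2 : α g ((α g)⁻¹ a) = a := by
    rw [← StarAlgEquiv.mul_apply, mul_inv_cancel]
    rfl
  rwa [h2] at h1

/-- The action on the central sequence algebra. -/
noncomputable def centralAct (ω : Ultrafilter ℕ) (α : G →* (A ≃⋆ₐ[ℂ] A)) :
    G →* (centralSeq ω A ≃⋆ₐ[ℂ] centralSeq ω A) where
  toFun g :=
    { toFun := fun x => ⟨ultraAct ω α g x, ultraAct_mem ω α g x.2⟩
      invFun := fun x => ⟨ultraAct ω α g⁻¹ x, ultraAct_mem ω α g⁻¹ x.2⟩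
      left_inv := fun x => by
        apply Subtype.ext
        show ultraAct ω α g⁻¹ (ultraAct ω α g x) = x
        rw [← StarAlgEquiv.mul_apply, ← map_mul, inv_mul_cancel, map_one]
        rfl
      right_inv := fun x => by
        apply Subtype.ext
        show ultraAct ω α g (ultraAct ω α g⁻¹ x) = x
        rw [← StarAlgEquiv.mul_apply, ← map_mul, mul_inv_cancel, map_one]
        rfl
      map_mul' := fun x y => Subtype.ext (map_mul _ _ _)
      map_add' := fun x y => Subtype.ext (map_add _ _ _)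
      map_smul' := fun c x => Subtype.ext (map_smul _ _ _)
      map_star' := fun x => Subtype.ext (map_star _ _) }
  map_one' := by
    ext x
    show ultraAct ω α 1 (x : Ultra ω A) = x
    rw [map_one]
    rfl
  map_mul' g h := by
    ext x
    show ultraAct ω α (g * h) (x : Ultra ω A) = ultraAct ω α g (ultraAct ω α h x)
    rw [map_mul]
    rfl

theorem coe_centralAct (ω : Ultrafilter ℕ) (α : G →* (A ≃⋆ₐ[ℂ] A)) (g : G)
    (x : centralSeq ω A) : (centralAct ω α g x : Ultra ω A) = ultraAct ω α g x := rfl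

end Ultra

end Vale.Agent.P095
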