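import Vale.Agent.P101.Ultra
import Vale.Agent.P095.Defs

/-!
# P095: a `Z`-stable algebra has central copies of `Z`
-/

open Filter Topology TopologicalSpace
open scoped BoundedContinuousFunction TensorProduct

namespace Vale.Agent.P095

open Vale.Agent.P101

universe u v w

namespace Central

theorem norm_le {A : Type u} {B : Type v} [CStarAlgebra A] [CStarAlgebra B] (f : A →⋆ₐ[ℂ] B)
    (a : A) : ‖f a‖ ≤ ‖a‖ :=
  NonUnitalStarAlgHom.norm_apply_le f a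

theorem norm_equiv {A : Type u} {B : Type v} [CStarAlgebra A] [CStarAlgebra B]
    (e : A ≃⋆ₐ[ℂ] B) (a : A) : ‖e a‖ = ‖a‖ :=
  NonUnitalStarAlgHom.norm_map e e.injective a

theorem exists_almost_central {Z : Type v} [CStarAlgebra Z] (hZ : StronglySelfAbsorbing Z)
    (F : Finset Z) {ε : ℝ} (hε : 0 < ε) :
    ∃ ν : Z →⋆ₐ[ℂ] Z, ∀ z, ∀ y ∈ F, ‖ν z * y - y * ν z‖ ≤ ε * ‖z‖ := by
  obtain ⟨W, _, j₁, j₂, hW, φ, h⟩ := hZ
  obtain ⟨u, hu, hF⟩ := h F (ε / 2) (by positivity)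
  let U : unitary W := ⟨u, hu⟩
  let ad : W ≃⋆ₐ[ℂ] W := Unitary.conjStarAlgAut ℂ W U
  let ν : Z →⋆ₐ[ℂ] Z := (φ.symm : W →⋆ₐ[ℂ] Z).comp ((ad.symm : W →⋆ₐ[ℂ] W).comp j₂)
  refine ⟨ν, fun z y hy => ?_⟩
  have hφν : φ (ν z) = ad.symm (j₂ z) := by
    show φ (φ.symm (ad.symm (j₂ z))) = _
    exact φ.apply_symm_apply _
  have h1 : ‖φ y - ad.symm (j₁ y)‖ ≤ ε / 2 := by
    have e1 : ad (φ y - ad.symm (j₁ y)) = u * φ y * star u - j₁ y := by
      rw [map_sub, StarAlgEquiv.apply_symm_apply]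
      rfl
    rw [← norm_equiv ad, e1]
    exact (hF y hy).le
  have h2 : Commute (ad.symm (j₂ z)) (ad.symm (j₁ y)) :=
    ((hW.commute y z).symm).map ad.symm
  have h3 : ‖ad.symm (j₂ z)‖ ≤ ‖z‖ := by
    rw [norm_equiv ad.symm]
    exact norm_le j₂ z
  rw [← norm_equiv φ, map_sub, map_mul, map_mul, hφν]
  have e2 : ad.symm (j₂ z) * φ y - φ y * ad.symm (j₂ z) =
      ad.symm (j₂ z) * (φ y - ad.symm (j₁ y)) - (φ y - ad.symm (j₁ y)) * ad.symm (j₂ z) := by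
    have e3 := h2.eq
    rw [mul_sub, sub_mul, e3]
    abel
  rw [e2]
  calc _ ≤ ‖ad.symm (j₂ z)‖ * ‖φ y - ad.symm (j₁ y)‖ +
        ‖φ y - ad.symm (j₁ y)‖ * ‖ad.symm (j₂ z)‖ :=
        (norm_sub_le _ _).trans (add_le_add (norm_mul_le _ _) (norm_mul_le _ _))
    _ ≤ ‖z‖ * (ε / 2) + (ε / 2) * ‖z‖ := by gcongr
    _ = ε * ‖z‖ := by ring

theorem exists_almost_central_tensor {Z : Type v} [CStarAlgebra Z]
    (hZ : StronglySelfAbsorbing Z) {A : Type u} [CStarAlgebra A] {T : Type w} [CStarAlgebra T]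
    {ιA : A →⋆ₐ[ℂ] T} {ιZ : Z →⋆ₐ[ℂ] T} (hT : IsTensor ιA ιZ) (F : Finset T) {ε : ℝ}
    (hε : 0 < ε) :
    ∃ μ : Z →⋆ₐ[ℂ] T, ∀ z, ∀ t ∈ F, ‖μ z * t - t * μ z‖ ≤ ε * ‖z‖ := by
  classical
  have happ : ∀ b : T, ∃ S : Finset (A × Z), ‖b - ∑ i ∈ S, ιA i.1 * ιZ i.2‖ < ε / 4 := by
    intro b
    obtain ⟨t, ht⟩ := hT.dense.exists_dist_lt b (by positivity : 0 < ε / 4)
    obtain ⟨S, rfl⟩ := TensorProduct.exists_finset t
    refine ⟨S, ?_⟩
    rw [dist_eq_norm, map_sum] at ht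
    simpa using ht
  choose S hS using happ
  let K : ℝ := 1 + ∑ b ∈ F, ∑ i ∈ S b, ‖ιA i.1‖
  have hK : 0 < K := by
    have : 0 ≤ ∑ b ∈ F, ∑ i ∈ S b, ‖ιA i.1‖ :=
      Finset.sum_nonneg (fun _ _ => Finset.sum_nonneg (fun _ _ => norm_nonneg _))
    linarith
  obtain ⟨ν, hν⟩ := exists_almost_central hZ (F.biUnion (fun b => (S b).image Prod.snd))
    (ε := ε / (2 * K)) (by positivity)
  refine ⟨ιZ.comp ν, fun z t ht => ?_⟩
  show ‖ιZ (ν z) * t - t * ιZ (ν z)‖ ≤ ε * ‖z‖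
  set s := ∑ i ∈ S t, ιA i.1 * ιZ i.2 with hs
  have hm : ‖ιZ (ν z)‖ ≤ ‖z‖ := (norm_le ιZ _).trans (norm_le ν z)
  have e1 : ιZ (ν z) * t - t * ιZ (ν z) =
      (ιZ (ν z) * (t - s) - (t - s) * ιZ (ν z)) + (ιZ (ν z) * s - s * ιZ (ν z)) := by
    noncomm_ring
  have e2 : ιZ (ν z) * s - s * ιZ (ν z) =
      ∑ i ∈ S t, ιA i.1 * ιZ (ν z * i.2 - i.2 * ν z) := by
    rw [hs, Finset.mul_sum, Finset.sum_mul, ← Finset.sum_sub_distrib]
    refine Finset.sum_congr rfl fun i _ => ?_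
    have h1 := (hT.commute i.1 (ν z)).eq
    rw [map_sub, map_mul, map_mul, mul_sub, ← mul_assoc, ← mul_assoc, ← mul_assoc, h1]
  have h2 : ‖ιZ (ν z) * s - s * ιZ (ν z)‖ ≤ (ε / 2) * ‖z‖ := by
    rw [e2]
    calc _ ≤ ∑ i ∈ S t, ‖ιA i.1‖ * (ε / (2 * K) * ‖z‖) := by
          refine (norm_sum_le _ _).trans (Finset.sum_le_sum (fun i hi => ?_))
          refine (norm_mul_le _ _).trans ?_
          gcongr
          refine (norm_le ιZ _).trans (hν z _ ?_)
          rw [Finset.mem_biUnion]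
          exact ⟨t, ht, Finset.mem_image_of_mem _ hi⟩
      _ = (∑ i ∈ S t, ‖ιA i.1‖) * (ε / (2 * K) * ‖z‖) := by rw [Finset.sum_mul]
      _ ≤ K * (ε / (2 * K) * ‖z‖) := by
          gcongr
          have : ∑ i ∈ S t, ‖ιA i.1‖ ≤ ∑ b ∈ F, ∑ i ∈ S b, ‖ιA i.1‖ :=
            Finset.single_le_sum (f := fun b => ∑ i ∈ S b, ‖ιA i.1‖)
              (fun _ _ => Finset.sum_nonneg (fun _ _ => norm_nonneg _)) ht
          linarith
      _ = (ε / 2) * ‖z‖ := by field_simp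
  have h3 : ‖ιZ (ν z) * (t - s) - (t - s) * ιZ (ν z)‖ ≤ (ε / 2) * ‖z‖ := by
    calc _ ≤ ‖ιZ (ν z)‖ * ‖t - s‖ + ‖t - s‖ * ‖ιZ (ν z)‖ :=
          (norm_sub_le _ _).trans (add_le_add (norm_mul_le _ _) (norm_mul_le _ _))
      _ ≤ ‖z‖ * (ε / 4) + (ε / 4) * ‖z‖ := by
          have := (hS t).le
          gcongr
      _ = (ε / 2) * ‖z‖ := by ring
  rw [e1]
  refine (norm_add_le _ _).trans ?_
  linarith

theorem exists_hom_of_almost {Z : Type v} [CStarAlgebra Z] {A : Type u} [CStarAlgebra A]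
    [SeparableSpace A] (ω : Ultrafilter ℕ) (hω : (ω : Filter ℕ) ≤ cofinite)
    (h : ∀ (F : Finset A) (ε : ℝ), 0 < ε → ∃ μ : Z →⋆ₐ[ℂ] A, ∀ z, ∀ t ∈ F,
      ‖μ z * t - t * μ z‖ ≤ ε * ‖z‖) :
    Nonempty (Z →⋆ₐ[ℂ] centralSeq ω A) := by
  classical
  obtain ⟨d, hd⟩ := TopologicalSpace.exists_dense_seq A
  choose μ hμ using fun n : ℕ => h ((Finset.range (n + 1)).image d) (1 / ((n : ℝ) + 1))
    (by positivity)
  have hμn : ∀ n z, ‖μ n z‖ ≤ ‖z‖ := fun n z => norm_le (μ n) z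
  let y : Z → (ℕ →ᵇ A) := fun z =>
    BoundedContinuousFunction.ofNormedAddCommGroupDiscrete (fun n => μ n z) ‖z‖
      (fun n => hμn n z)
  have hy : ∀ z n, y z n = μ n z := fun _ _ => rfl
  -- almost central on the dense sequence
  have h1 : ∀ z i, Tendsto (fun n => ‖d i * y z n - y z n * d i‖) ω (𝓝 0) := by
    intro z i
    have h2 : Tendsto (fun n : ℕ => 1 / ((n : ℝ) + 1) * ‖z‖) ω (𝓝 0) := by
      have h3 : Tendsto (fun n : ℕ => 1 / ((n : ℝ) + 1) * ‖z‖) atTop (𝓝 (0 * ‖z‖)) :=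
        tendsto_one_div_add_atTop_nhds_zero_nat.mul_const _
      rw [zero_mul] at h3
      exact h3.mono_left (Nat.cofinite_eq_atTop ▸ hω)
    refine squeeze_zero' (Eventually.of_forall fun _ => norm_nonneg _) ?_ h2
    have h4 : ∀ᶠ n in (ω : Filter ℕ), i ≤ n :=
      hω (Nat.cofinite_eq_atTop ▸ eventually_ge_atTop i)
    filter_upwards [h4] with n hn
    rw [norm_sub_rev, hy]
    refine hμ n z (d i) (Finset.mem_image_of_mem _ ?_)
    rw [Finset.mem_range]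
    omega
  have hcentral : ∀ z, Ultra.mk ω (y z) ∈ centralSeq ω A := by
    intro z
    rw [mem_centralSeq_iff]
    have hcl : IsClosed {b : A | Commute (Ultra.diag ω b) (Ultra.mk ω (y z))} := by
      have hc : Continuous (Ultra.diag ω : A → Ultra ω A) :=
        AddMonoidHomClass.continuous_of_bound (Ultra.diag ω) 1
          (fun b => by rw [one_mul, Ultra.norm_diag])
      exact isClosed_eq (hc.mul continuous_const) (continuous_const.mul hc)
    intro b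
    have h2 : closure (Set.range d) ⊆ {b : A | Commute (Ultra.diag ω b) (Ultra.mk ω (y z))} := by
      apply closure_minimal _ hcl
      rintro _ ⟨i, rfl⟩
      show Commute _ _
      rw [commute_iff_eq, Ultra.diag_apply, ← map_mul, ← map_mul, Ultra.mk_eq_mk_iff]
      exact h1 z i
    exact h2 (hd b)
  refine ⟨{ toFun := fun z => ⟨Ultra.mk ω (y z), hcentral z⟩
            map_one' := ?_
            map_mul' := ?_
            map_zero' := ?_
            map_add' := ?_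
            commutes' := ?_
            map_star' := ?_ }⟩
  · apply Subtype.ext
    show Ultra.mk ω (y 1) = 1
    rw [← map_one (Ultra.mk ω)]
    congr 1
    ext n
    exact map_one (μ n)
  · intro a b
    apply Subtype.ext
    show Ultra.mk ω (y (a * b)) = Ultra.mk ω (y a) * Ultra.mk ω (y b)
    rw [← map_mul]
    congr 1
    ext n
    exact map_mul (μ n) a b
  · apply Subtype.ext
    show Ultra.mk ω (y 0) = 0
    rw [← map_zero (Ultra.mk ω)]
    congr 1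
    ext n
    exact map_zero (μ n)
  · intro a b
    apply Subtype.ext
    show Ultra.mk ω (y (a + b)) = Ultra.mk ω (y a) + Ultra.mk ω (y b)
    rw [← map_add]
    congr 1
    ext n
    exact map_add (μ n) a b
  · intro c
    apply Subtype.ext
    show Ultra.mk ω (y (algebraMap ℂ Z c)) = algebraMap ℂ (Ultra ω A) c
    rw [← AlgHomClass.commutes (Ultra.mk ω) c]
    congr 1
    ext n
    exact AlgHomClass.commutes (μ n) c
  · intro a
    apply Subtype.ext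
    show Ultra.mk ω (y (star a)) = star (Ultra.mk ω (y a))
    rw [← map_star]
    congr 1
    ext n
    exact map_star (μ n) a

end Central

open Central in
theorem exists_hom_of_zStable {Z : Type v} [CStarAlgebra Z] [SeparableSpace Z]
    (hZ : StronglySelfAbsorbing Z) {A : Type u} [CStarAlgebra A] [SeparableSpace A]
    (hA : ZStable Z A) (ω : Ultrafilter ℕ) (hω : (ω : Filter ℕ) ≤ cofinite) :
    Nonempty (Z →⋆ₐ[ℂ] centralSeq ω A) := by
  classical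
  obtain ⟨T, _, ιA, ιZ, hT, ⟨ψ⟩⟩ := hA
  refine exists_hom_of_almost ω hω fun F ε hε => ?_
  obtain ⟨μ, hμ⟩ := exists_almost_central_tensor hZ hT (F.image ψ) hε
  refine ⟨(ψ.symm : T →⋆ₐ[ℂ] A).comp μ, fun z t ht => ?_⟩
  show ‖ψ.symm (μ z) * t - t * ψ.symm (μ z)‖ ≤ ε * ‖z‖
  have h1 := hμ z (ψ t) (Finset.mem_image_of_mem _ ht)
  rw [← Central.norm_equiv ψ, map_sub, map_mul, map_mul, StarAlgEquiv.apply_symm_apply]
  exact h1

end Vale.Agent.P095
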