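import Vale.Agent.P101.ApproxEquiv
import Vale.Agent.P095.Defs

/-!
# P095: equivariant approximate intertwining

An equivariant embedding `ι : A → T` which is approximately unitarily surjective, with unitaries
almost commuting with `A` and almost fixed by the action, is cocycle conjugate to an
isomorphism.
-/

open Filter Topology
open scoped BoundedContinuousFunction

namespace Vale.Agent.P095

open Vale.Agent.P101 Vale.Agent.P101.ApproxEquiv

universe u v w

namespace EqApprox

/-- A star algebra equivalence as a star homomorphism. -/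
def toHom {A : Type u} {B : Type v} [CStarAlgebra A] [CStarAlgebra B] (e : A ≃⋆ₐ[ℂ] B) :
    A →⋆ₐ[ℂ] B where
  toFun := e
  map_one' := map_one e
  map_mul' := map_mul e
  map_zero' := map_zero e
  map_add' := map_add e
  commutes' c := by
    rw [Algebra.algebraMap_eq_smul_one, map_smul, map_one, ← Algebra.algebraMap_eq_smul_one]
  map_star' := map_star e

@[simp] theorem toHom_apply {A : Type u} {B : Type v} [CStarAlgebra A] [CStarAlgebra B]
    (e : A ≃⋆ₐ[ℂ] B) (a : A) : toHom e a = e a := rfl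

theorem norm_equiv {A : Type u} {B : Type v} [CStarAlgebra A] [CStarAlgebra B]
    (e : A ≃⋆ₐ[ℂ] B) (a : A) : ‖e a‖ = ‖a‖ :=
  NonUnitalStarAlgHom.norm_map (toHom e) e.injective a

theorem continuous_equiv {A : Type u} {B : Type v} [CStarAlgebra A] [CStarAlgebra B]
    (e : A ≃⋆ₐ[ℂ] B) : Continuous e :=
  AddMonoidHomClass.continuous_of_bound e 1 fun x => by rw [one_mul, norm_equiv]

theorem map_mem_unitary {A : Type u} {B : Type v} [CStarAlgebra A] [CStarAlgebra B]
    (e : A ≃⋆ₐ[ℂ] B) {x : A} (hx : x ∈ unitary A) : e x ∈ unitary B := by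
  rw [Unitary.mem_iff] at hx ⊢
  rw [← map_star, ← map_mul, ← map_mul, hx.1, hx.2, map_one]
  exact ⟨rfl, rfl⟩

theorem norm_unitary_mul {T : Type v} [CStarAlgebra T] {V : T} (hV : V ∈ unitary T) (x : T) :
    ‖V * x‖ = ‖x‖ :=
  CStarRing.norm_coe_unitary_mul (⟨V, hV⟩ : unitary T) x

theorem norm_mul_unitary {T : Type v} [CStarAlgebra T] {V : T} (hV : V ∈ unitary T) (x : T) :
    ‖x * V‖ = ‖x‖ :=
  CStarRing.norm_mul_coe_unitary x (⟨V, hV⟩ : unitary T)

section

variable {G : Type w} [Group G] {A : Type u} {T : Type v} [CStarAlgebra A] [CStarAlgebra T]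

theorem step_equi (β : G →* (T ≃⋆ₐ[ℂ] T)) (ι : A →⋆ₐ[ℂ] T)
    (h : ∀ (F : Finset A) (E : Finset T) (K : Finset G) (ε : ℝ), 0 < ε → ∃ U ∈ unitary T,
      (∀ a ∈ F, ‖U * ι a - ι a * U‖ < ε) ∧ (∀ b ∈ E, ∃ a : A, ‖star U * b * U - ι a‖ < ε) ∧
      ∀ k ∈ K, ‖β k U - U‖ < ε)
    (V : unitary T) (F : Finset A) (a₀ : A) (E : Finset T) (K : Finset G) {ε : ℝ} (hε : 0 < ε) :
    ∃ (V' : unitary T) (F' : Finset A), F ⊆ F' ∧ a₀ ∈ F' ∧
      (∀ a ∈ F, ‖conj ι V' a - conj ι V a‖ < ε) ∧
      (∀ b ∈ E, ∃ a ∈ F', ‖conj ι V' a - b‖ < ε) ∧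
      ∀ k ∈ K, ‖(V' : T) * β k (star (V' : T)) - (V : T) * β k (star (V : T))‖ < ε := by
  classical
  obtain ⟨U, hU, h1, h2, h2'⟩ := h F (E.image fun b => star (V : T) * b * (V : T)) K ε hε
  choose! g hg using h2
  refine ⟨V * ⟨U, hU⟩, insert a₀ F ∪ E.image (fun b => g (star (V : T) * b * (V : T))),
    ?_, ?_, ?_, ?_, ?_⟩
  · intro x hx
    simp [hx]
  · simp
  · intro a ha
    have hU' : U * star U = 1 := (Unitary.mem_iff.mp hU).2
    have h3 : conj ι (V * ⟨U, hU⟩) a - conj ι V a =
        (V : T) * ((U * ι a - ι a * U) * star U) * star (V : T) := by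
      unfold conj
      have : ((V * ⟨U, hU⟩ : unitary T) : T) = (V : T) * U := rfl
      rw [this, star_mul]
      have h4 : (V : T) * ι a * star (V : T) = (V : T) * (ι a * (U * star U)) * star (V : T) := by
        rw [hU', mul_one]
      rw [h4]
      noncomm_ring
    rw [h3, norm_conj_aux]
    have h5 : star U = ((star ⟨U, hU⟩ : unitary T) : T) := rfl
    rw [h5, CStarRing.norm_mul_coe_unitary]
    exact h1 a ha
  · intro b hb
    have hmem : star (V : T) * b * (V : T) ∈ E.image fun b => star (V : T) * b * (V : T) :=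
      Finset.mem_image_of_mem _ hb
    have h3 := hg _ hmem
    refine ⟨g (star (V : T) * b * (V : T)), ?_, ?_⟩
    · apply Finset.mem_union_right
      exact Finset.mem_image_of_mem (fun b => g (star (V : T) * b * (V : T))) hb
    · set a := g (star (V : T) * b * (V : T)) with ha
      have hU' : U * star U = 1 := (Unitary.mem_iff.mp hU).2
      have hV' : (V : T) * star (V : T) = 1 := Unitary.coe_mul_star_self V
      have h4 : conj ι (V * ⟨U, hU⟩) a - b =
          (V : T) * (U * (-(star U * (star (V : T) * b * (V : T)) * U - ι a)) * star U) *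
            star (V : T) := by
        unfold conj
        have : ((V * ⟨U, hU⟩ : unitary T) : T) = (V : T) * U := rfl
        rw [this, star_mul]
        have h5 : b = ((V : T) * (U * star U) * star (V : T)) * b *
            ((V : T) * (U * star U) * star (V : T)) := by
          rw [hU', mul_one, hV', one_mul, mul_one]
        conv_lhs => rw [h5]
        noncomm_ring
      rw [h4, norm_conj_aux]
      have h6 := norm_conj_aux (⟨U, hU⟩ : unitary T)
        (-(star U * (star (V : T) * b * (V : T)) * U - ι a))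
      have h7 : ‖U * -(star U * (star (V : T) * b * (V : T)) * U - ι a) * star U‖ =
          ‖-(star U * (star (V : T) * b * (V : T)) * U - ι a)‖ := h6
      rw [h7, norm_neg]
      exact h3
  · intro k hk
    have hkU : β k (star U) ∈ unitary T := map_mem_unitary _ (Unitary.star_mem hU)
    have hkV : β k (star (V : T)) ∈ unitary T := map_mem_unitary _ (Unitary.star_mem V.2)
    have e1 : ((V * ⟨U, hU⟩ : unitary T) : T) = (V : T) * U := rfl
    have e2 : β k U * β k (star U) = 1 := by
      rw [← map_mul, (Unitary.mem_iff.mp hU).2, map_one]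
    have e3 : ((V * ⟨U, hU⟩ : unitary T) : T) * β k (star ((V * ⟨U, hU⟩ : unitary T) : T)) -
        (V : T) * β k (star (V : T)) =
        (V : T) * ((-(β k U - U)) * β k (star U)) * β k (star (V : T)) := by
      rw [e1, star_mul, map_mul]
      have e4 : (V : T) * β k (star (V : T)) =
          (V : T) * (β k U * β k (star U)) * β k (star (V : T)) := by rw [e2, mul_one]
      rw [e4]
      noncomm_ring
    rw [e3, norm_mul_unitary hkV, norm_unitary_mul V.2, norm_mul_unitary hkU, norm_neg]
    exact h2' k hk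

/-- Equivariant approximate intertwining. -/
theorem exists_cocycle_of_approx [Countable G]
    [TopologicalSpace.SeparableSpace A] [TopologicalSpace.SeparableSpace T]
    (α : G →* (A ≃⋆ₐ[ℂ] A)) (β : G →* (T ≃⋆ₐ[ℂ] T))
    (ι : A →⋆ₐ[ℂ] T) (hι : Function.Injective ι) (heq : ∀ g a, ι (α g a) = β g (ι a))
    (h : ∀ (F : Finset A) (E : Finset T) (K : Finset G) (ε : ℝ), 0 < ε → ∃ U ∈ unitary T,
      (∀ a ∈ F, ‖U * ι a - ι a * U‖ < ε) ∧ (∀ b ∈ E, ∃ a : A, ‖star U * b * U - ι a‖ < ε) ∧
      ∀ k ∈ K, ‖β k U - U‖ < ε) :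
    ∃ (Φ : A ≃⋆ₐ[ℂ] T) (u : G → T), (∀ g, u g ∈ unitary T) ∧
      (∀ g k, u (g * k) = u g * β g (u k)) ∧
      ∀ g a, Φ (α g a) = u g * β g (Φ a) * star (u g) := by
  classical
  obtain ⟨e, he⟩ := exists_surjective_nat G
  set αs : ℕ → A := TopologicalSpace.denseSeq A with hα
  set βs : ℕ → T := TopologicalSpace.denseSeq T with hβ
  have hstep : ∀ (p : unitary T × Finset A) (n : ℕ), ∃ q : unitary T × Finset A,
      p.2 ⊆ q.2 ∧ αs n ∈ q.2 ∧
      (∀ a ∈ p.2, ‖conj ι q.1 a - conj ι p.1 a‖ < (1 / 2 : ℝ) ^ n) ∧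
      (∀ b ∈ (Finset.range (n + 1)).image βs, ∃ a ∈ q.2, ‖conj ι q.1 a - b‖ < (1 / 2 : ℝ) ^ n) ∧
      ∀ k ∈ (Finset.range (n + 1)).image e,
        ‖(q.1 : T) * β k (star (q.1 : T)) - (p.1 : T) * β k (star (p.1 : T))‖ < (1 / 2 : ℝ) ^ n := by
    intro p n
    obtain ⟨V', F', h1, h2, h3, h4, h5⟩ := step_equi β ι h p.1 p.2 (αs n)
      ((Finset.range (n + 1)).image βs) ((Finset.range (n + 1)).image e)
      (ε := (1 / 2 : ℝ) ^ n) (by positivity)
    exact ⟨(V', F'), h1, h2, h3, h4, h5⟩
  choose nxt hn1 hn2 hn3 hn4 hn5 using hstep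
  let s : ℕ → unitary T × Finset A := fun n => Nat.rec (1, ∅) (fun n p => nxt p n) n
  have hs : ∀ n, s (n + 1) = nxt (s n) n := fun n => rfl
  have hmono : Monotone fun n => (s n).2 := by
    refine monotone_nat_of_le_succ fun n => ?_
    show (s n).2 ⊆ (s (n + 1)).2
    rw [hs]
    exact hn1 _ _
  have hdist : ∀ N, ∀ a ∈ (s N).2, ∀ n, N ≤ n →
      ‖conj ι (s (n + 1)).1 a - conj ι (s n).1 a‖ < (1 / 2 : ℝ) ^ n := by
    intro N a ha n hn
    rw [hs]
    exact hn3 (s n) n a (hmono hn ha)
  -- limit on the finite stages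
  have hgeo : ∀ N, ∀ a ∈ (s N).2, ∀ n, N ≤ n → ∀ k,
      ‖conj ι (s (n + k)).1 a - conj ι (s n).1 a‖ ≤ 2 * (1 / 2 : ℝ) ^ n := by
    intro N a ha n hn k
    have key : ∀ k, ‖conj ι (s (n + k)).1 a - conj ι (s n).1 a‖ ≤
        2 * (1 / 2 : ℝ) ^ n - 2 * (1 / 2 : ℝ) ^ (n + k) := by
      intro k
      induction k with
      | zero => simp
      | succ k ih =>
        have h1 := hdist N a ha (n + k) (by omega)
        have h2 : ‖conj ι (s (n + (k + 1))).1 a - conj ι (s n).1 a‖ ≤
            ‖conj ι (s (n + k + 1)).1 a - conj ι (s (n + k)).1 a‖ +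
              ‖conj ι (s (n + k)).1 a - conj ι (s n).1 a‖ := by
          refine le_trans (le_of_eq ?_) (norm_add_le _ _)
          rw [show n + (k + 1) = n + k + 1 by ring]
          congr 1
          abel
        have h3 : (1 / 2 : ℝ) ^ (n + (k + 1)) = (1 / 2 : ℝ) ^ (n + k) / 2 := by
          rw [show n + (k + 1) = n + k + 1 by ring, pow_succ]
          ring
        rw [h3]
        linarith
    have h1 := key k
    have h2 : (0 : ℝ) ≤ 2 * (1 / 2 : ℝ) ^ (n + k) := by positivity
    linarith
  have hhalf : Tendsto (fun n : ℕ => 2 * (1 / 2 : ℝ) ^ n) atTop (𝓝 0) := by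
    have := (tendsto_pow_atTop_nhds_zero_of_lt_one (r := (1 / 2 : ℝ)) (by norm_num)
      (by norm_num)).const_mul 2
    simpa using this
  have hdense : ∀ (a : A) (ε : ℝ), 0 < ε → ∃ N, ∃ a' ∈ (s N).2, ‖a - a'‖ < ε := by
    intro a ε hε
    obtain ⟨n, hn⟩ := (TopologicalSpace.denseRange_denseSeq A).exists_dist_lt a hε
    refine ⟨n + 1, αs n, ?_, ?_⟩
    · rw [hs]
      exact hn2 _ _
    · rw [dist_eq_norm] at hn
      exact hn
  have hcauchy : ∀ a, CauchySeq fun n => conj ι (s n).1 a := by
    intro a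
    rw [Metric.cauchySeq_iff']
    intro ε hε
    obtain ⟨N, a', ha', haa'⟩ := hdense a (ε / 4) (by linarith)
    obtain ⟨M, hM⟩ := ((tendsto_order.1 hhalf).2 (ε / 4) (by linarith)).exists_forall_of_atTop
    refine ⟨max N M, fun n hn => ?_⟩
    obtain ⟨k, rfl⟩ := Nat.exists_eq_add_of_le hn
    rw [dist_eq_norm]
    have h1 := hgeo N a' ha' (max N M) (le_max_left _ _) k
    have h2 := hM (max N M) (le_max_right _ _)
    have h3 : ‖conj ι (s (max N M + k)).1 a - conj ι (s (max N M + k)).1 a'‖ < ε / 4 := by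
      rw [conj_sub, norm_conj ι hι]
      exact haa'
    have h4 : ‖conj ι (s (max N M)).1 a' - conj ι (s (max N M)).1 a‖ < ε / 4 := by
      rw [conj_sub, norm_conj ι hι, norm_sub_rev]
      exact haa'
    calc ‖conj ι (s (max N M + k)).1 a - conj ι (s (max N M)).1 a‖
        = ‖(conj ι (s (max N M + k)).1 a - conj ι (s (max N M + k)).1 a') +
            ((conj ι (s (max N M + k)).1 a' - conj ι (s (max N M)).1 a') +
            (conj ι (s (max N M)).1 a' - conj ι (s (max N M)).1 a))‖ := by
          congr 1; abel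
      _ ≤ ‖conj ι (s (max N M + k)).1 a - conj ι (s (max N M + k)).1 a'‖ +
            (‖conj ι (s (max N M + k)).1 a' - conj ι (s (max N M)).1 a'‖ +
            ‖conj ι (s (max N M)).1 a' - conj ι (s (max N M)).1 a‖) :=
          (norm_add_le _ _).trans (add_le_add le_rfl (norm_add_le _ _))
      _ < ε := by linarith
  have hlim : ∀ a, ∃ t, Tendsto (fun n => conj ι (s n).1 a) atTop (𝓝 t) := fun a =>
    cauchySeq_tendsto_of_complete (hcauchy a)
  choose ψ hψ using hlim
  let Ψ : A →⋆ₐ[ℂ] T :=
    { toFun := ψ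
      map_one' := by
        refine tendsto_nhds_unique (hψ 1) ?_
        simp_rw [conj_one]
        exact tendsto_const_nhds
      map_mul' := by
        intro a b
        refine tendsto_nhds_unique (hψ (a * b)) ?_
        simp_rw [ApproxEquiv.conj_mul]
        exact (hψ a).mul (hψ b)
      map_zero' := by
        refine tendsto_nhds_unique (hψ 0) ?_
        have : ∀ n, conj ι (s n).1 (0 : A) = 0 := by
          intro n
          unfold conj
          rw [map_zero, mul_zero, zero_mul]
        simp_rw [this]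
        exact tendsto_const_nhds
      map_add' := by
        intro a b
        refine tendsto_nhds_unique (hψ (a + b)) ?_
        simp_rw [conj_add]
        exact (hψ a).add (hψ b)
      commutes' := by
        intro c
        refine tendsto_nhds_unique (hψ (algebraMap ℂ A c)) ?_
        simp_rw [conj_algebraMap]
        exact tendsto_const_nhds
      map_star' := by
        intro a
        refine tendsto_nhds_unique (hψ (star a)) ?_
        simp_rw [conj_star]
        exact (hψ a).star }
  have hΨ : ∀ a, Ψ a = ψ a := fun a => rfl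
  have hnorm : ∀ a, ‖Ψ a‖ = ‖a‖ := by
    intro a
    have h1 := (hψ a).norm
    simp_rw [norm_conj ι hι] at h1
    exact tendsto_nhds_unique h1 tendsto_const_nhds
  have hiso : Isometry Ψ := AddMonoidHomClass.isometry_of_norm Ψ hnorm
  have hclosed : IsClosed (Set.range Ψ) := hiso.isClosedEmbedding.isClosed_range
  have hψ_close : ∀ N, ∀ a ∈ (s N).2, ‖ψ a - conj ι (s N).1 a‖ ≤ 2 * (1 / 2 : ℝ) ^ N := by
    intro N a ha
    have h1 : Tendsto (fun k => ‖conj ι (s (N + k)).1 a - conj ι (s N).1 a‖) atTop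
        (𝓝 ‖ψ a - conj ι (s N).1 a‖) := by
      have h2 : Tendsto (fun k => conj ι (s (N + k)).1 a) atTop (𝓝 (ψ a)) := by
        have := (hψ a).comp (tendsto_add_atTop_nat N)
        refine this.congr fun k => ?_
        show conj ι (s (k + N)).1 a = _
        rw [add_comm]
      exact (h2.sub_const _).norm
    exact le_of_tendsto' h1 fun k => hgeo N a ha N le_rfl k
  have hsurj : Function.Surjective Ψ := by
    intro t
    have : t ∈ closure (Set.range Ψ) := by
      rw [Metric.mem_closure_iff]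
      intro ε hε
      obtain ⟨j, hj⟩ := (TopologicalSpace.denseRange_denseSeq T).exists_dist_lt t
        (show (0 : ℝ) < ε / 4 by linarith)
      obtain ⟨M, hM⟩ := ((tendsto_order.1 hhalf).2 (ε / 4) (by linarith)).exists_forall_of_atTop
      set n := max j M with hn
      have hβmem : βs j ∈ (Finset.range (n + 1)).image βs := by
        apply Finset.mem_image_of_mem
        rw [Finset.mem_range]
        have := le_max_left j M
        omega
      obtain ⟨a, ha, hab⟩ := hn4 (s n) n (βs j) hβmem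
      rw [← hs] at ha hab
      have h1 := hψ_close (n + 1) a ha
      have h2 := hM (n + 1) (by have := le_max_right j M; omega)
      have h3 := hM n (le_max_right j M)
      have h4 : (1 / 2 : ℝ) ^ n ≤ 2 * (1 / 2 : ℝ) ^ n := by
        have : (0 : ℝ) ≤ (1 / 2 : ℝ) ^ n := by positivity
        linarith
      refine ⟨Ψ a, ⟨a, rfl⟩, ?_⟩
      rw [dist_comm, dist_eq_norm, hΨ]
      rw [dist_comm, dist_eq_norm] at hj
      calc ‖ψ a - t‖ = ‖(ψ a - conj ι (s (n + 1)).1 a) +
            ((conj ι (s (n + 1)).1 a - βs j) + (βs j - t))‖ := by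
            congr 1; abel
        _ ≤ ‖ψ a - conj ι (s (n + 1)).1 a‖ +
            (‖conj ι (s (n + 1)).1 a - βs j‖ + ‖βs j - t‖) :=
            (norm_add_le _ _).trans (add_le_add le_rfl (norm_add_le _ _))
        _ < ε := by linarith
    rw [hclosed.closure_eq] at this
    exact this
  -- the cocycle
  let c : ℕ → G → T := fun n g => ((s n).1 : T) * β g (star ((s n).1 : T))
  have hclim : ∀ g, ∃ t, Tendsto (fun n => c n g) atTop (𝓝 t) := by
    intro g
    obtain ⟨i, rfl⟩ := he g
    have hC : CauchySeq fun n => c (n + i) (e i) := by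
      refine cauchySeq_of_le_geometric (1 / 2) 1 (by norm_num) fun n => ?_
      rw [dist_comm, dist_eq_norm, one_mul]
      have h1 := hn5 (s (n + i)) (n + i) (e i) (by
        apply Finset.mem_image_of_mem
        rw [Finset.mem_range]
        omega)
      rw [← hs] at h1
      have h2 : (1 / 2 : ℝ) ^ (n + i) ≤ (1 / 2 : ℝ) ^ n :=
        pow_le_pow_of_le_one (by norm_num) (by norm_num) (by omega)
      have e5 : n + 1 + i = n + i + 1 := by omega
      rw [e5]
      exact h1.le.trans h2
    obtain ⟨t, ht⟩ := cauchySeq_tendsto_of_complete hC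
    exact ⟨t, (tendsto_add_atTop_iff_nat i).1 ht⟩
  choose u hu using hclim
  have hcU : ∀ n g, c n g ∈ unitary T := fun n g =>
    mul_mem (s n).1.2 (map_mem_unitary _ (Unitary.star_mem (s n).1.2))
  have huU : ∀ g, u g ∈ unitary T := by
    intro g
    rw [Unitary.mem_iff]
    constructor
    · refine tendsto_nhds_unique ((hu g).star.mul (hu g)) ?_
      simp_rw [(Unitary.mem_iff.1 (hcU _ g)).1]
      exact tendsto_const_nhds
    · refine tendsto_nhds_unique ((hu g).mul (hu g).star) ?_
      simp_rw [(Unitary.mem_iff.1 (hcU _ g)).2]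
      exact tendsto_const_nhds
  refine ⟨StarAlgEquiv.ofBijective Ψ ⟨hiso.injective, hsurj⟩, u, huU, ?_, ?_⟩
  · intro g k
    refine tendsto_nhds_unique (hu (g * k)) ?_
    have h1 : Tendsto (fun n => c n g * β g (c n k)) atTop (𝓝 (u g * β g (u k))) :=
      (hu g).mul (((continuous_equiv (β g)).tendsto _).comp (hu k))
    refine h1.congr fun n => ?_
    show ((s n).1 : T) * β g (star ((s n).1 : T)) * β g (((s n).1 : T) * β k (star ((s n).1 : T)))
      = ((s n).1 : T) * β (g * k) (star ((s n).1 : T))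
    rw [mul_assoc, ← map_mul, ← mul_assoc, Unitary.coe_star_mul_self, one_mul, map_mul β g k,
      StarAlgEquiv.mul_apply]
  · intro g a
    show ψ (α g a) = u g * β g (ψ a) * star (u g)
    refine tendsto_nhds_unique (hψ (α g a)) ?_
    have h1 : Tendsto (fun n => c n g * β g (conj ι (s n).1 a) * star (c n g)) atTop
        (𝓝 (u g * β g (ψ a) * star (u g))) :=
      ((hu g).mul (((continuous_equiv (β g)).tendsto _).comp (hψ a))).mul (hu g).star
    refine h1.congr fun n => ?_
    show ((s n).1 : T) * β g (star ((s n).1 : T)) * β g (((s n).1 : T) * ι a * star ((s n).1 : T))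
      * star (((s n).1 : T) * β g (star ((s n).1 : T))) =
      ((s n).1 : T) * ι (α g a) * star ((s n).1 : T)
    have hVV : star ((s n).1 : T) * ((s n).1 : T) = 1 := Unitary.coe_star_mul_self _
    rw [heq, star_mul, ← map_star, star_star]
    calc ((s n).1 : T) * β g (star ((s n).1 : T)) * β g (((s n).1 : T) * ι a * star ((s n).1 : T))
        * (β g ((s n).1 : T) * star ((s n).1 : T))
        = ((s n).1 : T) * (β g (star ((s n).1 : T)) * β g (((s n).1 : T) * ι a * star ((s n).1 : T))
          * β g ((s n).1 : T)) * star ((s n).1 : T) := by noncomm_ring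
      _ = ((s n).1 : T) * β g (ι a) * star ((s n).1 : T) := by
          rw [← map_mul, ← map_mul]
          congr 3
          calc star ((s n).1 : T) * (((s n).1 : T) * ι a * star ((s n).1 : T)) * ((s n).1 : T)
              = (star ((s n).1 : T) * ((s n).1 : T)) * ι a *
                (star ((s n).1 : T) * ((s n).1 : T)) := by noncomm_ring
            _ = ι a := by rw [hVV, one_mul, mul_one]

end

end EqApprox

open EqApprox in
theorem cocycleConjugate_of_approx {G : Type*} [Group G] [Countable G] {A : Type u} {T : Type v}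
    [CStarAlgebra A] [CStarAlgebra T] [TopologicalSpace.SeparableSpace A]
    [TopologicalSpace.SeparableSpace T]
    (α : G →* (A ≃⋆ₐ[ℂ] A)) (β : G →* (T ≃⋆ₐ[ℂ] T))
    (ι : A →⋆ₐ[ℂ] T) (hι : Function.Injective ι) (hβ : ∀ g a, β g (ι a) = ι (α g a))
    (h : ∀ (K : Finset G) (F : Finset A) (E : Finset T) (ε : ℝ), 0 < ε → ∃ U ∈ unitary T,
      (∀ a ∈ F, ‖U * ι a - ι a * U‖ < ε) ∧ (∀ g ∈ K, ‖β g U - U‖ < ε) ∧
      ∀ b ∈ E, ∃ a : A, ‖star U * b * U - ι a‖ < ε) :
    CocycleConjugate α β := by
  obtain ⟨Φ, c, h1, h2, h3⟩ := exists_cocycle_of_approx α β ι hι (fun g a => (hβ g a).symm)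
    (fun F E K ε hε => by
      obtain ⟨U, hU, h1, h2, h3⟩ := h K F E ε hε
      exact ⟨U, hU, h1, h3, h2⟩)
  exact ⟨Φ, c, h1, h2, h3⟩

end Vale.Agent.P095
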