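import Vale.Agent.P095.Act

/-!
# P095: equivariant commuting copies in the central sequence algebra
-/

open Filter Topology TopologicalSpace
open scoped BoundedContinuousFunction ComplexOrder

namespace Vale.Agent.P095

open Vale.Agent.P101

universe u

/-- Tracially null elements of the central sequence algebra: the uniform tracial `2`-norm of a
representing sequence tends to `0` along `ω`. -/
def nullSet (ω : Ultrafilter ℕ) (A : Type u) [CStarAlgebra A] : Set (centralSeq ω A) :=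
  {x | ∃ y : ℕ →ᵇ A, Ultra.mk ω y = x ∧ ∀ ε > 0, ∀ᶠ n in (ω : Filter ℕ),
    ∀ τ : A →ₗ[ℂ] ℂ, IsTrace τ → (τ (star (y n) * y n)).re < ε}

section Tr

variable {A : Type u} [CStarAlgebra A]

theorem IsTrace.re_nonneg {τ : A →ₗ[ℂ] ℂ} (h : IsTrace τ) (a : A) :
    0 ≤ (τ (star a * a)).re := (Complex.nonneg_iff.1 (h.nonneg a)).1

theorem IsTrace.re_le {τ : A →ₗ[ℂ] ℂ} (h : IsTrace τ) (a : A) :
    (τ (star a * a)).re ≤ ‖a‖ ^ 2 := by
  let _ := CStarAlgebra.spectralOrder A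
  let _ := CStarAlgebra.spectralOrderedRing A
  have h1 : star a * a ≤ algebraMap ℝ A (‖a‖ ^ 2) := CStarAlgebra.star_mul_le_algebraMap_norm_sq
  obtain ⟨c, hc⟩ := CStarAlgebra.nonneg_iff_eq_star_mul_self.1 (sub_nonneg.2 h1)
  have h3 := IsTrace.re_nonneg h c
  rw [← hc, map_sub, Complex.sub_re] at h3
  have h4 : τ (algebraMap ℝ A (‖a‖ ^ 2)) = ((‖a‖ ^ 2 : ℝ) : ℂ) := by
    rw [IsScalarTower.algebraMap_apply ℝ ℂ A, Algebra.algebraMap_eq_smul_one (R := ℂ), map_smul,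
      h.map_one, smul_eq_mul, mul_one]
    rfl
  rw [h4, Complex.ofReal_re] at h3
  linarith

theorem IsTrace.re_add_le {τ : A →ₗ[ℂ] ℂ} (h : IsTrace τ) (a b : A) :
    (τ (star (a + b) * (a + b))).re ≤ 2 * (τ (star a * a)).re + 2 * (τ (star b * b)).re := by
  have h1 := IsTrace.re_nonneg h (a - b)
  have h2 : star (a + b) * (a + b) = (2 : ℂ) • (star a * a) + (2 : ℂ) • (star b * b)
      - star (a - b) * (a - b) := by
    rw [star_add, star_sub, two_smul, two_smul]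
    noncomm_ring
  rw [h2, map_sub, map_add, map_smul, map_smul, Complex.sub_re, Complex.add_re, smul_eq_mul,
    smul_eq_mul]
  have e : ∀ z : ℂ, ((2 : ℂ) * z).re = 2 * z.re := fun z => by simp
  rw [e, e]
  linarith

/-- The square of the uniform tracial `2`-norm. -/
noncomputable def trSup (a : A) : ℝ :=
  ⨆ τ : {τ : A →ₗ[ℂ] ℂ // IsTrace τ}, (τ.1 (star a * a)).re

theorem bddAbove_trSup (a : A) :
    BddAbove (Set.range fun τ : {τ : A →ₗ[ℂ] ℂ // IsTrace τ} => (τ.1 (star a * a)).re) :=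
  ⟨‖a‖ ^ 2, by rintro _ ⟨τ, rfl⟩; exact IsTrace.re_le τ.2 a⟩

theorem trSup_nonneg (a : A) : 0 ≤ trSup a :=
  Real.iSup_nonneg fun τ => IsTrace.re_nonneg τ.2 a

theorem le_trSup (a : A) {τ : A →ₗ[ℂ] ℂ} (h : IsTrace τ) : (τ (star a * a)).re ≤ trSup a :=
  le_ciSup (bddAbove_trSup a) ⟨τ, h⟩

theorem trSup_le_iff {a : A} {c : ℝ} (hc : 0 ≤ c) (h : ∀ τ : A →ₗ[ℂ] ℂ, IsTrace τ →
    (τ (star a * a)).re ≤ c) : trSup a ≤ c :=
  Real.iSup_le (fun τ => h τ.1 τ.2) hc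

theorem trSup_le (a : A) : trSup a ≤ ‖a‖ ^ 2 :=
  trSup_le_iff (by positivity) fun _ h => IsTrace.re_le h a

theorem trSup_add_le (a b : A) : trSup (a + b) ≤ 2 * trSup a + 2 * trSup b := by
  refine trSup_le_iff (by linarith [trSup_nonneg a, trSup_nonneg b]) fun τ h => ?_
  linarith [IsTrace.re_add_le h a b, le_trSup a h, le_trSup b h]

end Tr

section

variable {A : Type u} [CStarAlgebra A] {ω : Ultrafilter ℕ}

theorem tendsto_trSup_iff (y : ℕ → A) :
    Tendsto (fun n => trSup (y n)) ω (𝓝 0) ↔ ∀ ε > 0, ∀ᶠ n in (ω : Filter ℕ),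
      ∀ τ : A →ₗ[ℂ] ℂ, IsTrace τ → (τ (star (y n) * y n)).re < ε := by
  constructor
  · intro h ε hε
    filter_upwards [h.eventually (gt_mem_nhds hε)] with n hn τ hτ
    exact (le_trSup _ hτ).trans_lt hn
  · intro h
    rw [Metric.tendsto_nhds]
    intro ε hε
    filter_upwards [h (ε / 2) (by positivity)] with n hn
    rw [Real.dist_eq, sub_zero, abs_of_nonneg (trSup_nonneg _)]
    refine (trSup_le_iff (c := ε / 2) (by positivity) fun τ hτ => (hn τ hτ).le).trans_lt ?_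
    linarith

theorem tendsto_trSup_of_mk_eq {y z : ℕ →ᵇ A} (h : Ultra.mk ω y = Ultra.mk ω z)
    (hy : Tendsto (fun n => trSup (y n)) ω (𝓝 0)) : Tendsto (fun n => trSup (z n)) ω (𝓝 0) := by
  rw [Ultra.mk_eq_mk_iff] at h
  have h1 : Tendsto (fun n => 2 * trSup (y n) + 2 * ‖y n - z n‖ ^ 2) ω
      (𝓝 (2 * 0 + 2 * 0 ^ 2)) := (hy.const_mul 2).add ((h.pow 2).const_mul 2)
  have e : (2 * 0 + 2 * 0 ^ 2 : ℝ) = 0 := by norm_num
  rw [e] at h1
  refine squeeze_zero (fun n => trSup_nonneg _) (fun n => ?_) h1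
  have h2 : z n = y n + (z n - y n) := by abel
  have h3 := trSup_add_le (y n) (z n - y n)
  rw [← h2] at h3
  have h4 := trSup_le (z n - y n)
  rw [norm_sub_rev] at h4
  linarith

theorem mem_nullSet_iff {x : centralSeq ω A} {y : ℕ →ᵇ A} (h : Ultra.mk ω y = x) :
    x ∈ nullSet ω A ↔ Tendsto (fun n => trSup (y n)) ω (𝓝 0) := by
  constructor
  · rintro ⟨z, hz, hz'⟩
    exact tendsto_trSup_of_mk_eq (hz.trans h.symm) ((tendsto_trSup_iff _).2 hz')
  · intro h'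
    exact ⟨y, h, (tendsto_trSup_iff _).1 h'⟩

theorem isClosed_nullSet : IsClosed (nullSet ω A) := by
  rw [← isSeqClosed_iff_isClosed]
  intro x a hx ha
  obtain ⟨y, hy, -⟩ := Ultra.exists_rep (a : Ultra ω A)
  rw [mem_nullSet_iff hy, Metric.tendsto_nhds]
  intro ε hε
  have hn : ∀ k, ‖x k - a‖ = ‖((x k : Ultra ω A)) - a‖ := fun k => rfl
  obtain ⟨δ, hδ, hδε⟩ : ∃ δ > 0, 2 * δ ^ 2 < ε / 2 := by
    refine ⟨min 1 (ε / 8), by positivity, ?_⟩
    have h1 : min 1 (ε / 8) ≤ 1 := min_le_left _ _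
    have h2 : min 1 (ε / 8) ≤ ε / 8 := min_le_right _ _
    have h3 : 0 < min 1 (ε / 8) := by positivity
    nlinarith
  obtain ⟨k, hk⟩ := ((tendsto_iff_norm_sub_tendsto_zero.1 ha).eventually (gt_mem_nhds hδ)).exists
  obtain ⟨z, hz, -⟩ := Ultra.exists_rep (x k : Ultra ω A)
  have h1 := (mem_nullSet_iff hz).1 (hx k)
  have h2 := (Ultra.tendsto_norm_mk (ω := ω) (z - y))
  rw [map_sub, hz, hy, ← hn] at h2
  filter_upwards [h1.eventually (gt_mem_nhds (show (0 : ℝ) < ε / 4 by positivity)),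
    h2.eventually (gt_mem_nhds hk)] with n hn1 hn2
  rw [Real.dist_eq, sub_zero, abs_of_nonneg (trSup_nonneg _)]
  have h3 : y n = z n + (y n - z n) := by abel
  have h4 := trSup_add_le (z n) (y n - z n)
  rw [← h3] at h4
  have h5 := trSup_le (y n - z n)
  rw [norm_sub_rev] at h5
  rw [BoundedContinuousFunction.sub_apply] at hn2
  have h6 : ‖z n - y n‖ ^ 2 ≤ δ ^ 2 := by
    have := norm_nonneg (z n - y n)
    gcongr
  linarith

/-- Reindexing: one can reindex countably many bounded sequences so that the norms do not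
increase in the ultrapower, tracially null sequences remain null, and the reindexed sequences
commute with countably many given central sequences. -/
theorem exists_reindex_null (hω : (ω : Filter ℕ) ≤ cofinite) (Z : Set (ℕ →ᵇ A)) (hZ : Z.Countable)
    (Y : Set (ℕ →ᵇ A)) (hY : Y.Countable) (hYc : ∀ y ∈ Y, Ultra.mk ω y ∈ centralSeq ω A) :
    ∃ σ : ℕ → ℕ, (∀ z ∈ Z, ‖Ultra.mk ω (reindex σ z)‖ ≤ ‖Ultra.mk ω z‖) ∧
      (∀ z ∈ Z, ∀ y ∈ Y, Commute (Ultra.mk ω (reindex σ z)) (Ultra.mk ω y)) ∧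
      ∀ z ∈ Z, Tendsto (fun n => trSup (z n)) ω (𝓝 0) →
        Tendsto (fun n => trSup (reindex σ z n)) ω (𝓝 0) := by
  classical
  have := hZ.to_subtype
  have := hY.to_subtype
  let N : Set (ℕ →ᵇ A) := {z ∈ Z | Tendsto (fun n => trSup (z n)) ω (𝓝 0)}
  have hN : N.Countable := hZ.mono (Set.sep_subset _ _)
  have := hN.to_subtype
  let f : Z ⊕ ((Z × Y) ⊕ N) → (n : ℕ) → ℕ → ℝ := fun k n m =>
    match k with
    | Sum.inl z => max 0 (‖(z : ℕ →ᵇ A) m‖ - ‖Ultra.mk ω (z : ℕ →ᵇ A)‖)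
    | Sum.inr (Sum.inl (z, y)) =>
      ‖(z : ℕ →ᵇ A) m * (y : ℕ →ᵇ A) n - (y : ℕ →ᵇ A) n * (z : ℕ →ᵇ A) m‖
    | Sum.inr (Sum.inr z) => trSup ((z : ℕ →ᵇ A) m)
  obtain ⟨σ, hσ⟩ := eps_test_countable (X := fun _ => ℕ) (ω : Filter ℕ) hω f (by
    rintro (z | ⟨z, y⟩ | z) n m
    · exact le_max_left _ _
    · exact norm_nonneg _
    · exact trSup_nonneg _) (by
    intro F ε hε
    -- choose a good index `m`
    have h1 : ∀ z : Z, ∀ᶠ m in (ω : Filter ℕ),
        max 0 (‖(z : ℕ →ᵇ A) m‖ - ‖Ultra.mk ω (z : ℕ →ᵇ A)‖) < ε := by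
      intro z
      have h2 : Tendsto (fun m => max 0 (‖(z : ℕ →ᵇ A) m‖ - ‖Ultra.mk ω (z : ℕ →ᵇ A)‖)) ω
          (𝓝 (max 0 (‖Ultra.mk ω (z : ℕ →ᵇ A)‖ - ‖Ultra.mk ω (z : ℕ →ᵇ A)‖))) :=
        tendsto_const_nhds.max ((Ultra.tendsto_norm_mk _).sub tendsto_const_nhds)
      rw [sub_self, max_self] at h2
      exact h2.eventually (gt_mem_nhds hε)
    have h3 : ∀ᶠ m in (ω : Filter ℕ), ∀ k ∈ F,
        (∀ z : Z, k = Sum.inl z →
          max 0 (‖(z : ℕ →ᵇ A) m‖ - ‖Ultra.mk ω (z : ℕ →ᵇ A)‖) < ε) ∧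
        ∀ z : N, k = Sum.inr (Sum.inr z) → trSup ((z : ℕ →ᵇ A) m) < ε := by
      rw [Filter.eventually_all_finset]
      rintro (z | zy | z) _
      · filter_upwards [h1 z] with m hm
        refine ⟨fun z' hz' => ?_, fun z' hz' => (by cases hz')⟩
        obtain rfl := Sum.inl_injective hz'
        exact hm
      · exact Eventually.of_forall (fun m =>
          ⟨fun z' hz' => (by cases hz'), fun z' hz' => (by cases hz')⟩)
      · filter_upwards [(z.2.2).eventually (gt_mem_nhds hε)] with m hm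
        refine ⟨fun z' hz' => (by cases hz'), fun z' hz' => ?_⟩
        obtain rfl := Sum.inr_injective (Sum.inr_injective hz')
        exact hm
    obtain ⟨m, hm⟩ := h3.exists
    refine ⟨fun _ => m, ?_⟩
    rintro (z | ⟨z, y⟩ | z) hk
    · exact Eventually.of_forall (fun n => (hm _ hk).1 z rfl)
    · have h4 := (mk_mem_centralSeq_iff.1 (hYc y y.2)) ((z : ℕ →ᵇ A) m)
      exact h4.eventually (gt_mem_nhds hε)
    · exact Eventually.of_forall (fun n => (hm _ hk).2 z rfl))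
  refine ⟨σ, ?_, ?_, ?_⟩
  · intro z hz
    have h1 := hσ (Sum.inl ⟨z, hz⟩)
    have h2 : Tendsto (fun n => max 0 (‖z (σ n)‖ - ‖Ultra.mk ω z‖) + ‖Ultra.mk ω z‖) ω
        (𝓝 (0 + ‖Ultra.mk ω z‖)) := h1.add tendsto_const_nhds
    rw [zero_add] at h2
    refine le_of_tendsto_of_tendsto (Ultra.tendsto_norm_mk (reindex σ z)) h2
      (Eventually.of_forall fun n => ?_)
    simp only [reindex_apply]
    linarith [le_max_right 0 (‖z (σ n)‖ - ‖Ultra.mk ω z‖)]
  · intro z hz y hy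
    have h1 := hσ (Sum.inr (Sum.inl (⟨z, hz⟩, ⟨y, hy⟩)))
    rw [commute_iff_eq, ← map_mul, ← map_mul, Ultra.mk_eq_mk_iff]
    exact h1
  · intro z hz hz'
    exact hσ (Sum.inr (Sum.inr ⟨z, hz, hz'⟩))

end

/-- A family of reindexed lifts of a sequence in the central sequence algebra. -/
theorem exists_copy_seq {G : Type*} [Group G] [Countable G] {A : Type u} [CStarAlgebra A]
    [SeparableSpace A] {ω : Ultrafilter ℕ} (hω : (ω : Filter ℕ) ≤ cofinite)
    (α : G →* (A ≃⋆ₐ[ℂ] A)) (d : ℕ → Ultra ω A) (hdc : ∀ i, d i ∈ centralSeq ω A) :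
    ∃ ψ : ℕ → Ultra ω A, (∀ i, ψ i ∈ centralSeq ω A) ∧
      (∀ i j, ‖ψ i - ψ j‖ ≤ ‖d i - d j‖) ∧
      (∀ i j k, ‖ψ i + ψ j - ψ k‖ ≤ ‖d i + d j - d k‖) ∧
      (∀ i j k, ‖ψ i * ψ j - ψ k‖ ≤ ‖d i * d j - d k‖) ∧
      (∀ i k, ‖star (ψ i) - ψ k‖ ≤ ‖star (d i) - d k‖) ∧
      (∀ i k, ‖Complex.I • ψ i - ψ k‖ ≤ ‖Complex.I • d i - d k‖) ∧
      (∀ k, ‖1 - ψ k‖ ≤ ‖1 - d k‖) ∧
      (∀ i j, Commute (ψ i) (d j)) ∧
      (∀ g i j, ‖ultraAct ω α g (ψ i) - ψ j‖ ≤ ‖ultraAct ω α g (d i) - d j‖) ∧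
      ∀ i, (∃ y : ℕ →ᵇ A, Ultra.mk ω y = d i ∧ Tendsto (fun n => trSup (y n)) ω (𝓝 0)) →
        ∃ y : ℕ →ᵇ A, Ultra.mk ω y = ψ i ∧ Tendsto (fun n => trSup (y n)) ω (𝓝 0) := by
  classical
  obtain ⟨a, ha⟩ := TopologicalSpace.exists_dense_seq A
  -- lifts
  have hlift : ∀ i, ∃ y : ℕ →ᵇ A, Ultra.mk ω y = d i := fun i => by
    obtain ⟨y, hy, -⟩ := Ultra.exists_rep (d i)
    exact ⟨y, hy⟩
  choose y hy using hlift
  let Z : Fin 9 → Set (ℕ →ᵇ A) := ![
    Set.range y,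
    Set.range (fun p : ℕ × ℕ => y p.1 - y p.2),
    Set.range (fun p : ℕ × ℕ × ℕ => y p.1 + y p.2.1 - y p.2.2),
    Set.range (fun p : ℕ × ℕ × ℕ => y p.1 * y p.2.1 - y p.2.2),
    Set.range (fun p : ℕ × ℕ => star (y p.1) - y p.2),
    Set.range (fun p : ℕ × ℕ => Complex.I • y p.1 - y p.2),
    Set.range (fun k : ℕ => 1 - y k),
    Set.range (fun p : ℕ × ℕ => Ultra.const (a p.1) * y p.2 - y p.2 * Ultra.const (a p.1)),
    Set.range (fun p : G × ℕ × ℕ => seqMap (α p.1 : A →⋆ₐ[ℂ] A) (y p.2.1) - y p.2.2)]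
  have hZ : (⋃ k, Z k).Countable := by
    refine Set.countable_iUnion fun k => ?_
    fin_cases k <;> exact Set.countable_range _
  have hmem : ∀ k, ∀ z ∈ Z k, z ∈ ⋃ k, Z k := fun k z hz => Set.mem_iUnion.2 ⟨k, hz⟩
  obtain ⟨σ, hσ1, hσ2, hσ3⟩ := exists_reindex_null hω _ hZ (Set.range y) (Set.countable_range y) (by
    rintro _ ⟨i, rfl⟩
    rw [hy]
    exact hdc i)
  refine ⟨fun i => Ultra.mk ω (reindex σ (y i)), ?_, ?_, ?_, ?_, ?_, ?_, ?_, ?_, ?_, ?_⟩
  · intro i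
    rw [mem_centralSeq_iff]
    have hcl : IsClosed {b : A | Commute (Ultra.diag ω b) (Ultra.mk ω (reindex σ (y i)))} := by
      have hc : Continuous (Ultra.diag ω : A → Ultra ω A) :=
        AddMonoidHomClass.continuous_of_bound (Ultra.diag ω) 1
          (fun b => by rw [one_mul, Ultra.norm_diag])
      exact isClosed_eq (hc.mul continuous_const) (continuous_const.mul hc)
    intro b
    have h1 : closure (Set.range a) ⊆
        {b : A | Commute (Ultra.diag ω b) (Ultra.mk ω (reindex σ (y i)))} := by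
      apply closure_minimal _ hcl
      rintro _ ⟨j, rfl⟩
      have h2 := hσ1 (Ultra.const (a j) * y i - y i * Ultra.const (a j))
        (hmem 7 _ ⟨(j, i), rfl⟩)
      have h3 : Ultra.mk ω (Ultra.const (a j) * y i - y i * Ultra.const (a j)) = 0 := by
        rw [map_sub, map_mul, map_mul, hy, sub_eq_zero]
        exact (mem_centralSeq_iff.1 (hdc i) (a j))
      rw [h3, norm_zero] at h2
      have h4 := norm_le_zero_iff.1 h2
      have h5 : reindex σ (Ultra.const (a j) * y i - y i * Ultra.const (a j)) =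
          Ultra.const (a j) * reindex σ (y i) - reindex σ (y i) * Ultra.const (a j) := by
        ext n
        rfl
      rw [h5, map_sub, map_mul, map_mul, sub_eq_zero] at h4
      exact h4
    exact h1 (ha b)
  · intro i j
    have h1 := hσ1 (y i - y j) (hmem 1 _ ⟨(i, j), rfl⟩)
    rw [map_sub, hy, hy] at h1
    exact h1
  · intro i j k
    have h1 := hσ1 (y i + y j - y k) (hmem 2 _ ⟨(i, j, k), rfl⟩)
    rw [map_sub, map_add, hy, hy, hy] at h1
    exact h1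
  · intro i j k
    have h1 := hσ1 (y i * y j - y k) (hmem 3 _ ⟨(i, j, k), rfl⟩)
    rw [map_sub, map_mul, hy, hy, hy] at h1
    exact h1
  · intro i k
    have h1 := hσ1 (star (y i) - y k) (hmem 4 _ ⟨(i, k), rfl⟩)
    rw [map_sub, map_star, hy, hy] at h1
    exact h1
  · intro i k
    have h1 := hσ1 (Complex.I • y i - y k) (hmem 5 _ ⟨(i, k), rfl⟩)
    rw [map_sub, map_smul, hy, hy] at h1
    exact h1
  · intro k
    have h1 := hσ1 (1 - y k) (hmem 6 _ ⟨k, rfl⟩)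
    rw [map_sub, map_one, hy] at h1
    exact h1
  · intro i j
    have h1 := hσ2 (y i) (hmem 0 _ ⟨i, rfl⟩) (y j) ⟨j, rfl⟩
    rw [hy j] at h1
    exact h1
  · intro g i j
    have h1 := hσ1 (seqMap (α g : A →⋆ₐ[ℂ] A) (y i) - y j) (hmem 8 _ ⟨(g, i, j), rfl⟩)
    have h2 : reindex σ (seqMap (α g : A →⋆ₐ[ℂ] A) (y i) - y j) =
        seqMap (α g : A →⋆ₐ[ℂ] A) (reindex σ (y i)) - reindex σ (y j) := by
      ext n
      rfl
    rw [h2, map_sub, map_sub, ← ultraAct_mk, ← ultraAct_mk, hy, hy] at h1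
    exact h1
  · rintro i ⟨z, hz, hz'⟩
    exact ⟨_, rfl, hσ3 (y i) (hmem 0 _ ⟨i, rfl⟩)
      (tendsto_trSup_of_mk_eq (hz.trans (hy i).symm) hz')⟩

/-- A dense sequence of a separable set, dense in the part of the set in a given subset. -/
theorem exists_dense_seq_of_subset {S : Type*} [PseudoMetricSpace S] [SeparableSpace S] [Nonempty S]
    (K : Set S) : ∃ d : ℕ → S, DenseRange d ∧ K ⊆ closure (Set.range d ∩ K) := by
  obtain ⟨c1, hc1, hc1'⟩ := exists_countable_dense S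
  obtain ⟨c2, hc2, hc2', hc2''⟩ := (IsSeparable.of_separableSpace K).exists_countable_dense_subset
  have hne : (c1 ∪ c2).Nonempty := hc1'.nonempty.mono Set.subset_union_left
  obtain ⟨d, hd⟩ := (hc1.union hc2').exists_eq_range hne
  refine ⟨d, ?_, ?_⟩
  · rw [DenseRange, ← hd]
    exact hc1'.mono Set.subset_union_left
  · refine hc2''.trans (closure_mono ?_)
    intro x hx
    exact ⟨by rw [← hd]; exact Or.inr hx, hc2 hx⟩

/-- Equivariant commuting copies from copies of sequences. -/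
theorem hasEqCopies_of_seq {G : Type*} [Group G] {B : Type*} [CStarAlgebra B]
    (β : G →* (B ≃⋆ₐ[ℂ] B)) (J : Set B) (hJ : IsClosed J)
    (h : ∀ d : ℕ → B, ∃ ψ : ℕ → B, 
      (∀ i j, ‖ψ i - ψ j‖ ≤ ‖d i - d j‖) ∧
      (∀ i j k, ‖ψ i + ψ j - ψ k‖ ≤ ‖d i + d j - d k‖) ∧
      (∀ i j k, ‖ψ i * ψ j - ψ k‖ ≤ ‖d i * d j - d k‖) ∧
      (∀ i k, ‖star (ψ i) - ψ k‖ ≤ ‖star (d i) - d k‖) ∧
      (∀ i k, ‖Complex.I • ψ i - ψ k‖ ≤ ‖Complex.I • d i - d k‖) ∧
      (∀ k, ‖1 - ψ k‖ ≤ ‖1 - d k‖) ∧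
      (∀ i j, Commute (ψ i) (d j)) ∧
      (∀ g i j, ‖β g (ψ i) - ψ j‖ ≤ ‖β g (d i) - d j‖) ∧
      ∀ i, d i ∈ J → ψ i ∈ J) : HasEqCopies β J := by
  intro S hS hsep _
  have : SeparableSpace S := hsep.separableSpace
  obtain ⟨d, hd, hd'⟩ := exists_dense_seq_of_subset {x : S | (x : B) ∈ J}
  obtain ⟨ψ, h0, hadd, hmul, hstar, hI, hone, hcomm, hact, hnull⟩ := h (fun i => (d i : B))
  have hcs : ContinuousStar S :=
    ⟨Continuous.subtype_mk (continuous_star.comp continuous_subtype_val) _⟩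
  obtain ⟨Φ, hΦ, hΦn⟩ := exists_hom_of_dense d hd ψ h0 hadd hmul hstar hI hone
  have hΦc : Continuous Φ := AddMonoidHomClass.continuous_of_bound Φ 1
    (fun b => by rw [one_mul]; exact hΦn b)
  refine ⟨Φ, ?_, ?_, ?_⟩
  · intro x z
    refine hd.induction_on₂ (p := fun x z : S => Commute (Φ x) (z : B)) ?_ ?_ x z
    · exact isClosed_eq (by fun_prop) (by fun_prop)
    · intro i j
      rw [hΦ]
      exact hcomm i j
  · intro g x z hxz
    have hβ := continuous_act β g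
    have key : ∀ x z : S, ‖β g (Φ x) - Φ z‖ ≤ ‖β g (x : B) - (z : B)‖ := by
      intro x z
      refine hd.induction_on₂ (p := fun x z : S => ‖β g (Φ x) - Φ z‖ ≤ ‖β g (x : B) - (z : B)‖)
        ?_ ?_ x z
      · refine isClosed_le ?_ ?_
        · exact continuous_norm.comp (((hβ.comp hΦc).comp continuous_fst).sub
            (hΦc.comp continuous_snd))
        · exact continuous_norm.comp (((hβ.comp continuous_subtype_val).comp continuous_fst).sub
            (continuous_subtype_val.comp continuous_snd))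
      · intro i j
        rw [hΦ, hΦ]
        exact hact g i j
    have h1 := key x z
    rw [← hxz, sub_self, norm_zero] at h1
    exact (sub_eq_zero.1 (norm_le_zero_iff.1 h1)).symm
  · intro x hx
    have h1 : ∀ z ∈ Set.range d ∩ {x : S | (x : B) ∈ J}, Φ z ∈ J := by
      rintro _ ⟨⟨i, rfl⟩, hi⟩
      rw [hΦ]
      exact hnull i hi
    have h2 := map_mem_closure hΦc (hd' hx) h1
    rwa [hJ.closure_eq] at h2

theorem hasEqCopies_centralSeq {G : Type*} [Group G] [Countable G] {A : Type u} [CStarAlgebra A]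
    [SeparableSpace A] {ω : Ultrafilter ℕ} (hω : (ω : Filter ℕ) ≤ cofinite)
    (α : G →* (A ≃⋆ₐ[ℂ] A)) : HasEqCopies (centralAct ω α) (nullSet ω A) := by
  refine hasEqCopies_of_seq _ _ isClosed_nullSet fun d => ?_
  obtain ⟨ψ', hψc, h0, hadd, hmul, hstar, hI, hone, hcomm, hact, hnull⟩ := exists_copy_seq hω α
    (fun i => (d i : Ultra ω A)) (fun i => (d i).2)
  refine ⟨fun i => ⟨ψ' i, hψc i⟩, h0, hadd, hmul, hstar, hI, hone, ?_, ?_, ?_⟩
  · intro i j
    rw [commute_iff_eq, Subtype.ext_iff]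
    exact hcomm i j
  · intro g i j
    have h1 := hact g i j
    rw [← coe_centralAct] at h1
    change ‖((centralAct ω α g ⟨ψ' i, hψc i⟩ : centralSeq ω A) : Ultra ω A) - ψ' j‖ ≤ _
    rw [coe_centralAct]
    exact h1
  · intro i hi
    obtain ⟨y, hy, hy'⟩ := hi
    obtain ⟨z, hz, hz'⟩ := hnull i ⟨y, hy, (tendsto_trSup_iff _).2 hy'⟩
    exact ⟨z, hz, (tendsto_trSup_iff _).1 hz'⟩

end Vale.Agent.P095
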