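import Vale.Agent.P095.Act

/-!
# P095: from the approximately inner half flip to the hypothesis of the equivariant intertwining
argument (row A6)
-/

open Filter Topology
open scoped BoundedContinuousFunction TensorProduct

namespace Vale.Agent.P095

open Vale.Agent.P101

universe u v w

/-- The half flip, with a copy of `Z` in the fixed point algebra of the central sequence algebra,
gives the hypothesis of the equivariant intertwining argument. -/
theorem approx_of_halfFlip_fixed {G : Type*} [Group G] {A : Type u} {Z : Type v} {T : Type w}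
    [CStarAlgebra A] [CStarAlgebra Z] [CStarAlgebra T] {ιA : A →⋆ₐ[ℂ] T} {ιZ : Z →⋆ₐ[ℂ] T}
    (hT : IsCStarTensor A Z T ιA ιZ) (hflip : HasInnerHalfFlip.{v, w} Z) {ω : Ultrafilter ℕ}
    (α : G →* (A ≃⋆ₐ[ℂ] A)) (β : G →* (T ≃⋆ₐ[ℂ] T)) (hβ : IsTensorAction α ιA ιZ β)
    (ρ : Z →⋆ₐ[ℂ] centralSeq ω A) (hρ : ∀ g z, centralAct ω α g (ρ z) = ρ z)
    (K : Finset G) (F : Finset A) (E : Finset T) (ε : ℝ) (hε : 0 < ε) :
    ∃ U ∈ unitary T, (∀ a ∈ F, ‖U * ιA a - ιA a * U‖ < ε) ∧ (∀ g ∈ K, ‖β g U - U‖ < ε) ∧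
      ∀ b ∈ E, ∃ a : A, ‖star U * b * U - ιA a‖ < ε := by
  classical
  let π₁ : Z →⋆ₐ[ℂ] Ultra ω T := (Ultra.diag ω).comp ιZ
  let π₂ : Z →⋆ₐ[ℂ] Ultra ω T := (ultraMap ω ιA).comp ((centralSeq ω A).subtype.comp ρ)
  -- representatives
  have hrep : ∀ z : Z, ∃ r : ℕ →ᵇ A, Ultra.mk ω r = (ρ z : Ultra ω A) := fun z =>
    Ultra.mk_surjective _
  choose r hr using hrep
  have hπ₂ : ∀ z, π₂ z = Ultra.mk ω (seqMap ιA (r z)) := by
    intro z
    show ultraMap ω ιA (ρ z : Ultra ω A) = _
    rw [← hr, ultraMap_mk]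
  have hcomm : ∀ x y, Commute (π₁ x) (π₂ y) := by
    intro x y
    rw [hπ₂]
    show Commute (Ultra.mk ω (Ultra.const (ιZ x))) _
    rw [commute_iff_eq, ← map_mul, ← map_mul]
    congr 1
    ext n
    exact (hT.commute _ _).symm.eq
  -- approximate the elements of `E`
  have happ : ∀ b : T, ∃ S : Finset (A × Z), ‖∑ i ∈ S, ιA i.1 * ιZ i.2 - b‖ < ε / 4 := by
    intro b
    obtain ⟨t, ht⟩ := hT.dense.exists_dist_lt b (by positivity : 0 < ε / 4)
    obtain ⟨S, rfl⟩ := TensorProduct.exists_finset t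
    refine ⟨S, ?_⟩
    rw [dist_comm, dist_eq_norm, map_sum] at ht
    simpa using ht
  choose S hS using happ
  let κ : ℝ := 1 + ∑ b ∈ E, ∑ i ∈ S b, ‖ιA i.1‖
  have hκ : 0 < κ := by
    have : 0 ≤ ∑ b ∈ E, ∑ i ∈ S b, ‖ιA i.1‖ :=
      Finset.sum_nonneg (fun _ _ => Finset.sum_nonneg (fun _ _ => norm_nonneg _))
    linarith
  obtain ⟨U, hUadj, hU, hUz⟩ := hflip (Ultra ω T) π₁ π₂ hcomm
    (E.biUnion (fun b => (S b).image Prod.snd)) (ε / (4 * κ)) (by positivity)
  -- `U` commutes with `A`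
  have hUA : ∀ a, Commute U (Ultra.diag ω (ιA a)) := by
    intro a
    have h1 : (Algebra.adjoin ℂ (Set.range π₁ ∪ Set.range π₂)).topologicalClosure ≤
        Subalgebra.centralizer ℂ {Ultra.diag ω (ιA a)} := by
      apply Subalgebra.topologicalClosure_minimal
      · apply Algebra.adjoin_le
        rintro _ (⟨z, rfl⟩ | ⟨z, rfl⟩)
        · rw [SetLike.mem_coe, Subalgebra.mem_centralizer_iff]
          rintro _ rfl
          show Ultra.mk ω (Ultra.const (ιA a)) * Ultra.mk ω (Ultra.const (ιZ z)) =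
            Ultra.mk ω (Ultra.const (ιZ z)) * Ultra.mk ω (Ultra.const (ιA a))
          rw [← map_mul, ← map_mul, ← map_mul, ← map_mul, (hT.commute a z).eq]
        · rw [SetLike.mem_coe, Subalgebra.mem_centralizer_iff]
          rintro _ rfl
          have h2 : Ultra.diag ω (ιA a) = ultraMap ω ιA (Ultra.diag ω a) := by
            rw [Ultra.diag_apply, Ultra.diag_apply, ultraMap_mk]
            rfl
          rw [h2]
          show _ * ultraMap ω ιA (ρ z : Ultra ω A) = ultraMap ω ιA (ρ z : Ultra ω A) * _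
          rw [← map_mul, ← map_mul, (mem_centralSeq_iff.1 (ρ z).2 a).eq]
      · exact Set.isClosed_centralizer _
    have h3 := h1 hUadj
    rw [Subalgebra.mem_centralizer_iff] at h3
    exact (h3 _ rfl).symm
  -- `U` is fixed by the action of `β`
  have hUβ : ∀ g, ultraAct ω β g U = U := by
    intro g
    have h1 : (Algebra.adjoin ℂ (Set.range π₁ ∪ Set.range π₂)).topologicalClosure ≤
        (fixedAlg (ultraAct ω β)).toSubalgebra := by
      apply Subalgebra.topologicalClosure_minimal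
      · apply Algebra.adjoin_le
        rintro _ (⟨z, rfl⟩ | ⟨z, rfl⟩) g'
        · show ultraAct ω β g' (Ultra.diag ω (ιZ z)) = Ultra.diag ω (ιZ z)
          rw [ultraAct_diag, hβ.2]
        · rw [hπ₂, ultraAct_mk]
          have h2 : seqMap (β g' : T →⋆ₐ[ℂ] T) (seqMap ιA (r z)) =
              seqMap ιA (seqMap (α g' : A →⋆ₐ[ℂ] A) (r z)) := by
            ext n
            exact hβ.1 g' (r z n)
          have h3 : Ultra.mk ω (seqMap ιA (seqMap (α g' : A →⋆ₐ[ℂ] A) (r z))) =
              ultraMap ω ιA (ultraAct ω α g' (Ultra.mk ω (r z))) := by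
            rw [ultraAct_mk, ultraMap_mk]
          rw [h2, h3, ← ultraMap_mk, hr]
          congr 1
          exact congrArg Subtype.val (hρ g' z)
      · exact isClosed_fixedAlg _
    exact h1 hUadj g
  -- lift `U`
  obtain ⟨y, hy, hyu⟩ := exists_unitary_lift U hU
  have hn1 : ∀ a ∈ F, ∀ᶠ n in (ω : Filter ℕ), ‖star (y n) * ιA a - ιA a * star (y n)‖ < ε := by
    intro a _
    have h4 : Ultra.mk ω (star y * Ultra.const (ιA a)) = Ultra.mk ω (Ultra.const (ιA a) * star y) := by
      rw [map_mul, map_mul, map_star, hy, ← Ultra.diag_apply]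
      have h5 := (hUA (star a)).star_star
      rw [← map_star, ← map_star, star_star] at h5
      exact h5.eq
    rw [Ultra.mk_eq_mk_iff] at h4
    exact h4.eventually (gt_mem_nhds hε)
  have hn2 : ∀ b ∈ E, ∀ᶠ n in (ω : Filter ℕ),
      ‖y n * b * star (y n) - ιA (∑ i ∈ S b, i.1 * r i.2 n)‖ < ε := by
    intro b hb
    let c : ℕ →ᵇ A := ∑ i ∈ S b, Ultra.const i.1 * r i.2
    have h4 : ‖Ultra.mk ω (y * Ultra.const b * star y - seqMap ιA c)‖ < ε := by
      have h5 : Ultra.mk ω (seqMap ιA c) = ∑ i ∈ S b, Ultra.diag ω (ιA i.1) * π₂ i.2 := by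
        rw [← ultraMap_mk, map_sum, map_sum]
        refine Finset.sum_congr rfl (fun i _ => ?_)
        rw [map_mul, map_mul, hπ₂, ultraMap_mk, ultraMap_mk]
        rfl
      have h6 : Ultra.mk ω (y * Ultra.const b * star y) = U * Ultra.diag ω b * star U := by
        rw [map_mul, map_mul, map_star, hy]
        rfl
      rw [map_sub, h5, h6]
      have h7 : U * Ultra.diag ω b * star U - ∑ i ∈ S b, Ultra.diag ω (ιA i.1) * π₂ i.2 =
          - (U * Ultra.diag ω (∑ i ∈ S b, ιA i.1 * ιZ i.2 - b) * star U) +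
          ∑ i ∈ S b, Ultra.diag ω (ιA i.1) * (U * π₁ i.2 * star U - π₂ i.2) := by
        have h8 : ∀ i ∈ S b, Ultra.diag ω (ιA i.1) * (U * π₁ i.2 * star U - π₂ i.2) =
            U * (Ultra.diag ω (ιA i.1 * ιZ i.2)) * star U - Ultra.diag ω (ιA i.1) * π₂ i.2 := by
          intro i _
          rw [mul_sub, map_mul]
          congr 1
          have := (hUA i.1).eq
          rw [← mul_assoc, ← mul_assoc, ← this]
          simp only [mul_assoc]
          rfl
        rw [Finset.sum_congr rfl h8, Finset.sum_sub_distrib, map_sub, map_sum, ← Finset.sum_mul,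
          ← Finset.mul_sum]
        noncomm_ring
      rw [h7]
      have hU1 : ‖U‖ ≤ 1 ∧ ‖star U‖ ≤ 1 := by
        rcases subsingleton_or_nontrivial (Ultra ω T) with hTs | hTs
        · rw [Subsingleton.elim U 0, star_zero, norm_zero]
          norm_num
        · rw [norm_star, CStarRing.norm_of_mem_unitary hU]
          norm_num
      have h9 : ‖- (U * Ultra.diag ω (∑ i ∈ S b, ιA i.1 * ιZ i.2 - b) * star U)‖ ≤ ε / 4 := by
        rw [norm_neg]
        calc _ ≤ ‖U‖ * ‖Ultra.diag ω (∑ i ∈ S b, ιA i.1 * ιZ i.2 - b)‖ * ‖star U‖ :=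
              norm_mul₃_le
          _ ≤ 1 * ‖Ultra.diag ω (∑ i ∈ S b, ιA i.1 * ιZ i.2 - b)‖ * 1 := by
              gcongr
              · exact hU1.1
              · exact hU1.2
          _ ≤ ε / 4 := by
              rw [one_mul, mul_one, Ultra.norm_diag]
              exact (hS b).le
      have h10 : ‖∑ i ∈ S b, Ultra.diag ω (ιA i.1) * (U * π₁ i.2 * star U - π₂ i.2)‖ ≤ ε / 4 := by
        calc _ ≤ ∑ i ∈ S b, ‖ιA i.1‖ * (ε / (4 * κ)) := by
              refine (norm_sum_le _ _).trans (Finset.sum_le_sum (fun i hi => ?_))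
              refine (norm_mul_le _ _).trans ?_
              rw [Ultra.norm_diag]
              gcongr
              refine (hUz _ ?_).le
              rw [Finset.mem_biUnion]
              exact ⟨b, hb, Finset.mem_image_of_mem _ hi⟩
          _ = (∑ i ∈ S b, ‖ιA i.1‖) * (ε / (4 * κ)) := by rw [Finset.sum_mul]
          _ ≤ κ * (ε / (4 * κ)) := by
              gcongr
              have : ∑ i ∈ S b, ‖ιA i.1‖ ≤ ∑ b ∈ E, ∑ i ∈ S b, ‖ιA i.1‖ :=
                Finset.single_le_sum (f := fun b => ∑ i ∈ S b, ‖ιA i.1‖)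
                  (fun _ _ => Finset.sum_nonneg (fun _ _ => norm_nonneg _)) hb
              linarith
          _ = ε / 4 := by field_simp
      refine (norm_add_le _ _).trans_lt ?_
      linarith
    have h11 := (Ultra.tendsto_norm_mk (ω := ω) (y * Ultra.const b * star y - seqMap ιA c)).eventually
      (gt_mem_nhds h4)
    filter_upwards [h11] with n hn
    have h12 : (y * Ultra.const b * star y - seqMap ιA c) n =
        y n * b * star (y n) - ιA (∑ i ∈ S b, i.1 * r i.2 n) := by
      show y n * b * star (y n) - ιA (c n) = _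
      congr 2
      simp only [c]
      rw [BoundedContinuousFunction.coe_sum, Finset.sum_apply]
      rfl
    rw [h12] at hn
    exact hn
  have hn3 : ∀ g ∈ K, ∀ᶠ n in (ω : Filter ℕ), ‖β g (star (y n)) - star (y n)‖ < ε := by
    intro g _
    have h4 := hUβ g
    rw [← hy, ultraAct_mk, Ultra.mk_eq_mk_iff] at h4
    filter_upwards [h4.eventually (gt_mem_nhds hε)] with n hn
    rw [map_star, ← star_sub, norm_star]
    exact hn
  have hall3 := (Filter.eventually_all_finset K).2 hn3
  have hall1 := (Filter.eventually_all_finset F).2 hn1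
  have hall2 := (Filter.eventually_all_finset E).2 hn2
  obtain ⟨n, hn, hn', hn''⟩ := (hall1.and (hall2.and hall3)).exists
  refine ⟨star (y n), Unitary.star_mem (hyu n), hn, hn'',
    fun b hb => ⟨∑ i ∈ S b, i.1 * r i.2 n, ?_⟩⟩
  rw [star_star]
  exact hn' b hb

end Vale.Agent.P095
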