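import Vale.Agent.P095.TDefs

/-!
# P095: infinitely many commuting seeds
-/

open Filter Topology TopologicalSpace
open scoped BoundedContinuousFunction ComplexOrder

namespace Vale.Agent.P095

open Vale.Agent.P101

universe u v w

section Gen

variable {G : Type*} [Group G] {B : Type*} [CStarAlgebra B]

/-- The closed star subalgebra generated by a set. -/
def cgen (X : Set B) : StarSubalgebra ℂ B := (StarAlgebra.adjoin ℂ X).topologicalClosure

theorem subset_cgen (X : Set B) : X ⊆ cgen X :=
  (StarAlgebra.subset_adjoin ℂ X).trans (StarSubalgebra.le_topologicalClosure _)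

theorem isClosed_cgen (X : Set B) : IsClosed (cgen X : Set B) :=
  StarSubalgebra.isClosed_topologicalClosure _

theorem isSeparable_cgen {X : Set B} (h : IsSeparable X) : IsSeparable (cgen X : Set B) :=
  isSeparable_topologicalClosure_adjoin h

theorem cgen_le {X : Set B} {S : StarSubalgebra ℂ B} (hS : IsClosed (S : Set B))
    (h : X ⊆ S) : cgen X ≤ S :=
  StarSubalgebra.topologicalClosure_minimal (StarAlgebra.adjoin_le h) hS

theorem cgen_invariant (β : G →* (B ≃⋆ₐ[ℂ] B)) {X : Set B} (h : ∀ g, ∀ x ∈ X, β g x ∈ X) (g : G) :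
    ∀ x ∈ cgen X, β g x ∈ cgen X := by
  have h1 : cgen X ≤ (cgen X).comap (β g : B →⋆ₐ[ℂ] B) := by
    refine cgen_le ?_ ?_
    · exact (isClosed_cgen X).preimage (continuous_act β g)
    · intro x hx
      exact subset_cgen X (h g x hx)
  exact fun x hx => h1 hx

/-- A separable closed invariant star subalgebra. -/
structure SepAlg (β : G →* (B ≃⋆ₐ[ℂ] B)) where
  alg : StarSubalgebra ℂ B
  closed : IsClosed (alg : Set B)
  sep : IsSeparable (alg : Set B)
  inv : ∀ g, ∀ x ∈ alg, β g x ∈ alg

namespace SepAlg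

variable {β : G →* (B ≃⋆ₐ[ℂ] B)} {J : Set B}

/-- The chosen equivariant commuting copy. -/
noncomputable def copy (h : HasEqCopies β J) (S : SepAlg β) : S.alg →⋆ₐ[ℂ] B :=
  (h S.alg S.closed S.sep S.inv).choose

theorem copy_spec (h : HasEqCopies β J) (S : SepAlg β) :
    (∀ x y : S.alg, Commute (S.copy h x) (y : B)) ∧
      (∀ g (x y : S.alg), (y : B) = β g x → S.copy h y = β g (S.copy h x)) ∧
      ∀ x : S.alg, (x : B) ∈ J → S.copy h x ∈ J :=
  (h S.alg S.closed S.sep S.inv).choose_spec

/-- The algebra generated by `S` and its copy. -/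
noncomputable def next (h : HasEqCopies β J) (S : SepAlg β) : SepAlg β where
  alg := cgen ((S.alg : Set B) ∪ Set.range (S.copy h))
  closed := isClosed_cgen _
  sep := by
    refine isSeparable_cgen (S.sep.union ?_)
    have : SeparableSpace S.alg := S.sep.separableSpace
    rw [← Set.image_univ]
    exact (IsSeparable.of_separableSpace Set.univ).image (continuous_of_isClosed S.closed _)
  inv := by
    refine fun g => cgen_invariant β ?_ g
    rintro g x (hx | ⟨y, rfl⟩)
    · exact Or.inl (S.inv g x hx)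
    · exact Or.inr ⟨⟨β g y, S.inv g y y.2⟩, (S.copy_spec h).2.1 g y _ rfl⟩

theorem le_next (h : HasEqCopies β J) (S : SepAlg β) : S.alg ≤ (S.next h).alg :=
  fun _ hx => subset_cgen _ (Or.inl hx)

theorem copy_mem_next (h : HasEqCopies β J) (S : SepAlg β) (x : S.alg) :
    S.copy h x ∈ (S.next h).alg := subset_cgen _ (Or.inr ⟨x, rfl⟩)

/-- The tower of algebras. -/
noncomputable def seq (h : HasEqCopies β J) (S : SepAlg β) : ℕ → SepAlg β
  | 0 => S
  | n + 1 => (seq h S n).next h

theorem seq_mono (h : HasEqCopies β J) (S : SepAlg β) : Monotone fun n => (seq h S n).alg :=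
  monotone_nat_of_le_succ fun n => le_next h (seq h S n)

end SepAlg

variable {β : G →* (B ≃⋆ₐ[ℂ] B)} {J : Set B}

/-- Infinitely many pairwise commuting equivariant copies. -/
theorem exists_copies_seq (h : HasEqCopies β J) (S : StarSubalgebra ℂ B)
    (hS : IsClosed (S : Set B)) (hsep : IsSeparable (S : Set B)) (hinv : ∀ g, ∀ x ∈ S, β g x ∈ S) :
    ∃ Φ : ℕ → (S →⋆ₐ[ℂ] B), (∀ n (x y : S), Commute (Φ n x) (y : B)) ∧
      (∀ m n, m ≠ n → ∀ x y, Commute (Φ m x) (Φ n y)) ∧
      (∀ n g (x y : S), (y : B) = β g x → Φ n y = β g (Φ n x)) ∧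
      ∀ n (x : S), (x : B) ∈ J → Φ n x ∈ J := by
  let S₀ : SepAlg β := ⟨S, hS, hsep, hinv⟩
  let R : ℕ → SepAlg β := SepAlg.seq h S₀
  have hR : ∀ n, S ≤ (R n).alg := fun n => SepAlg.seq_mono h S₀ (Nat.zero_le n)
  let Φ : ℕ → (S →⋆ₐ[ℂ] B) := fun n => ((R n).copy h).comp (StarSubalgebra.inclusion (hR n))
  have hΦR : ∀ n x, Φ n x ∈ (R (n + 1)).alg := fun n x => SepAlg.copy_mem_next h (R n) _
  have hlt : ∀ m n, m < n → ∀ x y, Commute (Φ n x) (Φ m y) := by
    intro m n hmn x y
    have h1 : Φ m y ∈ (R n).alg := SepAlg.seq_mono h S₀ (Nat.succ_le_of_lt hmn) (hΦR m y)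
    exact ((R n).copy_spec h).1 (StarSubalgebra.inclusion (hR n) x) ⟨Φ m y, h1⟩
  refine ⟨Φ, ?_, ?_, ?_, ?_⟩
  · intro n x y
    exact ((R n).copy_spec h).1 (StarSubalgebra.inclusion (hR n) x)
      (StarSubalgebra.inclusion (hR n) y)
  · intro m n hmn x y
    rcases lt_or_gt_of_ne hmn with h1 | h1
    · exact (hlt m n h1 y x).symm
    · exact hlt n m h1 x y
  · intro n g x y hxy
    exact ((R n).copy_spec h).2.1 g (StarSubalgebra.inclusion (hR n) x)
      (StarSubalgebra.inclusion (hR n) y) hxy
  · intro n x hx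
    exact ((R n).copy_spec h).2.2 (StarSubalgebra.inclusion (hR n) x) hx

end Gen

section Positive

variable {K : Type*} [CStarAlgebra K] {φ : K →ₗ[ℂ] ℂ}

/-- Positive functionals are hermitian. -/
theorem map_star_of_nonneg (hφ : ∀ x, 0 ≤ φ (star x * x)) (x : K) :
    φ (star x) = star (φ x) := by
  have him : ∀ x, (φ (star x * x)).im = 0 := fun x => (Complex.nonneg_iff.1 (hφ x)).2.symm
  have h1 := him (1 + x)
  have h2 := him (1 + Complex.I • x)
  have h3 := him x
  have h4 := him 1
  have e1 : star (1 + x) * (1 + x) = star (1 : K) * 1 + star x * x + x + star x := by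
    rw [star_add, star_one]
    noncomm_ring
  have e2 : star (1 + Complex.I • x) * (1 + Complex.I • x) =
      star (1 : K) * 1 + star x * x + Complex.I • x - Complex.I • star x := by
    rw [star_add, star_one, star_smul, add_mul, mul_add, mul_add, one_mul, one_mul, mul_one,
      smul_mul_smul_comm]
    have : star Complex.I * Complex.I = 1 := by simp
    rw [this, one_smul]
    have : star Complex.I = - Complex.I := Complex.conj_I
    rw [this, neg_smul]
    abel
  rw [e1, map_add, map_add, map_add, Complex.add_im, Complex.add_im, Complex.add_im, h3, h4] at h1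
  rw [e2, map_sub, map_add, map_add, map_smul, map_smul, Complex.sub_im, Complex.add_im,
    Complex.add_im, h3, h4, smul_eq_mul, smul_eq_mul, Complex.mul_im, Complex.mul_im] at h2
  simp only [Complex.I_re, Complex.I_im, zero_mul, one_mul, zero_add] at h1 h2
  apply Complex.ext
  · rw [Complex.star_def, Complex.conj_re]
    linarith
  · rw [Complex.star_def, Complex.conj_im]
    linarith

/-- Null elements form a left ideal on which the functional vanishes. -/
theorem map_mul_eq_zero_of_null (hφ : ∀ x, 0 ≤ φ (star x * x)) {z : K}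
    (hz : φ (star z * z) = 0) (y : K) : φ (y * z) = 0 := by
  set c := φ (y * z) with hc
  have hre : ∀ x, 0 ≤ (φ (star x * x)).re := fun x => (Complex.nonneg_iff.1 (hφ x)).1
  -- `star y` is used as a test element
  have key : ∀ t : ℝ, 0 ≤ -2 * t * ‖c‖ ^ 2 + t ^ 2 * (‖c‖ ^ 2 * (φ (y * star y)).re) := by
    intro t
    have h1 := hre (z + (-(t : ℂ) * c) • star y)
    have e0 : ∀ μ : ℂ, star (z + μ • star y) * (z + μ • star y) =
        star z * z + μ • star (y * z) + (star μ) • (y * z) + (star μ * μ) • (y * star y) := by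
      intro μ
      rw [star_add, star_smul, star_star, star_mul, add_mul, mul_add, mul_add, smul_mul_smul_comm,
        mul_smul_comm, smul_mul_assoc]
      abel
    have e := e0 (-(t : ℂ) * c)
    rw [e, map_add, map_add, map_add, map_smul, map_smul, map_smul, hz,
      map_star_of_nonneg hφ, ← hc, smul_eq_mul, smul_eq_mul, smul_eq_mul] at h1
    have e2 : (0 : ℂ) + -(t : ℂ) * c * star c + star (-(t : ℂ) * c) * c +
        star (-(t : ℂ) * c) * (-(t : ℂ) * c) * φ (y * star y) =
        ((-2 * t * ‖c‖ ^ 2 : ℝ) : ℂ) + ((t ^ 2 * ‖c‖ ^ 2 : ℝ) : ℂ) * φ (y * star y) := by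
      have h2 : c * star c = ((‖c‖ ^ 2 : ℝ) : ℂ) := by
        rw [Complex.star_def, Complex.mul_conj, Complex.normSq_eq_norm_sq]
      have h3 : star (-(t : ℂ) * c) = -(t : ℂ) * star c := by
        rw [star_mul', star_neg, Complex.star_def, Complex.conj_ofReal]
      rw [h3]
      have h4 : star c * c = ((‖c‖ ^ 2 : ℝ) : ℂ) := by rw [mul_comm, h2]
      calc _ = -(t : ℂ) * (c * star c) + -(t : ℂ) * (star c * c) +
          (t : ℂ) ^ 2 * (star c * c) * φ (y * star y) := by ring
        _ = _ := by
          rw [h2, h4]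
          push_cast
          ring
    rw [e2, Complex.add_re, Complex.ofReal_re, Complex.re_ofReal_mul] at h1
    linarith
  by_contra hne
  have hpos : 0 < ‖c‖ ^ 2 := by
    have := norm_pos_iff.2 hne
    positivity
  set a := (φ (y * star y)).re with ha
  have ha0 : 0 ≤ a := by
    have := hre (star y)
    rwa [star_star] at this
  have h1 := key (1 / (a + 1))
  have h2 : -2 * (1 / (a + 1)) * ‖c‖ ^ 2 + (1 / (a + 1)) ^ 2 * (‖c‖ ^ 2 * a) < 0 := by
    have h3 : 0 < a + 1 := by linarith
    have h4 : (1 / (a + 1)) * a ≤ 1 := by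
      rw [one_div, inv_mul_le_iff₀ h3]
      linarith
    have h5 : 0 < 1 / (a + 1) := by positivity
    have h6 : -2 * (1 / (a + 1)) * ‖c‖ ^ 2 + (1 / (a + 1)) ^ 2 * (‖c‖ ^ 2 * a) =
        (1 / (a + 1)) * ‖c‖ ^ 2 * (-2 + (1 / (a + 1)) * a) := by ring
    rw [h6]
    have h7 : -2 + (1 / (a + 1)) * a < 0 := by linarith
    exact mul_neg_of_pos_of_neg (by positivity) h7
  linarith

end Positive

section Seeds

variable {G : Type*} [Group G] {B : Type u} [CStarAlgebra B] {β : G →* (B ≃⋆ₐ[ℂ] B)}
  {T : Set (B →ₗ[ℂ] ℂ)} {J : Set B}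

/-- Given a separable closed `S` and a seed, there is a sequence of seeds `v n`, all whose
translates commute with `S` and with the translates of the others. -/
theorem exists_seed_seq [Countable G] (sys : TracialSystem β T J) (hseed : HasSeed J)
    (S : StarSubalgebra ℂ B) (hS : IsClosed (S : Set B)) (hsep : IsSeparable (S : Set B)) :
    ∃ v : ℕ → B, (∀ n, ‖v n‖ ≤ 1 ∧ v n * v n = 0 ∧
        1 - star (v n) * v n - v n * star (v n) ∈ J) ∧
      (∀ n g, ∀ x ∈ S, Commute (β g (v n)) x) ∧
      (∀ m n, m ≠ n → ∀ g h, Commute (β g (v m)) (β h (v n)) ∧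
        Commute (β g (v m)) (star (β h (v n)))) := by
  obtain ⟨v₀, hv1, hv2, hvJ⟩ := hseed
  let X : Set B := (⋃ g, β g '' (S : Set B)) ∪ Set.range fun g => β g v₀
  have hX : IsSeparable X := by
    refine IsSeparable.union ?_ (Set.countable_range _).isSeparable
    exact IsSeparable.iUnion fun g => hsep.image (continuous_act β g)
  have hXinv : ∀ g, ∀ x ∈ X, β g x ∈ X := by
    rintro g x (hx | ⟨h, rfl⟩)
    · obtain ⟨h, y, hy, rfl⟩ := Set.mem_iUnion.1 hx
      refine Or.inl (Set.mem_iUnion.2 ⟨g * h, y, hy, ?_⟩)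
      rw [map_mul]
      rfl
    · refine Or.inr ⟨g * h, ?_⟩
      simp only [map_mul]
      rfl
  obtain ⟨Φ, hΦ1, hΦ2, hΦ3, hΦ4⟩ := exists_copies_seq sys.copies (cgen X) (isClosed_cgen X)
    (isSeparable_cgen hX) (fun g => cgen_invariant β hXinv g)
  have hv : ∀ g, β g v₀ ∈ cgen X := fun g => subset_cgen X (Or.inr ⟨g, rfl⟩)
  have hv₀ : v₀ ∈ cgen X := by
    have := hv 1
    rwa [map_one] at this
  have hSX : ∀ x ∈ S, x ∈ cgen X := by
    intro x hx
    refine subset_cgen X (Or.inl (Set.mem_iUnion.2 ⟨1, x, hx, ?_⟩))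
    rw [map_one]
    rfl
  have hβ : ∀ n g, β g (Φ n ⟨v₀, hv₀⟩) = Φ n ⟨β g v₀, hv g⟩ := fun n g =>
    (hΦ3 n g ⟨v₀, hv₀⟩ ⟨β g v₀, hv g⟩ rfl).symm
  refine ⟨fun n => Φ n ⟨v₀, hv₀⟩, ?_, ?_, ?_⟩
  · intro n
    refine ⟨(norm_apply_le_of_isClosed (isClosed_cgen X) _ _).trans hv1, ?_, ?_⟩
    · rw [← map_mul]
      have : (⟨v₀, hv₀⟩ * ⟨v₀, hv₀⟩ : cgen X) = 0 := Subtype.ext hv2
      rw [this, map_zero]
    · have h1 := hΦ4 n (1 - star ⟨v₀, hv₀⟩ * ⟨v₀, hv₀⟩ - ⟨v₀, hv₀⟩ * star ⟨v₀, hv₀⟩) hvJ
      rw [map_sub, map_sub, map_one, map_mul, map_mul, map_star] at h1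
      exact h1
  · intro n g x hx
    simp only [hβ]
    exact hΦ1 n _ ⟨x, hSX x hx⟩
  · intro m n hmn g h
    simp only [hβ, ← map_star]
    exact ⟨hΦ2 m n hmn _ _, hΦ2 m n hmn _ _⟩

/-- The signs `s n = v n * star (v n) - star (v n) * v n` of commuting seeds form a block for
every functional `b ↦ τ (b * ·)` with `b ≥ 0` commuting with them; here in the form of the two
trace identities (any `b` commuting with the translates of `v`). -/
theorem seed_identities (sys : TracialSystem β T J) {v : B} (hv : v * v = 0) (hv1 : ‖v‖ ≤ 1)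
    (hJ : 1 - star v * v - v * star v ∈ J) (τ : B →ₗ[ℂ] ℂ) (hτ : τ ∈ T) (g : G) (b : B) :
    ((∀ h, Commute b (β h v)) → (∀ h, Commute b (star (β h v))) →
      τ (b * β g (v * star v - star v * v)) = 0) ∧
    τ (b * (1 - β g (v * star v - star v * v) * β g (v * star v - star v * v))) = 0 := by
  have htr := sys.trace τ hτ
  constructor
  · intro h1 h2
    rw [map_sub (β g), map_mul (β g), map_mul (β g), map_star (β g), mul_sub, map_sub τ,
      sub_eq_zero]
    calc τ (b * (β g v * star (β g v))) = τ (β g v * (b * star (β g v))) := by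
          rw [← mul_assoc, (h1 g).eq, mul_assoc]
      _ = τ (b * star (β g v) * β g v) := htr.trace _ _
      _ = τ (b * (star (β g v) * β g v)) := by rw [mul_assoc]
  · set c := 1 - star v * v - v * star v with hc
    have e : 1 - (v * star v - star v * v) * (v * star v - star v * v) =
        (1 + star v * v + v * star v) * c := by
      have h1 : v * star v * (star v * v) = 0 := by
        have : star v * star v = 0 := by rw [← star_mul, hv, star_zero]
        calc v * star v * (star v * v) = v * (star v * star v) * v := by noncomm_ring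
          _ = 0 := by rw [this, mul_zero, zero_mul]
      have h2 : star v * v * (v * star v) = 0 := by
        calc star v * v * (v * star v) = star v * (v * v) * star v := by noncomm_ring
          _ = 0 := by rw [hv, mul_zero, zero_mul]
      have h3 : (v * star v - star v * v) * (v * star v - star v * v) =
          v * star v * (v * star v) + star v * v * (star v * v) := by
        rw [sub_mul, mul_sub, mul_sub, h1, h2]
        abel
      have h4 : (1 + star v * v + v * star v) * c =
          1 - (v * star v * (v * star v) + star v * v * (star v * v))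
            - (v * star v * (star v * v)) - (star v * v * (v * star v)) := by
        rw [hc]
        noncomm_ring
      rw [h3, h4, h1, h2, sub_zero, sub_zero]
    rw [← map_mul (β g), ← map_one (β g), ← map_sub (β g), e, map_mul (β g), ← mul_assoc]
    refine map_mul_eq_zero_of_null htr.nonneg ?_ _
    rw [← map_star (β g), ← map_mul (β g)]
    exact (sys.null c).1 hJ _ (sys.inv τ hτ g)

end Seeds

end Vale.Agent.P095
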