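import Vale.Agent.P095.FixSel
import Vale.Agent.P095.SeedSeq
import Vale.Agent.P101.Char

/-!
# P095: the fixed point algebra of a finite group action has no characters
-/

open Filter Topology TopologicalSpace

open scoped ComplexOrder

namespace Vale.Agent.P095

open Vale.Agent.P101

namespace FixMean

open FixState

variable {B : Type*} [CStarAlgebra B] {G : Type*} [Group G]

/-- The restriction of an action to an invariant star subalgebra. -/
noncomputable def restrictAct (β : G →* (B ≃⋆ₐ[ℂ] B)) (S : StarSubalgebra ℂ B)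
    [IsClosed (S : Set B)] (hS : ∀ g, ∀ x ∈ S, β g x ∈ S) : G →* (S ≃⋆ₐ[ℂ] S) where
  toFun g :=
    { toFun := fun x => ⟨β g x, hS g x x.2⟩
      invFun := fun x => ⟨β g⁻¹ x, hS g⁻¹ x x.2⟩
      left_inv := fun x => Subtype.ext (by
        show β g⁻¹ (β g x) = x
        have : β g⁻¹ (β g x) = (β g⁻¹ * β g) x := rfl
        rw [this, ← map_mul, inv_mul_cancel, map_one]
        rfl)
      right_inv := fun x => Subtype.ext (by
        show β g (β g⁻¹ x) = x
        have : β g (β g⁻¹ x) = (β g * β g⁻¹) x := rfl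
        rw [this, ← map_mul, mul_inv_cancel, map_one]
        rfl)
      map_mul' := fun x y => Subtype.ext (map_mul (β g) _ _)
      map_add' := fun x y => Subtype.ext (map_add (β g) _ _)
      map_star' := fun x => Subtype.ext (map_star (β g) _)
      map_smul' := fun c x => Subtype.ext (map_smul (β g) c (x : B)) }
  map_one' := by
    ext x
    show β 1 (x : B) = x
    rw [map_one]
    rfl
  map_mul' g h := by
    ext x
    show β (g * h) (x : B) = β g (β h x)
    rw [map_mul]
    rfl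

theorem coe_restrictAct (β : G →* (B ≃⋆ₐ[ℂ] B)) (S : StarSubalgebra ℂ B)
    [IsClosed (S : Set B)] (hS : ∀ g, ∀ x ∈ S, β g x ∈ S) (g : G) (x : S) :
    ((restrictAct β S hS g x : S) : B) = β g x := rfl

/-- The restriction of a character. -/
noncomputable def restrictChar (β : G →* (B ≃⋆ₐ[ℂ] B)) (S : StarSubalgebra ℂ B)
    [IsClosed (S : Set B)] (hS : ∀ g, ∀ x ∈ S, β g x ∈ S) (χ : fixedAlg β →⋆ₐ[ℂ] ℂ) :
    fixedAlg (restrictAct β S hS) →⋆ₐ[ℂ] ℂ :=
  χ.comp
    { toFun := fun x => ⟨((x : S) : B), fun g => congrArg Subtype.val (x.2 g)⟩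
      map_one' := rfl
      map_mul' := fun _ _ => rfl
      map_zero' := rfl
      map_add' := fun _ _ => rfl
      commutes' := fun _ => rfl
      map_star' := fun _ => rfl }

/-- The elements asymptotically commuting with a sequence of homomorphisms. -/
def asymAlg {S : StarSubalgebra ℂ B} (Φ : ℕ → (S →⋆ₐ[ℂ] B)) : StarSubalgebra ℂ B where
  carrier := {d | ∀ c : S, Tendsto (fun j => ‖Φ j c * d - d * Φ j c‖) atTop (𝓝 0)}
  mul_mem' := by
    intro d d' hd hd' c
    have h1 := ((hd c).mul_const ‖d'‖).add ((hd' c).const_mul ‖d‖)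
    rw [zero_mul, mul_zero, zero_add] at h1
    refine squeeze_zero (fun _ => norm_nonneg _) (fun j => ?_) h1
    have e : Φ j c * (d * d') - d * d' * Φ j c =
        (Φ j c * d - d * Φ j c) * d' + d * (Φ j c * d' - d' * Φ j c) := by noncomm_ring
    rw [e]
    exact (norm_add_le _ _).trans (add_le_add (norm_mul_le _ _) (norm_mul_le _ _))
  add_mem' := by
    intro d d' hd hd' c
    have h1 := (hd c).add (hd' c)
    rw [zero_add] at h1
    refine squeeze_zero (fun _ => norm_nonneg _) (fun j => ?_) h1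
    have e : Φ j c * (d + d') - (d + d') * Φ j c =
        (Φ j c * d - d * Φ j c) + (Φ j c * d' - d' * Φ j c) := by noncomm_ring
    rw [e]
    exact norm_add_le _ _
  algebraMap_mem' := by
    intro r c
    have : ∀ j, ‖Φ j c * algebraMap ℂ B r - algebraMap ℂ B r * Φ j c‖ = 0 := fun j => by
      rw [(Algebra.commutes r (Φ j c)).symm, sub_self, norm_zero]
    simp only [this]
    exact tendsto_const_nhds
  star_mem' := by
    intro d hd c
    refine (hd (star c)).congr fun j => ?_
    rw [← norm_star, star_sub, star_mul, star_mul, map_star, star_star, norm_sub_rev]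

theorem isClosed_asymAlg {S : StarSubalgebra ℂ B} (hS : IsClosed (S : Set B))
    (Φ : ℕ → (S →⋆ₐ[ℂ] B)) : IsClosed (asymAlg Φ : Set B) := by
  refine isClosed_of_closure_subset fun d hd c => ?_
  rw [Metric.tendsto_atTop]
  intro ε hε
  obtain ⟨d', hd', hdd⟩ := Metric.mem_closure_iff.1 hd (ε / (4 * (‖(c : B)‖ + 1))) (by positivity)
  have h1 := (Metric.tendsto_atTop.1 (hd' c)) (ε / 2) (by positivity)
  obtain ⟨N, hN⟩ := h1
  refine ⟨N, fun j hj => ?_⟩
  have h2 := hN j hj
  rw [Real.dist_eq, sub_zero, abs_norm] at h2 ⊢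
  rw [dist_eq_norm] at hdd
  have e : Φ j c * d - d * Φ j c =
      (Φ j c * d' - d' * Φ j c) + (Φ j c * (d - d') - (d - d') * Φ j c) := by noncomm_ring
  have hΦ : ‖Φ j c‖ ≤ ‖(c : B)‖ := norm_apply_le_of_isClosed hS (Φ j) c
  have h3 : ‖Φ j c * (d - d') - (d - d') * Φ j c‖ ≤ 2 * (‖(c : B)‖ * ‖d - d'‖) := by
    refine (norm_sub_le _ _).trans ?_
    have a1 : ‖Φ j c * (d - d')‖ ≤ ‖(c : B)‖ * ‖d - d'‖ :=
      (norm_mul_le _ _).trans (mul_le_mul_of_nonneg_right hΦ (norm_nonneg _))
    have a2 : ‖(d - d') * Φ j c‖ ≤ ‖(c : B)‖ * ‖d - d'‖ := by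
      refine (norm_mul_le _ _).trans ?_
      rw [mul_comm]
      exact mul_le_mul_of_nonneg_right hΦ (norm_nonneg _)
    linarith
  have h4 : ‖(c : B)‖ * ‖d - d'‖ ≤ (‖(c : B)‖ + 1) * (ε / (4 * (‖(c : B)‖ + 1))) :=
    mul_le_mul (by linarith) hdd.le (norm_nonneg _) (by positivity)
  have h5 : (‖(c : B)‖ + 1) * (ε / (4 * (‖(c : B)‖ + 1))) = ε / 4 := by
    field_simp
  rw [e]
  refine (norm_add_le _ _).trans_lt ?_
  linarith

/-- A functional with zero variances is multiplicative. -/
theorem mul_of_variance {C : Type*} [CStarAlgebra C] {ψ : C → ℂ}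
    (hadd : ∀ x y, ψ (x + y) = ψ x + ψ y) (hsmul : ∀ (c : ℂ) x, ψ (c • x) = c * ψ x)
    (hvar : ∀ x, ψ (star x * x) = ψ (star x) * ψ x) (x y : C) : ψ (x * y) = ψ x * ψ y := by
  have key : ∀ x y : C, ψ (star x * y) = ψ (star x) * ψ y := by
    intro x y
    have hx := hvar x
    have hy := hvar y
    have h1 := hvar (x + y)
    have h2 := hvar (x + Complex.I • y)
    have e1 : star (x + y) * (x + y) = star x * x + star x * y + star y * x + star y * y := by
      rw [star_add]; noncomm_ring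
    have e2 : star (x + Complex.I • y) * (x + Complex.I • y) =
        star x * x + Complex.I • (star x * y) + (-Complex.I) • (star y * x) + star y * y := by
      rw [star_add, star_smul, Complex.star_def, Complex.conj_I, add_mul, mul_add, mul_add,
        mul_smul_comm, smul_mul_assoc, smul_mul_assoc, mul_smul_comm, smul_smul]
      have : (-Complex.I * Complex.I : ℂ) = 1 := by simp
      rw [this, one_smul]
      abel
    rw [e1, star_add] at h1
    rw [e2, star_add, star_smul, Complex.star_def, Complex.conj_I] at h2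
    simp only [hadd, hsmul] at h1 h2
    have hI : Complex.I * Complex.I = -1 := Complex.I_mul_I
    linear_combination (1 / 2 : ℂ) * h1 - (Complex.I / 2) * h2 - ((1 - Complex.I) / 2) * hx -
      ((1 - Complex.I) / 2) * hy +
      ((ψ (star x * y) - ψ (star y * x)) / 2 + ψ (star y) * ψ x / 2 - ψ (star x) * ψ y / 2 +
        Complex.I * ψ (star y) * ψ y / 2) * hI
  have := key (star x) y
  rwa [star_star] at this

end FixMean

open FixState FixMean

/-- Finite groups: the fixed point algebra has no characters. -/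
theorem isEmpty_character_fixedAlg {G : Type*} [Group G] [Finite G] {B : Type*} [CStarAlgebra B]
    {β : G →* (B ≃⋆ₐ[ℂ] B)} {J : Set B} (h : HasEqCopies β J) (hB : IsEmpty (B →⋆ₐ[ℂ] ℂ)) :
    IsEmpty (fixedAlg β →⋆ₐ[ℂ] ℂ) := by
  refine ⟨fun χ => ?_⟩
  obtain ⟨n, j, a, b, hsum⟩ := fullFam_commutators hB
  -- a separable invariant subalgebra without characters
  let F : Set B := Set.range a ∪ Set.range b ∪ Set.range (fun i => ((j i).1 : B)) ∪
    Set.range (fun i => ((j i).2 : B))
  have hFfin : F.Finite := ((Set.finite_range _).union (Set.finite_range _)).union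
    (Set.finite_range _) |>.union (Set.finite_range _)
  let X : Set B := ⋃ g : G, (β g) '' F
  have hXfin : X.Finite := Set.finite_iUnion fun g => hFfin.image _
  have hFX : F ⊆ X := by
    intro x hx
    refine Set.mem_iUnion.2 ⟨1, x, hx, ?_⟩
    rw [map_one]
    rfl
  have hXinv : ∀ g, ∀ x ∈ X, β g x ∈ X := by
    intro g x hx
    obtain ⟨k, y, hy, rfl⟩ := Set.mem_iUnion.1 hx
    refine Set.mem_iUnion.2 ⟨g * k, y, hy, ?_⟩
    rw [map_mul]
    rfl
  let S : StarSubalgebra ℂ B := cgen X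
  have hSc : IsClosed (S : Set B) := isClosed_cgen X
  have hSsep : IsSeparable (S : Set B) := isSeparable_cgen hXfin.countable.isSeparable
  have hSinv : ∀ g, ∀ x ∈ S, β g x ∈ S := fun g => cgen_invariant β hXinv g
  obtain ⟨Φ, -, hcomm, hequiv, -⟩ := exists_copies_seq h S hSc hSsep hSinv
  let B1 : StarSubalgebra ℂ B := cgen (⋃ m, Set.range (Φ m))
  have hB1c : IsClosed (B1 : Set B) := isClosed_cgen _
  have hΦB1 : ∀ m x, Φ m x ∈ B1 := fun m x => subset_cgen _ (Set.mem_iUnion.2 ⟨m, x, rfl⟩)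
  have hB1inv : ∀ g, ∀ x ∈ B1, β g x ∈ B1 := fun g => by
    refine cgen_invariant β ?_ g
    intro g x hx
    obtain ⟨m, y, rfl⟩ := Set.mem_iUnion.1 hx
    refine Set.mem_iUnion.2 ⟨m, ⟨β g y, hSinv g y y.2⟩, ?_⟩
    exact hequiv m g y ⟨β g y, hSinv g y y.2⟩ rfl
  have hasym : B1 ≤ asymAlg Φ := by
    refine cgen_le (isClosed_asymAlg hSc Φ) ?_
    intro x hx c
    obtain ⟨m, y, rfl⟩ := Set.mem_iUnion.1 hx
    refine tendsto_const_nhds.congr' ?_
    filter_upwards [eventually_gt_atTop m] with k hk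
    rw [(hcomm k m (ne_of_gt hk) c y).eq, sub_self, norm_zero]
  let θ : ℕ → (S →⋆ₐ[ℂ] B1) := fun m => StarAlgHom.codRestrict (Φ m) B1 (hΦB1 m)
  have hθc : ∀ m x, ((θ m x : B1) : B) = Φ m x := fun m x => rfl
  let γ : G → S → S := fun g x => ⟨β g x, hSinv g x x.2⟩
  let β1 := restrictAct β B1 hB1inv
  let χ1 : fixedAlg β1 →⋆ₐ[ℂ] ℂ := restrictChar β B1 hB1inv χ
  have hsys : CopySys β1 θ γ := by
    refine ⟨fun g c k => ?_, fun i k hik x y => ?_, fun c d => ?_⟩
    · apply Subtype.ext
      exact hequiv k g c (γ g c) rfl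
    · exact Subtype.ext (hcomm i k hik x y)
    · exact hasym d.2 c
  have hU : ((hyperfilter ℕ : Ultrafilter ℕ) : Filter ℕ) ≤ atTop := Nat.hyperfilter_le_atTop
  obtain ⟨φ, hφ, hext⟩ := exists_extreme β1 χ1
  obtain ⟨ψ, hψ⟩ := exists_mean hsys (hyperfilter ℕ) hU hφ hext
  have hst := hφ.1
  have hψ1 : ∀ c, Tendsto (fun k => φ (θ k c)) (hyperfilter ℕ : Filter ℕ) (𝓝 (ψ c)) := by
    intro c
    have := hψ c 1
    rw [hst.map_one, one_mul] at this
    exact this.congr fun k => by rw [one_mul]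
  have hadd : ∀ x y, ψ (x + y) = ψ x + ψ y := fun x y =>
    tendsto_nhds_unique (hψ1 (x + y)) (((hψ1 x).add (hψ1 y)).congr fun k => by
      rw [← hst.map_add, map_add])
  have hsmul : ∀ (c : ℂ) x, ψ (c • x) = c * ψ x := fun c x =>
    tendsto_nhds_unique (hψ1 (c • x)) (((hψ1 x).const_mul c).congr fun k => by
      rw [← hst.map_smul, map_smul])
  have hone : ψ 1 = 1 := by
    refine tendsto_nhds_unique (hψ1 1) ?_
    simp only [map_one, hst.map_one]
    exact tendsto_const_nhds
  have hvar : ∀ x, ψ (star x * x) = ψ (star x) * ψ x := fun x =>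
    variance_eq_zero hsys (fun x => Subtype.ext (by
      show β 1 (x : B) = x
      rw [map_one]
      rfl)) hU hφ hψ x
  have hmul := mul_of_variance hadd hsmul hvar
  -- the contradiction
  have hmemS : ∀ x ∈ F, x ∈ S := fun x hx => subset_cgen X (hFX hx)
  let a' : Fin n → S := fun i => ⟨a i, hmemS _ (Or.inl (Or.inl (Or.inl ⟨i, rfl⟩)))⟩
  let b' : Fin n → S := fun i => ⟨b i, hmemS _ (Or.inl (Or.inl (Or.inr ⟨i, rfl⟩)))⟩
  let p' : Fin n → S := fun i => ⟨(j i).1, hmemS _ (Or.inl (Or.inr ⟨i, rfl⟩))⟩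
  let q' : Fin n → S := fun i => ⟨(j i).2, hmemS _ (Or.inr ⟨i, rfl⟩)⟩
  have h1 : ∑ i, a' i * ((Complex.I • p' i) * q' i - q' i * (Complex.I • p' i)) * b' i = 1 := by
    apply Subtype.ext
    rw [AddSubmonoidClass.coe_finsetSum]
    exact hsum
  have hψ0 : ψ 0 = 0 := by
    have := hsmul 0 0
    rwa [zero_smul, zero_mul] at this
  have hψsum : ∀ (s : Finset (Fin n)) (f : Fin n → S), ψ (∑ i ∈ s, f i) = ∑ i ∈ s, ψ (f i) := by
    intro s f
    classical
    induction s using Finset.induction_on with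
    | empty => simp [hψ0]
    | insert a s ha ih => rw [Finset.sum_insert ha, Finset.sum_insert ha, hadd, ih]
  have h2 := congrArg ψ h1
  rw [hψsum, hone] at h2
  have h3 : ∀ i, ψ (a' i * ((Complex.I • p' i) * q' i - q' i * (Complex.I • p' i)) * b' i) = 0 := by
    intro i
    rw [hmul, hmul, sub_eq_add_neg, hadd, ← neg_one_smul ℂ (q' i * (Complex.I • p' i)), hsmul,
      hmul, hmul]
    ring
  rw [Finset.sum_eq_zero fun i _ => h3 i] at h2
  exact zero_ne_one h2

end Vale.Agent.P095
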