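import Vale.Agent.P095.Act
import Vale.Agent.P101.LimitHom

/-!
# P095: homomorphisms of the Jiang-Su algebra into the fixed points of `F_ω(A)`
-/

open Filter Topology TopologicalSpace
open scoped BoundedContinuousFunction

namespace Vale.Agent.P095

open Vale.Agent.P101

universe u v w

namespace LocFin

variable {A : Type u} [CStarAlgebra A] {ω : Ultrafilter ℕ}

theorem basicPoly_apply (y : ℕ → (ℕ →ᵇ A)) (c : ℕ × ℕ × ℕ × ℕ) (n : ℕ) :
    basicPoly c y n = basicPoly c (fun i => y i n) := by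
  obtain ⟨t, i, j, k⟩ := c
  unfold basicPoly
  match t with
  | 0 => rfl
  | 1 => rfl
  | 2 => rfl
  | 3 => rfl
  | 4 => rfl
  | (n + 5) => rfl

/-- A bounded sequence commuting asymptotically with a dense sequence is central. -/
theorem mem_centralSeq_of_dense (a : ℕ → A) (ha : DenseRange a) (y : ℕ →ᵇ A)
    (h : ∀ j, Tendsto (fun n => ‖a j * y n - y n * a j‖) ω (𝓝 0)) :
    Ultra.mk ω y ∈ centralSeq ω A := by
  rw [mem_centralSeq_iff]
  have hcl : IsClosed {b : A | Commute (Ultra.diag ω b) (Ultra.mk ω y)} := by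
    have hc : Continuous (Ultra.diag ω : A → Ultra ω A) :=
      AddMonoidHomClass.continuous_of_bound (Ultra.diag ω) 1
        (fun b => by rw [one_mul, Ultra.norm_diag])
    exact isClosed_eq (hc.mul continuous_const) (continuous_const.mul hc)
  intro b
  have h1 : closure (Set.range a) ⊆ {b : A | Commute (Ultra.diag ω b) (Ultra.mk ω y)} := by
    apply closure_minimal _ hcl
    rintro _ ⟨j, rfl⟩
    show Commute _ _
    rw [commute_iff_eq, Ultra.diag_apply, ← map_mul, ← map_mul, Ultra.mk_eq_mk_iff]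
    exact h j
  exact h1 (ha b)

/-- The sequences produced by the ε-test. -/
theorem exists_index {G : Type*} [Group G] [Countable G]
    (hω : (ω : Filter ℕ) ≤ cofinite) (α : G →* (A ≃⋆ₐ[ℂ] A)) (a : ℕ → A)
    (N : (ℕ × ℕ × ℕ × ℕ) → ℝ)
    (ψ : ℕ → ℕ → centralSeq ω A) (z : ℕ → ℕ → (ℕ →ᵇ A))
    (hz : ∀ M i, Ultra.mk ω (z M i) = (ψ M i : Ultra ω A))
    (h : ∀ c, ∀ ε : ℝ, 0 < ε → ∀ᶠ M in atTop, ‖basicPoly c (ψ M)‖ < N c + ε)
    (hG : ∀ g i, ∀ᶠ M in atTop, centralAct ω α g (ψ M i) = ψ M i) :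
    ∃ κ : ℕ → ℕ,
      (∀ c, Tendsto (fun n => max 0 (‖basicPoly c (fun i => z (κ n) i n)‖ - N c)) ω (𝓝 0)) ∧
      (∀ j i, Tendsto (fun n => ‖a j * z (κ n) i n - z (κ n) i n * a j‖) ω (𝓝 0)) ∧
      ∀ g i, Tendsto (fun n => ‖α g (z (κ n) i n) - z (κ n) i n‖) ω (𝓝 0) := by
  classical
  let f : ((ℕ × ℕ × ℕ × ℕ) ⊕ (ℕ × ℕ)) ⊕ (G × ℕ) → (n : ℕ) → ℕ → ℝ := fun k n M =>
    match k with
    | Sum.inl (Sum.inl c) => max 0 (‖basicPoly c (fun i => z M i n)‖ - N c)
    | Sum.inl (Sum.inr (j, i)) => ‖a j * z M i n - z M i n * a j‖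
    | Sum.inr (g, i) => ‖α g (z M i n) - z M i n‖
  obtain ⟨κ, hκ⟩ := eps_test_countable (X := fun _ => ℕ) (ω : Filter ℕ) hω f (by
    rintro ((c | ⟨j, i⟩) | ⟨g, i⟩) n m
    · exact le_max_left _ _
    · exact norm_nonneg _
    · exact norm_nonneg _) (by
    intro F ε hε
    have h3 : ∀ᶠ M in atTop, ∀ k ∈ F, (∀ c, k = Sum.inl (Sum.inl c) →
        ‖basicPoly c (ψ M)‖ < N c + ε / 2) ∧ ∀ g i, k = Sum.inr (g, i) →
        centralAct ω α g (ψ M i) = ψ M i := by
      rw [Filter.eventually_all_finset]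
      rintro ((c | ji) | ⟨g, i⟩) _
      · filter_upwards [h c (ε / 2) (by positivity)] with M hM
        refine ⟨fun c' hc' => ?_, fun g i hc' => by cases hc'⟩
        obtain rfl := Sum.inl_injective (Sum.inl_injective hc')
        exact hM
      · refine Eventually.of_forall (fun m => ⟨fun z' hz' => ?_, fun g i hc' => ?_⟩)
        · cases hz'
        · cases hc'
      · filter_upwards [hG g i] with M hM
        refine ⟨fun c' hc' => (by cases hc'), fun g' i' hc' => ?_⟩
        obtain ⟨rfl, rfl⟩ := Prod.mk.inj (Sum.inr_injective hc')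
        exact hM
    obtain ⟨M, hM⟩ := h3.exists
    refine ⟨fun _ => M, ?_⟩
    rintro ((c | ⟨j, i⟩) | ⟨g, i⟩) hk
    · have h4 := (hM _ hk).1 c rfl
      have h5 : Ultra.mk ω (basicPoly c (z M)) = (basicPoly c (ψ M) : centralSeq ω A) := by
        rw [map_basicPoly]
        have := map_basicPoly (centralSeq ω A).subtype c (ψ M)
        simp only [StarSubalgebra.subtype_apply] at this
        rw [this]
        congr 1
        funext i
        exact hz M i
      have h6 := Ultra.tendsto_norm_mk (ω := ω) (basicPoly c (z M))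
      rw [h5] at h6
      have h7 : ‖((basicPoly c (ψ M) : centralSeq ω A) : Ultra ω A)‖ < N c + ε :=
        lt_trans h4 (by linarith)
      filter_upwards [h6.eventually (gt_mem_nhds h7)] with n hn
      show max 0 (‖basicPoly c (fun i => z M i n)‖ - N c) < ε
      rw [max_lt_iff]
      refine ⟨hε, ?_⟩
      rw [← basicPoly_apply]
      linarith
    · have h4 := (mk_mem_centralSeq_iff.1
        (by rw [hz]; exact (ψ M i).2 : Ultra.mk ω (z M i) ∈ _)) (a j)
      exact h4.eventually (gt_mem_nhds hε)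
    · have h4 := (hM _ hk).2 g i rfl
      have h5 : ultraAct ω α g (Ultra.mk ω (z M i)) = Ultra.mk ω (z M i) := by
        rw [hz, ← coe_centralAct, h4]
      rw [ultraAct_mk, Ultra.mk_eq_mk_iff] at h5
      exact h5.eventually (gt_mem_nhds hε))
  exact ⟨κ, fun c => hκ (Sum.inl (Sum.inl c)), fun j i => hκ (Sum.inl (Sum.inr (j, i))),
    fun g i => hκ (Sum.inr (g, i))⟩

/-- Approximate homomorphisms of a separable algebra into the fixed points of the central
sequence algebra give a homomorphism. -/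
theorem exists_hom_centralSeq_fixed [SeparableSpace A] {G : Type*} [Group G] [Countable G]
    (hω : (ω : Filter ℕ) ≤ cofinite) (α : G →* (A ≃⋆ₐ[ℂ] A))
    {D : Type*} [NormedRing D] [NormedAlgebra ℂ D] [StarRing D]
    [ContinuousStar D] [StarModule ℂ D] (d : ℕ → D) (hd : DenseRange d)
    (ψ : ℕ → ℕ → centralSeq ω A) (hb : ∀ i, ∃ C, ∀ M, ‖ψ M i‖ ≤ C)
    (h : ∀ c, ∀ ε : ℝ, 0 < ε → ∀ᶠ M in atTop, ‖basicPoly c (ψ M)‖ < ‖basicPoly c d‖ + ε)
    (hG : ∀ g i, ∀ᶠ M in atTop, centralAct ω α g (ψ M i) = ψ M i) :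
    ∃ ρ : D →⋆ₐ[ℂ] centralSeq ω A, ∀ g z, centralAct ω α g (ρ z) = ρ z := by
  classical
  obtain ⟨a, ha⟩ := TopologicalSpace.exists_dense_seq A
  have hlift : ∀ M i, ∃ y : ℕ →ᵇ A, Ultra.mk ω y = (ψ M i : Ultra ω A) ∧ ∀ n, ‖y n‖ ≤ ‖ψ M i‖ :=
    fun M i => Ultra.exists_rep (ψ M i : Ultra ω A)
  choose z hz hzn using hlift
  choose C hC using hb
  obtain ⟨κ, hκ1, hκ2, hκ3⟩ := exists_index hω α a (fun c => ‖basicPoly c d‖) ψ z hz h hG
  obtain ⟨y, hyn⟩ : ∃ y : ℕ → (ℕ →ᵇ A), ∀ i n, y i n = z (κ n) i n :=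
    ⟨fun i => BoundedContinuousFunction.ofNormedAddCommGroupDiscrete (fun n => z (κ n) i n) (C i)
      (fun n => (hzn _ _ _).trans (hC i _)), fun _ _ => rfl⟩
  have hcentral : ∀ i, Ultra.mk ω (y i) ∈ centralSeq ω A := by
    intro i
    refine mem_centralSeq_of_dense a ha (y i) fun j => ?_
    refine (hκ2 j i).congr fun n => ?_
    rw [hyn]
  obtain ⟨Ψ, hΨ⟩ : ∃ Ψ : ℕ → centralSeq ω A, ∀ i, (Ψ i : Ultra ω A) = Ultra.mk ω (y i) :=
    ⟨fun i => ⟨Ultra.mk ω (y i), hcentral i⟩, fun _ => rfl⟩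
  have hbound : ∀ c, ‖basicPoly c Ψ‖ ≤ ‖basicPoly c d‖ := by
    intro c
    have h2 : Tendsto (fun n => max 0 (‖basicPoly c (fun i => z (κ n) i n)‖ - ‖basicPoly c d‖) +
        ‖basicPoly c d‖) ω (𝓝 (0 + ‖basicPoly c d‖)) := (hκ1 c).add tendsto_const_nhds
    rw [zero_add] at h2
    have h5 : Ultra.mk ω (basicPoly c y) = (basicPoly c Ψ : centralSeq ω A) := by
      rw [map_basicPoly]
      have := map_basicPoly (centralSeq ω A).subtype c Ψ
      simp only [StarSubalgebra.subtype_apply] at this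
      rw [this]
      congr 1
      funext i
      exact (hΨ i).symm
    have h6 := Ultra.tendsto_norm_mk (ω := ω) (basicPoly c y)
    rw [h5] at h6
    refine le_of_tendsto_of_tendsto h6 h2 (Eventually.of_forall fun n => ?_)
    have h8 : ‖(basicPoly c y) n‖ = ‖basicPoly c (fun i => z (κ n) i n)‖ := by
      rw [basicPoly_apply]
      congr 2
      funext i
      exact hyn i n
    have h9 := le_max_right 0 (‖basicPoly c (fun i => z (κ n) i n)‖ - ‖basicPoly c d‖)
    have h10 : ‖(basicPoly c y) n‖ ≤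
        max 0 (‖basicPoly c (fun i => z (κ n) i n)‖ - ‖basicPoly c d‖) + ‖basicPoly c d‖ := by
      rw [h8]
      linarith
    exact h10
  obtain ⟨Φ, hΦ, hΦn⟩ := exists_hom_of_dense d hd Ψ
    (fun i j => hbound (0, i, j, 0))
    (fun i j k => hbound (1, i, j, k))
    (fun i j k => hbound (2, i, j, k))
    (fun i k => hbound (3, i, k, 0))
    (fun i k => hbound (4, i, k, 0))
    (fun k => hbound (5, k, 0, 0))
  refine ⟨Φ, fun g x => ?_⟩
  have hΦc : Continuous Φ := AddMonoidHomClass.continuous_of_bound Φ 1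
    (fun x => by rw [one_mul]; exact hΦn x)
  refine hd.induction_on (p := fun x => centralAct ω α g (Φ x) = Φ x) x ?_ ?_
  · exact isClosed_eq ((continuous_act (centralAct ω α) g).comp hΦc) hΦc
  · intro i
    show centralAct ω α g (Φ (d i)) = Φ (d i)
    rw [hΦ]
    apply Subtype.ext
    rw [coe_centralAct, hΨ, ultraAct_mk, Ultra.mk_eq_mk_iff]
    refine (hκ3 g i).congr fun n => ?_
    show _ = ‖α g (y i n) - y i n‖
    rw [hyn]

end LocFin

open LocFin in
/-- Homomorphisms of the dimension drop algebras into the fixed point algebras of all finitely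
generated subgroups give one of `Z` into the fixed point algebra. -/
theorem exists_hom_fixed {G : Type*} [Group G] [Countable G] {A : Type u} [CStarAlgebra A]
    [SeparableSpace A] {Z : Type v} [CStarAlgebra Z] (hZ : IsDimDropLimit Z)
    {ω : Ultrafilter ℕ} (hω : (ω : Filter ℕ) ≤ cofinite) (α : G →* (A ≃⋆ₐ[ℂ] A))
    (h : ∀ K : Finset G, ∀ p q : ℕ, 0 < p → 0 < q → Nat.Coprime p q →
      ∃ φ : DimDrop p q →⋆ₐ[ℂ] centralSeq ω A, ∀ g ∈ K, ∀ x, centralAct ω α g (φ x) = φ x) :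
    ∃ ρ : Z →⋆ₐ[ℂ] centralSeq ω A, ∀ g z, centralAct ω α g (ρ z) = ρ z := by
  classical
  obtain ⟨γ, hγ⟩ := exists_surjective_nat G
  obtain ⟨S, hmono, hiso, hdense⟩ := hZ
  choose p q hp hq hpq he using hiso
  let e : ∀ k, S k ≃⋆ₐ[ℂ] DimDrop (p k) (q k) := fun k => (he k).some
  choose θ hθ using fun k => h ((Finset.range k).image γ) (p k) (q k) (hp k) (hq k) (hpq k)
  let π : ∀ k, S k →⋆ₐ[ℂ] centralSeq ω A := fun k => (θ k).comp (e k : S k →⋆ₐ[ℂ] _)
  have hπ : ∀ k (x : S k), ‖π k x‖ ≤ ‖x‖ := fun k x => norm_map_le_of_dimDrop (S k) (e k) (θ k) x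
  have hsep : TopologicalSpace.IsSeparable (⋃ k, (S k : Set Z)) :=
    TopologicalSpace.isSeparable_iUnion.2 (fun k => isSeparable_of_dimDrop (S k) (e k))
  have := hsep.separableSpace
  obtain ⟨t, htS, htc, htd⟩ := hdense.exists_countable_dense_subset
  have htne : t.Nonempty := htd.nonempty
  obtain ⟨d, rfl⟩ := htc.exists_eq_range htne
  have hd : ∀ i, ∃ k, d i ∈ S k := fun i => by
    have := htS (Set.mem_range_self i)
    simpa using this
  choose K hK using hd
  let d' : ∀ M, ℕ → S M := fun M i => if hM : d i ∈ S M then ⟨d i, hM⟩ else 0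
  have hd' : ∀ M i, K i ≤ M → ((d' M i : S M) : Z) = d i := by
    intro M i hM
    have h1 : d i ∈ S M := hmono hM (hK i)
    simp only [d', dif_pos h1]
  have hd'n : ∀ M i, ‖d' M i‖ ≤ ‖d i‖ := by
    intro M i
    by_cases h1 : d i ∈ S M
    · simp only [d', dif_pos h1]
      exact le_rfl
    · simp only [d', dif_neg h1, norm_zero]
      exact norm_nonneg _
  refine exists_hom_centralSeq_fixed hω α d htd (fun M i => π M (d' M i))
    (fun i => ⟨‖d i‖, fun M => (hπ _ _).trans (hd'n M i)⟩) ?_ ?_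
  · intro c ε hε
    filter_upwards [eventually_ge_atTop (max (K c.2.1) (max (K c.2.2.1) (K c.2.2.2)))] with M hM
    have h1 : basicPoly c (fun i => π M (d' M i)) = π M (basicPoly c (d' M)) :=
      (map_basicPoly (π M) c (d' M)).symm
    have h2 : ((basicPoly c (d' M) : S M) : Z) = basicPoly c d := by
      have h3 := map_basicPoly (S M).subtype c (d' M)
      simp only [StarSubalgebra.subtype_apply] at h3
      rw [h3]
      apply basicPoly_congr
      · exact hd' M _ ((le_max_left _ _).trans hM)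
      · exact hd' M _ ((le_max_left _ _).trans ((le_max_right _ _).trans hM))
      · exact hd' M _ ((le_max_right _ _).trans ((le_max_right _ _).trans hM))
    rw [h1]
    calc ‖π M (basicPoly c (d' M))‖ ≤ ‖basicPoly c (d' M)‖ := hπ _ _
      _ = ‖basicPoly c d‖ := by rw [← h2]; rfl
      _ < ‖basicPoly c d‖ + ε := by linarith
  · intro g i
    obtain ⟨j, rfl⟩ := hγ g
    filter_upwards [eventually_gt_atTop j] with M hM
    exact hθ M (γ j) (Finset.mem_image.2 ⟨j, Finset.mem_range.2 hM, rfl⟩) _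

end Vale.Agent.P095
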