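import Vale.Agent.P095.Act
import Vale.Agent.P101.Assembly

/-!
# P095: the action `α ⊗ id` on a tensor product with the Jiang-Su algebra
-/

open Filter Topology
open scoped BoundedContinuousFunction TensorProduct

namespace Vale.Agent.P095

open Vale.Agent.P101

universe u v w

namespace TensorAct

/-- Extension of a contractive homomorphism from a dense subalgebra. -/
theorem exists_extension {E : Type*} [Ring E] [Algebra ℂ E] {T : Type*} {T' : Type*}
    [CStarAlgebra T] [CStarAlgebra T'] (L : E →ₐ[ℂ] T) (hinj : Function.Injective L)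
    (hd : DenseRange L) (Ψ : E →ₐ[ℂ] T') (hle : ∀ t, ‖Ψ t‖ ≤ ‖L t‖)
    (hstar : ∀ t, ∃ t', L t' = star (L t) ∧ Ψ t' = star (Ψ t)) :
    ∃ J : T →⋆ₐ[ℂ] T', ∀ t, J (L t) = Ψ t := by
  classical
  let T0 : Subalgebra ℂ T := L.range
  let e : E ≃ₐ[ℂ] T0 := AlgEquiv.ofInjective L hinj
  have he : ∀ t, ((e t : T0) : T) = L t := fun t => rfl
  let f : T0 →+* T' := (Ψ.comp e.symm.toAlgHom : T0 →ₐ[ℂ] T').toRingHom
  have hfe : ∀ t, f (e t) = Ψ t := fun t => by
    show Ψ (e.symm (e t)) = Ψ t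
    rw [AlgEquiv.symm_apply_apply]
  have hfn : ∀ x : T0, ‖f x‖ ≤ 1 * ‖x‖ := by
    intro x
    obtain ⟨t, rfl⟩ := e.surjective x
    rw [hfe, one_mul]
    exact hle t
  have hf : UniformContinuous f := AddMonoidHomClass.uniformContinuous_of_bound f 1 hfn
  let i : T0 →+* T := T0.val.toRingHom
  have hi : ∀ x : T0, i x = (x : T) := fun x => rfl
  have ue : IsUniformInducing i := isUniformEmbedding_subtype_val.isUniformInducing
  have dr : DenseRange i := by
    have : Set.range i = Set.range L := by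
      ext y
      constructor
      · rintro ⟨x, rfl⟩
        obtain ⟨t, rfl⟩ := e.surjective x
        exact ⟨t, rfl⟩
      · rintro ⟨t, rfl⟩
        exact ⟨e t, rfl⟩
    show Dense (Set.range i)
    rw [this]
    exact hd
  let J0 : T →+* T' := IsDenseInducing.extendRingHom ue dr hf
  have hJ0 : ∀ x : T0, J0 (x : T) = f x := fun x =>
    IsDenseInducing.extend_eq (ue.isDenseInducing dr) hf.continuous x
  have hJL : ∀ t, J0 (L t) = Ψ t := fun t => by
    rw [← he, hJ0, hfe]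
  have hcont : Continuous J0 := (uniformContinuous_uniformly_extend ue dr hf).continuous
  refine ⟨{ toFun := J0
            map_one' := map_one J0
            map_mul' := map_mul J0
            map_zero' := map_zero J0
            map_add' := map_add J0
            commutes' := fun c => ?_
            map_star' := fun x => ?_ }, hJL⟩
  · have h1 := hJL (algebraMap ℂ E c)
    have h2 : L (algebraMap ℂ E c) = algebraMap ℂ T c := AlgHomClass.commutes L c
    have h3 : Ψ (algebraMap ℂ E c) = algebraMap ℂ T' c := AlgHomClass.commutes Ψ c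
    rw [h2, h3] at h1
    exact h1
  · show J0 (star x) = star (J0 x)
    refine DenseRange.induction_on hd x ?_ ?_
    · exact isClosed_eq (hcont.comp continuous_star) (continuous_star.comp hcont)
    · intro t
      obtain ⟨t', h1, h2⟩ := hstar t
      rw [← h1, hJL, hJL, h2]

variable {A : Type u} {Z : Type v} {T : Type w} [CStarAlgebra A] [CStarAlgebra Z] [CStarAlgebra T]
  {ιA : A →⋆ₐ[ℂ] T} {ιZ : Z →⋆ₐ[ℂ] T}

theorem injective_left (hT : IsCStarTensor A Z T ιA ιZ) [Nontrivial Z] :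
    Function.Injective ιA := by
  have h3 : Function.Injective (algebraMap ℂ Z) := FaithfulSMul.algebraMap_injective ℂ Z
  have h4 := Algebra.TensorProduct.includeLeft_injective (R := ℂ) (S := ℂ) (A := A) h3
  intro a b hab
  apply h4
  apply hT.injective
  simpa using hab

/-- Two homomorphisms which agree on the two factors are equal. -/
theorem hom_ext (hT : IsCStarTensor A Z T ιA ιZ) {T' : Type*} [CStarAlgebra T']
    (φ ψ : T →⋆ₐ[ℂ] T') (h1 : ∀ a, φ (ιA a) = ψ (ιA a)) (h2 : ∀ z, φ (ιZ z) = ψ (ιZ z)) (x : T) :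
    φ x = ψ x := by
  refine DenseRange.induction_on hT.dense x ?_ ?_
  · exact isClosed_eq (continuous_starAlgHom φ) (continuous_starAlgHom ψ)
  · intro t
    induction t using TensorProduct.induction_on with
    | zero => simp
    | tmul a z =>
      rw [Algebra.TensorProduct.lift_tmul]
      show φ (ιA a * ιZ z) = ψ (ιA a * ιZ z)
      rw [map_mul, map_mul, h1, h2]
    | add x y hx hy => rw [map_add, map_add, map_add, hx, hy]

theorem isometry_ultraMap {ω : Ultrafilter ℕ} {φ : A →⋆ₐ[ℂ] T} (hφ : Function.Injective φ)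
    (x : Ultra ω A) : ‖ultraMap ω φ x‖ = ‖x‖ := by
  obtain ⟨y, rfl⟩ := Ultra.mk_surjective x
  rw [ultraMap_mk]
  have h1 := Ultra.tendsto_norm_mk (ω := ω) (seqMap φ y)
  have h2 := Ultra.tendsto_norm_mk (ω := ω) y
  have h3 : (fun n => ‖seqMap φ y n‖) = fun n => ‖y n‖ := by
    funext n
    rw [seqMap_apply]
    exact NonUnitalStarAlgHom.norm_map φ hφ (y n)
  rw [h3] at h1
  exact tendsto_nhds_unique h1 h2

/-- The constant sequences commute with the images of `Z`. -/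
theorem commute_diag {ω : Ultrafilter ℕ} (ρ : Z →⋆ₐ[ℂ] centralSeq ω A) (a : A) (z : Z) :
    Commute (Ultra.diag ω a) (ρ z : Ultra ω A) :=
  (mem_centralSeq_iff.1 (ρ z).2 a)

/-- The comparison homomorphism `a ⊗ z ↦ a ρ(z)`. -/
noncomputable def comp {ω : Ultrafilter ℕ} (ρ : Z →⋆ₐ[ℂ] centralSeq ω A) :
    A ⊗[ℂ] Z →ₐ[ℂ] Ultra ω A :=
  Algebra.TensorProduct.lift ((Ultra.diag ω : A →⋆ₐ[ℂ] Ultra ω A) : A →ₐ[ℂ] Ultra ω A)
    (((centralSeq ω A).subtype.comp ρ : Z →⋆ₐ[ℂ] Ultra ω A) : Z →ₐ[ℂ] Ultra ω A)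
    (fun a z => commute_diag ρ a z)

theorem comp_tmul {ω : Ultrafilter ℕ} (ρ : Z →⋆ₐ[ℂ] centralSeq ω A) (a : A) (z : Z) :
    comp ρ (a ⊗ₜ z) = Ultra.diag ω a * (ρ z : Ultra ω A) := by
  exact Algebra.TensorProduct.lift_tmul _ _ _ a z

/-- The norm of an element of the algebraic tensor product is computed in the ultrapower. -/
theorem norm_comp (hT : IsCStarTensor A Z T ιA ιZ) (hflip : HasInnerHalfFlip.{v, w} Z)
    {ω : Ultrafilter ℕ} (ρ : Z →⋆ₐ[ℂ] centralSeq ω A) (t : A ⊗[ℂ] Z) :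
    ‖Algebra.TensorProduct.lift (ιA : A →ₐ[ℂ] T) (ιZ : Z →ₐ[ℂ] T) hT.commute t‖ =
      ‖comp ρ t‖ := by
  classical
  rcases subsingleton_or_nontrivial Z with hZ | hZ
  · have h0 : t = 0 := by
      induction t using TensorProduct.induction_on with
      | zero => rfl
      | tmul a z => rw [Subsingleton.elim z 0, TensorProduct.tmul_zero]
      | add x y hx hy => rw [hx, hy, add_zero]
    rw [h0, map_zero, map_zero, norm_zero, norm_zero]
  have hinj := injective_left hT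
  obtain ⟨S, rfl⟩ := TensorProduct.exists_finset t
  let π₁ : Z →⋆ₐ[ℂ] Ultra ω T := (Ultra.diag ω).comp ιZ
  let π₂ : Z →⋆ₐ[ℂ] Ultra ω T := (ultraMap ω ιA).comp ((centralSeq ω A).subtype.comp ρ)
  have hcomm : ∀ x y, Commute (π₁ x) (π₂ y) := by
    intro x y
    obtain ⟨r, hr⟩ := Ultra.mk_surjective (ρ y : Ultra ω A)
    show Commute (Ultra.mk ω (Ultra.const (ιZ x))) (ultraMap ω ιA (ρ y : Ultra ω A))
    rw [← hr, ultraMap_mk, commute_iff_eq, ← map_mul, ← map_mul]
    congr 1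
    ext n
    exact (hT.commute _ _).symm.eq
  have hmapdiag : ∀ a, ultraMap ω ιA (Ultra.diag ω a) = Ultra.diag ω (ιA a) := by
    intro a
    rw [Ultra.diag_apply, Ultra.diag_apply, ultraMap_mk]
    rfl
  set K : ℝ := ∑ i ∈ S, ‖ιA i.1‖ with hK
  have hK0 : 0 ≤ K := Finset.sum_nonneg fun _ _ => norm_nonneg _
  have key : ∀ ε : ℝ, 0 < ε →
      |‖∑ i ∈ S, ιA i.1 * ιZ i.2‖ - ‖∑ i ∈ S, Ultra.diag ω i.1 * (ρ i.2 : Ultra ω A)‖| ≤
        K * ε := by
    intro ε hε
    obtain ⟨U, hUadj, hU, hUz⟩ := hflip (Ultra ω T) π₁ π₂ hcomm (S.image Prod.snd) ε hε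
    have hUA : ∀ a, Commute U (Ultra.diag ω (ιA a)) := by
      intro a
      have h1 : (Algebra.adjoin ℂ (Set.range π₁ ∪ Set.range π₂)).topologicalClosure ≤
          Subalgebra.centralizer ℂ {Ultra.diag ω (ιA a)} := by
        apply Subalgebra.topologicalClosure_minimal
        · apply Algebra.adjoin_le
          rintro _ (⟨z, rfl⟩ | ⟨z, rfl⟩)
          · rw [SetLike.mem_coe, Subalgebra.mem_centralizer_iff]
            rintro _ rfl
            show Ultra.mk ω (Ultra.const (ιA a)) * Ultra.mk ω (Ultra.const (ιZ z)) =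
              Ultra.mk ω (Ultra.const (ιZ z)) * Ultra.mk ω (Ultra.const (ιA a))
            rw [← map_mul, ← map_mul, ← map_mul, ← map_mul, (hT.commute a z).eq]
          · rw [SetLike.mem_coe, Subalgebra.mem_centralizer_iff]
            rintro _ rfl
            rw [← hmapdiag]
            show _ * ultraMap ω ιA (ρ z : Ultra ω A) = ultraMap ω ιA (ρ z : Ultra ω A) * _
            rw [← map_mul, ← map_mul, (mem_centralSeq_iff.1 (ρ z).2 a).eq]
        · exact Set.isClosed_centralizer _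
      have h3 := h1 hUadj
      rw [Subalgebra.mem_centralizer_iff] at h3
      exact (h3 _ rfl).symm
    have e1 : ‖∑ i ∈ S, ιA i.1 * ιZ i.2‖ =
        ‖U * (∑ i ∈ S, Ultra.diag ω (ιA i.1) * π₁ i.2) * star U‖ := by
      rw [ApproxEquiv.norm_conj_aux ⟨U, hU⟩, ← Ultra.norm_diag (ω := ω), map_sum]
      have e0 : ∑ i ∈ S, Ultra.diag ω (ιA i.1 * ιZ i.2) =
          ∑ i ∈ S, Ultra.diag ω (ιA i.1) * π₁ i.2 :=
        Finset.sum_congr rfl fun i _ => map_mul _ _ _
      rw [e0]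
    have e2 : ‖∑ i ∈ S, Ultra.diag ω i.1 * (ρ i.2 : Ultra ω A)‖ =
        ‖∑ i ∈ S, Ultra.diag ω (ιA i.1) * π₂ i.2‖ := by
      rw [← isometry_ultraMap hinj, map_sum]
      congr 1
      refine Finset.sum_congr rfl fun i _ => ?_
      rw [map_mul, hmapdiag]
      rfl
    rw [e1, e2]
    refine (abs_norm_sub_norm_le _ _).trans ?_
    have e3 : U * (∑ i ∈ S, Ultra.diag ω (ιA i.1) * π₁ i.2) * star U -
        ∑ i ∈ S, Ultra.diag ω (ιA i.1) * π₂ i.2 =
        ∑ i ∈ S, Ultra.diag ω (ιA i.1) * (U * π₁ i.2 * star U - π₂ i.2) := by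
      rw [Finset.mul_sum, Finset.sum_mul, ← Finset.sum_sub_distrib]
      refine Finset.sum_congr rfl fun i _ => ?_
      rw [mul_sub, ← mul_assoc, ← mul_assoc, ← mul_assoc, (hUA i.1).eq]
    rw [e3]
    calc _ ≤ ∑ i ∈ S, ‖ιA i.1‖ * ε := by
          refine (norm_sum_le _ _).trans (Finset.sum_le_sum (fun i hi => ?_))
          refine (norm_mul_le _ _).trans ?_
          rw [Ultra.norm_diag]
          exact mul_le_mul_of_nonneg_left (hUz _ (Finset.mem_image_of_mem _ hi)).le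
            (norm_nonneg _)
      _ = K * ε := by rw [Finset.sum_mul]
  have h1 : Algebra.TensorProduct.lift (ιA : A →ₐ[ℂ] T) (ιZ : Z →ₐ[ℂ] T) hT.commute
      (∑ i ∈ S, i.1 ⊗ₜ[ℂ] i.2) = ∑ i ∈ S, ιA i.1 * ιZ i.2 := by
    rw [map_sum]
    exact Finset.sum_congr rfl fun i _ => by rw [Algebra.TensorProduct.lift_tmul]; rfl
  have h2 : comp ρ (∑ i ∈ S, i.1 ⊗ₜ[ℂ] i.2) =
      ∑ i ∈ S, Ultra.diag ω i.1 * (ρ i.2 : Ultra ω A) := by
    rw [map_sum]
    exact Finset.sum_congr rfl fun i _ => comp_tmul ρ _ _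
  rw [h1, h2]
  by_contra hne
  have h3 : 0 < |‖∑ i ∈ S, ιA i.1 * ιZ i.2‖ -
      ‖∑ i ∈ S, Ultra.diag ω i.1 * (ρ i.2 : Ultra ω A)‖| := abs_pos.2 (sub_ne_zero.2 hne)
  set d := |‖∑ i ∈ S, ιA i.1 * ιZ i.2‖ -
      ‖∑ i ∈ S, Ultra.diag ω i.1 * (ρ i.2 : Ultra ω A)‖| with hd
  have h4 := key (d / (2 * (K + 1))) (by positivity)
  have h5 : K * (d / (2 * (K + 1))) < d := by
    rw [mul_div_assoc', div_lt_iff₀ (by positivity)]
    nlinarith
  linarith

/-- The map `α ⊗ id` on the algebraic tensor product. -/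
noncomputable def algAct (f : A ≃⋆ₐ[ℂ] A) : A ⊗[ℂ] Z →ₐ[ℂ] A ⊗[ℂ] Z :=
  Algebra.TensorProduct.map ((f : A →⋆ₐ[ℂ] A) : A →ₐ[ℂ] A) (AlgHom.id ℂ Z)

theorem algAct_tmul (f : A ≃⋆ₐ[ℂ] A) (a : A) (z : Z) :
    algAct f (a ⊗ₜ[ℂ] z) = f a ⊗ₜ[ℂ] z := by
  rw [algAct, Algebra.TensorProduct.map_tmul]
  rfl

theorem exists_hom (hT : IsCStarTensor A Z T ιA ιZ) (hflip : HasInnerHalfFlip.{v, w} Z)
    {ω : Ultrafilter ℕ} {G : Type*} [Group G] (α : G →* (A ≃⋆ₐ[ℂ] A))
    (ρ : Z →⋆ₐ[ℂ] centralSeq ω A) (hρ : ∀ g z, centralAct ω α g (ρ z) = ρ z) (g : G) :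
    ∃ J : T →⋆ₐ[ℂ] T, (∀ a, J (ιA a) = ιA (α g a)) ∧ ∀ z, J (ιZ z) = ιZ z := by
  set L : A ⊗[ℂ] Z →ₐ[ℂ] T :=
    Algebra.TensorProduct.lift (ιA : A →ₐ[ℂ] T) (ιZ : Z →ₐ[ℂ] T) hT.commute with hL
  have hLt : ∀ a z, L (a ⊗ₜ[ℂ] z) = ιA a * ιZ z := fun a z => by
    rw [hL, Algebra.TensorProduct.lift_tmul]
    rfl
  have hρ' : ∀ z, ultraAct ω α g (ρ z : Ultra ω A) = (ρ z : Ultra ω A) := fun z => by
    rw [← coe_centralAct, hρ]
  have hdiag : ∀ a, ultraAct ω α g (Ultra.diag ω a) = Ultra.diag ω (α g a) := fun a => by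
    rw [Ultra.diag_apply, Ultra.diag_apply, ultraAct_mk]
    rfl
  have h1 : ∀ t, comp ρ (algAct (α g) t) = ultraAct ω α g (comp ρ t) := by
    intro t
    induction t using TensorProduct.induction_on with
    | zero => rw [map_zero, map_zero, map_zero]
    | tmul a z => rw [algAct_tmul, comp_tmul, comp_tmul, map_mul, hρ', hdiag]
    | add x y hx hy => rw [map_add, map_add, map_add, map_add, hx, hy]
  have h2 : ∀ t, ‖L (algAct (α g) t)‖ ≤ ‖L t‖ := by
    intro t
    rw [hL, norm_comp hT hflip ρ, norm_comp hT hflip ρ, h1]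
    exact NonUnitalStarAlgHom.norm_apply_le (ultraAct ω α g) _
  have hst : ∀ t : A ⊗[ℂ] Z, ∃ t' : A ⊗[ℂ] Z, L t' = star (L t) ∧
      L (algAct (α g) t') = star (L (algAct (α g) t)) := by
    intro t
    induction t using TensorProduct.induction_on with
    | zero => exact ⟨0, by simp, by simp⟩
    | tmul a z =>
      refine ⟨star a ⊗ₜ[ℂ] star z, ?_, ?_⟩
      · rw [hLt, hLt, star_mul, map_star, map_star]
        exact ((hT.commute a z).star_star).eq
      · rw [algAct_tmul, algAct_tmul, hLt, hLt, star_mul, map_star, map_star, map_star]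
        exact ((hT.commute (α g a) z).star_star).eq
    | add x y hx hy =>
      obtain ⟨x', hx1, hx2⟩ := hx
      obtain ⟨y', hy1, hy2⟩ := hy
      refine ⟨x' + y', ?_, ?_⟩
      · rw [map_add, map_add, star_add, hx1, hy1]
      · rw [map_add, map_add, map_add, map_add, star_add, hx2, hy2]
  obtain ⟨J, hJ⟩ := exists_extension L hT.injective hT.dense (L.comp (algAct (α g))) h2 hst
  refine ⟨J, fun a => ?_, fun z => ?_⟩
  · have h3 := hJ (a ⊗ₜ[ℂ] 1)
    rw [hLt, map_one, mul_one, AlgHom.comp_apply, algAct_tmul, hLt, map_one, mul_one] at h3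
    exact h3
  · have h3 := hJ (1 ⊗ₜ[ℂ] z)
    rw [hLt, map_one, one_mul, AlgHom.comp_apply, algAct_tmul, hLt, map_one, map_one,
      one_mul] at h3
    exact h3

end TensorAct

/-- The action `α ⊗ id` exists as soon as there is a fixed central copy of `Z`. -/
theorem exists_tensorAction {G : Type*} [Group G] {A : Type u} {Z : Type v} {T : Type w}
    [CStarAlgebra A] [CStarAlgebra Z] [CStarAlgebra T] {ιA : A →⋆ₐ[ℂ] T} {ιZ : Z →⋆ₐ[ℂ] T}
    (hT : IsCStarTensor A Z T ιA ιZ) (hflip : HasInnerHalfFlip.{v, w} Z) {ω : Ultrafilter ℕ}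
    (α : G →* (A ≃⋆ₐ[ℂ] A)) (ρ : Z →⋆ₐ[ℂ] centralSeq ω A)
    (hρ : ∀ g z, centralAct ω α g (ρ z) = ρ z) :
    ∃ β : G →* (T ≃⋆ₐ[ℂ] T), IsTensorAction α ιA ιZ β := by
  choose J hJA hJZ using fun g => TensorAct.exists_hom hT hflip α ρ hρ g
  have hmul : ∀ g h x, J (g * h) x = J g (J h x) := by
    intro g h x
    refine TensorAct.hom_ext hT (J (g * h)) ((J g).comp (J h)) (fun a => ?_) (fun z => ?_) x
    · rw [hJA, StarAlgHom.comp_apply, hJA, hJA, map_mul]
      rfl
    · rw [hJZ, StarAlgHom.comp_apply, hJZ, hJZ]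
  have hone : ∀ x, J 1 x = x := by
    intro x
    refine TensorAct.hom_ext hT (J 1) (StarAlgHom.id ℂ T) (fun a => ?_) (fun z => ?_) x
    · rw [hJA, map_one]
      rfl
    · rw [hJZ]
      rfl
  let e : G → (T ≃⋆ₐ[ℂ] T) := fun g =>
    { (J g : T →⋆ₐ[ℂ] T) with
      toFun := J g
      invFun := J g⁻¹
      left_inv := fun x => by rw [← hmul, inv_mul_cancel, hone]
      right_inv := fun x => by rw [← hmul, mul_inv_cancel, hone]
      map_smul' := fun c x => map_smul (J g) c x }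
  refine ⟨{ toFun := e
            map_one' := ?_
            map_mul' := ?_ }, fun g a => hJA g a, fun g z => hJZ g z⟩
  · ext x
    exact hone x
  · intro g h
    ext x
    exact hmul g h x

end Vale.Agent.P095
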