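import Mathlib

/-!
# P095: a simple infinite-dimensional C*-algebra has no characters
-/

namespace Vale.Agent.P095

universe v

theorem isEmpty_character_of_isJiangSu {Z : Type v} [CStarAlgebra Z]
    (hinf : ¬ FiniteDimensional ℂ Z) (hs : IsSimpleRing Z) : IsEmpty (Z →⋆ₐ[ℂ] ℂ) := by
  refine ⟨fun χ => hinf ?_⟩
  have hinj : Function.Injective χ := RingHom.injective (χ : Z →+* ℂ)
  exact FiniteDimensional.of_injective ((χ : Z →ₐ[ℂ] ℂ).toLinearMap) hinj

end Vale.Agent.P095
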