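import Vale.Agent.P095.EqCC
import Vale.Agent.P095.LocFin

/-!
# P095: the ε-test for the central sequence algebra
-/

open Filter Topology TopologicalSpace
open scoped BoundedContinuousFunction ComplexOrder

namespace Vale.Agent.P095

open Vale.Agent.P101

universe u

/-- The ε-test for contractions of the central sequence algebra: countably many conditions which
can be satisfied approximately, finitely many at a time, by central sequences of contractions can
be satisfied exactly. -/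
theorem exists_central_seq {A : Type u} [CStarAlgebra A] [SeparableSpace A] {ω : Ultrafilter ℕ}
    (hω : (ω : Filter ℕ) ≤ cofinite) {κ : Type*} [Countable κ] (f : κ → ℕ → A → ℝ)
    (hf : ∀ k n x, 0 ≤ f k n x)
    (h : ∀ (F : Finset κ) (ε : ℝ), 0 < ε → ∃ y : ℕ →ᵇ A, (∀ n, ‖y n‖ ≤ 1) ∧
      Ultra.mk ω y ∈ centralSeq ω A ∧ ∀ k ∈ F, ∀ᶠ n in (ω : Filter ℕ), f k n (y n) < ε) :
    ∃ y : ℕ →ᵇ A, (∀ n, ‖y n‖ ≤ 1) ∧ Ultra.mk ω y ∈ centralSeq ω A ∧
      ∀ k, Tendsto (fun n => f k n (y n)) ω (𝓝 0) := by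
  classical
  obtain ⟨a, ha⟩ := exists_dense_seq A
  let F : κ ⊕ ℕ → (n : ℕ) → {x : A // ‖x‖ ≤ 1} → ℝ := fun k n x =>
    match k with
    | Sum.inl k => f k n x
    | Sum.inr j => ‖a j * x - x * a j‖
  have hne : Nonempty {x : A // ‖x‖ ≤ 1} := ⟨⟨0, by simp⟩⟩
  have hF : ∀ k n x, 0 ≤ F k n x := by
    rintro (k | j) n x
    · exact hf _ _ _
    · exact norm_nonneg _
  have hF2 : ∀ (S : Finset (κ ⊕ ℕ)) (ε : ℝ), 0 < ε → ∃ x : ∀ _ : ℕ, {x : A // ‖x‖ ≤ 1},
      ∀ k ∈ S, ∀ᶠ n in (ω : Filter ℕ), F k n (x n) < ε := by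
    intro S ε hε
    obtain ⟨y, hy1, hy2, hy3⟩ := h (S.preimage Sum.inl Sum.inl_injective.injOn) ε hε
    refine ⟨fun n => ⟨y n, hy1 n⟩, ?_⟩
    rintro (k | j) hk
    · exact hy3 k (by simpa using hk)
    · show ∀ᶠ n in (ω : Filter ℕ), ‖a j * y n - y n * a j‖ < ε
      rw [mem_centralSeq_iff] at hy2
      have h1 := hy2 (a j)
      rw [commute_iff_eq, Ultra.diag_apply, ← map_mul, ← map_mul, Ultra.mk_eq_mk_iff] at h1
      exact h1.eventually (gt_mem_nhds hε)
  obtain ⟨x, hx⟩ := @eps_test_countable (κ ⊕ ℕ) _ (fun _ => {x : A // ‖x‖ ≤ 1})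
    (fun _ => hne) (ω : Filter ℕ) hω F hF hF2
  let y : ℕ →ᵇ A := BoundedContinuousFunction.ofNormedAddCommGroup (fun n => (x n : A))
    continuous_of_discreteTopology 1 (fun n => (x n).2)
  refine ⟨y, fun n => (x n).2, LocFin.mem_centralSeq_of_dense a ha y fun j => ?_, fun k => ?_⟩
  · exact hx (Sum.inr j)
  · exact hx (Sum.inl k)

end Vale.Agent.P095
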