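import Vale.Agent.P095.TDefs
import Vale.Agent.P095.EpsCentral

/-!
# P095: averaging a shift over the amenable group `G / ker`
-/

open Filter Topology TopologicalSpace
open scoped BoundedContinuousFunction ComplexOrder

namespace Vale.Agent.P095

open Vale.Agent.P101

universe u v w

namespace AvgShift

section Fin

variable {B : Type*} [CStarAlgebra B]

/-- The combination `∑ c(q) q(s)`. -/
noncomputable def comb (s : B) (c : (B ≃⋆ₐ[ℂ] B) →₀ ℝ) : B := c.sum fun q r => (r : ℂ) • q s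

theorem comb_sub (s : B) (c c' : (B ≃⋆ₐ[ℂ] B) →₀ ℝ) : comb s (c - c') = comb s c - comb s c' := by
  unfold comb
  exact Finsupp.sum_sub_index fun q r r' => by rw [Complex.ofReal_sub, sub_smul]

theorem comb_eq (s : B) (c : (B ≃⋆ₐ[ℂ] B) →₀ ℝ) (Q : Finset (B ≃⋆ₐ[ℂ] B)) (h : c.support ⊆ Q) :
    comb s c = ∑ q ∈ Q, ((c q : ℝ) : ℂ) • q s :=
  Finsupp.sum_of_support_subset c h _ fun q _ => by rw [Complex.ofReal_zero, zero_smul]

theorem star_comb_mul (s e : B) (h1 : star s * s = e) (P : Set (B ≃⋆ₐ[ℂ] B))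
    (hfix : ∀ q ∈ P, q e = e)
    (h3 : ∀ q ∈ P, ∀ q' ∈ P, q ≠ q' → star (q s) * q' s = 0) (c : (B ≃⋆ₐ[ℂ] B) →₀ ℝ)
    (hc : ∀ q ∈ c.support, q ∈ P) :
    star (comb s c) * comb s c = ((∑ q ∈ c.support, c q ^ 2 : ℝ) : ℂ) • e := by
  classical
  rw [comb_eq s c c.support le_rfl, star_sum, Finset.sum_mul_sum, Complex.ofReal_sum,
    Finset.sum_smul]
  refine Finset.sum_congr rfl fun q hq => ?_
  rw [Finset.sum_eq_single q]
  · rw [star_smul, smul_mul_smul_comm, ← map_star, ← map_mul, h1, hfix q (hc q hq)]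
    congr 1
    rw [Complex.star_def, Complex.conj_ofReal, ← Complex.ofReal_mul, pow_two]
  · intro q' hq' hne
    rw [star_smul, smul_mul_smul_comm, h3 q (hc q hq) q' (hc q' hq') (Ne.symm hne), smul_zero]
  · intro h
    exact absurd hq h

theorem norm_comb_sq_le (s e : B) (h1 : star s * s = e) (he1 : ‖e‖ ≤ 1) (P : Set (B ≃⋆ₐ[ℂ] B))
    (hfix : ∀ q ∈ P, q e = e)
    (h3 : ∀ q ∈ P, ∀ q' ∈ P, q ≠ q' → star (q s) * q' s = 0) (c : (B ≃⋆ₐ[ℂ] B) →₀ ℝ)
    (hc : ∀ q ∈ c.support, q ∈ P) :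
    ‖comb s c‖ ^ 2 ≤ ∑ q ∈ c.support, c q ^ 2 := by
  rw [pow_two, ← CStarRing.norm_star_mul_self, star_comb_mul s e h1 P hfix h3 c hc, norm_smul,
    Complex.norm_real, Real.norm_of_nonneg (Finset.sum_nonneg fun q _ => sq_nonneg _)]
  exact mul_le_of_le_one_right (Finset.sum_nonneg fun q _ => sq_nonneg _) he1

end Fin

/-- The `ℓ¹`-norm does not increase under push forward. -/
theorem sum_abs_mapDomain_le {G H : Type*} (β : G → H) (f : G →₀ ℝ) (Q : Finset H) :
    ∑ q ∈ Q, |f.mapDomain β q| ≤ ∑ g ∈ f.support, |f g| := by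
  classical
  have h1 : ∀ q, f.mapDomain β q = ∑ g ∈ f.support, if β g = q then f g else 0 := by
    intro q
    rw [Finsupp.mapDomain, Finsupp.sum_apply, Finsupp.sum]
    refine Finset.sum_congr rfl fun g _ => ?_
    rw [Finsupp.single_apply]
  calc ∑ q ∈ Q, |f.mapDomain β q|
      ≤ ∑ q ∈ Q, ∑ g ∈ f.support, (if β g = q then |f g| else 0) := by
        refine Finset.sum_le_sum fun q _ => ?_
        rw [h1]
        refine (Finset.abs_sum_le_sum_abs _ _).trans (Finset.sum_le_sum fun g _ => ?_)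
        split_ifs
        · exact le_rfl
        · rw [abs_zero]
    _ = ∑ g ∈ f.support, ∑ q ∈ Q, (if β g = q then |f g| else 0) := Finset.sum_comm
    _ ≤ ∑ g ∈ f.support, |f g| := by
        refine Finset.sum_le_sum fun g _ => ?_
        rw [Finset.sum_ite_eq]
        split_ifs
        · exact le_rfl
        · exact abs_nonneg _

theorem sqrt_sub_sq_le {a b : ℝ} (ha : 0 ≤ a) (hb : 0 ≤ b) :
    (Real.sqrt a - Real.sqrt b) ^ 2 ≤ |a - b| := by
  have h1 : |a - b| = |Real.sqrt a - Real.sqrt b| * (Real.sqrt a + Real.sqrt b) := by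
    have h2 : a - b = (Real.sqrt a - Real.sqrt b) * (Real.sqrt a + Real.sqrt b) := by
      have := Real.sq_sqrt ha
      have := Real.sq_sqrt hb
      nlinarith
    rw [h2, abs_mul, abs_of_nonneg (add_nonneg (Real.sqrt_nonneg a) (Real.sqrt_nonneg b))]
  rw [h1, ← sq_abs, pow_two]
  refine mul_le_mul_of_nonneg_left ?_ (abs_nonneg _)
  rw [abs_le]
  constructor <;> linarith [Real.sqrt_nonneg a, Real.sqrt_nonneg b]

end AvgShift

open AvgShift in
/-- Reiter functions on `G` which are constant mass on cosets: the quotient form of Reiter -/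
theorem exists_avg_shift {G : Type*} [Group G] {B : Type*} [CStarAlgebra B]
    (hG : ReiterAmenable G) (β : G →* (B ≃⋆ₐ[ℂ] B)) (e s : B) (hfix : ∀ g, β g e = e)
    (he1 : ‖e‖ ≤ 1) (h1 : star s * s = e) (h2 : e * s = 0)
    (h3 : ∀ g, β g ≠ 1 → star s * β g s = 0) (K : Finset G) (ε : ℝ) (hε : 0 < ε) :
    ∃ S : B, star S * S = e ∧ e * S = 0 ∧ ∀ g ∈ K, ‖β g S - S‖ ≤ ε := by
  classical
  obtain ⟨F, ν, hν0, hνF, hν1, hνK⟩ := hG K (ε ^ 2) (by positivity)
  let P : Set (B ≃⋆ₐ[ℂ] B) := Set.range β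
  have hP1 : ∀ q ∈ P, q e = e := by
    rintro _ ⟨g, rfl⟩
    exact hfix g
  have hP2 : ∀ q ∈ P, ∀ q' ∈ P, q ≠ q' → star (q s) * q' s = 0 := by
    rintro _ ⟨g, rfl⟩ _ ⟨g', rfl⟩ hne
    have h4 : β g' s = β g (β (g⁻¹ * g') s) := by
      rw [← StarAlgEquiv.mul_apply, ← map_mul, mul_inv_cancel_left]
    have h5 : β (g⁻¹ * g') ≠ 1 := by
      intro h
      apply hne
      rw [map_mul, map_inv, inv_mul_eq_one] at h
      exact h
    rw [h4, ← map_star, ← map_mul, h3 _ h5, map_zero]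
  -- the push forward
  let νf : G →₀ ℝ := Finsupp.onFinset F ν fun g hg => by
    by_contra h
    exact hg (hνF g h)
  have hνf : ∀ g, νf g = ν g := fun g => rfl
  let μ : (B ≃⋆ₐ[ℂ] B) →₀ ℝ := νf.mapDomain β
  have hmapP : ∀ (f : G →₀ ℝ), ∀ q ∈ (f.mapDomain β).support, q ∈ P := by
    intro f q hq
    have := Finsupp.mapDomain_support hq
    rw [Finset.mem_image] at this
    obtain ⟨g, -, rfl⟩ := this
    exact ⟨g, rfl⟩
  have hmap0 : ∀ (f : G →₀ ℝ), (∀ g, 0 ≤ f g) → ∀ q, 0 ≤ f.mapDomain β q := by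
    intro f hf q
    rw [Finsupp.mapDomain, Finsupp.sum_apply, Finsupp.sum]
    refine Finset.sum_nonneg fun g _ => ?_
    rw [Finsupp.single_apply]
    split_ifs
    · exact hf g
    · exact le_rfl
  let rt : ((B ≃⋆ₐ[ℂ] B) →₀ ℝ) → ((B ≃⋆ₐ[ℂ] B) →₀ ℝ) := fun c =>
    c.mapRange Real.sqrt Real.sqrt_zero
  have hrt : ∀ c q, rt c q = Real.sqrt (c q) := fun c q => rfl
  have hrtP : ∀ c, (∀ q ∈ c.support, q ∈ P) → ∀ q ∈ (rt c).support, q ∈ P := by
    intro c hc q hq
    apply hc q
    rw [Finsupp.mem_support_iff] at hq ⊢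
    intro h
    apply hq
    rw [hrt, h, Real.sqrt_zero]
  have hμ0 : ∀ q, 0 ≤ μ q := hmap0 νf hν0
  have hμ1 : ∑ q ∈ (rt μ).support, (rt μ) q ^ 2 = 1 := by
    have h4 : ∀ q, (rt μ) q ^ 2 = μ q := fun q => by rw [hrt, Real.sq_sqrt (hμ0 q)]
    have h5 : (rt μ).support = μ.support := by
      ext q
      rw [Finsupp.mem_support_iff, Finsupp.mem_support_iff, hrt, Real.sqrt_ne_zero (hμ0 q)]
    rw [h5, Finset.sum_congr rfl fun q _ => h4 q]
    have h6 : μ.sum (fun _ r => r) = νf.sum fun _ r => r :=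
      Finsupp.sum_mapDomain_index (fun _ => rfl) (fun _ _ _ => rfl)
    rw [Finsupp.sum, Finsupp.sum] at h6
    rw [h6, ← hν1]
    exact Finset.sum_subset (Finsupp.support_onFinset_subset) fun g _ hg => by
      rw [Finsupp.notMem_support_iff] at hg
      exact hg
  refine ⟨comb s (rt μ), ?_, ?_, ?_⟩
  · rw [star_comb_mul s e h1 P hP1 hP2 _ (hrtP μ (hmapP νf)), hμ1, Complex.ofReal_one, one_smul]
  · rw [comb_eq s _ _ le_rfl, Finset.mul_sum]
    refine Finset.sum_eq_zero fun q hq => ?_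
    obtain ⟨g, rfl⟩ := hrtP μ (hmapP νf) q hq
    rw [mul_smul_comm]
    have h4 : e * β g s = β g (e * s) := by rw [map_mul, hfix]
    rw [h4, h2, map_zero, smul_zero]
  · intro k hk
    -- the shifted function
    let νk : G →₀ ℝ := νf.mapDomain (fun g => k * g)
    have hνk : ∀ g, νk g = ν (k⁻¹ * g) := by
      intro g
      have h4 := Finsupp.mapDomain_apply (mul_right_injective k) νf (k⁻¹ * g)
      rw [mul_inv_cancel_left] at h4
      exact h4
    let μk : (B ≃⋆ₐ[ℂ] B) →₀ ℝ := νk.mapDomain β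
    have hμk0 : ∀ q, 0 ≤ μk q := hmap0 νk fun g => by rw [hνk]; exact hν0 _
    have hμkβ : μk = μ.mapDomain (fun q => β k * q) := by
      show (νf.mapDomain (fun g => k * g)).mapDomain β = (νf.mapDomain β).mapDomain _
      rw [← Finsupp.mapDomain_comp, ← Finsupp.mapDomain_comp]
      congr 1
      funext g
      exact map_mul β k g
    have hμkq : ∀ q, μk (β k * q) = μ q := by
      intro q
      rw [hμkβ]
      exact Finsupp.mapDomain_apply (mul_right_injective (β k)) μ q
    have hact : β k (comb s (rt μ)) = comb s (rt μk) := by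
      have h4 : (rt μk) = (rt μ).mapDomain (fun q => β k * q) := by
        ext q
        have h5 : q = β k * ((β k)⁻¹ * q) := by rw [mul_inv_cancel_left]
        rw [h5, Finsupp.mapDomain_apply (mul_right_injective (β k)), hrt, hrt, hμkq]
      rw [h4, comb, comb, Finsupp.sum_mapDomain_index
        (fun q => by rw [Complex.ofReal_zero, zero_smul])
        (fun q r r' => by rw [Complex.ofReal_add, add_smul]), Finsupp.sum, map_sum, Finsupp.sum]
      refine Finset.sum_congr rfl fun q _ => ?_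
      rw [map_smul, StarAlgEquiv.mul_apply]
    rw [hact, ← comb_sub]
    have h6 : ∀ q ∈ (rt μk - rt μ).support, q ∈ P := by
      intro q hq
      by_contra hqP
      have h7 : μk q = 0 := by
        by_contra h
        exact hqP (hmapP νk q (Finsupp.mem_support_iff.2 h))
      have h8 : μ q = 0 := by
        by_contra h
        exact hqP (hmapP νf q (Finsupp.mem_support_iff.2 h))
      rw [Finsupp.mem_support_iff, Finsupp.sub_apply, hrt, hrt, h7, h8, sub_self] at hq
      exact hq rfl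
    have h7 := norm_comb_sq_le s e h1 he1 P hP1 hP2 (rt μk - rt μ) h6
    have h8 : ∑ q ∈ (rt μk - rt μ).support, (rt μk - rt μ) q ^ 2 ≤ ε ^ 2 := by
      calc ∑ q ∈ (rt μk - rt μ).support, (rt μk - rt μ) q ^ 2
          ≤ ∑ q ∈ (rt μk - rt μ).support, |(νk - νf).mapDomain β q| := by
            refine Finset.sum_le_sum fun q _ => ?_
            have h9 : (νk - νf).mapDomain β q = μk q - μ q := by
              have : (νk - νf).mapDomain β = μk - μ := by
                have h10 := (Finsupp.mapDomain.addMonoidHom (M := ℝ) β).map_sub νk νf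
                exact h10
              rw [this, Finsupp.sub_apply]
            rw [h9, Finsupp.sub_apply, hrt, hrt]
            exact sqrt_sub_sq_le (hμk0 q) (hμ0 q)
        _ ≤ ∑ g ∈ (νk - νf).support, |(νk - νf) g| := sum_abs_mapDomain_le _ _ _
        _ = ∑ g ∈ (νk - νf).support, |ν (k⁻¹ * g) - ν g| := by
            refine Finset.sum_congr rfl fun g _ => ?_
            rw [Finsupp.sub_apply, hνk, hνf]
        _ ≤ ε ^ 2 := hνK k hk _
    exact (pow_le_pow_iff_left₀ (norm_nonneg _) hε.le two_ne_zero).1 (h7.trans h8)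

theorem exists_fixed_shift {G : Type*} [Group G] [Countable G] {A : Type u} [CStarAlgebra A]
    [SeparableSpace A] {ω : Ultrafilter ℕ} (hω : (ω : Filter ℕ) ≤ cofinite)
    (hG : ReiterAmenable G) (α : G →* (A ≃⋆ₐ[ℂ] A)) (e : centralSeq ω A) (he1 : ‖e‖ ≤ 1)
    (hfix : ∀ g, centralAct ω α g e = e)
    (hs : ∃ s : centralSeq ω A, star s * s = e ∧ e * s = 0 ∧
      ∀ g, centralAct ω α g ≠ 1 → star s * centralAct ω α g s = 0) :
    ∃ S : centralSeq ω A, (∀ g, centralAct ω α g S = S) ∧ star S * S = e ∧ e * S = 0 := by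
  classical
  obtain ⟨s, hs1, hs2, hs3⟩ := hs
  obtain ⟨ye, hye, -⟩ := Ultra.exists_rep (e : Ultra ω A)
  let f : Option (Option G) → ℕ → A → ℝ := fun k n x =>
    match k with
    | none => ‖star x * x - ye n‖
    | some none => ‖ye n * x‖
    | some (some g) => ‖α g x - x‖
  obtain ⟨y, hy1, hy2, hy3⟩ := exists_central_seq (A := A) hω f (by
    rintro (_ | _ | g) n x <;> exact norm_nonneg _) (by
    intro F ε hε
    let K : Finset G := F.biUnion fun k => match k with
      | some (some g) => {g}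
      | _ => ∅
    obtain ⟨S, hS1, hS2, hS3⟩ := exists_avg_shift hG (centralAct ω α) e s hfix he1 hs1 hs2 hs3 K
      (ε / 2) (by positivity)
    have hSn : ‖(S : Ultra ω A)‖ ≤ 1 := by
      have h1 : ‖S‖ ^ 2 ≤ 1 := by
        rw [pow_two, ← CStarRing.norm_star_mul_self, hS1]
        exact he1
      have h2 : ‖S‖ ≤ 1 := by
        by_contra h
        push Not at h
        nlinarith
      exact h2
    obtain ⟨z, hz, hz1⟩ := Ultra.exists_rep (S : Ultra ω A)
    refine ⟨z, fun n => (hz1 n).trans hSn, by rw [hz]; exact S.2, ?_⟩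
    rintro (_ | _ | g) hk
    · have h1 : Ultra.mk ω (star z * z) = Ultra.mk ω ye := by
        rw [map_mul, map_star, hz, hye]
        exact congrArg Subtype.val hS1
      rw [Ultra.mk_eq_mk_iff] at h1
      exact h1.eventually (gt_mem_nhds hε)
    · have h1 : Ultra.mk ω (ye * z) = Ultra.mk ω 0 := by
        rw [map_mul, hz, hye, map_zero]
        exact congrArg Subtype.val hS2
      rw [Ultra.mk_eq_mk_iff] at h1
      refine (h1.eventually (gt_mem_nhds hε)).mono fun n hn => ?_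
      have h2 : ‖(ye * z) n - (0 : ℕ →ᵇ A) n‖ < ε := hn
      rw [BoundedContinuousFunction.coe_zero, Pi.zero_apply, sub_zero] at h2
      exact h2
    · have hgK : g ∈ K := by
        simp only [K, Finset.mem_biUnion]
        exact ⟨_, hk, by simp⟩
      have h1 := hS3 g hgK
      have h2 : ‖centralAct ω α g S - S‖ = ‖Ultra.mk ω (seqMap (α g : A →⋆ₐ[ℂ] A) z - z)‖ := by
        rw [map_sub, ← ultraAct_mk, hz, ← coe_centralAct]
        rfl
      rw [h2] at h1
      have h3 := Ultra.tendsto_norm_mk (ω := ω) (seqMap (α g : A →⋆ₐ[ℂ] A) z - z)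
      exact h3.eventually (gt_mem_nhds (h1.trans_lt (by linarith))))
  refine ⟨⟨Ultra.mk ω y, hy2⟩, fun g => ?_, ?_, ?_⟩
  · apply Subtype.ext
    rw [coe_centralAct]
    show ultraAct ω α g (Ultra.mk ω y) = Ultra.mk ω y
    rw [ultraAct_mk, Ultra.mk_eq_mk_iff]
    exact hy3 (some (some g))
  · apply Subtype.ext
    show star (Ultra.mk ω y) * Ultra.mk ω y = e
    rw [← map_star, ← map_mul, ← hye, Ultra.mk_eq_mk_iff]
    exact hy3 none
  · apply Subtype.ext
    show (e : Ultra ω A) * Ultra.mk ω y = 0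
    rw [← hye, ← map_mul, ← map_zero (Ultra.mk ω), Ultra.mk_eq_mk_iff]
    refine (hy3 (some none)).congr fun n => ?_
    show ‖ye n * y n‖ = ‖(ye * y) n - (0 : ℕ →ᵇ A) n‖
    rw [BoundedContinuousFunction.coe_zero, Pi.zero_apply, sub_zero]
    rfl

end Vale.Agent.P095
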