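import Vale.Agent.P095.AvgShift

/-!
# P095: averaging a pair of shifts over the amenable group `G / ker`
-/

open Filter Topology TopologicalSpace
open scoped BoundedContinuousFunction ComplexOrder

namespace Vale.Agent.P095

open Vale.Agent.P101

universe u v w

namespace AvgShift

section Fin2

variable {B : Type*} [CStarAlgebra B]

theorem star_comb_mul2 (s s' e : B) (h1 : star s * s' = e) (P : Set (B ≃⋆ₐ[ℂ] B))
    (hfix : ∀ q ∈ P, q e = e)
    (h3 : ∀ q ∈ P, ∀ q' ∈ P, q ≠ q' → star (q s) * q' s' = 0) (c : (B ≃⋆ₐ[ℂ] B) →₀ ℝ)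
    (hc : ∀ q ∈ c.support, q ∈ P) :
    star (comb s c) * comb s' c = ((∑ q ∈ c.support, c q ^ 2 : ℝ) : ℂ) • e := by
  classical
  rw [comb_eq s c c.support le_rfl, comb_eq s' c c.support le_rfl, star_sum, Finset.sum_mul_sum,
    Complex.ofReal_sum, Finset.sum_smul]
  refine Finset.sum_congr rfl fun q hq => ?_
  rw [Finset.sum_eq_single q]
  · rw [star_smul, smul_mul_smul_comm, ← map_star, ← map_mul, h1, hfix q (hc q hq)]
    congr 1
    rw [Complex.star_def, Complex.conj_ofReal, ← Complex.ofReal_mul, pow_two]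
  · intro q' hq' hne
    rw [star_smul, smul_mul_smul_comm, h3 q (hc q hq) q' (hc q' hq') (Ne.symm hne), smul_zero]
  · intro h
    exact absurd hq h

end Fin2

end AvgShift

open AvgShift in
/-- the quotient form of Reiter, for pairs -/
theorem exists_avg_shift2 {G : Type*} [Group G] {B : Type*} [CStarAlgebra B]
    (hG : ReiterAmenable G) (β : G →* (B ≃⋆ₐ[ℂ] B)) (e : B) (s : Fin 2 → B)
    (hfix : ∀ g, β g e = e)
    (he1 : ‖e‖ ≤ 1) (h1 : ∀ i j, star (s i) * s j = if i = j then e else 0)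
    (h3 : ∀ i j g, β g ≠ 1 → star (s i) * β g (s j) = 0) (K : Finset G) (ε : ℝ) (hε : 0 < ε) :
    ∃ S : Fin 2 → B, (∀ i j, star (S i) * S j = if i = j then e else 0) ∧
      ∀ i, ∀ g ∈ K, ‖β g (S i) - S i‖ ≤ ε := by
  classical
  obtain ⟨F, ν, hν0, hνF, hν1, hνK⟩ := hG K (ε ^ 2) (by positivity)
  let P : Set (B ≃⋆ₐ[ℂ] B) := Set.range β
  have hP1 : ∀ q ∈ P, q e = e := by
    rintro _ ⟨g, rfl⟩
    exact hfix g
  have hP2 : ∀ i j, ∀ q ∈ P, ∀ q' ∈ P, q ≠ q' → star (q (s i)) * q' (s j) = 0 := by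
    rintro i j _ ⟨g, rfl⟩ _ ⟨g', rfl⟩ hne
    have h4 : β g' (s j) = β g (β (g⁻¹ * g') (s j)) := by
      rw [← StarAlgEquiv.mul_apply, ← map_mul, mul_inv_cancel_left]
    have h5 : β (g⁻¹ * g') ≠ 1 := by
      intro h
      apply hne
      rw [map_mul, map_inv, inv_mul_eq_one] at h
      exact h
    rw [h4, ← map_star, ← map_mul, h3 i j _ h5, map_zero]
  -- the push forward
  let νf : G →₀ ℝ := Finsupp.onFinset F ν fun g hg => by
    by_contra h
    exact hg (hνF g h)
  have hνf : ∀ g, νf g = ν g := fun g => rfl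
  let μ : (B ≃⋆ₐ[ℂ] B) →₀ ℝ := νf.mapDomain β
  have hmapP : ∀ (f : G →₀ ℝ), ∀ q ∈ (f.mapDomain β).support, q ∈ P := by
    intro f q hq
    have := Finsupp.mapDomain_support hq
    rw [Finset.mem_image] at this
    obtain ⟨g, -, rfl⟩ := this
    exact ⟨g, rfl⟩
  have hmap0 : ∀ (f : G →₀ ℝ), (∀ g, 0 ≤ f g) → ∀ q, 0 ≤ f.mapDomain β q := by
    intro f hf q
    rw [Finsupp.mapDomain, Finsupp.sum_apply, Finsupp.sum]
    refine Finset.sum_nonneg fun g _ => ?_
    rw [Finsupp.single_apply]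
    split_ifs
    · exact hf g
    · exact le_rfl
  let rt : ((B ≃⋆ₐ[ℂ] B) →₀ ℝ) → ((B ≃⋆ₐ[ℂ] B) →₀ ℝ) := fun c =>
    c.mapRange Real.sqrt Real.sqrt_zero
  have hrt : ∀ c q, rt c q = Real.sqrt (c q) := fun c q => rfl
  have hrtP : ∀ c, (∀ q ∈ c.support, q ∈ P) → ∀ q ∈ (rt c).support, q ∈ P := by
    intro c hc q hq
    apply hc q
    rw [Finsupp.mem_support_iff] at hq ⊢
    intro h
    apply hq
    rw [hrt, h, Real.sqrt_zero]
  have hμ0 : ∀ q, 0 ≤ μ q := hmap0 νf hν0
  have hμ1 : ∑ q ∈ (rt μ).support, (rt μ) q ^ 2 = 1 := by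
    have h4 : ∀ q, (rt μ) q ^ 2 = μ q := fun q => by rw [hrt, Real.sq_sqrt (hμ0 q)]
    have h5 : (rt μ).support = μ.support := by
      ext q
      rw [Finsupp.mem_support_iff, Finsupp.mem_support_iff, hrt, Real.sqrt_ne_zero (hμ0 q)]
    rw [h5, Finset.sum_congr rfl fun q _ => h4 q]
    have h6 : μ.sum (fun _ r => r) = νf.sum fun _ r => r :=
      Finsupp.sum_mapDomain_index (fun _ => rfl) (fun _ _ _ => rfl)
    rw [Finsupp.sum, Finsupp.sum] at h6
    rw [h6, ← hν1]
    exact Finset.sum_subset (Finsupp.support_onFinset_subset) fun g _ hg => by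
      rw [Finsupp.notMem_support_iff] at hg
      exact hg
  refine ⟨fun i => comb (s i) (rt μ), ?_, ?_⟩
  · intro i j
    have hPe : ∀ q ∈ P, q (if i = j then e else 0) = if i = j then e else 0 := by
      intro q hq
      split_ifs
      · exact hP1 q hq
      · exact map_zero q
    show star (comb (s i) (rt μ)) * comb (s j) (rt μ) = _
    rw [star_comb_mul2 (s i) (s j) _ (h1 i j) P hPe (hP2 i j) _ (hrtP μ (hmapP νf)), hμ1,
      Complex.ofReal_one, one_smul]
  · intro i k hk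
    show ‖β k (comb (s i) (rt μ)) - comb (s i) (rt μ)‖ ≤ ε
    have h1' : star (s i) * s i = e := by
      rw [h1, if_pos rfl]
    -- the shifted function
    let νk : G →₀ ℝ := νf.mapDomain (fun g => k * g)
    have hνk : ∀ g, νk g = ν (k⁻¹ * g) := by
      intro g
      have h4 := Finsupp.mapDomain_apply (mul_right_injective k) νf (k⁻¹ * g)
      rw [mul_inv_cancel_left] at h4
      exact h4
    let μk : (B ≃⋆ₐ[ℂ] B) →₀ ℝ := νk.mapDomain β
    have hμk0 : ∀ q, 0 ≤ μk q := hmap0 νk fun g => by rw [hνk]; exact hν0 _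
    have hμkβ : μk = μ.mapDomain (fun q => β k * q) := by
      show (νf.mapDomain (fun g => k * g)).mapDomain β = (νf.mapDomain β).mapDomain _
      rw [← Finsupp.mapDomain_comp, ← Finsupp.mapDomain_comp]
      congr 1
      funext g
      exact map_mul β k g
    have hμkq : ∀ q, μk (β k * q) = μ q := by
      intro q
      rw [hμkβ]
      exact Finsupp.mapDomain_apply (mul_right_injective (β k)) μ q
    have hact : β k (comb (s i) (rt μ)) = comb (s i) (rt μk) := by
      have h4 : (rt μk) = (rt μ).mapDomain (fun q => β k * q) := by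
        ext q
        have h5 : q = β k * ((β k)⁻¹ * q) := by rw [mul_inv_cancel_left]
        rw [h5, Finsupp.mapDomain_apply (mul_right_injective (β k)), hrt, hrt, hμkq]
      rw [h4, comb, comb, Finsupp.sum_mapDomain_index
        (fun q => by rw [Complex.ofReal_zero, zero_smul])
        (fun q r r' => by rw [Complex.ofReal_add, add_smul]), Finsupp.sum, map_sum, Finsupp.sum]
      refine Finset.sum_congr rfl fun q _ => ?_
      rw [map_smul, StarAlgEquiv.mul_apply]
    rw [hact, ← comb_sub]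
    have h6 : ∀ q ∈ (rt μk - rt μ).support, q ∈ P := by
      intro q hq
      by_contra hqP
      have h7 : μk q = 0 := by
        by_contra h
        exact hqP (hmapP νk q (Finsupp.mem_support_iff.2 h))
      have h8 : μ q = 0 := by
        by_contra h
        exact hqP (hmapP νf q (Finsupp.mem_support_iff.2 h))
      rw [Finsupp.mem_support_iff, Finsupp.sub_apply, hrt, hrt, h7, h8, sub_self] at hq
      exact hq rfl
    have h7 := norm_comb_sq_le (s i) e h1' he1 P hP1 (hP2 i i) (rt μk - rt μ) h6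
    have h8 : ∑ q ∈ (rt μk - rt μ).support, (rt μk - rt μ) q ^ 2 ≤ ε ^ 2 := by
      calc ∑ q ∈ (rt μk - rt μ).support, (rt μk - rt μ) q ^ 2
          ≤ ∑ q ∈ (rt μk - rt μ).support, |(νk - νf).mapDomain β q| := by
            refine Finset.sum_le_sum fun q _ => ?_
            have h9 : (νk - νf).mapDomain β q = μk q - μ q := by
              have : (νk - νf).mapDomain β = μk - μ := by
                have h10 := (Finsupp.mapDomain.addMonoidHom (M := ℝ) β).map_sub νk νf
                exact h10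
              rw [this, Finsupp.sub_apply]
            rw [h9, Finsupp.sub_apply, hrt, hrt]
            exact sqrt_sub_sq_le (hμk0 q) (hμ0 q)
        _ ≤ ∑ g ∈ (νk - νf).support, |(νk - νf) g| := sum_abs_mapDomain_le _ _ _
        _ = ∑ g ∈ (νk - νf).support, |ν (k⁻¹ * g) - ν g| := by
            refine Finset.sum_congr rfl fun g _ => ?_
            rw [Finsupp.sub_apply, hνk, hνf]
        _ ≤ ε ^ 2 := hνK k hk _
    exact (pow_le_pow_iff_left₀ (norm_nonneg _) hε.le two_ne_zero).1 (h7.trans h8)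

theorem exists_fixed_shift2 {G : Type*} [Group G] [Countable G] {A : Type u} [CStarAlgebra A]
    [SeparableSpace A] {ω : Ultrafilter ℕ} (hω : (ω : Filter ℕ) ≤ cofinite)
    (hG : ReiterAmenable G) (α : G →* (A ≃⋆ₐ[ℂ] A)) (e : centralSeq ω A) (he1 : ‖e‖ ≤ 1)
    (hfix : ∀ g, centralAct ω α g e = e)
    (hs : ∃ s : Fin 2 → centralSeq ω A, (∀ i j, star (s i) * s j = if i = j then e else 0) ∧
      ∀ i j g, centralAct ω α g ≠ 1 → star (s i) * centralAct ω α g (s j) = 0) :
    ∃ S : Fin 2 → centralSeq ω A, (∀ g i, centralAct ω α g (S i) = S i) ∧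
      ∀ i j, star (S i) * S j = if i = j then e else 0 := by
  classical
  obtain ⟨s, hs1, hs3⟩ := hs
  obtain ⟨ye, hye, -⟩ := Ultra.exists_rep (e : Ultra ω A)
  obtain ⟨a, ha⟩ := exists_dense_seq A
  -- the conditions
  let f : (Fin 2 × Fin 2) ⊕ ((Fin 2 × G) ⊕ (Fin 2 × ℕ)) → (n : ℕ) →
      (Fin 2 → {x : A // ‖x‖ ≤ 1}) → ℝ := fun k n x =>
    match k with
    | Sum.inl (i, j) => ‖star (x i : A) * (x j : A) - (if i = j then ye n else 0)‖
    | Sum.inr (Sum.inl (i, g)) => ‖α g (x i : A) - (x i : A)‖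
    | Sum.inr (Sum.inr (i, l)) => ‖a l * (x i : A) - (x i : A) * a l‖
  have hf0 : ∀ k n x, 0 ≤ f k n x := by
    rintro (⟨i, j⟩ | ⟨i, g⟩ | ⟨i, l⟩) n x <;> exact norm_nonneg _
  have hne : Nonempty (Fin 2 → {x : A // ‖x‖ ≤ 1}) := ⟨fun _ => ⟨0, by simp⟩⟩
  have hite : ∀ i j : Fin 2, ((if i = j then e else 0 : centralSeq ω A) : Ultra ω A) =
      Ultra.mk ω (if i = j then ye else 0) := by
    intro i j
    split_ifs
    · exact hye.symm
    · exact (map_zero (Ultra.mk ω)).symm
  have happ : ∀ (i j : Fin 2) (n : ℕ), (if i = j then ye else 0 : ℕ →ᵇ A) n =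
      if i = j then ye n else 0 := by
    intro i j n
    split_ifs <;> rfl
  obtain ⟨x, hx⟩ := @eps_test_countable ((Fin 2 × Fin 2) ⊕ ((Fin 2 × G) ⊕ (Fin 2 × ℕ))) _
    (fun _ => Fin 2 → {x : A // ‖x‖ ≤ 1}) (fun _ => hne) (ω : Filter ℕ) hω f hf0 (by
    intro F ε hε
    let K : Finset G := F.biUnion fun k => match k with
      | Sum.inr (Sum.inl (_, g)) => {g}
      | _ => ∅
    obtain ⟨S, hS1, hS3⟩ := exists_avg_shift2 hG (centralAct ω α) e s hfix he1 hs1 hs3 K
      (ε / 2) (by positivity)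
    have hSn : ∀ i, ‖(S i : Ultra ω A)‖ ≤ 1 := by
      intro i
      have h1 : ‖S i‖ ^ 2 ≤ 1 := by
        rw [pow_two, ← CStarRing.norm_star_mul_self, hS1, if_pos rfl]
        exact he1
      have h2 : ‖S i‖ ≤ 1 := by
        by_contra h
        push Not at h
        nlinarith
      exact h2
    have hrep : ∀ i, ∃ z : ℕ →ᵇ A, Ultra.mk ω z = (S i : Ultra ω A) ∧ ∀ n, ‖z n‖ ≤ 1 := by
      intro i
      obtain ⟨z, hz, hz1⟩ := Ultra.exists_rep (S i : Ultra ω A)
      exact ⟨z, hz, fun n => (hz1 n).trans (hSn i)⟩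
    choose z hz hz1 using hrep
    refine ⟨fun n i => ⟨z i n, hz1 i n⟩, ?_⟩
    rintro (⟨i, j⟩ | ⟨i, g⟩ | ⟨i, l⟩) hk
    · have h1 : Ultra.mk ω (star (z i) * z j) = Ultra.mk ω (if i = j then ye else 0) := by
        rw [map_mul, map_star, hz, hz, ← hite]
        exact congrArg Subtype.val (hS1 i j)
      rw [Ultra.mk_eq_mk_iff] at h1
      refine (h1.eventually (gt_mem_nhds hε)).mono fun n hn => ?_
      rw [happ] at hn
      exact hn
    · have hgK : g ∈ K := by
        simp only [K, Finset.mem_biUnion]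
        exact ⟨_, hk, by simp⟩
      have h1 := hS3 i g hgK
      have h2 : ‖centralAct ω α g (S i) - S i‖ =
          ‖Ultra.mk ω (seqMap (α g : A →⋆ₐ[ℂ] A) (z i) - z i)‖ := by
        rw [map_sub, ← ultraAct_mk, hz, ← coe_centralAct]
        rfl
      rw [h2] at h1
      have h3 := Ultra.tendsto_norm_mk (ω := ω) (seqMap (α g : A →⋆ₐ[ℂ] A) (z i) - z i)
      exact h3.eventually (gt_mem_nhds (h1.trans_lt (by linarith)))
    · have h1 : Ultra.mk ω (z i) ∈ centralSeq ω A := by
        rw [hz]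
        exact (S i).2
      rw [mem_centralSeq_iff] at h1
      have h2 := h1 (a l)
      rw [commute_iff_eq, Ultra.diag_apply, ← map_mul, ← map_mul, Ultra.mk_eq_mk_iff] at h2
      exact h2.eventually (gt_mem_nhds hε))
  let y : Fin 2 → (ℕ →ᵇ A) := fun i =>
    BoundedContinuousFunction.ofNormedAddCommGroup (fun n => (x n i : A))
      continuous_of_discreteTopology 1 (fun n => (x n i).2)
  have hyc : ∀ i, Ultra.mk ω (y i) ∈ centralSeq ω A := fun i =>
    LocFin.mem_centralSeq_of_dense a ha (y i) fun l => hx (Sum.inr (Sum.inr (i, l)))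
  refine ⟨fun i => ⟨Ultra.mk ω (y i), hyc i⟩, fun g i => ?_, fun i j => ?_⟩
  · apply Subtype.ext
    rw [coe_centralAct]
    show ultraAct ω α g (Ultra.mk ω (y i)) = Ultra.mk ω (y i)
    rw [ultraAct_mk, Ultra.mk_eq_mk_iff]
    exact hx (Sum.inr (Sum.inl (i, g)))
  · apply Subtype.ext
    rw [hite]
    show star (Ultra.mk ω (y i)) * Ultra.mk ω (y j) = _
    rw [← map_star, ← map_mul, Ultra.mk_eq_mk_iff]
    refine (hx (Sum.inl (i, j))).congr fun n => ?_
    rw [happ]
    rfl

end Vale.Agent.P095
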