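import Vale.Agent.P095.TDefs

/-!
# P095, target T3, stage 1: the block element `Y` (definitions and easy facts)
-/

open Filter Topology TopologicalSpace
open scoped BoundedContinuousFunction ComplexOrder

namespace Vale.Agent.P095

open Vale.Agent.P101

universe u v w

structure IsProb {ι : Type*} [Fintype ι] (ν : ι → ℝ) : Prop where
  nonneg : ∀ g, 0 ≤ ν g
  sum_eq : ∑ g, ν g = 1

structure IsBlock {K : Type*} [CStarAlgebra K] {ι : Type*} {N : ℕ} (φ : K →ₗ[ℂ] ℂ)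
    (x : Fin N → ι → K) : Prop where
  sa : ∀ i g, IsSelfAdjoint (x i g)
  norm : ∀ i g, ‖x i g‖ ≤ 1
  comm : ∀ i j, i ≠ j → ∀ g h, Commute (x i g) (x j h)
  zero : ∀ i g, ∀ c ∈ Algebra.adjoin ℂ {y | ∃ j h, j ≠ i ∧ y = x j h}, φ (c * x i g) = 0
  one : ∀ i g c, φ (c * (1 - x i g * x i g)) = 0

variable {K : Type*} [CStarAlgebra K] {ι : Type*} [Fintype ι]

/-- `P_{ij} = ∑ g, ν g • x i g * x j g`. -/
noncomputable def bondP {N : ℕ} (ν : ι → ℝ) (x : Fin N → ι → K) (i j : Fin N) : K :=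
  ∑ g, (ν g : ℂ) • (x i g * x j g)

/-- product of the bonds along the path `t 0, t 1, …, t m`. -/
noncomputable def pathW {N m : ℕ} (ν : ι → ℝ) (x : Fin N → ι → K) (t : Fin (m + 1) → Fin N) : K :=
  (List.ofFn fun a : Fin m => bondP ν x (t a.castSucc) (t a.succ)).prod

/-- the block element. -/
noncomputable def chaosY {N : ℕ} (M : ℕ) (p : ℕ → ℝ) (ν : ι → ℝ) (x : Fin N → ι → K) : K :=
  (((√2 : ℝ)⁻¹ : ℝ) : ℂ) • ∑ m ∈ Finset.Icc 1 M, ((p m * ((N : ℝ) ^ m)⁻¹ : ℝ) : ℂ) •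
    ∑ t : Fin (m + 1) ↪ Fin N, pathW ν x t

/-- the Gram matrix `C g h = N⁻¹ ∑ i, x i g * x i h`. -/
noncomputable def gramC {N : ℕ} (x : Fin N → ι → K) : Matrix ι ι K :=
  Matrix.of fun g h => ((N : ℂ)⁻¹) • ∑ i, x i g * x i h

noncomputable def diagD [DecidableEq ι] (K : Type*) [CStarAlgebra K] (ν : ι → ℝ) : Matrix ι ι K :=
  Matrix.diagonal fun g => algebraMap ℂ K (ν g : ℂ)

/-- `Tr ⊗ φ`. -/
noncomputable def trφ (φ : K →ₗ[ℂ] ℂ) (X : Matrix ι ι K) : ℂ := ∑ g, φ (X g g)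

/-! ### Easy facts -/

theorem IsBlock.bondP_comm {φ : K →ₗ[ℂ] ℂ} {N : ℕ} {x : Fin N → ι → K} (hx : IsBlock φ x)
    (ν : ι → ℝ) {i j : Fin N} (hij : i ≠ j) : bondP ν x i j = bondP ν x j i := by
  unfold bondP
  exact Finset.sum_congr rfl fun g _ => by rw [(hx.comm i j hij g g).eq]

theorem IsBlock.star_bondP {φ : K →ₗ[ℂ] ℂ} {N : ℕ} {x : Fin N → ι → K} (hx : IsBlock φ x)
    (ν : ι → ℝ) (i j : Fin N) : star (bondP ν x i j) = bondP ν x j i := by
  unfold bondP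
  rw [star_sum]
  refine Finset.sum_congr rfl fun g _ => ?_
  rw [star_smul, star_mul, (hx.sa i g).star_eq, (hx.sa j g).star_eq]
  congr 1
  exact Complex.conj_ofReal _

theorem pathW_rev {φ : K →ₗ[ℂ] ℂ} {N m : ℕ} {x : Fin N → ι → K} (hx : IsBlock φ x) (ν : ι → ℝ)
    (t : Fin (m + 1) → Fin N) : star (pathW ν x t) = pathW ν x (t ∘ Fin.rev) := by
  unfold pathW
  have hstar : ∀ l : List K, star l.prod = (l.map star).reverse.prod := by
    intro l
    induction l with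
    | nil => simp
    | cons a l ih => simp [star_mul, ih]
  have hrev : ∀ (n : ℕ) (f : Fin n → K), (List.ofFn f).reverse = List.ofFn (f ∘ Fin.rev) := by
    intro n f
    refine List.ext_getElem (by simp) fun i h1 h2 => ?_
    rw [List.getElem_reverse, List.getElem_ofFn, List.getElem_ofFn]
    congr 1
    ext
    simp only [List.length_ofFn, Fin.val_rev]
    omega
  rw [hstar, List.map_ofFn, hrev]
  congr 2
  funext a
  simp only [Function.comp_apply]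
  rw [hx.star_bondP, Fin.rev_castSucc, Fin.rev_succ]

theorem chaosY_selfAdjoint {φ : K →ₗ[ℂ] ℂ} {N : ℕ} (M : ℕ) (p : ℕ → ℝ) (ν : ι → ℝ)
    {x : Fin N → ι → K} (hx : IsBlock φ x) : IsSelfAdjoint (chaosY M p ν x) := by
  unfold chaosY
  rw [isSelfAdjoint_iff, star_smul, star_sum]
  have h1 : star ((((√2 : ℝ)⁻¹ : ℝ) : ℂ)) = (((√2 : ℝ)⁻¹ : ℝ) : ℂ) := Complex.conj_ofReal _
  rw [h1]
  congr 1
  refine Finset.sum_congr rfl fun m _ => ?_
  have h2 : star ((p m * ((N : ℝ) ^ m)⁻¹ : ℝ) : ℂ) = ((p m * ((N : ℝ) ^ m)⁻¹ : ℝ) : ℂ) :=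
    Complex.conj_ofReal _
  rw [star_smul, h2, star_sum]
  congr 1
  let e : (Fin (m + 1) ↪ Fin N) ≃ (Fin (m + 1) ↪ Fin N) :=
    Equiv.embeddingCongr Fin.revPerm (Equiv.refl _)
  refine Fintype.sum_equiv e _ _ fun t => ?_
  rw [pathW_rev hx]
  congr 1

theorem norm_bondP_le {φ : K →ₗ[ℂ] ℂ} {N : ℕ} {x : Fin N → ι → K} (hx : IsBlock φ x)
    {ν : ι → ℝ} (hν : IsProb ν) (i j : Fin N) : ‖bondP ν x i j‖ ≤ 1 := by
  unfold bondP
  refine (norm_sum_le _ _).trans ?_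
  rw [← hν.sum_eq]
  refine Finset.sum_le_sum fun g _ => ?_
  rw [norm_smul, Complex.norm_real, Real.norm_of_nonneg (hν.nonneg g)]
  refine mul_le_of_le_one_right (hν.nonneg g) ?_
  exact (norm_mul_le _ _).trans (mul_le_one₀ (hx.norm i g) (norm_nonneg _) (hx.norm j g))

theorem norm_pathW_le {φ : K →ₗ[ℂ] ℂ} {N m : ℕ} {x : Fin N → ι → K} (hx : IsBlock φ x)
    {ν : ι → ℝ} (hν : IsProb ν) (t : Fin (m + 1) → Fin N) : ‖pathW ν x t‖ ≤ 1 := by
  unfold pathW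
  have h1 : ‖(1 : K)‖ ≤ 1 := by
    rcases subsingleton_or_nontrivial K with h | h
    · rw [Subsingleton.elim (1 : K) 0, norm_zero]; exact zero_le_one
    · rw [norm_one]
  have key : ∀ l : List K, (∀ y ∈ l, ‖y‖ ≤ 1) → ‖l.prod‖ ≤ 1 := by
    intro l
    induction l with
    | nil => intro _; simpa using h1
    | cons a l ih =>
      intro h
      rw [List.prod_cons]
      exact (norm_mul_le _ _).trans (mul_le_one₀ (h a (by simp)) (norm_nonneg _)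
        (ih fun y hy => h y (by simp [hy])))
  refine key _ fun y hy => ?_
  rw [List.mem_ofFn] at hy
  obtain ⟨a, rfl⟩ := hy
  exact norm_bondP_le hx hν _ _

theorem card_emb_le (m N : ℕ) : (Fintype.card (Fin (m + 1) ↪ Fin N) : ℝ) ≤ (N : ℝ) ^ (m + 1) := by
  have h : Fintype.card (Fin (m + 1) ↪ Fin N) ≤ N ^ (m + 1) := by
    calc Fintype.card (Fin (m + 1) ↪ Fin N) ≤ Fintype.card (Fin (m + 1) → Fin N) :=
          Fintype.card_le_of_injective (fun t => (t : Fin (m + 1) → Fin N)) DFunLike.coe_injective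
      _ = N ^ (m + 1) := by simp
  exact_mod_cast h

theorem norm_chaosY_le {φ : K →ₗ[ℂ] ℂ} {N : ℕ} (M : ℕ) (p : ℕ → ℝ) {ν : ι → ℝ} (hν : IsProb ν)
    {x : Fin N → ι → K} (hx : IsBlock φ x) :
    ‖chaosY M p ν x‖ ≤ ∑ m ∈ Finset.Icc 1 M, |p m| * N := by
  unfold chaosY
  have hs : ‖∑ m ∈ Finset.Icc 1 M, ((p m * ((N : ℝ) ^ m)⁻¹ : ℝ) : ℂ) •
      ∑ t : Fin (m + 1) ↪ Fin N, pathW ν x t‖ ≤ ∑ m ∈ Finset.Icc 1 M, |p m| * N := by
    refine (norm_sum_le _ _).trans (Finset.sum_le_sum fun m _ => ?_)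
    have h1 : ‖∑ t : Fin (m + 1) ↪ Fin N, pathW ν x t‖ ≤ (N : ℝ) ^ (m + 1) := by
      refine (norm_sum_le _ _).trans ?_
      refine (Finset.sum_le_sum (fun (t : Fin (m + 1) ↪ Fin N) _ =>
        norm_pathW_le hx hν (t : Fin (m + 1) → Fin N))).trans ?_
      simpa using card_emb_le m N
    have h2 : (0 : ℝ) ≤ ((N : ℝ) ^ m)⁻¹ := inv_nonneg.2 (pow_nonneg (Nat.cast_nonneg N) m)
    rw [norm_smul, Complex.norm_real, Real.norm_eq_abs, abs_mul, abs_of_nonneg h2, mul_assoc]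
    refine mul_le_mul_of_nonneg_left ?_ (abs_nonneg _)
    rcases Nat.eq_zero_or_pos N with hN | hN
    · subst hN
      have h0 : ‖∑ t : Fin (m + 1) ↪ Fin 0, pathW ν x t‖ ≤ 0 := by
        simp
      calc (((0 : ℕ) : ℝ) ^ m)⁻¹ * ‖∑ t : Fin (m + 1) ↪ Fin 0, pathW ν x t‖ ≤
            (((0 : ℕ) : ℝ) ^ m)⁻¹ * 0 :=
            mul_le_mul_of_nonneg_left h0 (inv_nonneg.2 (pow_nonneg (Nat.cast_nonneg 0) m))
        _ ≤ _ := by simp
    · have hN' : (0 : ℝ) < N := by exact_mod_cast hN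
      calc ((N : ℝ) ^ m)⁻¹ * ‖∑ t : Fin (m + 1) ↪ Fin N, pathW ν x t‖ ≤
            ((N : ℝ) ^ m)⁻¹ * (N : ℝ) ^ (m + 1) :=
            mul_le_mul_of_nonneg_left h1 (inv_nonneg.2 (pow_nonneg (Nat.cast_nonneg N) m))
        _ = N := by
            rw [pow_succ]
            field_simp
  rw [norm_smul, Complex.norm_real, Real.norm_of_nonneg (inv_nonneg.2 (Real.sqrt_nonneg 2))]
  have h2 : (√2)⁻¹ ≤ 1 := by
    refine inv_le_one_of_one_le₀ ?_
    rw [Real.one_le_sqrt]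
    norm_num
  calc (√2)⁻¹ * _ ≤ 1 * _ := mul_le_mul_of_nonneg_right h2 (norm_nonneg _)
    _ ≤ _ := by rw [one_mul]; exact hs

theorem bondP_mem {N : ℕ} (ν : ι → ℝ) (x : Fin N → ι → K) (s : Set (Fin N)) {i j : Fin N}
    (hi : i ∈ s) (hj : j ∈ s) :
    bondP ν x i j ∈ Algebra.adjoin ℂ {y | ∃ j h, j ∈ s ∧ y = x j h} := by
  unfold bondP
  refine Subalgebra.sum_mem _ fun g _ => Subalgebra.smul_mem _ (Subalgebra.mul_mem _ ?_ ?_) _
  · exact Algebra.subset_adjoin ⟨i, g, hi, rfl⟩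
  · exact Algebra.subset_adjoin ⟨j, g, hj, rfl⟩

theorem list_prod_mem_adjoin {A : Type*} [Ring A] [Algebra ℂ A] (S : Subalgebra ℂ A) (l : List A)
    (h : ∀ y ∈ l, y ∈ S) : l.prod ∈ S := by
  induction l with
  | nil => simp
  | cons a l ih =>
    rw [List.prod_cons]
    exact S.mul_mem (h a (by simp)) (ih fun y hy => h y (by simp [hy]))

theorem chaosY_mem_adjoin {N : ℕ} (M : ℕ) (p : ℕ → ℝ) (ν : ι → ℝ) (x : Fin N → ι → K) :
    chaosY M p ν x ∈ Algebra.adjoin ℂ {y | ∃ j h, y = x j h} := by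
  unfold chaosY
  refine Subalgebra.smul_mem _ (Subalgebra.sum_mem _ fun m _ => Subalgebra.smul_mem _
    (Subalgebra.sum_mem _ fun t _ => ?_) _) _
  unfold pathW
  refine list_prod_mem_adjoin _ _ fun y hy => ?_
  rw [List.mem_ofFn] at hy
  obtain ⟨a, rfl⟩ := hy
  have h := bondP_mem ν x Set.univ (Set.mem_univ (t a.castSucc)) (Set.mem_univ (t a.succ))
  simpa using h

/-- A path whose first index occurs only once is killed. -/
theorem apply_pathW {ψ : K →ₗ[ℂ] ℂ} {N m : ℕ} (ν : ι → ℝ)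
    {x : Fin N → ι → K} (hcomm : ∀ i j, i ≠ j → ∀ g h, Commute (x i g) (x j h))
    (hzero : ∀ i g, ∀ c ∈ Algebra.adjoin ℂ {y | ∃ j h, j ≠ i ∧ y = x j h}, ψ (c * x i g) = 0)
    (hm : 1 ≤ m) (t : Fin (m + 1) ↪ Fin N) : ψ (pathW ν x t) = 0 := by
  obtain ⟨n, rfl⟩ : ∃ n, m = n + 1 := ⟨m - 1, by omega⟩
  have hinj : ∀ a : Fin (n + 1), t a.succ ≠ t 0 := fun a h =>
    (Fin.succ_ne_zero a) (t.injective h)
  have hrest : ∀ l : List K, (∀ y ∈ l, y ∈ Algebra.adjoin ℂ {y | ∃ j h, j ≠ t 0 ∧ y = x j h}) →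
      l.prod ∈ Algebra.adjoin ℂ {y | ∃ j h, j ≠ t 0 ∧ y = x j h} :=
    fun l hl => list_prod_mem_adjoin _ _ hl
  have hR : (List.ofFn fun a : Fin n => bondP ν x (t a.succ.castSucc) (t a.succ.succ)).prod ∈
      Algebra.adjoin ℂ {y | ∃ j h, j ≠ t 0 ∧ y = x j h} := by
    refine hrest _ fun y hy => ?_
    rw [List.mem_ofFn] at hy
    obtain ⟨a, rfl⟩ := hy
    refine bondP_mem ν x {j | j ≠ t 0} ?_ ?_
    · rw [← Fin.succ_castSucc]
      exact hinj _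
    · exact hinj _
  set R := (List.ofFn fun a : Fin n => bondP ν x (t a.succ.castSucc) (t a.succ.succ)).prod with hRd
  have hprod : pathW ν x t = bondP ν x (t 0) (t 1) * R := by
    unfold pathW
    rw [List.ofFn_succ, List.prod_cons]
    rfl
  have hcommR : ∀ g, ∀ c ∈ Algebra.adjoin ℂ {y | ∃ j h, j ≠ t 0 ∧ y = x j h},
      Commute (x (t 0) g) c := by
    intro g c hc
    induction hc using Algebra.adjoin_induction with
    | mem y hy =>
      obtain ⟨j, h, hj, rfl⟩ := hy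
      exact hcomm _ _ (Ne.symm hj) _ _
    | algebraMap r => exact (Algebra.commutes r _).symm
    | add a b _ _ ha hb => exact ha.add_right hb
    | mul a b _ _ ha hb => exact ha.mul_right hb
  rw [hprod]
  unfold bondP
  rw [Finset.sum_mul, map_sum]
  refine Finset.sum_eq_zero fun g _ => ?_
  rw [smul_mul_assoc, map_smul]
  have h1 : x (t 1) g * R ∈ Algebra.adjoin ℂ {y | ∃ j h, j ≠ t 0 ∧ y = x j h} :=
    Subalgebra.mul_mem _ (Algebra.subset_adjoin ⟨t 1, g, hinj 0, rfl⟩) hR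
  rw [mul_assoc, (hcommR g _ h1).eq, hzero _ _ _ h1, smul_zero]

/-- `ψ` is any linear functional (not necessarily positive). -/
theorem apply_chaosY {ψ : K →ₗ[ℂ] ℂ} {N : ℕ} (M : ℕ) (p : ℕ → ℝ) (ν : ι → ℝ)
    {x : Fin N → ι → K} (hcomm : ∀ i j, i ≠ j → ∀ g h, Commute (x i g) (x j h))
    (hzero : ∀ i g, ∀ c ∈ Algebra.adjoin ℂ {y | ∃ j h, j ≠ i ∧ y = x j h}, ψ (c * x i g) = 0) :
    ψ (chaosY M p ν x) = 0 := by
  unfold chaosY
  rw [map_smul, map_sum]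
  rw [Finset.sum_eq_zero, smul_zero]
  intro m hm
  rw [map_smul, map_sum, Finset.sum_eq_zero, smul_zero]
  intro t _
  exact apply_pathW ν hcomm hzero (Finset.mem_Icc.1 hm).1 t

end Vale.Agent.P095
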