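import Vale.Agent.P095.Diffusion0
import Vale.Agent.P095.SeedSeq
import Vale.Agent.P095.BlockDefs

/-!
# P095: naturality of the block element, the block lemma with a weight, future algebras
-/

open Filter Topology TopologicalSpace
open scoped BoundedContinuousFunction ComplexOrder

namespace Vale.Agent.P095

open Vale.Agent.P101

universe u v w

section Natural

variable {K : Type*} {L : Type*} [CStarAlgebra K] [CStarAlgebra L] {ι : Type*} [Fintype ι] {N : ℕ}

theorem map_bondP (f : K →⋆ₐ[ℂ] L) (ν : ι → ℝ) (x : Fin N → ι → K) (i j : Fin N) :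
    f (bondP ν x i j) = bondP ν (fun i g => f (x i g)) i j := by
  rw [bondP, bondP, map_sum]
  exact Finset.sum_congr rfl fun g _ => by rw [map_smul, map_mul]

theorem map_pathW (f : K →⋆ₐ[ℂ] L) {m : ℕ} (ν : ι → ℝ) (x : Fin N → ι → K)
    (t : Fin (m + 1) → Fin N) : f (pathW ν x t) = pathW ν (fun i g => f (x i g)) t := by
  rw [pathW, pathW, map_list_prod, List.map_ofFn]
  congr 2
  funext a
  exact map_bondP f ν x _ _

theorem map_chaosY (f : K →⋆ₐ[ℂ] L) (M : ℕ) (p : ℕ → ℝ) (ν : ι → ℝ) (x : Fin N → ι → K) :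
    f (chaosY M p ν x) = chaosY M p ν (fun i g => f (x i g)) := by
  rw [chaosY, chaosY, map_smul, map_sum]
  congr 1
  refine Finset.sum_congr rfl fun m _ => ?_
  rw [map_smul, map_sum]
  congr 1
  exact Finset.sum_congr rfl fun t _ => map_pathW f ν x t

end Natural

section Congr

variable {K : Type*} [CStarAlgebra K] {ι : Type*} [Fintype ι] {N : ℕ}

theorem chaosY_congr {M : ℕ} {p : ℕ → ℝ} {ν ν' : ι → ℝ} {x x' : Fin N → ι → K}
    (h : ∀ i j, bondP ν x i j = bondP ν' x' i j) : chaosY M p ν x = chaosY M p ν' x' := by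
  rw [chaosY, chaosY]
  congr 1
  refine Finset.sum_congr rfl fun m _ => ?_
  congr 1
  refine Finset.sum_congr rfl fun t _ => ?_
  rw [pathW, pathW]
  congr 2
  funext a
  exact h _ _

end Congr

section Cent

variable {B : Type u} [CStarAlgebra B]

/-- the commutant of `{w, w⋆}` -/
noncomputable def cent (w : B) : StarSubalgebra ℂ B := StarSubalgebra.centralizer ℂ {w}

theorem mem_cent {w z : B} : z ∈ cent w ↔ Commute w z ∧ Commute (star w) z := by
  rw [cent, StarSubalgebra.mem_centralizer_iff]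
  constructor
  · intro h
    exact ⟨(h w rfl).1, (h w rfl).2⟩
  · rintro ⟨h1, h2⟩ g rfl
    exact ⟨h1, h2⟩

instance isClosed_cent (w : B) : IsClosed (cent w : Set B) := by
  have : (cent w : Set B) = {z | w * z = z * w} ∩ {z | star w * z = z * star w} := by
    ext z
    exact mem_cent
  rw [this]
  exact (isClosed_eq (continuous_const.mul continuous_id) (continuous_id.mul continuous_const)).inter
    (isClosed_eq (continuous_const.mul continuous_id) (continuous_id.mul continuous_const))

/-- `z ↦ τ (w⋆ w z)` on the commutant of `w` -/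
noncomputable def wfun (τ : B →ₗ[ℂ] ℂ) (w : B) : cent w →ₗ[ℂ] ℂ :=
  τ ∘ₗ LinearMap.mulLeft ℂ (star w * w) ∘ₗ (cent w).subtype.toAlgHom.toLinearMap

theorem wfun_apply (τ : B →ₗ[ℂ] ℂ) (w : B) (z : cent w) : wfun τ w z = τ (star w * w * z) := rfl

theorem isPosTrace_wfun {τ : B →ₗ[ℂ] ℂ} (hτ : IsTrace τ) (w : B) : IsPosTrace (wfun τ w) := by
  constructor
  · intro x
    obtain ⟨h1, h2⟩ := mem_cent.1 x.2
    obtain ⟨h3, h4⟩ := mem_cent.1 (star x).2
    rw [wfun_apply]
    have e : star w * w * ((star x * x : cent w) : B) = star (w * (x : B)) * (w * x) := by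
      change Commute w (star (x : B)) at h3
      change Commute (star w) (star (x : B)) at h4
      show star w * w * (star (x : B) * x) = _
      rw [star_mul]
      calc star w * w * (star (x : B) * x) = star w * (w * star (x : B)) * x := by noncomm_ring
        _ = star w * (star (x : B) * w) * x := by rw [h3.eq]
        _ = (star w * star (x : B)) * w * x := by noncomm_ring
        _ = (star (x : B) * star w) * w * x := by rw [h4.eq]
        _ = star (x : B) * star w * (w * x) := by noncomm_ring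
    rw [e]
    exact hτ.nonneg _
  · intro x y
    obtain ⟨h1, h2⟩ := mem_cent.1 y.2
    rw [wfun_apply, wfun_apply]
    show τ (star w * w * ((x : B) * y)) = τ (star w * w * ((y : B) * x))
    have e1 : star w * w * ((x : B) * y) = (star w * w * x) * y := by noncomm_ring
    have e2 : star w * w * ((y : B) * x) = (y : B) * (star w * w * x) := by
      calc star w * w * ((y : B) * x) = star w * (w * y) * x := by noncomm_ring
        _ = star w * (y * w) * x := by rw [h1.eq]
        _ = (star w * y) * w * x := by noncomm_ring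
        _ = (y * star w) * w * x := by rw [h2.eq]
        _ = y * (star w * w * x) := by noncomm_ring
    rw [e1, e2, hτ.trace]

/-- the conclusion of `block_main` for one algebra -/
def BlockProp (ι : Type) [Fintype ι] (κ : ℝ) (N M : ℕ) (p : ℕ → ℝ) : Prop :=
  ∀ (K : Type u) [CStarAlgebra K] (φ : K →ₗ[ℂ] ℂ)
      (_ : IsPosTrace φ) (x : Fin N → ι → K) (_ : IsBlock φ x) (ν ν' : ι → ℝ) (_ : IsProb ν)
      (_ : IsProb ν'),
      |(φ (chaosY M p ν x * chaosY M p ν x)).re - (φ 1).re| ≤ κ * (φ 1).re ∧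
      (φ ((chaosY M p ν' x - chaosY M p ν x) * (chaosY M p ν' x - chaosY M p ν x))).re ≤
        (4 * ∑ g, |ν' g - ν g| + κ) * (φ 1).re

/-- hypotheses making `x` a block for `τ (w⋆ w ·)` -/
structure WBlock {ι : Type} [Fintype ι] {N : ℕ} (τ : B →ₗ[ℂ] ℂ) (w : B) (x : Fin N → ι → B) :
    Prop where
  sa : ∀ i g, IsSelfAdjoint (x i g)
  norm : ∀ i g, ‖x i g‖ ≤ 1
  comm : ∀ i j, i ≠ j → ∀ g h, Commute (x i g) (x j h)
  cw : ∀ i g, Commute w (x i g)
  zero : ∀ i g, ∀ c ∈ Algebra.adjoin ℂ {y | ∃ j h, j ≠ i ∧ y = x j h},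
    τ (star w * w * (c * x i g)) = 0
  one : ∀ i g c, τ (c * (1 - x i g * x i g)) = 0

theorem sq_mul_eq {τ : B →ₗ[ℂ] ℂ} {w y : B} (hy : IsSelfAdjoint y) (h : Commute w y) :
    sq τ (w * y) = (τ (star w * w * (y * y))).re := by
  have h2 : Commute (star w) y := by
    have := h.star_star
    rwa [hy.star_eq] at this
  have e : star (w * y) * (w * y) = star w * w * (y * y) := by
    rw [star_mul, hy.star_eq]
    calc y * star w * (w * y) = (y * star w) * w * y := by noncomm_ring
      _ = (star w * y) * w * y := by rw [h2.eq]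
      _ = star w * (y * w) * y := by noncomm_ring
      _ = star w * (w * y) * y := by rw [h.eq]
      _ = star w * w * (y * y) := by noncomm_ring
  rw [sq, e]

theorem WBlock.estimate {ι : Type} [Fintype ι] {κ : ℝ} {N M : ℕ} {p : ℕ → ℝ}
    (H : BlockProp.{u} ι κ N M p) {τ : B →ₗ[ℂ] ℂ} (hτ : IsTrace τ) {w : B}
    {x : Fin N → ι → B} (hx : WBlock τ w x) {ν ν' : ι → ℝ} (hν : IsProb ν) (hν' : IsProb ν') :
    |sq τ (w * chaosY M p ν x) - sq τ w| ≤ κ * sq τ w ∧
    sq τ (w * (chaosY M p ν' x - chaosY M p ν x)) ≤ (4 * ∑ g, |ν' g - ν g| + κ) * sq τ w := by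
  have hmem : ∀ i g, x i g ∈ cent w := by
    intro i g
    refine mem_cent.2 ⟨hx.cw i g, ?_⟩
    have := (hx.cw i g).star_star
    rwa [(hx.sa i g).star_eq] at this
  let X : Fin N → ι → cent w := fun i g => ⟨x i g, hmem i g⟩
  have hX : IsBlock (wfun τ w) X := by
    refine ⟨?_, ?_, ?_, ?_, ?_⟩
    · intro i g
      exact Subtype.ext (hx.sa i g)
    · intro i g
      exact hx.norm i g
    · intro i j hij g h
      exact Subtype.ext (hx.comm i j hij g h)
    · intro i g c hc
      rw [wfun_apply]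
      refine hx.zero i g c ?_
      have h1 : Algebra.adjoin ℂ {y : cent w | ∃ j h, j ≠ i ∧ y = X j h} ≤
          (Algebra.adjoin ℂ {y : B | ∃ j h, j ≠ i ∧ y = x j h}).comap
            (cent w).subtype.toAlgHom := by
        rw [Algebra.adjoin_le_iff]
        rintro _ ⟨j, h, hj, rfl⟩
        exact Algebra.subset_adjoin ⟨j, h, hj, rfl⟩
      exact h1 hc
    · intro i g c
      rw [wfun_apply]
      show τ (star w * w * ((c : B) * (1 - x i g * x i g))) = 0
      rw [← mul_assoc]
      exact hx.one i g _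
  obtain ⟨h1, h2⟩ := H (cent w) (wfun τ w) (isPosTrace_wfun hτ w) X hX ν ν' hν hν'
  have e1 : ∀ ν : ι → ℝ, ((chaosY M p ν X : cent w) : B) = chaosY M p ν x := by
    intro ν
    exact map_chaosY (cent w).subtype M p ν X
  have e2 : (wfun τ w 1).re = sq τ w := by
    rw [wfun_apply]
    show (τ (star w * w * 1)).re = _
    rw [mul_one, sq]
  have hsa : ∀ ν : ι → ℝ, IsSelfAdjoint (chaosY M p ν x) := by
    intro ν
    refine chaosY_selfAdjoint (φ := (0 : B →ₗ[ℂ] ℂ)) M p ν ?_
    exact ⟨hx.sa, hx.norm, hx.comm, fun _ _ _ _ => rfl, fun _ _ _ => rfl⟩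
  have hcw : ∀ ν : ι → ℝ, Commute w (chaosY M p ν x) := by
    intro ν
    have := (chaosY M p ν X).2
    rw [e1 ν] at this
    exact (mem_cent.1 this).1
  rw [e2] at h1 h2
  constructor
  · rw [sq_mul_eq (hsa ν) (hcw ν)]
    rw [wfun_apply] at h1
    rw [← e1 ν]
    exact h1
  · rw [sq_mul_eq ((hsa ν').sub (hsa ν)) ((hcw ν').sub_right (hcw ν))]
    rw [wfun_apply] at h2
    rw [← e1 ν, ← e1 ν']
    exact h2

end Cent

end Vale.Agent.P095
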