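import Vale.Agent.P095.MatEstAbs
import Vale.Agent.P095.BlockDefs
import Mathlib.Analysis.CStarAlgebra.CStarMatrix

/-!
# P095, row B2b: the matrix estimate
-/

open Filter Topology TopologicalSpace
open scoped BoundedContinuousFunction ComplexOrder

namespace Vale.Agent.P095

open Vale.Agent.P101

universe u v w

variable {K : Type*} [CStarAlgebra K] {ι : Type*} [Fintype ι]

noncomputable def quadQ [DecidableEq ι] (φ : K →ₗ[ℂ] ℂ) {N : ℕ} (M : ℕ) (p : ℕ → ℝ)
    (x : Fin N → ι → K) (ν ν' : ι → ℝ) : ℝ :=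
  (∑ m ∈ Finset.Icc 1 M, ∑ m' ∈ Finset.Icc 1 M, ((p m * p m' : ℝ) : ℂ) *
    trφ φ ((gramC x * diagD K ν) ^ m * (gramC x * diagD K ν') ^ m')).re

namespace MatEst

set_option linter.unusedSectionVars false

section

variable [PartialOrder K] [StarOrderedRing K] [DecidableEq ι]

/-- `Tr ⊗ φ` on the C⋆-matrices. -/
noncomputable def matΦ (φ : K →ₗ[ℂ] ℂ) : CStarMatrix ι ι K →ₗ[ℂ] ℂ where
  toFun X := ∑ g, φ (X g g)
  map_add' X Y := by
    simp only [CStarMatrix.add_apply, map_add, Finset.sum_add_distrib]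
  map_smul' c X := by
    simp only [CStarMatrix.smul_apply, map_smul, RingHom.id_apply, smul_eq_mul, Finset.mul_sum]

theorem matΦ_apply (φ : K →ₗ[ℂ] ℂ) (X : CStarMatrix ι ι K) : matΦ φ X = ∑ g, φ (X g g) := rfl

theorem matΦ_pos {φ : K →ₗ[ℂ] ℂ} (hφ : IsPosTrace φ) : IsPosTrace (matΦ (ι := ι) φ) where
  nonneg X := by
    rw [matΦ_apply]
    refine Finset.sum_nonneg fun g _ => ?_
    rw [CStarMatrix.mul_apply, map_sum]
    refine Finset.sum_nonneg fun h _ => ?_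
    rw [CStarMatrix.star_apply]
    exact hφ.nonneg _
  trace X Y := by
    rw [matΦ_apply, matΦ_apply]
    simp only [CStarMatrix.mul_apply, map_sum]
    rw [Finset.sum_comm]
    exact Finset.sum_congr rfl fun g _ => Finset.sum_congr rfl fun h _ => hφ.trace _ _

theorem matΦ_one (φ : K →ₗ[ℂ] ℂ) : matΦ (ι := ι) φ 1 = (Fintype.card ι : ℂ) * φ 1 := by
  rw [matΦ_apply]
  simp [CStarMatrix.one_apply_eq, Finset.card_univ]

/-- the diagonal matrix -/
noncomputable def Dm (K : Type*) [CStarAlgebra K] (ν : ι → ℝ) : CStarMatrix ι ι K :=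
  CStarMatrix.ofMatrix (diagD K ν)

theorem Dm_apply (ν : ι → ℝ) (g h : ι) :
    Dm K ν g h = if g = h then algebraMap ℂ K (ν g : ℂ) else 0 := by
  unfold Dm diagD
  rw [CStarMatrix.ofMatrix_apply, Matrix.diagonal_apply]

theorem diag_nonneg {d : ι → K} (hd : ∀ g, 0 ≤ d g) :
    0 ≤ (CStarMatrix.ofMatrix (Matrix.diagonal d) : CStarMatrix ι ι K) := by
  choose y hy using fun g => exists_star_mul_self (hd g)
  have : (CStarMatrix.ofMatrix (Matrix.diagonal d) : CStarMatrix ι ι K)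
      = star (CStarMatrix.ofMatrix (Matrix.diagonal y) : CStarMatrix ι ι K)
        * CStarMatrix.ofMatrix (Matrix.diagonal y) := by
    ext g h
    rw [CStarMatrix.mul_apply, CStarMatrix.ofMatrix_apply, Matrix.diagonal_apply]
    simp only [CStarMatrix.star_apply, CStarMatrix.ofMatrix_apply, Matrix.diagonal_apply]
    rw [Finset.sum_eq_single g]
    · by_cases h1 : g = h
      · subst h1; simp [hy g]
      · simp [h1]
    · intro k _ hk
      simp [hk]
    · simp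
  rw [this]
  exact star_mul_self_nonneg _

theorem algebraMap_real_nonneg {r : ℝ} (hr : 0 ≤ r) : 0 ≤ algebraMap ℂ K (r : ℂ) := by
  have : algebraMap ℂ K (r : ℂ) = r • (1 : K) := by
    rw [Algebra.algebraMap_eq_smul_one, Complex.coe_smul]
  rw [this]
  exact smul_nonneg hr zero_le_one

theorem Dm_nonneg {ν : ι → ℝ} (hν : ∀ g, 0 ≤ ν g) : 0 ≤ Dm K ν := by
  unfold Dm diagD
  exact diag_nonneg fun g => algebraMap_real_nonneg (hν g)

theorem Dm_sub (ν ν' : ι → ℝ) : Dm K ν - Dm K ν' = Dm K (fun g => ν g - ν' g) := by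
  ext g h
  rw [CStarMatrix.sub_apply, Dm_apply, Dm_apply, Dm_apply]
  by_cases h1 : g = h
  · simp [h1]
  · simp [h1]

theorem Dm_mul (ν ν' : ι → ℝ) : Dm K ν * Dm K ν' = Dm K (fun g => ν g * ν' g) := by
  ext g h
  rw [CStarMatrix.mul_apply]
  simp only [Dm_apply]
  rw [Finset.sum_eq_single g]
  · by_cases h1 : g = h
    · simp [h1]
    · simp [h1]
  · intro k _ hk
    simp [hk.symm]
  · simp

theorem Dm_sa (ν : ι → ℝ) : IsSelfAdjoint (Dm K ν) := by
  rw [IsSelfAdjoint]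
  ext g h
  rw [CStarMatrix.star_apply, Dm_apply, Dm_apply]
  by_cases h1 : g = h
  · subst h1
    simp only [if_true]
    rw [← algebraMap_star_comm]
    simp
  · simp [h1, Ne.symm h1]

/-- the Gram matrix -/
noncomputable def Cm {N : ℕ} (x : Fin N → ι → K) : CStarMatrix ι ι K :=
  CStarMatrix.ofMatrix (gramC x)

/-- one column -/
noncomputable def Vm {N : ℕ} (x : Fin N → ι → K) (g₀ : ι) (i : Fin N) : CStarMatrix ι ι K :=
  CStarMatrix.ofMatrix (Matrix.of fun g k => if k = g₀ then x i g else 0)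

theorem Vm_mul_star {φ : K →ₗ[ℂ] ℂ} {N : ℕ} {x : Fin N → ι → K} (hx : IsBlock φ x) (g₀ : ι)
    (i : Fin N) (g h : ι) : (Vm x g₀ i * star (Vm x g₀ i)) g h = x i g * x i h := by
  rw [CStarMatrix.mul_apply, Finset.sum_eq_single g₀]
  · rw [CStarMatrix.star_apply]
    simp only [Vm, CStarMatrix.ofMatrix_apply, Matrix.of_apply, if_true]
    rw [(hx.sa i h).star_eq]
  · intro k _ hk
    rw [CStarMatrix.star_apply]
    simp only [Vm, CStarMatrix.ofMatrix_apply, Matrix.of_apply, if_neg hk, star_zero, mul_zero]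
  · simp

theorem Cm_eq {φ : K →ₗ[ℂ] ℂ} {N : ℕ} {x : Fin N → ι → K} (hx : IsBlock φ x) (g₀ : ι) :
    Cm x = ((N : ℝ)⁻¹) • ∑ i, Vm x g₀ i * star (Vm x g₀ i) := by
  have key : ∀ (s : Finset (Fin N)) (g h : ι),
      (∑ i ∈ s, Vm x g₀ i * star (Vm x g₀ i)) g h = ∑ i ∈ s, x i g * x i h := by
    intro s g h
    classical
    induction s using Finset.induction_on with
    | empty => simp
    | insert a t ha ih =>
      rw [Finset.sum_insert ha, Finset.sum_insert ha, CStarMatrix.add_apply, ih,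
        Vm_mul_star hx]
  ext g h
  rw [CStarMatrix.smul_apply, key]
  unfold Cm gramC
  rw [CStarMatrix.ofMatrix_apply, Matrix.of_apply, ← Complex.coe_smul]
  simp

theorem Cm_nonneg {φ : K →ₗ[ℂ] ℂ} {N : ℕ} {x : Fin N → ι → K} (hx : IsBlock φ x) (g₀ : ι) :
    0 ≤ Cm x := by
  rw [Cm_eq hx g₀]
  exact smul_nonneg (by positivity) (Finset.sum_nonneg fun i _ => mul_star_self_nonneg _)

theorem Dm_mul_apply (ν : ι → ℝ) (X : CStarMatrix ι ι K) (g h : ι) :
    (Dm K ν * X) g h = (ν g : ℂ) • X g h := by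
  rw [CStarMatrix.mul_apply, Finset.sum_eq_single g]
  · rw [Dm_apply, if_pos rfl, Algebra.smul_def]
  · intro k _ hk
    rw [Dm_apply, if_neg hk.symm, zero_mul]
  · simp

theorem sq_le_one_of {y : K} (hy : IsSelfAdjoint y) (hn : ‖y‖ ≤ 1) : y * y ≤ 1 := by
  have h0 : 0 ≤ y * y := by
    have := star_mul_self_nonneg y
    rwa [hy.star_eq] at this
  refine (CStarAlgebra.norm_le_one_iff_of_nonneg _ h0).mp ?_
  calc ‖y * y‖ ≤ ‖y‖ * ‖y‖ := norm_mul_le _ _
    _ ≤ 1 * 1 := mul_le_mul hn hn (norm_nonneg _) zero_le_one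
    _ = 1 := one_mul 1

theorem norm_DmV_le {φ : K →ₗ[ℂ] ℂ} {N : ℕ} {x : Fin N → ι → K} (hx : IsBlock φ x) (g₀ : ι)
    (i : Fin N) {ν : ι → ℝ} (hν : IsProb ν) :
    ‖Dm K (fun g => √(ν g)) * Vm x g₀ i‖ ≤ 1 := by
  set W := Dm K (fun g => √(ν g)) * Vm x g₀ i with hW
  have hWa : ∀ g k, W g k = if k = g₀ then ((√(ν g) : ℝ) : ℂ) • x i g else 0 := by
    intro g k
    rw [hW, Dm_mul_apply]
    unfold Vm
    rw [CStarMatrix.ofMatrix_apply, Matrix.of_apply]
    split_ifs <;> simp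
  have hdiag : 1 - star W * W = CStarMatrix.ofMatrix (Matrix.diagonal fun k =>
      if k = g₀ then 1 - ∑ g, (ν g : ℂ) • (x i g * x i g) else 1) := by
    ext h k
    rw [CStarMatrix.sub_apply, CStarMatrix.mul_apply, CStarMatrix.ofMatrix_apply,
      Matrix.diagonal_apply]
    simp only [CStarMatrix.star_apply, hWa]
    by_cases hk : k = g₀
    · by_cases hh : h = g₀
      · subst hk
        subst hh
        simp only [if_true]
        rw [CStarMatrix.one_apply_eq]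
        congr 1
        refine Finset.sum_congr rfl fun g _ => ?_
        rw [star_smul, (hx.sa i g).star_eq, smul_mul_smul_comm]
        congr 1
        have : ((√(ν g) : ℝ) : ℂ) * ((√(ν g) : ℝ) : ℂ) = (ν g : ℂ) := by
          rw [← Complex.ofReal_mul, Real.mul_self_sqrt (hν.nonneg g)]
        rw [← this]
        simp
      · have hne : h ≠ k := fun e => hh (e.trans hk)
        rw [if_neg hne, CStarMatrix.one_apply_ne hne]
        simp [hh]
    · by_cases hh : h = k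
      · subst hh
        simp only [if_neg hk, if_true]
        rw [CStarMatrix.one_apply_eq]
        simp
      · rw [if_neg hh, CStarMatrix.one_apply_ne hh]
        simp [hk]
  have hle : star W * W ≤ 1 := by
    rw [← sub_nonneg, hdiag]
    refine diag_nonneg fun k => ?_
    split_ifs
    · rw [sub_nonneg]
      have e1 : ∀ g, (ν g : ℂ) • (x i g * x i g) = ν g • (x i g * x i g) := fun g => by
        rw [Complex.coe_smul]
      simp only [e1]
      calc ∑ g, ν g • (x i g * x i g) ≤ ∑ g, ν g • (1 : K) :=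
            Finset.sum_le_sum fun g _ =>
              smul_le_smul_of_nonneg_left (sq_le_one_of (hx.sa i g) (hx.norm i g)) (hν.nonneg g)
        _ = 1 := by rw [← Finset.sum_smul, hν.sum_eq, one_smul]
    · exact zero_le_one
  have h1 : ‖star W * W‖ ≤ 1 :=
    (CStarAlgebra.norm_le_one_iff_of_nonneg _ (star_mul_self_nonneg W)).mpr hle
  rw [CStarRing.norm_star_mul_self] at h1
  nlinarith [norm_nonneg W]

theorem Cm_eq' {φ : K →ₗ[ℂ] ℂ} {N : ℕ} {x : Fin N → ι → K} (hx : IsBlock φ x) (g₀ : ι) :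
    Cm x = ((N : ℂ)⁻¹) • ∑ i, Vm x g₀ i * star (Vm x g₀ i) := by
  rw [Cm_eq hx g₀]
  ext g h
  rw [CStarMatrix.smul_apply, CStarMatrix.smul_apply, ← Complex.coe_smul]
  simp

theorem norm_DCD_le {φ : K →ₗ[ℂ] ℂ} {N : ℕ} {x : Fin N → ι → K} (hx : IsBlock φ x)
    (g₀ : ι) {ν : ι → ℝ} (hν : IsProb ν) :
    ‖Dm K (fun g => √(ν g)) * Cm x * Dm K (fun g => √(ν g))‖ ≤ 1 := by
  set E := Dm K (fun g => √(ν g)) with hE
  have hEs : star E = E := (Dm_sa _).star_eq
  have e : E * Cm x * E = ((N : ℂ)⁻¹) • ∑ i, (E * Vm x g₀ i) * star (E * Vm x g₀ i) := by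
    rw [Cm_eq' hx g₀, mul_smul_comm, smul_mul_assoc, Finset.mul_sum, Finset.sum_mul]
    congr 1
    refine Finset.sum_congr rfl fun i _ => ?_
    rw [star_mul, hEs]
    simp only [mul_assoc]
  rw [e]
  have h1 : ∀ i : Fin N, ‖(E * Vm x g₀ i) * star (E * Vm x g₀ i)‖ ≤ 1 := by
    intro i
    rw [CStarRing.norm_self_mul_star]
    have := norm_DmV_le hx g₀ i hν
    exact mul_le_one₀ this (norm_nonneg _) this
  calc ‖((N : ℂ)⁻¹) • ∑ i, (E * Vm x g₀ i) * star (E * Vm x g₀ i)‖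
      ≤ ‖((N : ℂ)⁻¹)‖ * ‖∑ i, (E * Vm x g₀ i) * star (E * Vm x g₀ i)‖ := norm_smul_le _ _
    _ ≤ (N : ℝ)⁻¹ * ∑ i : Fin N, (1 : ℝ) := by
        have : ‖((N : ℂ)⁻¹)‖ = (N : ℝ)⁻¹ := by simp
        rw [this]
        refine mul_le_mul_of_nonneg_left ?_ (by positivity)
        exact (norm_sum_le _ _).trans (Finset.sum_le_sum fun i _ => h1 i)
    _ ≤ 1 := by
        rw [Finset.sum_const, Finset.card_univ, Fintype.card_fin, nsmul_eq_mul, mul_one]
        exact inv_mul_le_one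

theorem matΦ_CD {φ : K →ₗ[ℂ] ℂ} {N : ℕ} (hN : 1 ≤ N) {x : Fin N → ι → K} (hx : IsBlock φ x)
    (ν : ι → ℝ) : matΦ φ (Cm x * Dm K ν) = (∑ g, (ν g : ℂ)) * φ 1 := by
  rw [matΦ_apply, Finset.sum_mul]
  refine Finset.sum_congr rfl fun g _ => ?_
  have h1 : (Cm x * Dm K ν) g g = (ν g : ℂ) • (((N : ℂ)⁻¹) • ∑ i, x i g * x i g) := by
    rw [CStarMatrix.mul_apply, Finset.sum_eq_single g]
    · rw [Dm_apply, if_pos rfl]
      unfold Cm gramC
      rw [CStarMatrix.ofMatrix_apply, Matrix.of_apply, ← Algebra.commutes,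
        ← Algebra.smul_def (ν g : ℂ)]
    · intro k _ hk
      rw [Dm_apply, if_neg hk, mul_zero]
    · simp
  have h2 : ∀ i, φ (x i g * x i g) = φ 1 := by
    intro i
    have := hx.one i g 1
    rw [one_mul, map_sub, sub_eq_zero] at this
    exact this.symm
  rw [h1, map_smul, map_smul, map_sum]
  simp only [h2, Finset.sum_const, Finset.card_univ, Fintype.card_fin, nsmul_eq_mul, smul_eq_mul]
  have : (N : ℂ) ≠ 0 := by
    have : N ≠ 0 := by omega
    exact_mod_cast this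
  field_simp

theorem quadQ_eq (φ : K →ₗ[ℂ] ℂ) {N : ℕ} (M : ℕ) (p : ℕ → ℝ) (x : Fin N → ι → K)
    (ν ν' : ι → ℝ) :
    quadQ φ M p x ν ν' = qd (matΦ φ) M p (Cm x) (Dm K ν) (Dm K ν') := by
  unfold quadQ qd
  congr 1

end

end MatEst

theorem quadQ_estimate (φ : K →ₗ[ℂ] ℂ) (hφ : IsPosTrace φ) [DecidableEq ι] {N : ℕ} (hN : 1 ≤ N)
    (M : ℕ) (p : ℕ → ℝ) (η : ℝ) (hη : 0 < η) (hη1 : η ≤ 1)
    (hp : ∀ t ∈ Set.Icc (0 : ℝ) 1, |∑ m ∈ Finset.Icc 1 M, p m * t ^ m - √t| ≤ η)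
    (x : Fin N → ι → K) (hx : IsBlock φ x) (ν ν' : ι → ℝ) (hν : IsProb ν) (hν' : IsProb ν') :
    |quadQ φ M p x ν ν - (φ 1).re| ≤ 3 * η * Fintype.card ι * (φ 1).re ∧
    quadQ φ M p x ν ν - quadQ φ M p x ν ν' - quadQ φ M p x ν' ν + quadQ φ M p x ν' ν' ≤
      (4 * ∑ g, |ν' g - ν g| + 8 * η ^ 2 * Fintype.card ι) * (φ 1).re := by
  let _ := CStarAlgebra.spectralOrder K
  have _ := CStarAlgebra.spectralOrderedRing K
  obtain ⟨g₀⟩ : Nonempty ι := by
    by_contra h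
    rw [not_nonempty_iff] at h
    have := hν.sum_eq
    simp at this
  have hmin : ∀ g, 0 ≤ min (ν g) (ν' g) := fun g => le_min (hν.nonneg g) (hν'.nonneg g)
  have mono : ∀ {d d' : ι → ℝ}, (∀ g, d g ≤ d' g) → MatEst.Dm K d ≤ MatEst.Dm K d' := by
    intro d d' h
    rw [← sub_nonneg, MatEst.Dm_sub]
    exact MatEst.Dm_nonneg fun g => sub_nonneg.mpr (h g)
  have hsq : ∀ {d : ι → ℝ}, (∀ g, 0 ≤ d g) →
      MatEst.Dm K (fun g => √(d g)) * MatEst.Dm K (fun g => √(d g)) = MatEst.Dm K d := by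
    intro d h
    rw [MatEst.Dm_mul]
    congr 1
    ext g
    exact Real.mul_self_sqrt (h g)
  have main := MatEst.abs_main (MatEst.matΦ_pos (ι := ι) hφ) hη.le hη1 hp
    (MatEst.Cm_nonneg hx g₀) (MatEst.Dm_nonneg hmin) (mono fun g => min_le_left _ _)
    (mono fun g => min_le_right _ _) (MatEst.Dm_sa _) (hsq hν.nonneg)
    (MatEst.norm_DCD_le hx g₀ hν) (MatEst.Dm_sa _) (hsq hν'.nonneg)
    (MatEst.norm_DCD_le hx g₀ hν')
  simp only [← MatEst.quadQ_eq] at main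
  rw [MatEst.matΦ_CD hN hx, MatEst.matΦ_CD hN hx, MatEst.matΦ_CD hN hx, MatEst.matΦ_one] at main
  have c1 : ∑ g, (ν g : ℂ) = 1 := by exact_mod_cast hν.sum_eq
  have c2 : ∑ g, (ν' g : ℂ) = 1 := by exact_mod_cast hν'.sum_eq
  have c3 : ∑ g, ((min (ν g) (ν' g) : ℝ) : ℂ) = ((∑ g, min (ν g) (ν' g) : ℝ) : ℂ) := by
    push_cast; rfl
  have c4 : (((Fintype.card ι : ℂ) * φ 1)).re = Fintype.card ι * (φ 1).re := by
    rw [← Complex.ofReal_natCast, Complex.re_ofReal_mul]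
  rw [c1, c2, c3, c4, Complex.re_ofReal_mul, one_mul] at main
  refine ⟨by convert main.1 using 1; ring, main.2.trans (le_of_eq ?_)⟩
  have c5 : ∑ g, |ν' g - ν g| = 2 - 2 * ∑ g, min (ν g) (ν' g) := by
    have : ∀ g, |ν' g - ν g| = ν g + ν' g - 2 * min (ν g) (ν' g) := by
      intro g
      rcases le_total (ν g) (ν' g) with h | h
      · rw [abs_of_nonneg (by linarith), min_eq_left h]; ring
      · rw [abs_of_nonpos (by linarith), min_eq_right h]; ring
    simp only [this]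
    rw [Finset.sum_sub_distrib, Finset.sum_add_distrib, hν.sum_eq, hν'.sum_eq, ← Finset.mul_sum]
    ring
  rw [c5]
  ring

end Vale.Agent.P095
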