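import Vale.Agent.P095.BlockDefs
import Vale.Agent.P095.SeedSeq

/-!
# P095: local lemmas for the second moment (vanishing, reversal, norm bounds)
-/

open Filter Topology TopologicalSpace
open scoped BoundedContinuousFunction ComplexOrder

namespace Vale.Agent.P095

open Vale.Agent.P101

namespace MomentLoc

variable {K : Type*} [CStarAlgebra K] {ι : Type*} [Fintype ι] {N : ℕ}

theorem pathW_zero (ν : ι → ℝ) (x : Fin N → ι → K) (t : Fin (0 + 1) → Fin N) :
    pathW ν x t = 1 := by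
  simp [pathW]

theorem pathW_succ (ν : ι → ℝ) (x : Fin N → ι → K) {m : ℕ} (t : Fin (m + 1 + 1) → Fin N) :
    pathW ν x t = bondP ν x (t 0) (t 1) * pathW ν x (fun a : Fin (m + 1) => t a.succ) := by
  unfold pathW
  rw [List.ofFn_succ, List.prod_cons]
  rfl

theorem pathW_succ' (ν : ι → ℝ) (x : Fin N → ι → K) {m : ℕ} (t : Fin (m + 1 + 1) → Fin N) :
    pathW ν x t = pathW ν x (fun a : Fin (m + 1) => t a.castSucc) *
      bondP ν x (t (Fin.last m).castSucc) (t (Fin.last (m + 1))) := by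
  unfold pathW
  rw [List.ofFn_succ', List.concat_eq_append, List.prod_append, List.prod_singleton]
  rfl

theorem pathW_rev (ν : ι → ℝ) (x : Fin N → ι → K) {m : ℕ} (t : Fin (m + 1 + 1) → Fin N) :
    pathW ν x (t ∘ Fin.rev) = pathW ν x ((fun a : Fin (m + 1) => t a.succ) ∘ Fin.rev) *
      bondP ν x (t 1) (t 0) := by
  rw [pathW_succ']
  have h1 : (fun a : Fin (m + 1) => (t ∘ Fin.rev) a.castSucc) =
      (fun a : Fin (m + 1) => t a.succ) ∘ Fin.rev := by
    funext a
    simp only [Function.comp_apply, Fin.rev_castSucc]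
  have h2 : (t ∘ Fin.rev) (Fin.last m).castSucc = t 1 := by
    simp only [Function.comp_apply, Fin.rev_castSucc, Fin.rev_last, Fin.succ_zero_eq_one]
  have h3 : (t ∘ Fin.rev) (Fin.last (m + 1)) = t 0 := by
    simp only [Function.comp_apply, Fin.rev_last]
  rw [h1, h2, h3]

/-- The algebra generated by the copies with index in `Q`. -/
def genA (x : Fin N → ι → K) (Q : Fin N → Prop) : Subalgebra ℂ K :=
  Algebra.adjoin ℂ {y | ∃ j h, Q j ∧ y = x j h}

omit [Fintype ι] in
theorem mem_genA (x : Fin N → ι → K) {Q : Fin N → Prop} {j : Fin N} (hj : Q j) (h : ι) :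
    x j h ∈ genA x Q := Algebra.subset_adjoin ⟨j, h, hj, rfl⟩

theorem bondP_mem (ν : ι → ℝ) (x : Fin N → ι → K) {Q : Fin N → Prop} {i j : Fin N} (hi : Q i)
    (hj : Q j) : bondP ν x i j ∈ genA x Q :=
  Subalgebra.sum_mem _ fun g _ => Subalgebra.smul_mem _
    (Subalgebra.mul_mem _ (mem_genA x hi g) (mem_genA x hj g)) _

theorem pathW_mem (ν : ι → ℝ) (x : Fin N → ι → K) {Q : Fin N → Prop} {m : ℕ}
    (t : Fin (m + 1) → Fin N) (ht : ∀ a, Q (t a)) : pathW ν x t ∈ genA x Q := by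
  unfold pathW
  apply Subalgebra.list_prod_mem
  intro y hy
  rw [List.mem_ofFn] at hy
  obtain ⟨a, rfl⟩ := hy
  exact bondP_mem ν x (ht _) (ht _)

omit [Fintype ι] in
/-- Elements of `genA x Q` commute with the copies not in `Q`. -/
theorem comm_of_mem {x : Fin N → ι → K}
    (hcomm : ∀ i j, i ≠ j → ∀ g h, Commute (x i g) (x j h)) {Q : Fin N → Prop} {c : K}
    (hc : c ∈ genA x Q) {i : Fin N} (hi : ¬ Q i) (g : ι) : Commute c (x i g) := by
  have h1 : genA x Q ≤ Subalgebra.centralizer ℂ {x i g} := by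
    apply Algebra.adjoin_le
    rintro y ⟨j, h, hj, rfl⟩
    rw [SetLike.mem_coe, Subalgebra.mem_centralizer_iff]
    intro z hz
    rw [Set.mem_singleton_iff] at hz
    rw [hz]
    exact hcomm i j (fun hij => hi (hij ▸ hj)) g h
  have h2 := h1 hc
  rw [Subalgebra.mem_centralizer_iff] at h2
  exact (h2 (x i g) (Set.mem_singleton _)).symm

/-- Vanishing: the first index occurs only once. -/
theorem vanish_first {φ : K →ₗ[ℂ] ℂ} (htr : ∀ a b, φ (a * b) = φ (b * a))
    {x : Fin N → ι → K} (hx : IsBlock φ x) (ν : ι → ℝ) {m : ℕ} (t : Fin (m + 1 + 1) → Fin N)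
    (h0 : ∀ a : Fin (m + 1), t a.succ ≠ t 0) (c : K) (hc : c ∈ genA x (fun j => j ≠ t 0)) :
    φ (pathW ν x t * c) = 0 := by
  rw [pathW_succ, bondP, Finset.sum_mul, Finset.sum_mul, map_sum]
  refine Finset.sum_eq_zero fun g _ => ?_
  rw [smul_mul_assoc, smul_mul_assoc, map_smul, mul_assoc, mul_assoc, htr, ]
  rw [hx.zero, smul_zero]
  refine Subalgebra.mul_mem _ (mem_genA x (Q := fun j => j ≠ t 0) (h0 0) g)
    (Subalgebra.mul_mem _ ?_ hc)
  exact pathW_mem ν x _ h0

/-- Vanishing: the last index occurs only once. -/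
theorem vanish_last {φ : K →ₗ[ℂ] ℂ}
    {x : Fin N → ι → K} (hx : IsBlock φ x) (ν : ι → ℝ) {m : ℕ} (t : Fin (m + 1 + 1) → Fin N)
    (h0 : ∀ a : Fin (m + 1), t a.castSucc ≠ t (Fin.last (m + 1))) (c : K)
    (hc : c ∈ genA x (fun j => j ≠ t (Fin.last (m + 1)))) :
    φ (pathW ν x t * c) = 0 := by
  rw [pathW_succ', bondP, Finset.mul_sum, Finset.sum_mul, map_sum]
  refine Finset.sum_eq_zero fun g _ => ?_
  rw [mul_smul_comm, smul_mul_assoc, map_smul]
  have h1 : Commute c (x (t (Fin.last (m + 1))) g) :=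
    comm_of_mem hx.comm hc (fun h => h rfl) g
  have h2 : pathW ν x (fun a : Fin (m + 1) => t a.castSucc) *
      (x (t (Fin.last m).castSucc) g * x (t (Fin.last (m + 1))) g) * c =
      (pathW ν x (fun a : Fin (m + 1) => t a.castSucc) *
        (x (t (Fin.last m).castSucc) g * c)) * x (t (Fin.last (m + 1))) g := by
    simp only [mul_assoc]
    rw [h1.eq]
  rw [h2, hx.zero, smul_zero]
  refine Subalgebra.mul_mem _ ?_ (Subalgebra.mul_mem _
    (mem_genA x (Q := fun j => j ≠ t (Fin.last (m + 1))) (h0 (Fin.last m)) g) hc)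
  exact pathW_mem ν x _ h0

/-- Swapping two factors which commute with the rest. -/
theorem swap {φ : K →ₗ[ℂ] ℂ} (htr : ∀ a b, φ (a * b) = φ (b * a)) (c a b q : K)
    (hca : Commute c a) (hqa : Commute q a) : φ (c * (a * b * q)) = φ (c * (b * a * q)) := by
  have h1 : c * (a * b * q) = a * (c * (b * q)) := by
    rw [mul_assoc a b q, ← mul_assoc c a, hca.eq, mul_assoc]
  have h2 : c * (b * a * q) = c * (b * q) * a := by
    rw [mul_assoc b a q, ← hqa.eq]
    simp only [mul_assoc]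
  rw [h1, h2, htr]

/-- Reversal of an open path. -/
theorem open_rev {φ : K →ₗ[ℂ] ℂ} (htr : ∀ a b, φ (a * b) = φ (b * a)) {x : Fin N → ι → K}
    (hcomm : ∀ i j, i ≠ j → ∀ g h, Commute (x i g) (x j h)) (ν : ι → ℝ) :
    ∀ (n : ℕ) (u : Fin (n + 1) → Fin N), Function.Injective u → ∀ (g : ι) (c : K),
      (∀ a, a ≠ Fin.last n → ∀ h, Commute c (x (u a) h)) →
      φ (c * (x (u 0) g * pathW ν x u)) = φ (c * (pathW ν x (u ∘ Fin.rev) * x (u 0) g)) := by
  intro n
  induction n with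
  | zero =>
    intro u _ g c _
    rw [pathW_zero, pathW_zero, one_mul, mul_one]
  | succ n ih =>
    intro u hu g c hc
    obtain ⟨v, hv⟩ : ∃ v : Fin (n + 1) → Fin N, v = fun a => u a.succ := ⟨_, rfl⟩
    have hv0 : v 0 = u 1 := by rw [hv]; rfl
    have hvi : Function.Injective v := by
      rw [hv]
      exact hu.comp (Fin.succ_injective _)
    have hvne : ∀ a, v a ≠ u 0 := fun a h => by
      rw [hv] at h
      exact Fin.succ_ne_zero a (hu h)
    have hmem : ∀ h, Commute (x (v 0) h * pathW ν x v) (x (u 0) g) ∧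
        ∀ g', Commute (x (v 0) h * pathW ν x v) (x (u 0) g') ∧
          Commute (pathW ν x (v ∘ Fin.rev) * x (v 0) h) (x (u 0) g') := by
      intro h
      have hk : ∀ g', Commute (x (v 0) h * pathW ν x v) (x (u 0) g') ∧
          Commute (pathW ν x (v ∘ Fin.rev) * x (v 0) h) (x (u 0) g') := by
        intro g'
        constructor
        · exact comm_of_mem hcomm (Q := fun j => j ≠ u 0)
            (Subalgebra.mul_mem _ (mem_genA x (Q := fun j => j ≠ u 0) (hvne 0) h)
              (pathW_mem ν x v hvne))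
            (fun h => h rfl) g'
        · exact comm_of_mem hcomm (Q := fun j => j ≠ u 0)
            (Subalgebra.mul_mem _ (pathW_mem ν x _ fun a => hvne _)
              (mem_genA x (Q := fun j => j ≠ u 0) (hvne 0) h))
            (fun h => h rfl) g'
      exact ⟨(hk g).1, hk⟩
    have hc0 : ∀ h, Commute c (x (u 0) h) := hc 0 (Fin.last_pos.ne)
    have hW : pathW ν x u = bondP ν x (u 0) (v 0) * pathW ν x v := by
      rw [pathW_succ, hv0, hv]
    have hWr : pathW ν x (u ∘ Fin.rev) = pathW ν x (v ∘ Fin.rev) * bondP ν x (v 0) (u 0) := by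
      rw [pathW_rev, hv0, hv]
    rw [hW, hWr]
    have e1 : c * (x (u 0) g * (bondP ν x (u 0) (v 0) * pathW ν x v)) =
        ∑ h, (ν h : ℂ) • (c * (x (u 0) g * x (u 0) h * (x (v 0) h * pathW ν x v))) := by
      rw [bondP, Finset.sum_mul, Finset.mul_sum, Finset.mul_sum]
      refine Finset.sum_congr rfl fun h _ => ?_
      simp only [smul_mul_assoc, mul_smul_comm, mul_assoc]
    have e2 : c * (pathW ν x (v ∘ Fin.rev) * bondP ν x (v 0) (u 0) * x (u 0) g) =
        ∑ h, (ν h : ℂ) • (c * (x (u 0) h * x (u 0) g) *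
          (pathW ν x (v ∘ Fin.rev) * x (v 0) h)) := by
      rw [bondP, Finset.mul_sum, Finset.sum_mul, Finset.mul_sum]
      refine Finset.sum_congr rfl fun h _ => ?_
      have h3 : Commute (pathW ν x (v ∘ Fin.rev) * x (v 0) h) (x (u 0) h * x (u 0) g) :=
        ((hmem h).2 h).2.mul_right ((hmem h).2 g).2
      rw [mul_smul_comm, smul_mul_assoc, mul_smul_comm, mul_assoc c, ← h3.eq]
      simp only [mul_assoc]
    rw [e1, e2, map_sum, map_sum]
    refine Finset.sum_congr rfl fun h _ => ?_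
    rw [map_smul, map_smul]
    congr 1
    rw [swap htr c (x (u 0) g) (x (u 0) h) _ (hc0 g) (hmem h).1]
    rw [← mul_assoc c]
    refine ih v hvi h (c * (x (u 0) h * x (u 0) g)) ?_
    intro a ha h'
    have h4 : a.succ ≠ Fin.last (n + 1) := by
      intro h5
      exact ha (Fin.succ_injective _ h5)
    have h5 : Commute c (x (v a) h') := by
      rw [hv]
      exact hc a.succ h4 h'
    exact h5.mul_left ((hcomm _ _ (hvne a).symm _ _).mul_left (hcomm _ _ (hvne a).symm _ _))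

/-- Reversal of a path all whose interior copies commute with the rest. -/
theorem phi_rev {φ : K →ₗ[ℂ] ℂ} (htr : ∀ a b, φ (a * b) = φ (b * a)) {x : Fin N → ι → K}
    (hcomm : ∀ i j, i ≠ j → ∀ g h, Commute (x i g) (x j h)) (ν : ι → ℝ) {m : ℕ}
    (t : Fin (m + 1 + 1) → Fin N) (ht : Function.Injective t) (c : K)
    (hc : ∀ a, a ≠ 0 → a ≠ Fin.last (m + 1) → ∀ h, Commute c (x (t a) h)) :
    φ (c * pathW ν x t) = φ (c * pathW ν x (t ∘ Fin.rev)) := by
  obtain ⟨v, hv⟩ : ∃ v : Fin (m + 1) → Fin N, v = fun a => t a.succ := ⟨_, rfl⟩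
  have hv0 : v 0 = t 1 := by rw [hv]; rfl
  have hvi : Function.Injective v := by
    rw [hv]
    exact ht.comp (Fin.succ_injective _)
  have hvne : ∀ a, v a ≠ t 0 := fun a h => by
    rw [hv] at h
    exact Fin.succ_ne_zero a (ht h)
  have hW : pathW ν x t = bondP ν x (t 0) (v 0) * pathW ν x v := by
    rw [pathW_succ, hv0, hv]
  have hWr : pathW ν x (t ∘ Fin.rev) = pathW ν x (v ∘ Fin.rev) * bondP ν x (v 0) (t 0) := by
    rw [pathW_rev, hv0, hv]
  rw [hW, hWr]
  have e1 : c * (bondP ν x (t 0) (v 0) * pathW ν x v) =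
      ∑ h, (ν h : ℂ) • (c * x (t 0) h * (x (v 0) h * pathW ν x v)) := by
    rw [bondP, Finset.sum_mul, Finset.mul_sum]
    refine Finset.sum_congr rfl fun h _ => ?_
    simp only [smul_mul_assoc, mul_smul_comm, mul_assoc]
  have e2 : c * (pathW ν x (v ∘ Fin.rev) * bondP ν x (v 0) (t 0)) =
      ∑ h, (ν h : ℂ) • (c * x (t 0) h * (pathW ν x (v ∘ Fin.rev) * x (v 0) h)) := by
    rw [bondP, Finset.mul_sum, Finset.mul_sum]
    refine Finset.sum_congr rfl fun h _ => ?_
    have h3 : Commute (pathW ν x (v ∘ Fin.rev) * x (v 0) h) (x (t 0) h) :=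
      comm_of_mem hcomm (Q := fun j => j ≠ t 0)
        (Subalgebra.mul_mem _ (pathW_mem ν x _ fun a => hvne _)
          (mem_genA x (Q := fun j => j ≠ t 0) (hvne 0) h))
        (fun h => h rfl) h
    rw [mul_smul_comm, mul_smul_comm, mul_assoc c (x (t 0) h), ← h3.eq]
    simp only [mul_assoc]
  rw [e1, e2, map_sum, map_sum]
  refine Finset.sum_congr rfl fun h _ => ?_
  rw [map_smul, map_smul]
  congr 1
  refine open_rev htr hcomm ν m v hvi h (c * x (t 0) h) ?_
  intro a ha h'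
  have h4 : a.succ ≠ Fin.last (m + 1) := by
    intro h5
    exact ha (Fin.succ_injective _ h5)
  have h5 : Commute c (x (v a) h') := by
    rw [hv]
    exact hc a.succ (Fin.succ_ne_zero a) h4 h'
  exact h5.mul_left (hcomm _ _ (hvne a).symm _ _)

omit [Fintype ι] in
/-- Positive functionals are bounded by their value at `1`. -/
theorem norm_apply_le {φ : K →ₗ[ℂ] ℂ} (hφ : ∀ x, 0 ≤ φ (star x * x)) (a : K) :
    ‖φ a‖ ≤ ‖a‖ * (φ 1).re := by
  let _ := CStarAlgebra.spectralOrder K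
  have _ := CStarAlgebra.spectralOrderedRing K
  have h1 : 0 ≤ (φ 1).re := by
    have := hφ 1
    rw [star_one, one_mul] at this
    exact (Complex.nonneg_iff.1 this).1
  rcases eq_or_ne (φ a) 0 with h0 | h0
  · rw [h0, norm_zero]
    exact mul_nonneg (norm_nonneg _) h1
  obtain ⟨μ, hμ, hμ2⟩ : ∃ μ : ℂ, ‖μ‖ = 1 ∧ μ * φ a = (‖φ a‖ : ℂ) := by
    have h2 : (‖φ a‖ : ℂ) ≠ 0 := by
      rw [Ne, Complex.ofReal_eq_zero]
      exact norm_ne_zero_iff.2 h0
    refine ⟨(starRingEnd ℂ) (φ a) / (‖φ a‖ : ℂ), ?_, ?_⟩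
    · rw [norm_div, RCLike.norm_conj, Complex.norm_real, norm_norm,
        div_self (norm_ne_zero_iff.2 h0)]
    · rw [div_mul_eq_mul_div, mul_comm ((starRingEnd ℂ) (φ a)), Complex.mul_conj,
        Complex.normSq_eq_norm_sq, div_eq_iff h2]
      push_cast
      ring
  have hs : IsSelfAdjoint (μ • a + star (μ • a)) := IsSelfAdjoint.add_star_self _
  have h2 := IsSelfAdjoint.le_algebraMap_norm_self hs
  have h3 : ‖μ • a + star (μ • a)‖ ≤ 2 * ‖a‖ := by
    refine (norm_add_le _ _).trans ?_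
    rw [norm_star, norm_smul, hμ, one_mul]
    linarith
  have h4 : μ • a + star (μ • a) ≤ algebraMap ℝ K (2 * ‖a‖) :=
    h2.trans (algebraMap_mono K h3)
  rw [← sub_nonneg, CStarAlgebra.nonneg_iff_eq_star_mul_self] at h4
  obtain ⟨y, hy⟩ := h4
  have h5 := (Complex.nonneg_iff.1 (hφ y)).1
  rw [← hy, map_sub, map_add, map_star_of_nonneg hφ, map_smul, smul_eq_mul, hμ2] at h5
  have h6 : algebraMap ℝ K (2 * ‖a‖) = ((2 * ‖a‖ : ℝ) : ℂ) • (1 : K) := by
    rw [Algebra.algebraMap_eq_smul_one, Complex.coe_smul]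
  rw [h6, map_smul, smul_eq_mul, Complex.sub_re, Complex.re_ofReal_mul, Complex.add_re,
    Complex.star_def, Complex.conj_re, Complex.ofReal_re] at h5
  linarith

theorem norm_apply_pathW_le {m m' : ℕ} {φ : K →ₗ[ℂ] ℂ} {x : Fin N → ι → K} {ν ν' : ι → ℝ}
    (hφ : IsPosTrace φ) (hx : IsBlock φ x) (hν : IsProb ν) (hν' : IsProb ν')
    (t : Fin (m + 1) → Fin N) (t' : Fin (m' + 1) → Fin N) :
    ‖φ (pathW ν x t * pathW ν' x t')‖ ≤ (φ 1).re := by
  refine (norm_apply_le hφ.nonneg _).trans ?_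
  have h1 : 0 ≤ (φ 1).re := by
    have := hφ.nonneg 1
    rw [star_one, one_mul] at this
    exact (Complex.nonneg_iff.1 this).1
  have h2 : ‖pathW ν x t * pathW ν' x t'‖ ≤ 1 :=
    (norm_mul_le _ _).trans (mul_le_one₀ (norm_pathW_le hx hν t) (norm_nonneg _)
      (norm_pathW_le hx hν' t'))
  calc ‖pathW ν x t * pathW ν' x t'‖ * (φ 1).re ≤ 1 * (φ 1).re :=
        mul_le_mul_of_nonneg_right h2 h1
    _ = _ := one_mul _

theorem apply_eq_zero_aux {m m' : ℕ} {φ : K →ₗ[ℂ] ℂ} {x : Fin N → ι → K} {ν ν' : ι → ℝ}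
    (htr : ∀ a b, φ (a * b) = φ (b * a)) (hx : IsBlock φ x) (hm : 1 ≤ m)
    {t : Fin (m + 1) → Fin N} {t' : Fin (m' + 1) → Fin N}
    (ht : Function.Injective t) (h : t 0 ∉ Set.range t' ∨ t (Fin.last m) ∉ Set.range t') :
    φ (pathW ν x t * pathW ν' x t') = 0 := by
  obtain ⟨m, rfl⟩ : ∃ k, m = k + 1 := ⟨m - 1, by omega⟩
  rcases h with h | h
  · refine vanish_first htr hx ν t (fun a ha => Fin.succ_ne_zero a (ht ha)) _ ?_
    exact pathW_mem ν' x t' fun a ha => h ⟨a, ha⟩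
  · refine vanish_last hx ν t (fun a ha => ?_) _ ?_
    · exact (Fin.castSucc_lt_last a).ne (ht ha)
    · exact pathW_mem ν' x t' fun a ha => h ⟨a, ha⟩

theorem apply_pathW_eq_zero {m m' : ℕ} {φ : K →ₗ[ℂ] ℂ} {x : Fin N → ι → K} {ν ν' : ι → ℝ}
    (hφ : IsPosTrace φ) (hx : IsBlock φ x) (hm : 1 ≤ m) (hm' : 1 ≤ m')
    {t : Fin (m + 1) → Fin N} {t' : Fin (m' + 1) → Fin N}
    (ht : Function.Injective t) (ht' : Function.Injective t')
    (h : t 0 ∉ Set.range t' ∨ t (Fin.last m) ∉ Set.range t' ∨ t' 0 ∉ Set.range t ∨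
      t' (Fin.last m') ∉ Set.range t) : φ (pathW ν x t * pathW ν' x t') = 0 := by
  rcases h with h | h | h
  · exact apply_eq_zero_aux hφ.trace hx hm ht (Or.inl h)
  · exact apply_eq_zero_aux hφ.trace hx hm ht (Or.inr h)
  · rw [hφ.trace]
    exact apply_eq_zero_aux hφ.trace hx hm' ht' h

theorem apply_pathW_rev {m m' : ℕ} {φ : K →ₗ[ℂ] ℂ} {x : Fin N → ι → K} {ν ν' : ι → ℝ}
    (hφ : IsPosTrace φ) (hx : IsBlock φ x)
    {t : Fin (m + 1) → Fin N} {t' : Fin (m' + 1) → Fin N}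
    (ht' : Function.Injective t')
    (h : ∀ a b, t a = t' b → (a = 0 ∨ a = Fin.last m) ∧ (b = 0 ∨ b = Fin.last m')) :
    φ (pathW ν x t * pathW ν' x (t' ∘ Fin.rev)) = φ (pathW ν x t * pathW ν' x t') := by
  cases m' with
  | zero =>
    rw [pathW_zero, pathW_zero]
  | succ m' =>
    refine (phi_rev hφ.trace hx.comm ν' t' ht' _ ?_).symm
    intro b hb hb' g
    refine comm_of_mem hx.comm (Q := fun j => j ≠ t' b) (pathW_mem ν x t fun a ha => ?_)
      (fun h => h rfl) g
    rcases (h a b ha).2 with h1 | h1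
    · exact hb h1
    · exact hb' h1

end MomentLoc

end Vale.Agent.P095
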