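import Vale.Agent.P095.MomTr
import Vale.Agent.P095.MomentLoc

/-!
# P095, row B1: the combinatorial second moment
-/

open Filter Topology TopologicalSpace
open scoped BoundedContinuousFunction ComplexOrder

namespace Vale.Agent.P095

open Vale.Agent.P101

universe u v w

open MomentLoc

namespace Moment

/-! ### Combinatorics of two paths -/

section Comb

variable {V : Type*} [DecidableEq V] {m m' : ℕ}

theorem card_image_path (t : Fin (m + 1) → V) : (Finset.univ.image t).card ≤ m + 1 := by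
  refine Finset.card_image_le.trans ?_
  simp

theorem inj_of_card {t : Fin (m + 1) → V} (h : m + 1 ≤ (Finset.univ.image t).card) :
    Function.Injective t := by
  have h1 : (Finset.univ.image t).card = (Finset.univ : Finset (Fin (m + 1))).card := by
    apply le_antisymm Finset.card_image_le
    simpa using h
  intro a b hab
  exact (Finset.card_image_iff.1 h1) (by simp) (by simp) hab

/-- If two paths are glued to a closed path with `m + m'` different vertices, both are
injective. -/
theorem inj_left_of_big (hm' : 1 ≤ m') {t : Fin (m + 1) → V} {t' : Fin (m' + 1) → V}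
    (h0 : t' 0 ∈ Finset.univ.image t) (h1 : t' (Fin.last m') ∈ Finset.univ.image t)
    (hbig : m + m' ≤ (Finset.univ.image t ∪ Finset.univ.image t').card) :
    Function.Injective t := by
  apply inj_of_card
  have h2 : Finset.univ.image t ∪ Finset.univ.image t' ⊆ Finset.univ.image t ∪
      (((Finset.univ.erase (0 : Fin (m' + 1))).erase (Fin.last m')).image t') := by
    intro y hy
    rw [Finset.mem_union] at hy ⊢
    rcases hy with hy | hy
    · exact Or.inl hy
    · obtain ⟨b, _, rfl⟩ := Finset.mem_image.1 hy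
      by_cases hb0 : b = 0
      · subst hb0; exact Or.inl h0
      by_cases hb1 : b = Fin.last m'
      · subst hb1; exact Or.inl h1
      right
      exact Finset.mem_image_of_mem _ (by simp [hb0, hb1])
  have h3 : (((Finset.univ.erase (0 : Fin (m' + 1))).erase (Fin.last m')).image t').card ≤ m' - 1 := by
    refine Finset.card_image_le.trans ?_
    rw [Finset.card_erase_of_mem, Finset.card_erase_of_mem (by simp), Finset.card_univ,
      Fintype.card_fin]
    · omega
    · rw [Finset.mem_erase]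
      refine ⟨?_, by simp⟩
      intro h
      have := congrArg Fin.val h
      simp at this
      omega
  have h4 := (Finset.card_le_card h2).trans (Finset.card_union_le _ _)
  omega

theorem image_rev (t' : Fin (m' + 1) → V) :
    Finset.univ.image (t' ∘ Fin.rev) = Finset.univ.image t' := by
  ext y
  simp only [Finset.mem_image, Finset.mem_univ, true_and, Function.comp]
  constructor
  · rintro ⟨a, ha⟩; exact ⟨_, ha⟩
  · rintro ⟨a, ha⟩; exact ⟨a.rev, by simpa using ha⟩

/-- the common vertices of two injective paths with many vertices. -/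
theorem card_inter_le {t : Fin (m + 1) → V} {t' : Fin (m' + 1) → V}
    (hbig : m + m' ≤ (Finset.univ.image t ∪ Finset.univ.image t').card) :
    (Finset.univ.image t ∩ Finset.univ.image t').card ≤ 2 := by
  have h1 := Finset.card_union_add_card_inter (Finset.univ.image t) (Finset.univ.image t')
  have h2 := card_image_path t
  have h3 := card_image_path t'
  omega

theorem eq_pair {S : Finset V} (hS : S.card ≤ 2) {a b c : V} (ha : a ∈ S) (hb : b ∈ S)
    (hab : a ≠ b) (hc : c ∈ S) : c = a ∨ c = b := by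
  by_contra hcon
  push Not at hcon
  have h1 : ({a, b, c} : Finset V) ⊆ S := by
    intro y hy
    simp only [Finset.mem_insert, Finset.mem_singleton] at hy
    rcases hy with rfl | rfl | rfl <;> assumption
  have h2 := Finset.card_le_card h1
  rw [Finset.card_eq_three.2 ⟨a, b, c, hab, hcon.1.symm, hcon.2.symm, rfl⟩] at h2
  omega

end Comb

variable {K : Type*} [CStarAlgebra K] {ι : Type*} [Fintype ι] {N m m' : ℕ} {φ : K →ₗ[ℂ] ℂ}
  {x : Fin N → ι → K} {ν ν' : ι → ℝ}

open scoped Classical in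
/-- the defect of a pair of paths. -/
noncomputable def defect (φ : K →ₗ[ℂ] ℂ) (x : Fin N → ι → K) (ν ν' : ι → ℝ)
    (t : Fin (m + 1) → Fin N) (t' : Fin (m' + 1) → Fin N) : ℂ :=
  (if Function.Injective t ∧ Function.Injective t' then φ (pathW ν x t * pathW ν' x t') else 0) -
  (if t' 0 = t (Fin.last m) ∧ t' (Fin.last m') = t 0 then φ (pathW ν x t * pathW ν' x t') else 0) -
  (if t' 0 = t 0 ∧ t' (Fin.last m') = t (Fin.last m) then
    φ (pathW ν x t * pathW ν' x (t' ∘ Fin.rev)) else 0)

theorem norm_defect_le (hφ : IsPosTrace φ) (hx : IsBlock φ x) (hν : IsProb ν)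
    (hν' : IsProb ν') (t : Fin (m+1) → Fin N) (t' : Fin (m'+1) → Fin N) :
    ‖defect φ x ν ν' t t'‖ ≤ 3 * (φ 1).re := by
  have h1 := norm_apply_pathW_le hφ hx hν hν' t t'
  have h2 := norm_apply_pathW_le hφ hx hν hν' t (t' ∘ Fin.rev)
  have h0 : 0 ≤ (φ 1).re := (norm_nonneg _).trans h1
  have h3 : ∀ (p : Prop) [Decidable p] (z : ℂ), ‖z‖ ≤ (φ 1).re →
      ‖(if p then z else 0)‖ ≤ (φ 1).re := by
    intro p _ z hz
    split_ifs
    · exact hz
    · simpa using h0
  unfold defect
  refine (norm_sub_le _ _).trans ?_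
  have h4 := norm_sub_le (if Function.Injective t ∧ Function.Injective t' then
    φ (pathW ν x t * pathW ν' x t') else 0) (if t' 0 = t (Fin.last m) ∧ t' (Fin.last m') = t 0 then
      φ (pathW ν x t * pathW ν' x t') else 0)
  have h5 := h3 (Function.Injective t ∧ Function.Injective t') _ h1
  have h6 := h3 (t' 0 = t (Fin.last m) ∧ t' (Fin.last m') = t 0) _ h1
  have h7 := h3 (t' 0 = t 0 ∧ t' (Fin.last m') = t (Fin.last m)) _ h2
  linarith

theorem defect_eq_zero (hφ : IsPosTrace φ) (hx : IsBlock φ x) (hm : 1 ≤ m) (hm' : 1 ≤ m')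
    (t : Fin (m+1) → Fin N) (t' : Fin (m'+1) → Fin N)
    (hbig : m + m' ≤ (Finset.univ.image t ∪ Finset.univ.image t').card) :
    defect φ x ν ν' t t' = 0 := by
  have mem_t : ∀ a, t a ∈ Finset.univ.image t := fun a => Finset.mem_image_of_mem _ (by simp)
  have mem_t' : ∀ a, t' a ∈ Finset.univ.image t' := fun a => Finset.mem_image_of_mem _ (by simp)
  have h0m : (0 : Fin (m + 1)) ≠ Fin.last m := by
    intro h; have := congrArg Fin.val h; simp at this; omega
  have h0m' : (0 : Fin (m' + 1)) ≠ Fin.last m' := by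
    intro h; have := congrArg Fin.val h; simp at this; omega
  have hbig' : m' + m ≤ (Finset.univ.image t' ∪ Finset.univ.image t).card := by
    rw [Finset.union_comm]; omega
  unfold defect
  by_cases H1 : t' 0 = t (Fin.last m) ∧ t' (Fin.last m') = t 0
  · have i1 : Function.Injective t :=
      inj_left_of_big hm' (by rw [H1.1]; exact mem_t _) (by rw [H1.2]; exact mem_t _) hbig
    have i2 : Function.Injective t' :=
      inj_left_of_big hm (by rw [← H1.2]; exact mem_t' _) (by rw [← H1.1]; exact mem_t' _) hbig'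
    have H2 : ¬ (t' 0 = t 0 ∧ t' (Fin.last m') = t (Fin.last m)) := by
      rintro ⟨h, _⟩
      exact h0m (i1 (h.symm.trans H1.1))
    rw [if_pos ⟨i1, i2⟩, if_pos H1, if_neg H2]
    ring
  by_cases H2 : t' 0 = t 0 ∧ t' (Fin.last m') = t (Fin.last m)
  · have i1 : Function.Injective t :=
      inj_left_of_big hm' (by rw [H2.1]; exact mem_t _) (by rw [H2.2]; exact mem_t _) hbig
    have i2 : Function.Injective t' :=
      inj_left_of_big hm (by rw [← H2.1]; exact mem_t' _) (by rw [← H2.2]; exact mem_t' _) hbig'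
    rw [if_pos ⟨i1, i2⟩, if_neg H1, if_pos H2, apply_pathW_rev hφ hx i2]
    · ring
    · intro a b hab
      have hS := card_inter_le hbig
      have m0 : t 0 ∈ Finset.univ.image t ∩ Finset.univ.image t' :=
        Finset.mem_inter.2 ⟨mem_t _, by rw [← H2.1]; exact mem_t' _⟩
      have m1 : t (Fin.last m) ∈ Finset.univ.image t ∩ Finset.univ.image t' :=
        Finset.mem_inter.2 ⟨mem_t _, by rw [← H2.2]; exact mem_t' _⟩
      have ma : t a ∈ Finset.univ.image t ∩ Finset.univ.image t' :=
        Finset.mem_inter.2 ⟨mem_t _, by rw [hab]; exact mem_t' _⟩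
      have hne : t 0 ≠ t (Fin.last m) := fun h => h0m (i1 h)
      rcases eq_pair hS m0 m1 hne ma with h | h
      · refine ⟨Or.inl (i1 h), Or.inl (i2 ?_)⟩
        rw [← hab, h, H2.1]
      · refine ⟨Or.inr (i1 h), Or.inr (i2 ?_)⟩
        rw [← hab, h, H2.2]
  · rw [if_neg H1, if_neg H2]
    by_cases hI : Function.Injective t ∧ Function.Injective t'
    · rw [if_pos hI]
      obtain ⟨i1, i2⟩ := hI
      rw [apply_pathW_eq_zero hφ hx hm hm' i1 i2]
      · ring
      by_contra hcon
      push Not at hcon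
      obtain ⟨c1, c2, c3, c4⟩ := hcon
      have conv : ∀ {k : ℕ} (s : Fin (k + 1) → Fin N) (y : Fin N), y ∈ Set.range s →
          y ∈ Finset.univ.image s := by
        rintro k s y ⟨a, rfl⟩
        exact Finset.mem_image_of_mem _ (by simp)
      have hS := card_inter_le hbig
      have m0 : t 0 ∈ Finset.univ.image t ∩ Finset.univ.image t' :=
        Finset.mem_inter.2 ⟨mem_t _, conv _ _ c1⟩
      have m1 : t (Fin.last m) ∈ Finset.univ.image t ∩ Finset.univ.image t' :=
        Finset.mem_inter.2 ⟨mem_t _, conv _ _ c2⟩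
      have m2 : t' 0 ∈ Finset.univ.image t ∩ Finset.univ.image t' :=
        Finset.mem_inter.2 ⟨conv _ _ c3, mem_t' _⟩
      have m3 : t' (Fin.last m') ∈ Finset.univ.image t ∩ Finset.univ.image t' :=
        Finset.mem_inter.2 ⟨conv _ _ c4, mem_t' _⟩
      have hne : t 0 ≠ t (Fin.last m) := fun h => h0m (i1 h)
      have hne' : t' 0 ≠ t' (Fin.last m') := fun h => h0m' (i2 h)
      rcases eq_pair hS m0 m1 hne m2 with h | h <;> rcases eq_pair hS m0 m1 hne m3 with h' | h'
      · exact hne' (h.trans h'.symm)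
      · exact H2 ⟨h, h'⟩
      · exact H1 ⟨h, h'⟩
      · exact hne' (h.trans h'.symm)
    · rw [if_neg hI]
      ring

/-- the sum over embeddings as a sum over all functions. -/
theorem sum_embedding {A B R : Type*} [Fintype A] [Fintype B] [DecidableEq A] [DecidableEq B]
    [AddCommMonoid R] [∀ f : A → B, Decidable (Function.Injective f)]
    (F : (A → B) → R) : ∑ t : A ↪ B, F t = ∑ f : A → B, if Function.Injective f then F f else 0 := by
  rw [← Finset.sum_filter]
  symm
  refine Finset.sum_bij' (fun (f : A → B) (hf : f ∈ Finset.univ.filter (fun f : A → B => Function.Injective f)) =>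
      (⟨f, (Finset.mem_filter.1 hf).2⟩ : A ↪ B)) (fun (t : A ↪ B) _ => (t : A → B)) ?_ ?_ ?_ ?_ ?_
  · intro f hf; exact Finset.mem_univ _
  · intro t _; exact Finset.mem_filter.2 ⟨Finset.mem_univ _, t.injective⟩
  · intro f hf; rfl
  · intro t _; rfl
  · intro f hf; rfl

theorem difference_eq [DecidableEq ι] (hφ : IsPosTrace φ) (hm : 1 ≤ m) (hm' : 1 ≤ m') :
    ((N : ℂ) ^ (m + m'))⁻¹ * ∑ t : Fin (m + 1) ↪ Fin N, ∑ t' : Fin (m' + 1) ↪ Fin N,
        φ (pathW ν x t * pathW ν' x t')
      - 2 * trφ φ ((gramC x * diagD K ν) ^ m * (gramC x * diagD K ν') ^ m') =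
    ((N : ℂ) ^ (m + m'))⁻¹ * ∑ t : Fin (m + 1) → Fin N, ∑ t' : Fin (m' + 1) → Fin N,
      defect φ x ν ν' t t' := by
  classical
  rw [trφ_formula φ hφ.trace x ν ν' m m' hm hm']
  have h1 : (∑ t : Fin (m + 1) ↪ Fin N, ∑ t' : Fin (m' + 1) ↪ Fin N,
      φ (pathW ν x t * pathW ν' x t')) = ∑ t : Fin (m + 1) → Fin N, ∑ t' : Fin (m' + 1) → Fin N,
      if Function.Injective t ∧ Function.Injective t' then φ (pathW ν x t * pathW ν' x t')
        else 0 := by
    rw [sum_embedding (fun t : Fin (m + 1) → Fin N => ∑ t' : Fin (m' + 1) ↪ Fin N,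
      φ (pathW ν x t * pathW ν' x t'))]
    refine Finset.sum_congr rfl fun t _ => ?_
    rw [sum_embedding (fun t' : Fin (m' + 1) → Fin N => φ (pathW ν x t * pathW ν' x t'))]
    by_cases ht : Function.Injective t
    · simp [ht]
    · simp [ht]
  have h2 : (∑ t : Fin (m + 1) → Fin N, ∑ t' : Fin (m' + 1) → Fin N,
        if t' 0 = t (Fin.last m) ∧ t' (Fin.last m') = t 0 then
          φ (pathW ν x t * pathW ν' x t') else 0) =
      ∑ t : Fin (m + 1) → Fin N, ∑ t' : Fin (m' + 1) → Fin N,
        if t' 0 = t 0 ∧ t' (Fin.last m') = t (Fin.last m) then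
          φ (pathW ν x t * pathW ν' x (t' ∘ Fin.rev)) else 0 := by
    refine Finset.sum_congr rfl fun t _ => ?_
    rw [← (Equiv.arrowCongr (Fin.revPerm : Equiv.Perm (Fin (m' + 1))) (Equiv.refl (Fin N))).sum_comp]
    refine Finset.sum_congr rfl fun t' _ => ?_
    have e0 : (Equiv.arrowCongr (Fin.revPerm : Equiv.Perm (Fin (m' + 1))) (Equiv.refl (Fin N))) t' =
        t' ∘ Fin.rev := by
      funext a
      simp [Equiv.arrowCongr]
    rw [e0]
    simp only [Function.comp, Fin.rev_zero, Fin.rev_last]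
    congr 1
    exact propext And.comm
  rw [h1]
  have h3 : (2 : ℂ) * (((N : ℂ) ^ (m + m'))⁻¹ * ∑ t : Fin (m + 1) → Fin N,
      ∑ t' : Fin (m' + 1) → Fin N, if t' 0 = t (Fin.last m) ∧ t' (Fin.last m') = t 0 then
          φ (pathW ν x t * pathW ν' x t') else 0) =
      ((N : ℂ) ^ (m + m'))⁻¹ * (∑ t : Fin (m + 1) → Fin N, ∑ t' : Fin (m' + 1) → Fin N,
        if t' 0 = t (Fin.last m) ∧ t' (Fin.last m') = t 0 then
          φ (pathW ν x t * pathW ν' x t') else 0) +
      ((N : ℂ) ^ (m + m'))⁻¹ * (∑ t : Fin (m + 1) → Fin N, ∑ t' : Fin (m' + 1) → Fin N,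
        if t' 0 = t 0 ∧ t' (Fin.last m') = t (Fin.last m) then
          φ (pathW ν x t * pathW ν' x (t' ∘ Fin.rev)) else 0) := by
    rw [← h2]; ring
  rw [h3, ← mul_add, ← mul_sub]
  congr 1
  rw [← Finset.sum_add_distrib, ← Finset.sum_sub_distrib]
  refine Finset.sum_congr rfl fun t _ => ?_
  rw [← Finset.sum_add_distrib, ← Finset.sum_sub_distrib]
  refine Finset.sum_congr rfl fun t' _ => ?_
  unfold defect
  rw [sub_sub]

end Moment

theorem second_moment (m m' : ℕ) (hm : 1 ≤ m) (hm' : 1 ≤ m') : ∃ C₀ : ℝ, ∀ (K : Type u)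
    [CStarAlgebra K] (φ : K →ₗ[ℂ] ℂ) (_ : IsPosTrace φ) (ι : Type) [Fintype ι] [DecidableEq ι]
    (N : ℕ) (_ : 1 ≤ N) (x : Fin N → ι → K) (_ : IsBlock φ x) (ν ν' : ι → ℝ)
    (_ : IsProb ν) (_ : IsProb ν'),
    ‖((N : ℂ) ^ (m + m'))⁻¹ * ∑ t : Fin (m + 1) ↪ Fin N, ∑ t' : Fin (m' + 1) ↪ Fin N,
        φ (pathW ν x t * pathW ν' x t')
      - 2 * trφ φ ((gramC x * diagD K ν) ^ m * (gramC x * diagD K ν') ^ m')‖
      ≤ C₀ / N * (φ 1).re := by
  classical
  refine ⟨3 * (m + m' - 1 : ℕ) ^ (m + 1 + (m' + 1)), ?_⟩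
  intro K _ φ hφ ι _ _ N hN x hx ν ν' hν hν'
  rw [Moment.difference_eq hφ hm hm', norm_mul, norm_inv, norm_pow, Complex.norm_natCast]
  have hNpos : (0 : ℝ) < N := by exact_mod_cast hN
  set S : Finset ((Fin (m + 1) → Fin N) × (Fin (m' + 1) → Fin N)) :=
    Finset.univ.filter (fun p => (Finset.univ.image p.1 ∪ Finset.univ.image p.2).card ≤ m + m' - 1)
    with hS
  have h1 : ∑ t : Fin (m + 1) → Fin N, ∑ t' : Fin (m' + 1) → Fin N,
      Moment.defect φ x ν ν' t t' = ∑ p ∈ S, Moment.defect φ x ν ν' p.1 p.2 := by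
    rw [← Fintype.sum_prod_type', hS, Finset.sum_filter_of_ne]
    intro p _ hp
    by_contra hcon
    apply hp
    apply Moment.defect_eq_zero hφ hx hm hm'
    omega
  have h0 : 0 ≤ (φ 1).re := by
    have h := norm_apply_pathW_le hφ hx hν hν' (m := 0) (m' := 0) (fun _ => ⟨0, hN⟩)
      (fun _ => ⟨0, hN⟩)
    exact (norm_nonneg _).trans h
  have h2 : ‖∑ p ∈ S, Moment.defect φ x ν ν' p.1 p.2‖ ≤ S.card * (3 * (φ 1).re) := by
    refine (norm_sum_le _ _).trans ?_
    rw [← nsmul_eq_mul]
    exact Finset.sum_le_card_nsmul _ _ _ fun p _ => Moment.norm_defect_le hφ hx hν hν' _ _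
  have h3 : (S.card : ℝ) ≤ (m + m' - 1 : ℕ) ^ (m + 1 + (m' + 1)) * (N : ℝ) ^ (m + m' - 1) := by
    exact_mod_cast Moment.card_pairs_le N m m' (m + m' - 1)
  rw [h1]
  have h4 : (N : ℝ) ^ (m + m') = N ^ (m + m' - 1) * N := by
    rw [← pow_succ]
    congr 1
    omega
  calc ((N : ℝ) ^ (m + m'))⁻¹ * ‖∑ p ∈ S, Moment.defect φ x ν ν' p.1 p.2‖ ≤
        ((N : ℝ) ^ (m + m'))⁻¹ * (((m + m' - 1 : ℕ) ^ (m + 1 + (m' + 1)) *
          (N : ℝ) ^ (m + m' - 1)) * (3 * (φ 1).re)) := by
        refine mul_le_mul_of_nonneg_left (h2.trans ?_) (by positivity)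
        exact mul_le_mul_of_nonneg_right h3 (by positivity)
    _ = _ := by
        rw [h4]
        field_simp

end Vale.Agent.P095
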