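import Mathlib

/-!
# P095 (B2a): polynomial approximation of the square root without constant term
-/

namespace Vale.Agent.P095

theorem exists_sqrt_poly (η : ℝ) (hη : 0 < η) : ∃ (M : ℕ) (p : ℕ → ℝ), ∀ t ∈ Set.Icc (0 : ℝ) 1,
    |∑ m ∈ Finset.Icc 1 M, p m * t ^ m - √t| ≤ η := by
  have hc : ContinuousOn (fun t : ℝ => √t) (Set.Icc 0 1) := Real.continuous_sqrt.continuousOn
  obtain ⟨q, hq⟩ := exists_polynomial_near_of_continuousOn 0 1 (fun t : ℝ => √t) hc (η / 2)
    (by positivity)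
  refine ⟨q.natDegree, q.coeff, fun t ht => ?_⟩
  have h0 := hq 0 ⟨le_rfl, zero_le_one⟩
  have h1 := hq t ht
  simp only [Real.sqrt_zero, sub_zero] at h0
  have he : ∑ m ∈ Finset.Icc 1 q.natDegree, q.coeff m * t ^ m = q.eval t - q.eval 0 := by
    rw [Polynomial.eval_eq_sum_range, ← Polynomial.coeff_zero_eq_eval_zero,
      Finset.sum_range_succ', pow_zero, mul_one, add_sub_cancel_right]
    rw [Finset.range_eq_Ico, Finset.sum_Ico_add' (fun m => q.coeff m * t ^ m) 0 q.natDegree 1]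
    rfl
  rw [he]
  have : q.eval t - q.eval 0 - √t = (q.eval t - √t) - q.eval 0 := by ring
  rw [this]
  calc |q.eval t - √t - q.eval 0| ≤ |q.eval t - √t| + |q.eval 0| := abs_sub _ _
    _ ≤ η := by linarith

end Vale.Agent.P095
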