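import Vale.Agent.P095.BlockDefs
import Vale.Agent.P095.SqrtPoly
import Vale.Agent.P095.Moment
import Vale.Agent.P095.MatEst

/-!
# P095 [B4]: the block lemma, assembled from the second moment and the matrix estimate
-/

open Filter Topology TopologicalSpace
open scoped BoundedContinuousFunction ComplexOrder

namespace Vale.Agent.P095

open Vale.Agent.P101

universe u v w

namespace BlockMain

variable {K : Type u} [CStarAlgebra K] {ι : Type} [Fintype ι] [DecidableEq ι]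

omit [DecidableEq ι] in
theorem apply_chaosY_mul (φ : K →ₗ[ℂ] ℂ) {N : ℕ} (M : ℕ) (p : ℕ → ℝ) (x : Fin N → ι → K)
    (ν ν' : ι → ℝ) :
    φ (chaosY M p ν x * chaosY M p ν' x) =
      ∑ m ∈ Finset.Icc 1 M, ∑ m' ∈ Finset.Icc 1 M, ((p m * p m' / 2 : ℝ) : ℂ) *
        (((N : ℂ) ^ (m + m'))⁻¹ * ∑ t : Fin (m + 1) ↪ Fin N, ∑ t' : Fin (m' + 1) ↪ Fin N,
          φ (pathW ν x t * pathW ν' x t')) := by
  have h2 : ((((√2 : ℝ)⁻¹ : ℝ) : ℂ)) * ((((√2 : ℝ)⁻¹ : ℝ) : ℂ)) = 1 / 2 := by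
    rw [← Complex.ofReal_mul, ← mul_inv, Real.mul_self_sqrt (by norm_num)]
    push_cast
    norm_num
  unfold chaosY
  rw [smul_mul_smul_comm, map_smul, h2, Finset.sum_mul_sum, map_sum, smul_eq_mul, Finset.mul_sum]
  refine Finset.sum_congr rfl fun m _ => ?_
  rw [map_sum, Finset.mul_sum]
  refine Finset.sum_congr rfl fun m' _ => ?_
  rw [smul_mul_smul_comm, map_smul, Finset.sum_mul_sum, map_sum, smul_eq_mul]
  simp only [map_sum]
  push_cast
  rw [pow_add, mul_inv]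
  ring

theorem abs_sub_quadQ_le (φ : K →ₗ[ℂ] ℂ) {N : ℕ} (M : ℕ) (p : ℕ → ℝ) (x : Fin N → ι → K)
    (ν ν' : ι → ℝ) (C : ℕ → ℕ → ℝ) (b : ℝ)
    (h : ∀ m ∈ Finset.Icc 1 M, ∀ m' ∈ Finset.Icc 1 M,
      ‖((N : ℂ) ^ (m + m'))⁻¹ * ∑ t : Fin (m + 1) ↪ Fin N, ∑ t' : Fin (m' + 1) ↪ Fin N,
        φ (pathW ν x t * pathW ν' x t')
      - 2 * trφ φ ((gramC x * diagD K ν) ^ m * (gramC x * diagD K ν') ^ m')‖
      ≤ C m m' * b) :
    |(φ (chaosY M p ν x * chaosY M p ν' x)).re - quadQ φ M p x ν ν'| ≤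
      (∑ m ∈ Finset.Icc 1 M, ∑ m' ∈ Finset.Icc 1 M, |p m * p m' / 2| * C m m') * b := by
  unfold quadQ
  rw [apply_chaosY_mul, ← Complex.sub_re]
  refine (Complex.abs_re_le_norm _).trans ?_
  rw [← Finset.sum_sub_distrib]
  refine (norm_sum_le _ _).trans ?_
  rw [Finset.sum_mul]
  refine Finset.sum_le_sum fun m hm => ?_
  rw [← Finset.sum_sub_distrib]
  refine (norm_sum_le _ _).trans ?_
  rw [Finset.sum_mul]
  refine Finset.sum_le_sum fun m' hm' => ?_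
  have e : ((p m * p m' / 2 : ℝ) : ℂ) *
        (((N : ℂ) ^ (m + m'))⁻¹ * ∑ t : Fin (m + 1) ↪ Fin N, ∑ t' : Fin (m' + 1) ↪ Fin N,
          φ (pathW ν x t * pathW ν' x t')) - ((p m * p m' : ℝ) : ℂ) *
    trφ φ ((gramC x * diagD K ν) ^ m * (gramC x * diagD K ν') ^ m') =
    ((p m * p m' / 2 : ℝ) : ℂ) * (((N : ℂ) ^ (m + m'))⁻¹ *
        ∑ t : Fin (m + 1) ↪ Fin N, ∑ t' : Fin (m' + 1) ↪ Fin N,
        φ (pathW ν x t * pathW ν' x t')
      - 2 * trφ φ ((gramC x * diagD K ν) ^ m * (gramC x * diagD K ν') ^ m')) := by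
    push_cast
    ring
  rw [e, norm_mul, Complex.norm_real, Real.norm_eq_abs, mul_assoc]
  exact mul_le_mul_of_nonneg_left (h m hm m' hm') (abs_nonneg _)

end BlockMain

theorem block_main (ι : Type) [Fintype ι] [DecidableEq ι] (κ : ℝ) (hκ : 0 < κ) :
    ∃ (N M : ℕ) (p : ℕ → ℝ), ∀ (K : Type u) [CStarAlgebra K] (φ : K →ₗ[ℂ] ℂ)
      (_ : IsPosTrace φ) (x : Fin N → ι → K) (_ : IsBlock φ x) (ν ν' : ι → ℝ) (_ : IsProb ν)
      (_ : IsProb ν'),
      |(φ (chaosY M p ν x * chaosY M p ν x)).re - (φ 1).re| ≤ κ * (φ 1).re ∧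
      (φ ((chaosY M p ν' x - chaosY M p ν x) * (chaosY M p ν' x - chaosY M p ν x))).re ≤
        (4 * ∑ g, |ν' g - ν g| + κ) * (φ 1).re := by
  classical
  set c : ℝ := (Fintype.card ι : ℝ) with hc
  have hc0 : 0 ≤ c := Nat.cast_nonneg _
  -- the tolerance `η`
  obtain ⟨η, hη0, hη1, hηκ⟩ : ∃ η : ℝ, 0 < η ∧ η ≤ 1 ∧ 8 * η * c ≤ κ / 2 := by
    refine ⟨min 1 (κ / (16 * (c + 1))), lt_min one_pos (by positivity), min_le_left _ _, ?_⟩
    have h1 : min 1 (κ / (16 * (c + 1))) ≤ κ / (16 * (c + 1)) := min_le_right _ _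
    have h2 : κ / (16 * (c + 1)) * (16 * (c + 1)) = κ := by
      field_simp
    nlinarith [mul_le_mul_of_nonneg_right h1 hc0, div_nonneg hκ.le (by positivity : (0:ℝ) ≤ 16 * (c + 1))]
  obtain ⟨M, p, hp⟩ := exists_sqrt_poly η hη0
  -- the constants of the second moment
  have hC : ∀ m m' : ℕ, ∃ C : ℝ, 1 ≤ m → 1 ≤ m' → ∀ (K : Type u)
    [CStarAlgebra K] (φ : K →ₗ[ℂ] ℂ) (_ : IsPosTrace φ) (ι : Type) [Fintype ι] [DecidableEq ι]
    (N : ℕ) (_ : 1 ≤ N) (x : Fin N → ι → K) (_ : IsBlock φ x) (ν ν' : ι → ℝ)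
    (_ : IsProb ν) (_ : IsProb ν'),
    ‖((N : ℂ) ^ (m + m'))⁻¹ * ∑ t : Fin (m + 1) ↪ Fin N, ∑ t' : Fin (m' + 1) ↪ Fin N,
        φ (pathW ν x t * pathW ν' x t')
      - 2 * trφ φ ((gramC x * diagD K ν) ^ m * (gramC x * diagD K ν') ^ m')‖
      ≤ C / N * (φ 1).re := by
    intro m m'
    by_cases hm : 1 ≤ m
    · by_cases hm' : 1 ≤ m'
      · obtain ⟨C, h⟩ := second_moment.{u} m m' hm hm'
        exact ⟨C, fun _ _ => h⟩
      · exact ⟨0, fun _ h => absurd h hm'⟩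
    · exact ⟨0, fun h => absurd h hm⟩
  choose C hC using hC
  set E₀ : ℝ := ∑ m ∈ Finset.Icc 1 M, ∑ m' ∈ Finset.Icc 1 M, |p m * p m' / 2| * |C m m'| with hE₀
  have hE₀0 : 0 ≤ E₀ := Finset.sum_nonneg fun _ _ => Finset.sum_nonneg fun _ _ => by positivity
  obtain ⟨N, hN⟩ := exists_nat_gt (8 * E₀ / κ)
  have hN1 : 1 ≤ N := by
    rcases Nat.eq_zero_or_pos N with h | h
    · subst h
      exfalso
      have : (0 : ℝ) ≤ 8 * E₀ / κ := by positivity
      simp at hN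
      linarith
    · exact h
  have hNpos : (0 : ℝ) < N := by exact_mod_cast hN1
  have hEN : E₀ * (1 / N) ≤ κ / 8 := by
    rw [div_lt_iff₀ hκ] at hN
    rw [mul_one_div, div_le_iff₀ hNpos]
    nlinarith
  refine ⟨N, M, p, ?_⟩
  intro K _ φ hφ x hx ν ν' hν hν'
  have hφ1 : 0 ≤ (φ 1).re := by
    have := hφ.nonneg 1
    rw [star_one, one_mul] at this
    exact (Complex.le_def.1 this).1
  have key : ∀ μ μ' : ι → ℝ, IsProb μ → IsProb μ' →
      |(φ (chaosY M p μ x * chaosY M p μ' x)).re - quadQ φ M p x μ μ'| ≤ κ / 8 * (φ 1).re := by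
    intro μ μ' hμ hμ'
    refine (BlockMain.abs_sub_quadQ_le φ M p x μ μ' (fun m m' => |C m m'| * (1 / N))
      (φ 1).re ?_).trans ?_
    · intro m hm m' hm'
      refine (hC m m' (Finset.mem_Icc.1 hm).1 (Finset.mem_Icc.1 hm').1 K φ hφ ι N hN1 x hx μ μ'
        hμ hμ').trans ?_
      refine mul_le_mul_of_nonneg_right ?_ hφ1
      rw [div_eq_mul_one_div]
      exact mul_le_mul_of_nonneg_right (le_abs_self _) (by positivity)
    · refine mul_le_mul_of_nonneg_right ?_ hφ1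
      refine le_trans (le_of_eq ?_) hEN
      rw [hE₀, Finset.sum_mul]
      refine Finset.sum_congr rfl fun m _ => ?_
      rw [Finset.sum_mul]
      refine Finset.sum_congr rfl fun m' _ => ?_
      ring
  have hq := quadQ_estimate φ hφ hN1 M p η hη0 hη1 hp x hx ν ν' hν hν'
  rw [← hc] at hq
  constructor
  · have h1 := abs_le.1 (key ν ν hν hν)
    have h2 := abs_le.1 hq.1
    rw [abs_le]
    have h3 : 3 * η * c * (φ 1).re ≤ κ / 2 * (φ 1).re := by
      refine mul_le_mul_of_nonneg_right ?_ hφ1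
      nlinarith [mul_nonneg hη0.le hc0]
    constructor <;> nlinarith [h1.1, h1.2, h2.1, h2.2]
  · have h11 := abs_le.1 (key ν' ν' hν' hν')
    have h12 := abs_le.1 (key ν' ν hν' hν)
    have h21 := abs_le.1 (key ν ν' hν hν')
    have h22 := abs_le.1 (key ν ν hν hν)
    have h3 : 8 * η ^ 2 * c * (φ 1).re ≤ κ / 2 * (φ 1).re := by
      refine mul_le_mul_of_nonneg_right ?_ hφ1
      have : η ^ 2 ≤ η := by nlinarith
      nlinarith [mul_nonneg (sub_nonneg.2 this) hc0]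
    have e : φ ((chaosY M p ν' x - chaosY M p ν x) * (chaosY M p ν' x - chaosY M p ν x)) =
        φ (chaosY M p ν' x * chaosY M p ν' x) - φ (chaosY M p ν' x * chaosY M p ν x)
        - φ (chaosY M p ν x * chaosY M p ν' x) + φ (chaosY M p ν x * chaosY M p ν x) := by
      rw [← map_sub, ← map_sub, ← map_add]
      congr 1
      noncomm_ring
    rw [e, Complex.add_re, Complex.sub_re, Complex.sub_re]
    have hq2 := hq.2
    nlinarith [h11.2, h12.1, h21.1, h22.2, hq2, h3]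

end Vale.Agent.P095
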