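import Vale.Agent.P095.NucDim

/-!
# P095 [F2a]: splitting a positive matrix over a full matrix algebra (linear algebra)
-/

open Filter Topology TopologicalSpace
open scoped BoundedContinuousFunction ComplexOrder Matrix

namespace Vale.Agent.P095

open Vale.Agent.P101

namespace MatSplit

open Matrix

/-- spectral theorem in coordinates -/
theorem spec {L : Type*} [Fintype L] [DecidableEq L] (B : Matrix L L ℂ) :
    ∃ (lam : L → ℝ) (U : Matrix L L ℂ), (∀ s, 0 ≤ lam s) ∧
      (∀ x y, (Bᴴ * B) x y = ∑ s, (lam s : ℂ) * (U x s * star (U y s))) ∧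
      (∀ x y, ∑ s, U x s * star (U y s) = if x = y then 1 else 0) ∧
      (Bᴴ * B).trace = ((∑ s, lam s : ℝ) : ℂ) := by
  have hP : (Bᴴ * B).PosSemidef := posSemidef_conjTranspose_mul_self B
  have hH : (Bᴴ * B).IsHermitian := hP.isHermitian
  refine ⟨hH.eigenvalues, (hH.eigenvectorUnitary : Matrix L L ℂ), hP.eigenvalues_nonneg, ?_, ?_, ?_⟩
  · intro x y
    have h1 := hH.spectral_theorem
    rw [Unitary.conjStarAlgAut_apply] at h1
    have h2 := congrFun (congrFun h1 x) y
    rw [h2, Matrix.mul_apply]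
    refine Finset.sum_congr rfl fun s _ => ?_
    rw [Matrix.mul_diagonal, Matrix.star_apply]
    simp only [Function.comp_apply]
    have h3 : ((RCLike.ofReal (hH.eigenvalues s) : ℂ)) = ((hH.eigenvalues s : ℝ) : ℂ) := rfl
    rw [h3]
    ring
  · intro x y
    have h1 : (hH.eigenvectorUnitary : Matrix L L ℂ) * star (hH.eigenvectorUnitary : Matrix L L ℂ)
        = 1 := Unitary.mul_star_self_of_mem hH.eigenvectorUnitary.2
    have h2 := congrFun (congrFun h1 x) y
    rw [Matrix.mul_apply, Matrix.one_apply] at h2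
    rw [← h2]
    rfl
  · rw [hH.trace_eq_sum_eigenvalues]
    push_cast
    rfl

/-- flattening -/
def fl {k n : ℕ} (Q : Matrix (Fin k) (Fin k) (Matrix (Fin n) (Fin n) ℂ)) :
    Matrix (Fin k × Fin n) (Fin k × Fin n) ℂ := fun x y => Q x.1 y.1 x.2 y.2

/-- the inverse of the flattening -/
def un {k n : ℕ} (P : Matrix (Fin k × Fin n) (Fin k × Fin n) ℂ) :
    Matrix (Fin k) (Fin k) (Matrix (Fin n) (Fin n) ℂ) := fun i i' a a' => P (i, a) (i', a')

theorem fl_gram {k n : ℕ} (Y : Matrix (Fin k) (Fin k) (Matrix (Fin n) (Fin n) ℂ)) :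
    fl (star Y * Y) = (fl Y)ᴴ * fl Y := by
  ext x y
  rw [Matrix.mul_apply, Fintype.sum_prod_type]
  show ((star Y * Y) x.1 y.1) x.2 y.2 = _
  rw [Matrix.mul_apply, Matrix.sum_apply]
  refine Finset.sum_congr rfl fun i _ => ?_
  rw [Matrix.mul_apply]
  rfl

theorem un_gram {k n : ℕ} (W : Matrix (Fin k × Fin n) (Fin k × Fin n) ℂ) :
    un (Wᴴ * W) = star (un W) * un W := by
  ext i i' a a'
  rw [Matrix.mul_apply, Matrix.sum_apply]
  show (Wᴴ * W) (i, a) (i', a') = _
  rw [Matrix.mul_apply, Fintype.sum_prod_type]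
  refine Finset.sum_congr rfl fun j _ => ?_
  rw [Matrix.mul_apply]
  rfl

theorem isPos_of_entry {k n : ℕ} (M : Matrix (Fin k) (Fin k) (Matrix (Fin n) (Fin n) ℂ))
    (W : Matrix (Fin k × Fin n) (Fin k × Fin n) ℂ)
    (h : ∀ i i' a a', M i i' a a' = (Wᴴ * W) (i, a) (i', a')) : IsPos M := by
  refine ⟨un W, ?_⟩
  rw [← un_gram]
  ext i i' a a'
  exact h i i' a a'

/-- weighted conjugate vectors -/
noncomputable def wm {L : Type*} (U : Matrix L L ℂ) (mu : L → ℝ) : Matrix L L ℂ :=
  fun s x => ((Real.sqrt (mu s) : ℝ) : ℂ) * star (U x s)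

/-- gram matrix of weighted conjugate vectors -/
theorem gram_entry {L : Type*} [Fintype L] (U : Matrix L L ℂ) (mu : L → ℝ)
    (hmu : ∀ s, 0 ≤ mu s) (x y : L) :
    ((wm U mu)ᴴ * wm U mu) x y = ∑ s, (mu s : ℂ) * (U x s * star (U y s)) := by
  rw [Matrix.mul_apply]
  refine Finset.sum_congr rfl fun s _ => ?_
  rw [Matrix.conjTranspose_apply]
  show star (((Real.sqrt (mu s) : ℝ) : ℂ) * star (U x s)) *
    (((Real.sqrt (mu s) : ℝ) : ℂ) * star (U y s)) = _
  have h1 : (((Real.sqrt (mu s) : ℝ) : ℂ)) * ((Real.sqrt (mu s) : ℝ) : ℂ) = (mu s : ℂ) := by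
    rw [← Complex.ofReal_mul, Real.mul_self_sqrt (hmu s)]
  rw [star_mul', star_star]
  have h2 : star (((Real.sqrt (mu s) : ℝ) : ℂ)) = ((Real.sqrt (mu s) : ℝ) : ℂ) :=
    Complex.conj_ofReal _
  rw [h2, ← h1]
  ring

end MatSplit

open MatSplit in
theorem exists_matrix_split {n k N : ℕ} (hN : 0 < N)
    (Q : Matrix (Fin k) (Fin k) (Matrix (Fin n) (Fin n) ℂ)) (hQ : IsPos Q) (ε : ℝ) (hε : 0 < ε)
    (htr : (N : ℝ) * (∑ i, (Q i i).trace).re ≤ ε * n) :
    ∃ (T : Fin N → Fin k → Matrix (Fin n) (Fin n) ℂ)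
      (Q' : Matrix (Fin k) (Fin k) (Matrix (Fin n) (Fin n) ℂ)), IsPos (Q - Q') ∧
      IsPos (((ε : ℝ) : ℂ) • (1 : Matrix (Fin k) (Fin k) (Matrix (Fin n) (Fin n) ℂ)) - (Q - Q')) ∧
      ∀ j j' i i', star (T j i) * T j' i' = if j = j' then Q' i i' else 0 := by
  classical
  have _ := hN
  obtain ⟨Y, rfl⟩ := hQ
  obtain ⟨lam, U, hlam, hP, hU, htrP⟩ := spec (fl Y)
  have hent : ∀ i i' a a', (star Y * Y) i i' a a' =
      ∑ s, (lam s : ℂ) * (U (i, a) s * star (U (i', a') s)) := by
    intro i i' a a'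
    rw [← hP, ← fl_gram]
    rfl
  have htrQ : ∑ i, ((star Y * Y) i i).trace = ((∑ s, lam s : ℝ) : ℂ) := by
    rw [← htrP, ← fl_gram]
    unfold Matrix.trace
    rw [Fintype.sum_prod_type]
    rfl
  rw [htrQ, Complex.ofReal_re] at htr
  -- number of large eigenvalues
  have hcard : Fintype.card ({s : Fin k × Fin n // ε < lam s} × Fin N) ≤ Fintype.card (Fin n) := by
    rw [Fintype.card_prod, Fintype.card_fin, Fintype.card_fin]
    have h1 : (Fintype.card {s : Fin k × Fin n // ε < lam s} : ℝ) * ε ≤ ∑ s, lam s := by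
      have h2 : ∑ s : {s : Fin k × Fin n // ε < lam s}, lam s.1 ≤ ∑ s, lam s := by
        rw [← Fintype.sum_subtype_add_sum_subtype (fun s => ε < lam s) lam]
        have h7 : 0 ≤ ∑ s : {s : Fin k × Fin n // ¬ ε < lam s}, lam s.1 :=
          Finset.sum_nonneg fun s _ => hlam s.1
        linarith
      have h3 : ∑ s : {s : Fin k × Fin n // ε < lam s}, ε ≤
          ∑ s : {s : Fin k × Fin n // ε < lam s}, lam s.1 :=
        Finset.sum_le_sum fun s _ => s.2.le
      rw [Finset.sum_const, nsmul_eq_mul, Finset.card_univ] at h3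
      exact h3.trans h2
    have h4 : ((Fintype.card {s : Fin k × Fin n // ε < lam s} * N : ℕ) : ℝ) ≤ n := by
      push_cast
      have h5 : (N : ℝ) * ((Fintype.card {s : Fin k × Fin n // ε < lam s} : ℝ) * ε) ≤ ε * n :=
        (mul_le_mul_of_nonneg_left h1 (Nat.cast_nonneg N)).trans htr
      have h6 : ((Fintype.card {s : Fin k × Fin n // ε < lam s} : ℝ) * N) * ε ≤ n * ε := by
        linarith
      exact le_of_mul_le_mul_right h6 hε
    exact_mod_cast h4
  obtain ⟨e⟩ := Function.Embedding.nonempty_of_card_le hcard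
  -- the large part
  let Z : Fin k → Matrix {s : Fin k × Fin n // ε < lam s} (Fin n) ℂ := fun i s a =>
    ((Real.sqrt (lam s.1) : ℝ) : ℂ) * star (U (i, a) s.1)
  let E : Fin N → Matrix (Fin n) {s : Fin k × Fin n // ε < lam s} ℂ := fun j b s =>
    if e (s, j) = b then 1 else 0
  let mu : Fin k × Fin n → ℝ := fun s => if ε < lam s then 0 else lam s
  have hmu0 : ∀ s, 0 ≤ mu s := by
    intro s
    show 0 ≤ if ε < lam s then 0 else lam s
    split_ifs
    · exact le_rfl
    · exact hlam s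
  have hmu1 : ∀ s, 0 ≤ ε - mu s := by
    intro s
    show 0 ≤ ε - if ε < lam s then 0 else lam s
    split_ifs with h
    · linarith
    · push Not at h; linarith
  have hZ : ∀ i i' a a', ((Z i).conjTranspose * Z i') a a' =
      ∑ s : {s : Fin k × Fin n // ε < lam s},
        (lam s.1 : ℂ) * (U (i, a) s.1 * star (U (i', a') s.1)) := by
    intro i i' a a'
    rw [Matrix.mul_apply]
    refine Finset.sum_congr rfl fun s _ => ?_
    rw [Matrix.conjTranspose_apply]
    show star (((Real.sqrt (lam s.1) : ℝ) : ℂ) * star (U (i, a) s.1)) *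
      (((Real.sqrt (lam s.1) : ℝ) : ℂ) * star (U (i', a') s.1)) = _
    have h1 : (((Real.sqrt (lam s.1) : ℝ) : ℂ)) * ((Real.sqrt (lam s.1) : ℝ) : ℂ) =
        (lam s.1 : ℂ) := by
      rw [← Complex.ofReal_mul, Real.mul_self_sqrt (hlam s.1)]
    rw [star_mul', star_star]
    have h2 : star (((Real.sqrt (lam s.1) : ℝ) : ℂ)) = ((Real.sqrt (lam s.1) : ℝ) : ℂ) :=
      Complex.conj_ofReal _
    rw [h2, ← h1]
    ring
  have hdiff : ∀ i i' a a', (star Y * Y) i i' a a' - ((Z i).conjTranspose * Z i') a a' =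
      ∑ s, (mu s : ℂ) * (U (i, a) s * star (U (i', a') s)) := by
    intro i i' a a'
    rw [hent, hZ, ← Fintype.sum_subtype_add_sum_subtype (fun s => ε < lam s)
      (fun s => (lam s : ℂ) * (U (i, a) s * star (U (i', a') s))),
      ← Fintype.sum_subtype_add_sum_subtype (fun s => ε < lam s)
      (fun s => (mu s : ℂ) * (U (i, a) s * star (U (i', a') s)))]
    have h1 : ∑ s : {s // ε < lam s}, (mu s.1 : ℂ) * (U (i, a) s.1 * star (U (i', a') s.1)) = 0 := by
      refine Finset.sum_eq_zero fun s _ => ?_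
      have h2 : mu s.1 = 0 := if_pos s.2
      rw [h2]; simp
    have h3 : ∑ s : {s // ¬ ε < lam s}, (mu s.1 : ℂ) * (U (i, a) s.1 * star (U (i', a') s.1)) =
        ∑ s : {s // ¬ ε < lam s}, (lam s.1 : ℂ) * (U (i, a) s.1 * star (U (i', a') s.1)) := by
      refine Finset.sum_congr rfl fun s _ => ?_
      have h2 : mu s.1 = lam s.1 := if_neg s.2
      rw [h2]
    rw [h1, h3]
    ring
  refine ⟨fun j i => E j * Z i, fun i i' => (Z i).conjTranspose * Z i', ?_, ?_, ?_⟩
  · refine isPos_of_entry _ (wm U mu) ?_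
    intro i i' a a'
    rw [gram_entry U mu hmu0]
    exact hdiff i i' a a'
  · refine isPos_of_entry _ (wm U (fun s => ε - mu s)) ?_
    intro i i' a a'
    rw [gram_entry U (fun s => ε - mu s) hmu1]
    have h1 : (((ε : ℝ) : ℂ) • (1 : Matrix (Fin k) (Fin k) (Matrix (Fin n) (Fin n) ℂ))) i i' a a' =
        (ε : ℂ) * ∑ s, U (i, a) s * star (U (i', a') s) := by
      rw [hU]
      show (ε : ℂ) • ((1 : Matrix (Fin k) (Fin k) (Matrix (Fin n) (Fin n) ℂ)) i i' a a') = _
      rw [smul_eq_mul, Matrix.one_apply]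
      by_cases hi : i = i'
      · subst hi
        rw [if_pos rfl, Matrix.one_apply]
        by_cases ha : a = a'
        · subst ha; simp
        · rw [if_neg ha, if_neg]
          intro h; exact ha (Prod.mk.inj h).2
      · rw [if_neg hi, if_neg]
        · rfl
        · intro h; exact hi (Prod.mk.inj h).1
    show (((ε : ℝ) : ℂ) • (1 : Matrix (Fin k) (Fin k) (Matrix (Fin n) (Fin n) ℂ))) i i' a a' -
      ((star Y * Y) i i' a a' - ((Z i).conjTranspose * Z i') a a') = _
    rw [h1, hdiff, Finset.mul_sum, ← Finset.sum_sub_distrib]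
    refine Finset.sum_congr rfl fun s _ => ?_
    push_cast
    ring
  · intro j j' i i'
    have hE : (E j).conjTranspose * E j' = if j = j' then 1 else 0 := by
      ext s s'
      rw [Matrix.mul_apply]
      have h1 : ∀ b, (E j).conjTranspose s b * E j' b s' =
          if e (s, j) = b then (if e (s', j') = b then 1 else 0) else 0 := by
        intro b
        rw [Matrix.conjTranspose_apply]
        show star (if e (s, j) = b then (1 : ℂ) else 0) * (if e (s', j') = b then 1 else 0) = _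
        by_cases h : e (s, j) = b
        · rw [if_pos h, if_pos h, star_one, one_mul]
        · rw [if_neg h, if_neg h, star_zero, zero_mul]
      rw [Finset.sum_congr rfl fun b _ => h1 b, Finset.sum_ite_eq, if_pos (Finset.mem_univ _)]
      by_cases hj : j = j'
      · subst hj
        rw [if_pos rfl, Matrix.one_apply]
        by_cases hs : s = s'
        · subst hs; simp
        · rw [if_neg hs, if_neg]
          intro h
          exact hs (Prod.mk.inj (e.injective h)).1.symm
      · rw [if_neg hj, if_neg]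
        · rfl
        · intro h
          exact hj (Prod.mk.inj (e.injective h)).2.symm
    show (E j * Z i).conjTranspose * (E j' * Z i') = _
    rw [Matrix.conjTranspose_mul, Matrix.mul_assoc, ← Matrix.mul_assoc (E j).conjTranspose, hE]
    by_cases hj : j = j'
    · rw [if_pos hj, if_pos hj, Matrix.one_mul]
    · rw [if_neg hj, if_neg hj, Matrix.zero_mul, Matrix.mul_zero]

end Vale.Agent.P095
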