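import Vale.Agent.P095.NucDim
import Vale.Agent.P095.MatSplit

/-!
# P095 [F2b]: blockwise splitting of positive matrices over finite-dimensional algebras
-/

open Filter Topology TopologicalSpace
open scoped BoundedContinuousFunction ComplexOrder

namespace Vale.Agent.P095

open Vale.Agent.P101


namespace BlockSplit

/-- block `b` of a matrix over a product -/
def blk {m k : ℕ} {n : Fin m → ℕ}
    (Q : Matrix (Fin k) (Fin k) (∀ b, Matrix (Fin (n b)) (Fin (n b)) ℂ)) (b : Fin m) :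
    Matrix (Fin k) (Fin k) (Matrix (Fin (n b)) (Fin (n b)) ℂ) := fun i i' => Q i i' b

/-- glue blocks -/
def glue {m k : ℕ} {n : Fin m → ℕ}
    (Q : ∀ b, Matrix (Fin k) (Fin k) (Matrix (Fin (n b)) (Fin (n b)) ℂ)) :
    Matrix (Fin k) (Fin k) (∀ b, Matrix (Fin (n b)) (Fin (n b)) ℂ) := fun i i' b => Q b i i'

theorem glue_blk {m k : ℕ} {n : Fin m → ℕ}
    (Q : Matrix (Fin k) (Fin k) (∀ b, Matrix (Fin (n b)) (Fin (n b)) ℂ)) :
    glue (fun b => blk Q b) = Q := rfl

theorem blk_mul {m k : ℕ} {n : Fin m → ℕ}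
    (Q R : Matrix (Fin k) (Fin k) (∀ b, Matrix (Fin (n b)) (Fin (n b)) ℂ)) (b : Fin m) :
    blk (Q * R) b = blk Q b * blk R b := by
  ext i i' : 2
  simp only [blk, Matrix.mul_apply, Finset.sum_apply, Pi.mul_apply]

theorem blk_star {m k : ℕ} {n : Fin m → ℕ}
    (Q : Matrix (Fin k) (Fin k) (∀ b, Matrix (Fin (n b)) (Fin (n b)) ℂ)) (b : Fin m) :
    blk (star Q) b = star (blk Q b) := by
  ext i i' : 2
  rfl

theorem isPos_blk {m k : ℕ} {n : Fin m → ℕ}
    {Q : Matrix (Fin k) (Fin k) (∀ b, Matrix (Fin (n b)) (Fin (n b)) ℂ)} (h : IsPos Q)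
    (b : Fin m) : IsPos (blk Q b) := by
  obtain ⟨Y, rfl⟩ := h
  exact ⟨blk Y b, by rw [blk_mul, blk_star]⟩

theorem isPos_of_blk {m k : ℕ} {n : Fin m → ℕ}
    {Q : Matrix (Fin k) (Fin k) (∀ b, Matrix (Fin (n b)) (Fin (n b)) ℂ)}
    (h : ∀ b, IsPos (blk Q b)) : IsPos Q := by
  choose Y hY using h
  refine ⟨glue Y, ?_⟩
  have key : ∀ b, blk Q b = blk (star (glue Y) * glue Y) b := by
    intro b
    rw [blk_mul, blk_star, hY b]
    rfl
  calc Q = glue (fun b => blk Q b) := rfl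
    _ = glue (fun b => blk (star (glue Y) * glue Y) b) := by
        congr 1
        funext b
        exact key b
    _ = _ := rfl

end BlockSplit

open BlockSplit in
theorem exists_block_split {m k N : ℕ} {n : Fin m → ℕ} (hN : 0 < N)
    (Q : Matrix (Fin k) (Fin k) (∀ b, Matrix (Fin (n b)) (Fin (n b)) ℂ)) (hQ : IsPos Q)
    (κ ε : ℝ) (hε : 0 < ε) (hκ : (N : ℝ) * κ ≤ ε)
    (hsum : IsPos (((κ : ℝ) : ℂ) • (1 : ∀ b, Matrix (Fin (n b)) (Fin (n b)) ℂ) - ∑ i, Q i i)) :
    ∃ (T : Fin N → Fin k → ∀ b, Matrix (Fin (n b)) (Fin (n b)) ℂ)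
      (Q' : Matrix (Fin k) (Fin k) (∀ b, Matrix (Fin (n b)) (Fin (n b)) ℂ)), IsPos (Q - Q') ∧
      IsPos (((ε : ℝ) : ℂ) • (1 : Matrix (Fin k) (Fin k) (∀ b, Matrix (Fin (n b)) (Fin (n b)) ℂ)) -
        (Q - Q')) ∧
      ∀ j j' i i', star (T j i) * T j' i' = if j = j' then Q' i i' else 0 := by
  have key : ∀ b, ∃ (T : Fin N → Fin k → Matrix (Fin (n b)) (Fin (n b)) ℂ)
      (Q' : Matrix (Fin k) (Fin k) (Matrix (Fin (n b)) (Fin (n b)) ℂ)), IsPos (blk Q b - Q') ∧
      IsPos (((ε : ℝ) : ℂ) • (1 : Matrix (Fin k) (Fin k) (Matrix (Fin (n b)) (Fin (n b)) ℂ)) -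
        (blk Q b - Q')) ∧
      ∀ j j' i i', star (T j i) * T j' i' = if j = j' then Q' i i' else 0 := by
    intro b
    apply exists_matrix_split hN (blk Q b) (isPos_blk hQ b) ε hε
    obtain ⟨y, hy⟩ := hsum
    have hb := congrFun hy b
    have htr := congrArg Matrix.trace hb
    have hnn : 0 ≤ (Matrix.trace (star (y b) * y b)).re := by
      rw [Matrix.trace]
      simp only [Matrix.diag_apply, Matrix.mul_apply, Matrix.star_apply, Complex.re_sum]
      apply Finset.sum_nonneg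
      intro i _
      apply Finset.sum_nonneg
      intro j _
      rw [Complex.star_def, mul_comm, Complex.mul_conj, Complex.ofReal_re]
      exact Complex.normSq_nonneg _
    have e1 : (((κ : ℝ) : ℂ) • (1 : ∀ b, Matrix (Fin (n b)) (Fin (n b)) ℂ) - ∑ i, Q i i) b
        = ((κ : ℝ) : ℂ) • (1 : Matrix (Fin (n b)) (Fin (n b)) ℂ) - ∑ i, Q i i b := by
      rw [Pi.sub_apply, Pi.smul_apply, Pi.one_apply, Finset.sum_apply]
    rw [e1, Matrix.trace_sub, Matrix.trace_smul, Matrix.trace_one, Matrix.trace_sum] at htr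
    have h2 := congrArg Complex.re htr
    have h3 : (star y * y) b = star (y b) * y b := rfl
    rw [h3] at h2
    rw [← h2, Complex.sub_re, smul_eq_mul, Complex.re_ofReal_mul, Fintype.card_fin,
      Complex.natCast_re] at hnn
    have h4 : (∑ i, (blk Q b i i).trace).re ≤ κ * n b := by
      change (∑ i, (Q i i b).trace).re ≤ κ * n b
      linarith
    have hN' : (0 : ℝ) ≤ N := by positivity
    calc (N : ℝ) * (∑ i, (blk Q b i i).trace).re ≤ N * (κ * n b) :=
          mul_le_mul_of_nonneg_left h4 hN'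
      _ = N * κ * n b := by ring
      _ ≤ ε * n b := mul_le_mul_of_nonneg_right hκ (by positivity)
  choose T Q' h1 h2 h3 using key
  refine ⟨fun j i b => T b j i, glue Q', ?_, ?_, ?_⟩
  · apply isPos_of_blk
    intro b
    exact h1 b
  · apply isPos_of_blk
    intro b
    have : blk (((ε : ℝ) : ℂ) • (1 : Matrix (Fin k) (Fin k) (∀ b, Matrix (Fin (n b)) (Fin (n b)) ℂ))
        - (Q - glue Q')) b = ((ε : ℝ) : ℂ) • (1 : Matrix (Fin k) (Fin k)
          (Matrix (Fin (n b)) (Fin (n b)) ℂ)) - (blk Q b - Q' b) := by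
      ext i i' : 2
      simp only [blk, glue, Matrix.sub_apply, Matrix.smul_apply, Pi.sub_apply, Pi.smul_apply,
        Matrix.one_apply]
      split_ifs <;> rfl
    rw [this]
    exact h2 b
  · intro j j' i i'
    funext b
    change star (T b j i) * T b j' i' = _
    rw [h3 b]
    split_ifs <;> rfl

end Vale.Agent.P095
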