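import Vale.Agent.P095.NDefs

/-!
# P095, T5, row E3c: orthogonal positive elements from moved or nonscalar elements
-/

open Filter Topology TopologicalSpace
open scoped ComplexOrder

namespace Vale.Agent.P095

namespace Bumps

/-- the triangular bump at `p` of radius `r` -/
noncomputable def bump (p r : ℝ) (x : ℝ) : ℝ := max 0 (1 - |x - p| / r)

theorem bump_continuous (p r : ℝ) : Continuous (bump p r) := by
  unfold bump
  fun_prop

theorem bump_nonneg (p r x : ℝ) : 0 ≤ bump p r x := le_max_left _ _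

theorem bump_le_one (p r x : ℝ) (hr : 0 < r) : bump p r x ≤ 1 := by
  unfold bump
  refine max_le zero_le_one ?_
  have : 0 ≤ |x - p| / r := by positivity
  linarith

theorem bump_self (p r : ℝ) : bump p r p = 1 := by
  simp [bump]

theorem bump_mul_bump {p q r : ℝ} (hr : 0 < r) (h : 2 * r ≤ |p - q|) (x : ℝ) :
    bump p r x * bump q r x = 0 := by
  unfold bump
  by_cases h1 : r ≤ |x - p|
  · have : 1 ≤ |x - p| / r := (one_le_div hr).2 h1
    rw [max_eq_left (by linarith), zero_mul]
  · have h2 : r ≤ |x - q| := by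
      have h3 : |p - q| ≤ |x - p| + |x - q| := by
        have := abs_sub_le p x q
        rw [abs_sub_comm p x] at this
        exact this
      push Not at h1
      linarith
    have : 1 ≤ |x - q| / r := (one_le_div hr).2 h2
    rw [max_eq_left (a := (0 : ℝ)) (b := 1 - |x - q| / r) (by linarith), mul_zero]

theorem isPos_mul_self {B : Type*} [CStarAlgebra B] {y : B} (hy : IsSelfAdjoint y) :
    IsPos (y * y) := ⟨y, by rw [hy.star_eq]⟩

theorem norm_mul_self_eq {B : Type*} [CStarAlgebra B] {y : B} (hy : IsSelfAdjoint y) :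
    ‖y * y‖ = ‖y‖ * ‖y‖ := by
  have := CStarRing.norm_star_mul_self (x := y)
  rwa [hy.star_eq] at this

theorem equiv_continuous {B : Type*} [CStarAlgebra B] (f : B ≃⋆ₐ[ℂ] B) : Continuous f := by
  exact (StarAlgEquiv.isometry f).continuous

theorem map_cfc_real {B : Type*} [CStarAlgebra B] (f : B ≃⋆ₐ[ℂ] B) (k : ℝ → ℝ)
    (hk : Continuous k) (a : B) (ha : IsSelfAdjoint a) : f (cfc k a) = cfc k (f a) := by
  have hfa : IsSelfAdjoint (f a) := ha.map f
  exact StarAlgHomClass.map_cfc (R := ℝ) (S := ℂ) f k a hk.continuousOn (equiv_continuous f) ha hfa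

end Bumps

open Bumps in
/-- a fixed nonscalar selfadjoint element has two orthogonal positive functions of norm one -/
theorem exists_orth_pair {B : Type*} [CStarAlgebra B] (s : B) (hs : IsSelfAdjoint s)
    (hns : ∀ c : ℂ, s ≠ algebraMap ℂ B c) :
    ∃ D D' : B, IsPos D ∧ IsPos D' ∧ ‖D‖ = 1 ∧ ‖D'‖ = 1 ∧ D * D' = 0 ∧
      ∀ f : B ≃⋆ₐ[ℂ] B, f s = s → f D = D ∧ f D' = D' := by
  rcases subsingleton_or_nontrivial B with hB | hB
  · exact absurd (Subsingleton.elim _ _) (hns 0)
  obtain ⟨s0, hs0⟩ : (spectrum ℝ s).Nonempty := by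
    exact ContinuousFunctionalCalculus.spectrum_nonempty (R := ℝ) s hs
  obtain ⟨s1, hs1, hne⟩ : ∃ s1 ∈ spectrum ℝ s, s1 ≠ s0 := by
    by_contra hcon
    push Not at hcon
    apply hns (s0 : ℂ)
    have h1 : s = cfc (fun x : ℝ => x) s := (cfc_id' ℝ s hs).symm
    have h2 : cfc (fun x : ℝ => x) s = cfc (fun _ : ℝ => s0) s := cfc_congr fun x hx => hcon x hx
    rw [h2, cfc_const s0 s hs] at h1
    rw [h1]
    simp [Algebra.algebraMap_eq_smul_one]
  set r : ℝ := |s0 - s1| / 2 with hr
  have hr0 : 0 < r := by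
    have : 0 < |s0 - s1| := abs_pos.2 (sub_ne_zero.2 (Ne.symm hne))
    positivity
  have h2r : 2 * r ≤ |s0 - s1| := by rw [hr]; linarith
  have key : ∀ p ∈ spectrum ℝ s, IsSelfAdjoint (cfc (bump p r) s) ∧ ‖cfc (bump p r) s‖ = 1 := by
    intro p hp
    refine ⟨cfc_predicate _ _, le_antisymm ?_ ?_⟩
    · refine norm_cfc_le zero_le_one fun x _ => ?_
      rw [Real.norm_of_nonneg (bump_nonneg _ _ _)]
      exact bump_le_one _ _ _ hr0
    · have := norm_apply_le_norm_cfc (bump p r) s hp (bump_continuous p r).continuousOn hs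
      rwa [bump_self, norm_one] at this
  obtain ⟨hy, hyn⟩ := key s0 hs0
  obtain ⟨hz, hzn⟩ := key s1 hs1
  have hyz : cfc (bump s0 r) s * cfc (bump s1 r) s = 0 := by
    rw [← cfc_mul (bump s0 r) (bump s1 r) s (bump_continuous _ _).continuousOn
      (bump_continuous _ _).continuousOn]
    have : cfc (fun x => bump s0 r x * bump s1 r x) s = cfc (fun _ : ℝ => (0 : ℝ)) s :=
      cfc_congr fun x _ => bump_mul_bump hr0 h2r x
    rw [this, cfc_const_zero]
  refine ⟨cfc (bump s0 r) s * cfc (bump s0 r) s, cfc (bump s1 r) s * cfc (bump s1 r) s,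
    isPos_mul_self hy, isPos_mul_self hz, ?_, ?_, ?_, ?_⟩
  · rw [norm_mul_self_eq hy, hyn, one_mul]
  · rw [norm_mul_self_eq hz, hzn, one_mul]
  · rw [mul_assoc, ← mul_assoc (cfc (bump s0 r) s) (cfc (bump s1 r) s), hyz, zero_mul, mul_zero]
  · intro f hf
    have h3 : ∀ p, f (cfc (bump p r) s) = cfc (bump p r) s := by
      intro p
      rw [map_cfc_real f _ (bump_continuous p r) s hs, hf]
    constructor
    · rw [map_mul, h3]
    · rw [map_mul, h3]

open Bumps in
theorem exists_pos_of_moved {B : Type*} [CStarAlgebra B] (f : B ≃⋆ₐ[ℂ] B) (S : B)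
    (hS : IsSelfAdjoint S) (hc : Commute S (f S)) (hne : S ≠ f S) :
    ∃ H : B, IsPos H ∧ ‖H‖ = 1 ∧ H * f H = 0 := by
  have hT : IsSelfAdjoint (f S) := hS.map f
  set T : B := f S with hTdef
  set N : B := S + Complex.I • T with hN
  have hNn : IsStarNormal N := by
    constructor
    have hst : star N = S - Complex.I • T := by
      rw [hN, star_add, star_smul, hS.star_eq, hT.star_eq]
      simp [sub_eq_add_neg]
    rw [hst, hN]
    show (S - Complex.I • T) * (S + Complex.I • T) = (S + Complex.I • T) * (S - Complex.I • T)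
    have h := hc.eq
    simp only [sub_mul, mul_add, add_mul, mul_sub, smul_mul_assoc, mul_smul_comm, h, smul_add,
      smul_sub]
    abel
  have hre : ((realPart N : selfAdjoint B) : B) = S := by
    rw [realPart_apply_coe, hN, star_add, star_smul, hS.star_eq, hT.star_eq]
    have : S + Complex.I • T + (S + star Complex.I • T) = (2 : ℝ) • S := by
      rw [two_smul]
      simp
      abel
    rw [this, smul_smul]
    norm_num
  have him : ((imaginaryPart N : selfAdjoint B) : B) = T := by
    have h1 := realPart_add_I_smul_imaginaryPart N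
    rw [hre] at h1
    have h2 : Complex.I • ((imaginaryPart N : selfAdjoint B) : B) = Complex.I • T := by
      exact add_left_cancel (h1.trans hN)
    have h3 := congrArg (fun x => (-Complex.I) • x) h2
    simpa [smul_smul] using h3
  obtain ⟨z, hz, hzne⟩ : ∃ z ∈ spectrum ℂ N, z.re ≠ z.im := by
    by_contra hcon
    push Not at hcon
    apply hne
    rw [← hre, ← him, ← cfc_re_id N hNn, ← cfc_im_id N hNn]
    exact cfc_congr fun x hx => by simp [hcon x hx]
  set r : ℝ := |z.re - z.im| / 2 with hr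
  have hr0 : 0 < r := by
    have : 0 < |z.re - z.im| := abs_pos.2 (sub_ne_zero.2 hzne)
    positivity
  have h2r : 2 * r ≤ |z.re - z.im| := by rw [hr]; linarith
  set k0 : ℝ → ℝ := bump z.re r with hk0
  set k1 : ℝ → ℝ := bump z.im r with hk1
  have hk0c : Continuous k0 := bump_continuous _ _
  have hk1c : Continuous k1 := bump_continuous _ _
  have e0 : cfc k0 S = cfc (fun w : ℂ => (k0 w.re : ℂ)) N := by
    rw [cfc_real_eq_complex k0 hS]
    conv_lhs => rw [← hre, ← cfc_re_id N hNn]
    rw [← cfc_comp' (fun w : ℂ => (k0 w.re : ℂ)) (fun w : ℂ => (w.re : ℂ)) N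
      (by fun_prop) (by fun_prop) hNn]
    simp
  have e1 : cfc k1 T = cfc (fun w : ℂ => (k1 w.im : ℂ)) N := by
    rw [cfc_real_eq_complex k1 hT]
    conv_lhs => rw [← him, ← cfc_im_id N hNn]
    rw [← cfc_comp' (fun w : ℂ => (k1 w.re : ℂ)) (fun w : ℂ => (w.im : ℂ)) N
      (by fun_prop) (by fun_prop) hNn]
    simp
  set y : B := cfc k0 S * cfc k1 T with hy
  have ey : y = cfc (fun w : ℂ => ((k0 w.re * k1 w.im : ℝ) : ℂ)) N := by
    rw [hy, e0, e1, ← cfc_mul _ _ N (by fun_prop) (by fun_prop)]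
    exact cfc_congr fun w _ => by simp
  have hyc : Commute (cfc k0 S) (cfc k1 T) := by
    rw [e0, e1]
    exact cfc_commute_cfc _ _ _
  have hysa : IsSelfAdjoint y := by
    have h1 : IsSelfAdjoint (cfc k0 S) := cfc_predicate _ _
    have h2 : IsSelfAdjoint (cfc k1 T) := cfc_predicate _ _
    rw [hy, isSelfAdjoint_iff, star_mul, h1.star_eq, h2.star_eq]
    exact hyc.eq.symm
  have hyn : ‖y‖ = 1 := by
    have hcont : Continuous (fun w : ℂ => ((k0 w.re * k1 w.im : ℝ) : ℂ)) := by fun_prop
    refine le_antisymm ?_ ?_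
    · rw [ey]
      refine norm_cfc_le zero_le_one fun w _ => ?_
      rw [Complex.norm_real, norm_mul, Real.norm_of_nonneg (bump_nonneg _ _ _),
        Real.norm_of_nonneg (bump_nonneg _ _ _)]
      exact mul_le_one₀ (bump_le_one _ _ _ hr0) (bump_nonneg _ _ _) (bump_le_one _ _ _ hr0)
    · have := norm_apply_le_norm_cfc (fun w : ℂ => ((k0 w.re * k1 w.im : ℝ) : ℂ)) N hz
        hcont.continuousOn hNn
      rw [← ey] at this
      simpa [hk0, hk1, bump_self] using this
  have hk10 : cfc k1 T * cfc k0 T = 0 := by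
    rw [← cfc_mul k1 k0 T hk1c.continuousOn hk0c.continuousOn]
    have : cfc (fun x => k1 x * k0 x) T = cfc (fun _ : ℝ => (0 : ℝ)) T :=
      cfc_congr fun x _ => by
        rw [mul_comm]
        exact bump_mul_bump hr0 h2r x
    rw [this, cfc_const_zero]
  have hyf : y * f y = 0 := by
    have h1 : f y = cfc k0 T * f (cfc k1 T) := by
      rw [hy, map_mul, map_cfc_real f k0 hk0c S hS]
    rw [h1, hy, mul_assoc, ← mul_assoc (cfc k1 T), hk10, zero_mul, mul_zero]
  refine ⟨y * y, isPos_mul_self hysa, ?_, ?_⟩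
  · rw [norm_mul_self_eq hysa, hyn, one_mul]
  · rw [map_mul, mul_assoc, ← mul_assoc y (f y), hyf, zero_mul, mul_zero]

end Vale.Agent.P095
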