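import Vale.Agent.P095.NucDim

/-!
# P095, row F1b (core): Cuntz-Pedersen subequivalence, Riesz decomposition, cancellation
-/

open Filter Topology TopologicalSpace
open scoped BoundedContinuousFunction ComplexOrder

namespace Vale.Agent.P095

open Vale.Agent.P101

universe u v w

namespace CPed

variable {A : Type u} [CStarAlgebra A] [PartialOrder A] [StarOrderedRing A]

/-- approximate Cuntz-Pedersen subequivalence -/
def Sub (x y : A) : Prop := ∀ ε : ℝ, 0 < ε → ∃ (ι : Type) (_ : Fintype ι) (z : ι → A),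
  ‖x - ∑ i, star (z i) * z i‖ ≤ ε ∧ ∑ i, z i * star (z i) ≤ y

theorem Sub.add {x y x' y' : A} (h : Sub x y) (h' : Sub x' y') : Sub (x + x') (y + y') := by
  intro ε hε
  obtain ⟨ι, _, z, hz, hz'⟩ := h (ε / 2) (half_pos hε)
  obtain ⟨κ, _, v, hv, hv'⟩ := h' (ε / 2) (half_pos hε)
  refine ⟨ι ⊕ κ, inferInstance, Sum.elim z v, ?_, ?_⟩
  · rw [Fintype.sum_sum_type]
    simp only [Sum.elim_inl, Sum.elim_inr]
    calc ‖x + x' - (∑ i, star (z i) * z i + ∑ i, star (v i) * v i)‖
        = ‖(x - ∑ i, star (z i) * z i) + (x' - ∑ i, star (v i) * v i)‖ := by congr 1; abel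
      _ ≤ ε / 2 + ε / 2 := (norm_add_le _ _).trans (add_le_add hz hv)
      _ = ε := add_halves ε
  · rw [Fintype.sum_sum_type]
    simp only [Sum.elim_inl, Sum.elim_inr]
    exact add_le_add hz' hv'

theorem Sub.mono {x y y' : A} (h : Sub x y) (h' : y ≤ y') : Sub x y' := by
  intro ε hε
  obtain ⟨ι, _, z, hz, hz'⟩ := h ε hε
  exact ⟨ι, inferInstance, z, hz, hz'.trans h'⟩

theorem Sub.of_le {x y : A} (hx : 0 ≤ x) (h : x ≤ y) : Sub x y := by
  intro ε hε
  have hs : star (CFC.sqrt x) = CFC.sqrt x := (CFC.sqrt_nonneg x).isSelfAdjoint.star_eq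
  have hm : CFC.sqrt x * CFC.sqrt x = x := CFC.sqrt_mul_sqrt_self x hx
  refine ⟨Unit, inferInstance, fun _ => CFC.sqrt x, ?_, ?_⟩
  · simp only [hs, hm, Finset.univ_unique, Finset.sum_const, Finset.card_singleton, one_smul,
      sub_self, norm_zero]
    exact hε.le
  · simpa only [hs, hm, Finset.univ_unique, Finset.sum_const, Finset.card_singleton, one_smul]
      using h

theorem exists_inv_sqrt (Y : A) (hY : 0 ≤ Y) (δ : ℝ) (hδ : 0 < δ) :
    ∃ R : A, star R = R ∧ R * (Y + algebraMap ℝ A δ) * R = 1 := by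
  have hsa : IsSelfAdjoint Y := hY.isSelfAdjoint
  have hsp : ∀ t ∈ spectrum ℝ Y, 0 ≤ t := fun t ht => spectrum_nonneg_of_nonneg hY ht
  have hc : ContinuousOn (fun t : ℝ => (√(t + δ))⁻¹) (spectrum ℝ Y) := by
    apply ContinuousOn.inv₀
    · fun_prop
    · intro t ht
      have := hsp t ht
      exact (Real.sqrt_pos.2 (by linarith)).ne'
  refine ⟨cfc (fun t : ℝ => (√(t + δ))⁻¹) Y, ?_, ?_⟩
  · exact (IsSelfAdjoint.cfc (f := fun t : ℝ => (√(t + δ))⁻¹) (a := Y)).star_eq
  · have e1 : Y + algebraMap ℝ A δ = cfc (fun t : ℝ => t + δ) Y := by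
      rw [cfc_add_const δ (fun t : ℝ => t) Y (by fun_prop) hsa, cfc_id' ℝ Y hsa]
    rw [e1, ← cfc_mul (fun t : ℝ => (√(t + δ))⁻¹) (fun t : ℝ => t + δ) Y hc (by fun_prop),
      ← cfc_mul (fun t : ℝ => (√(t + δ))⁻¹ * (t + δ)) (fun t : ℝ => (√(t + δ))⁻¹) Y
        (hc.mul (by fun_prop)) hc]
    have e2 : cfc (fun t : ℝ => (√(t + δ))⁻¹ * (t + δ) * (√(t + δ))⁻¹) Y
        = cfc (fun _ : ℝ => (1 : ℝ)) Y := by
      apply cfc_congr
      intro t ht
      have h1 := hsp t ht
      have h2 : 0 < t + δ := by linarith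
      have h3 : √(t + δ) * √(t + δ) = t + δ := Real.mul_self_sqrt h2.le
      have h4 : √(t + δ) ≠ 0 := (Real.sqrt_pos.2 h2).ne'
      show (√(t + δ))⁻¹ * (t + δ) * (√(t + δ))⁻¹ = 1
      field_simp
      nlinarith [h3]
    rw [e2, cfc_const (1 : ℝ) Y hsa, map_one]

theorem Sub.trans {x y w : A} (h : Sub x y) (h' : Sub y w) : Sub x w := by
  intro ε hε
  obtain ⟨ι, _, z, hz, hz'⟩ := h (ε / 2) (half_pos hε)
  set N : ℝ := (Fintype.card ι : ℝ) with hN
  have hN0 : 0 ≤ N := Nat.cast_nonneg _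
  set δ : ℝ := ε / (2 * (N + 1)) with hδd
  have hδ : 0 < δ := by positivity
  obtain ⟨κ, _, v, hv, hv'⟩ := h' δ hδ
  set Y : A := ∑ j, star (v j) * v j with hYd
  have hY : 0 ≤ Y := Finset.sum_nonneg fun j _ => star_mul_self_nonneg _
  obtain ⟨R, hR, hR1⟩ := exists_inv_sqrt Y hY δ hδ
  set T : A := ∑ i, z i * star (z i) with hTd
  have hT0 : 0 ≤ T := Finset.sum_nonneg fun i _ => mul_star_self_nonneg _
  have hy0 : 0 ≤ y := hT0.trans hz'
  have hTY : T ≤ Y + algebraMap ℝ A δ := by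
    have h1 : IsSelfAdjoint (y - Y) := hy0.isSelfAdjoint.sub hY.isSelfAdjoint
    have h2 : y - Y ≤ algebraMap ℝ A ‖y - Y‖ := h1.le_algebraMap_norm_self
    have h3 : algebraMap ℝ A ‖y - Y‖ ≤ algebraMap ℝ A δ := algebraMap_mono A hv
    have h4 := h2.trans h3
    have h5 : y ≤ Y + algebraMap ℝ A δ := by
      rw [add_comm]; exact sub_le_iff_le_add.1 h4
    exact hz'.trans h5
  have hS1 : ∑ i, (R * z i) * star (R * z i) ≤ 1 := by
    have e1 : ∑ i, (R * z i) * star (R * z i) = R * T * R := by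
      rw [hTd, Finset.mul_sum, Finset.sum_mul]
      refine Finset.sum_congr rfl fun i _ => ?_
      rw [star_mul, hR]; simp only [mul_assoc]
    rw [e1, ← hR1]
    have h1 : star R * T * R ≤ star R * (Y + algebraMap ℝ A δ) * R :=
      star_left_conjugate_le_conjugate hTY R
    rwa [hR] at h1
  have hs1 : ∀ i, ‖R * z i‖ ≤ 1 := by
    intro i
    have h1 : (R * z i) * star (R * z i) ≤ 1 :=
      (Finset.single_le_sum (f := fun i => (R * z i) * star (R * z i))
        (fun j _ => mul_star_self_nonneg _) (Finset.mem_univ i)).trans hS1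
    have h2 : ‖(R * z i) * star (R * z i)‖ ≤ 1 :=
      (CStarAlgebra.norm_le_one_iff_of_nonneg _ (mul_star_self_nonneg _)).2 h1
    rw [CStarRing.norm_self_mul_star] at h2
    nlinarith [norm_nonneg (R * z i)]
  refine ⟨ι × κ, inferInstance, fun p => v p.2 * (R * z p.1), ?_, ?_⟩
  · rw [Fintype.sum_prod_type]
    have e1 : ∀ i, ∑ j, star (v j * (R * z i)) * (v j * (R * z i))
        = star (R * z i) * Y * (R * z i) := by
      intro i
      rw [hYd, Finset.mul_sum, Finset.sum_mul]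
      refine Finset.sum_congr rfl fun j _ => ?_
      rw [star_mul]; simp only [mul_assoc]
    have e2 : ∀ i, star (z i) * z i = star (R * z i) * Y * (R * z i)
        + δ • (star (R * z i) * (R * z i)) := by
      intro i
      have h1 : star (z i) * (R * (Y + algebraMap ℝ A δ) * R) * z i = star (z i) * z i := by
        rw [hR1, mul_one]
      rw [← h1, star_mul, hR, Algebra.algebraMap_eq_smul_one]
      simp only [mul_add, add_mul, mul_smul_comm, smul_mul_assoc, mul_one, mul_assoc]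
    simp only [e1]
    have e3 : x - ∑ i, star (R * z i) * Y * (R * z i) = (x - ∑ i, star (z i) * z i)
        + ∑ i, δ • (star (R * z i) * (R * z i)) := by
      have : ∑ i, star (z i) * z i = ∑ i, star (R * z i) * Y * (R * z i)
        + ∑ i, δ • (star (R * z i) * (R * z i)) := by
        rw [← Finset.sum_add_distrib]
        exact Finset.sum_congr rfl fun i _ => e2 i
      rw [this]; abel
    rw [e3]
    have h1 : ‖∑ i, δ • (star (R * z i) * (R * z i))‖ ≤ N * δ := by
      calc ‖∑ i, δ • (star (R * z i) * (R * z i))‖ ≤ ∑ i : ι, δ := by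
            refine norm_sum_le_of_le _ fun i _ => ?_
            rw [norm_smul, Real.norm_of_nonneg hδ.le, CStarRing.norm_star_mul_self]
            have := hs1 i
            have h0 := norm_nonneg (R * z i)
            nlinarith [mul_le_one₀ this h0 this]
        _ = N * δ := by rw [Finset.sum_const, Finset.card_univ, nsmul_eq_mul]
    have h2 : N * δ ≤ ε / 2 := by
      have e5 : (N + 1) * δ = ε / 2 := by rw [hδd]; field_simp
      nlinarith
    calc _ ≤ ε / 2 + N * δ := (norm_add_le _ _).trans (add_le_add hz h1)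
      _ ≤ ε := by linarith
  · rw [Fintype.sum_prod_type, Finset.sum_comm]
    refine le_trans (Finset.sum_le_sum fun j _ => ?_) hv'
    have e1 : ∑ i, (v j * (R * z i)) * star (v j * (R * z i))
        = v j * (∑ i, (R * z i) * star (R * z i)) * star (v j) := by
      rw [Finset.mul_sum, Finset.sum_mul]
      refine Finset.sum_congr rfl fun i _ => ?_
      rw [star_mul]; simp only [mul_assoc]
    show ∑ i, (v j * (R * z i)) * star (v j * (R * z i)) ≤ v j * star (v j)
    rw [e1]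
    have h1 := star_right_conjugate_le_conjugate hS1 (v j)
    rwa [mul_one] at h1

theorem Sub.of_swap {k : ℕ} (y : Fin k → A) :
    Sub (∑ i, star (y i) * y i) (∑ i, y i * star (y i)) := by
  intro ε hε
  exact ⟨Fin k, inferInstance, y, by rw [sub_self, norm_zero]; exact hε.le, le_rfl⟩

theorem Sub.of_nsmul {x y : A} {n : ℕ} (hn : 0 < n) (h : Sub (n • x) (n • y)) : Sub x y := by
  intro ε hε
  have hn' : (0 : ℝ) < n := by exact_mod_cast hn
  have hn0 : (n : ℝ) ≠ 0 := hn'.ne'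
  obtain ⟨ι, _, z, hz, hz'⟩ := h (n * ε) (by positivity)
  have hsq : (√(n : ℝ))⁻¹ * (√(n : ℝ))⁻¹ = (n : ℝ)⁻¹ := by
    rw [← mul_inv, Real.mul_self_sqrt hn'.le]
  have e1 : ∀ i, star ((√(n : ℝ))⁻¹ • z i) * ((√(n : ℝ))⁻¹ • z i) =
      (n : ℝ)⁻¹ • (star (z i) * z i) := by
    intro i
    rw [star_smul, star_trivial, smul_mul_smul_comm, hsq]
  have e2 : ∀ i, ((√(n : ℝ))⁻¹ • z i) * star ((√(n : ℝ))⁻¹ • z i) =
      (n : ℝ)⁻¹ • (z i * star (z i)) := by
    intro i
    rw [star_smul, star_trivial, smul_mul_smul_comm, hsq]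
  have e3 : ∀ w : A, (n : ℝ)⁻¹ • (n • w) = w := by
    intro w
    rw [← Nat.cast_smul_eq_nsmul ℝ, smul_smul, inv_mul_cancel₀ hn0, one_smul]
  refine ⟨ι, inferInstance, fun i => (√(n : ℝ))⁻¹ • z i, ?_, ?_⟩
  · simp only [e1]
    rw [← Finset.smul_sum]
    have : x - (n : ℝ)⁻¹ • ∑ i, star (z i) * z i
        = (n : ℝ)⁻¹ • (n • x - ∑ i, star (z i) * z i) := by
      rw [smul_sub, e3]
    rw [this, norm_smul, Real.norm_of_nonneg (by positivity)]
    calc (n : ℝ)⁻¹ * ‖n • x - ∑ i, star (z i) * z i‖ ≤ (n : ℝ)⁻¹ * (n * ε) := by gcongr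
      _ = ε := by field_simp
  · simp only [e2]
    rw [← Finset.smul_sum]
    calc (n : ℝ)⁻¹ • ∑ i, z i * star (z i) ≤ (n : ℝ)⁻¹ • (n • y) :=
          smul_le_smul_of_nonneg_left hz' (by positivity)
      _ = y := e3 y

/-- cancellation -/
theorem Sub.cancel {a b c : A} (ha : 0 ≤ a) (hb : 0 ≤ b) (hc : 0 ≤ c) (hcb : Sub c b)
    {η η' : ℝ} (h0 : 0 ≤ η) (hη : η < η') (h : a + b ≤ algebraMap ℝ A η + c) :
    Sub a (algebraMap ℝ A η') := by
  have hη0 : 0 ≤ algebraMap ℝ A η := by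
    have := algebraMap_mono A h0
    rwa [map_zero] at this
  have s1 : Sub (a + b) (algebraMap ℝ A η + b) :=
    (Sub.of_le (add_nonneg ha hb) h).trans ((Sub.of_le hη0 le_rfl).add hcb)
  have s2 : ∀ n : ℕ, Sub (n • a + b) (n • algebraMap ℝ A η + b) := by
    intro n
    induction n with
    | zero => simpa using Sub.of_le hb le_rfl
    | succ n ih =>
      have e1 : (n + 1) • a + b = n • a + (a + b) := by rw [succ_nsmul]; abel
      have e2 : n • a + (algebraMap ℝ A η + b) = algebraMap ℝ A η + (n • a + b) := by abel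
      have e3 : algebraMap ℝ A η + (n • algebraMap ℝ A η + b) =
        (n + 1) • algebraMap ℝ A η + b := by rw [succ_nsmul]; abel
      have h1 : Sub (n • a + (a + b)) (n • a + (algebraMap ℝ A η + b)) :=
        (Sub.of_le (nsmul_nonneg ha n) le_rfl).add s1
      have h2 : Sub (algebraMap ℝ A η + (n • a + b))
          (algebraMap ℝ A η + (n • algebraMap ℝ A η + b)) :=
        (Sub.of_le hη0 le_rfl).add ih
      rw [e1, ← e3]
      rw [e2] at h1
      exact h1.trans h2
  obtain ⟨n, hn⟩ := exists_nat_gt (‖b‖ / (η' - η))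
  have hd : 0 < η' - η := by linarith
  have hn1 : ‖b‖ ≤ n * (η' - η) := by
    rw [div_lt_iff₀ hd] at hn; exact hn.le
  have hnpos : 0 < n := by
    rcases Nat.eq_zero_or_pos n with h1 | h1
    · subst h1
      have : 0 ≤ ‖b‖ / (η' - η) := by positivity
      simp only [Nat.cast_zero] at hn
      linarith
    · exact h1
  apply Sub.of_nsmul hnpos
  have h1 : Sub (n • a) (n • algebraMap ℝ A η + b) :=
    (Sub.of_le (nsmul_nonneg ha n) (le_add_of_nonneg_right hb)).trans (s2 n)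
  refine h1.mono ?_
  have h2 : b ≤ algebraMap ℝ A ‖b‖ := hb.isSelfAdjoint.le_algebraMap_norm_self
  have h3 : algebraMap ℝ A ‖b‖ ≤ algebraMap ℝ A (n * (η' - η)) := algebraMap_mono A hn1
  calc n • algebraMap ℝ A η + b ≤ n • algebraMap ℝ A η + algebraMap ℝ A (n * (η' - η)) := by
        gcongr
        exact h2.trans h3
    _ = n • algebraMap ℝ A η' := by
      rw [nsmul_eq_mul, nsmul_eq_mul, map_mul, map_natCast, map_sub]
      rw [← mul_add]; congr 1; abel

end CPed

open CPed in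
/-- F1b relative to the statement of F1a -/
theorem exists_cp_decomp_of {A : Type u} [CStarAlgebra A]
    (hF : ∀ (a : A), IsSelfAdjoint a → ∀ (η η' : ℝ), η < η' →
      (∀ τ : A →ₗ[ℂ] ℂ, IsTrace τ → (τ a).re ≤ η) →
      ∃ (k : ℕ) (y : Fin k → A), IsPos (((η' : ℝ) : ℂ) • (1 : A) + ∑ i, star (y i) * y i -
      ∑ i, y i * star (y i) - a))
    (a : A) (ha : IsPos a)
    (η η' : ℝ) (h0 : 0 ≤ η) (hη : η < η') (h : ∀ τ : A →ₗ[ℂ] ℂ, IsTrace τ → (τ a).re ≤ η)
    (ε : ℝ) (hε : 0 < ε) :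
    ∃ (k : ℕ) (y : Fin k → A), ‖a - ∑ i, star (y i) * y i‖ ≤ ε ∧
      IsPos (((η' : ℝ) : ℂ) • (1 : A) - ∑ i, y i * star (y i)) := by
  let _ : PartialOrder A := CStarAlgebra.spectralOrder A
  have _ : StarOrderedRing A := CStarAlgebra.spectralOrderedRing A
  have ha' : 0 ≤ a := by
    obtain ⟨y, hy⟩ := ha
    rw [hy]; exact star_mul_self_nonneg _
  obtain ⟨k, y, hy⟩ := hF a ha'.isSelfAdjoint η ((η + η') / 2) (by linarith) h
  have hy' : 0 ≤ ((((η + η') / 2 : ℝ)) : ℂ) • (1 : A) + ∑ i, star (y i) * y i -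
      ∑ i, y i * star (y i) - a := by
    obtain ⟨w, hw⟩ := hy
    rw [hw]; exact star_mul_self_nonneg _
  have halg : ∀ t : ℝ, ((t : ℝ) : ℂ) • (1 : A) = algebraMap ℝ A t := by
    intro t
    rw [Algebra.algebraMap_eq_smul_one]
    exact Complex.coe_smul t (1 : A)
  rw [halg] at hy'
  have key : a + ∑ i, y i * star (y i) ≤
      algebraMap ℝ A ((η + η') / 2) + ∑ i, star (y i) * y i := by
    rw [← sub_nonneg]
    have e : algebraMap ℝ A ((η + η') / 2) + ∑ i, star (y i) * y i -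
      (a + ∑ i, y i * star (y i)) = algebraMap ℝ A ((η + η') / 2) + ∑ i, star (y i) * y i -
      ∑ i, y i * star (y i) - a := by abel
    rw [e]; exact hy'
  have hS : Sub a (algebraMap ℝ A η') :=
    Sub.cancel ha' (Finset.sum_nonneg fun i _ => mul_star_self_nonneg _)
      (Finset.sum_nonneg fun i _ => star_mul_self_nonneg _) (Sub.of_swap y)
      (by linarith) (by linarith) key
  obtain ⟨ι, _, z, hz, hz'⟩ := hS ε hε
  refine ⟨Fintype.card ι, fun i => z ((Fintype.equivFin ι).symm i), ?_, ?_⟩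
  · rw [Equiv.sum_comp (Fintype.equivFin ι).symm (fun i => star (z i) * z i)]
    exact hz
  · rw [Equiv.sum_comp (Fintype.equivFin ι).symm (fun i => z i * star (z i)), halg]
    exact CStarAlgebra.nonneg_iff_eq_star_mul_self.1 (sub_nonneg.2 hz')

end Vale.Agent.P095
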