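import Vale.Agent.P095.TDefs
import Vale.Agent.P095.SeedSeq

/-!
# P095: the seminorm `‖x‖₂ = √(φ (star x * x))` of a positive trace
-/

open Filter Topology TopologicalSpace
open scoped BoundedContinuousFunction ComplexOrder

namespace Vale.Agent.P095

open Vale.Agent.P101

variable {K : Type*} [CStarAlgebra K] {φ : K →ₗ[ℂ] ℂ}

/-- The seminorm of a positive trace. -/
noncomputable def nrm2 (φ : K →ₗ[ℂ] ℂ) (x : K) : ℝ := √(sq φ x)

namespace IsPosTrace

theorem re_nonneg (h : IsPosTrace φ) (x : K) : 0 ≤ (φ (star x * x)).re :=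
  (Complex.nonneg_iff.1 (h.nonneg x)).1

theorem im_eq (h : IsPosTrace φ) (x : K) : (φ (star x * x)).im = 0 :=
  (Complex.nonneg_iff.1 (h.nonneg x)).2.symm

theorem sq_nonneg (h : IsPosTrace φ) (x : K) : 0 ≤ sq φ x := h.re_nonneg x

theorem map_star (h : IsPosTrace φ) (x : K) : φ (star x) = star (φ x) :=
  map_star_of_nonneg h.nonneg x

theorem one_re_nonneg (h : IsPosTrace φ) : 0 ≤ (φ 1).re := by
  have := h.re_nonneg 1
  rwa [star_one, one_mul] at this

theorem one_im (h : IsPosTrace φ) : (φ 1).im = 0 := by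
  have := h.im_eq 1
  rwa [star_one, one_mul] at this

/-- positivity on positive elements -/
theorem apply_nonneg [PartialOrder K] [StarOrderedRing K] (h : IsPosTrace φ) {x : K}
    (hx : 0 ≤ x) : 0 ≤ φ x := by
  obtain ⟨y, rfl⟩ := CStarAlgebra.nonneg_iff_eq_star_mul_self.1 hx
  exact h.nonneg y

theorem apply_re_nonneg [PartialOrder K] [StarOrderedRing K] (h : IsPosTrace φ) {x : K}
    (hx : 0 ≤ x) : 0 ≤ (φ x).re := (Complex.nonneg_iff.1 (h.apply_nonneg hx)).1

theorem re_mono_le [PartialOrder K] [StarOrderedRing K] (h : IsPosTrace φ) {x y : K}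
    (hxy : x ≤ y) : (φ x).re ≤ (φ y).re := by
  have := h.apply_re_nonneg (sub_nonneg.2 hxy)
  rw [map_sub, Complex.sub_re] at this
  linarith

theorem sq_star (h : IsPosTrace φ) (x : K) : sq φ (star x) = sq φ x := by
  unfold sq
  rw [star_star, h.trace]

/-- The bimodule property, left. -/
theorem sq_mul_left_le (h : IsPosTrace φ) (a x : K) : sq φ (a * x) ≤ ‖a‖ ^ 2 * sq φ x := by
  let _ : PartialOrder K := CStarAlgebra.spectralOrder K
  let _ : StarOrderedRing K := CStarAlgebra.spectralOrderedRing K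
  have h1 : star a * a ≤ algebraMap ℝ K (‖a‖ ^ 2) := CStarAlgebra.star_mul_le_algebraMap_norm_sq
  have h2 := star_left_conjugate_le_conjugate h1 x
  have h3 := h.re_mono_le h2
  unfold sq
  have e1 : star (a * x) * (a * x) = star x * (star a * a) * x := by
    rw [star_mul]
    noncomm_ring
  have e2 : star x * algebraMap ℝ K (‖a‖ ^ 2) * x = ((‖a‖ ^ 2 : ℝ) : ℂ) • (star x * x) := by
    rw [Algebra.algebraMap_eq_smul_one, mul_smul_comm, mul_one, smul_mul_assoc, Complex.coe_smul]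
  rw [e1]
  rw [e2, map_smul, smul_eq_mul, Complex.re_ofReal_mul] at h3
  exact h3

/-- The bimodule property, right. -/
theorem sq_mul_right_le (h : IsPosTrace φ) (x a : K) : sq φ (x * a) ≤ ‖a‖ ^ 2 * sq φ x := by
  have h1 := h.sq_mul_left_le (star a) (star x)
  rw [← star_mul, h.sq_star, h.sq_star, norm_star] at h1
  exact h1

theorem sq_le (h : IsPosTrace φ) (x : K) : sq φ x ≤ ‖x‖ ^ 2 * (φ 1).re := by
  have h1 := h.sq_mul_left_le x 1
  rw [mul_one] at h1
  refine h1.trans_eq ?_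
  unfold sq
  rw [star_one, one_mul]

/-- Cauchy–Schwarz. -/
theorem norm_apply_le (h : IsPosTrace φ) (x y : K) :
    ‖φ (star x * y)‖ ^ 2 ≤ sq φ x * sq φ y := by
  set c := φ (star x * y) with hc
  have key : ∀ t : ℝ, 0 ≤ sq φ y - 2 * t * ‖c‖ ^ 2 + t ^ 2 * (‖c‖ ^ 2 * sq φ x) := by
    intro t
    have h1 := h.re_nonneg (y + (-(t : ℂ) * c) • x)
    have e0 : ∀ μ : ℂ, star (y + μ • x) * (y + μ • x) =
        star y * y + μ • star (star x * y) + (star μ) • (star x * y) +
          (star μ * μ) • (star x * x) := by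
      intro μ
      rw [star_add, star_smul, star_mul, star_star, add_mul, mul_add, mul_add, smul_mul_smul_comm,
        mul_smul_comm, smul_mul_assoc]
      abel
    rw [e0, map_add, map_add, map_add, map_smul, map_smul, map_smul,
      h.map_star, ← hc, smul_eq_mul, smul_eq_mul, smul_eq_mul] at h1
    have e2 : φ (star y * y) + -(t : ℂ) * c * star c + star (-(t : ℂ) * c) * c +
        star (-(t : ℂ) * c) * (-(t : ℂ) * c) * φ (star x * x) =
        φ (star y * y) + ((-2 * t * ‖c‖ ^ 2 : ℝ) : ℂ) +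
          ((t ^ 2 * ‖c‖ ^ 2 : ℝ) : ℂ) * φ (star x * x) := by
      have h2 : c * star c = ((‖c‖ ^ 2 : ℝ) : ℂ) := by
        rw [Complex.star_def, Complex.mul_conj, Complex.normSq_eq_norm_sq]
      have h3 : star (-(t : ℂ) * c) = -(t : ℂ) * star c := by
        rw [star_mul', star_neg, Complex.star_def, Complex.conj_ofReal]
      rw [h3]
      have h4 : star c * c = ((‖c‖ ^ 2 : ℝ) : ℂ) := by rw [mul_comm, h2]
      calc _ = φ (star y * y) + -(t : ℂ) * (c * star c) + -(t : ℂ) * (star c * c) +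
          (t : ℂ) ^ 2 * (star c * c) * φ (star x * x) := by ring
        _ = _ := by
          rw [h2, h4]
          push_cast
          ring
    rw [e2, Complex.add_re, Complex.add_re, Complex.ofReal_re, Complex.re_ofReal_mul] at h1
    unfold sq
    linarith
  have hx := h.sq_nonneg x
  rcases eq_or_ne c 0 with hc0 | hc0
  · rw [hc0, norm_zero]
    have := mul_nonneg hx (h.sq_nonneg y)
    simpa using this
  have hpos : 0 < ‖c‖ ^ 2 := by
    have := norm_pos_iff.2 hc0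
    positivity
  rcases hx.eq_or_lt with hx0 | hx0
  · exfalso
    have h1 := key ((sq φ y + 1) / ‖c‖ ^ 2)
    rw [← hx0, mul_zero, mul_zero, add_zero] at h1
    have h2 : 2 * ((sq φ y + 1) / ‖c‖ ^ 2) * ‖c‖ ^ 2 = 2 * (sq φ y + 1) := by
      field_simp
    rw [h2] at h1
    have := h.sq_nonneg y
    linarith
  · have h1 := key (1 / sq φ x)
    have h2 : sq φ y - 2 * (1 / sq φ x) * ‖c‖ ^ 2 + (1 / sq φ x) ^ 2 * (‖c‖ ^ 2 * sq φ x) =
        sq φ y - ‖c‖ ^ 2 / sq φ x := by
      field_simp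
      ring
    rw [h2] at h1
    have h3 : ‖c‖ ^ 2 / sq φ x ≤ sq φ y := by linarith
    rw [div_le_iff₀ hx0] at h3
    linarith

theorem norm_apply_le' (h : IsPosTrace φ) (x y : K) :
    ‖φ (star x * y)‖ ≤ nrm2 φ x * nrm2 φ y := by
  unfold nrm2
  rw [← Real.sqrt_mul (h.sq_nonneg x)]
  exact Real.le_sqrt_of_sq_le (h.norm_apply_le x y)

theorem nrm2_nonneg (φ : K →ₗ[ℂ] ℂ) (x : K) : 0 ≤ nrm2 φ x := Real.sqrt_nonneg _

theorem nrm2_sq (h : IsPosTrace φ) (x : K) : nrm2 φ x ^ 2 = sq φ x :=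
  Real.sq_sqrt (h.sq_nonneg x)

theorem nrm2_le_iff (h : IsPosTrace φ) (x : K) {c : ℝ} (hc : 0 ≤ c) :
    nrm2 φ x ≤ c ↔ sq φ x ≤ c ^ 2 := Real.sqrt_le_left hc

theorem nrm2_star (h : IsPosTrace φ) (x : K) : nrm2 φ (star x) = nrm2 φ x := by
  unfold nrm2
  rw [h.sq_star]

theorem nrm2_mul_left_le (h : IsPosTrace φ) (a x : K) :
    nrm2 φ (a * x) ≤ ‖a‖ * nrm2 φ x := by
  rw [h.nrm2_le_iff _ (mul_nonneg (norm_nonneg _) (nrm2_nonneg _ _)), mul_pow, h.nrm2_sq]
  exact h.sq_mul_left_le a x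

theorem nrm2_mul_right_le (h : IsPosTrace φ) (x a : K) :
    nrm2 φ (x * a) ≤ ‖a‖ * nrm2 φ x := by
  rw [h.nrm2_le_iff _ (mul_nonneg (norm_nonneg _) (nrm2_nonneg _ _)), mul_pow, h.nrm2_sq]
  exact h.sq_mul_right_le x a

theorem nrm2_smul (φ : K →ₗ[ℂ] ℂ) (c : ℂ) (x : K) : nrm2 φ (c • x) = ‖c‖ * nrm2 φ x := by
  unfold nrm2 sq
  rw [star_smul, smul_mul_smul_comm, map_smul, smul_eq_mul]
  have h1 : star c * c = ((‖c‖ ^ 2 : ℝ) : ℂ) := by
    rw [mul_comm, Complex.star_def, Complex.mul_conj, Complex.normSq_eq_norm_sq]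
  rw [h1, Complex.re_ofReal_mul, Real.sqrt_mul (by positivity), Real.sqrt_sq (norm_nonneg _)]

theorem nrm2_zero (φ : K →ₗ[ℂ] ℂ) : nrm2 φ 0 = 0 := by
  unfold nrm2 sq
  simp

theorem nrm2_neg (φ : K →ₗ[ℂ] ℂ) (x : K) : nrm2 φ (-x) = nrm2 φ x := by
  unfold nrm2 sq
  rw [star_neg, neg_mul_neg]

theorem nrm2_add_le (h : IsPosTrace φ) (x y : K) : nrm2 φ (x + y) ≤ nrm2 φ x + nrm2 φ y := by
  rw [h.nrm2_le_iff _ (add_nonneg (nrm2_nonneg _ _) (nrm2_nonneg _ _))]
  have e : sq φ (x + y) = sq φ x + sq φ y + 2 * (φ (star x * y)).re := by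
    unfold sq
    have e1 : star (x + y) * (x + y) = star x * x + star y * y + star x * y +
        star (star x * y) := by
      rw [star_add, star_mul, star_star]
      noncomm_ring
    rw [e1, map_add, map_add, map_add, h.map_star, Complex.add_re, Complex.add_re, Complex.add_re,
      Complex.star_def, Complex.conj_re]
    ring
  rw [e, add_sq, h.nrm2_sq, h.nrm2_sq]
  have h1 := h.norm_apply_le' x y
  have h2 := Complex.re_le_norm (φ (star x * y))
  linarith

theorem nrm2_sub_le (h : IsPosTrace φ) (x y : K) : nrm2 φ (x - y) ≤ nrm2 φ x + nrm2 φ y := by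
  rw [sub_eq_add_neg, ← nrm2_neg φ y]
  exact h.nrm2_add_le x (-y)

theorem nrm2_sum_le (h : IsPosTrace φ) {ι : Type*} (s : Finset ι) (f : ι → K) :
    nrm2 φ (∑ i ∈ s, f i) ≤ ∑ i ∈ s, nrm2 φ (f i) := by
  classical
  induction s using Finset.induction_on with
  | empty => simp [nrm2_zero]
  | insert a s ha ih =>
    rw [Finset.sum_insert ha, Finset.sum_insert ha]
    exact (h.nrm2_add_le _ _).trans (add_le_add le_rfl ih)

theorem nrm2_le_norm (h : IsPosTrace φ) (x : K) : nrm2 φ x ≤ ‖x‖ * √(φ 1).re := by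
  rw [h.nrm2_le_iff _ (mul_nonneg (norm_nonneg _) (Real.sqrt_nonneg _)), mul_pow,
    Real.sq_sqrt h.one_re_nonneg]
  exact h.sq_le x

theorem norm_apply_le_nrm2 (h : IsPosTrace φ) (x : K) : ‖φ x‖ ≤ √(φ 1).re * nrm2 φ x := by
  have h1 := h.norm_apply_le' 1 x
  rw [star_one, one_mul] at h1
  have h2 : nrm2 φ 1 = √(φ 1).re := by
    unfold nrm2 sq
    rw [star_one, one_mul]
  rw [h2] at h1
  exact h1

/-! ### Null elements -/

theorem isNull_iff (h : IsPosTrace φ) (x : K) : IsNull φ x ↔ nrm2 φ x = 0 := by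
  unfold IsNull nrm2 sq
  rw [Real.sqrt_eq_zero (h.re_nonneg x)]
  constructor
  · intro h1
    rw [h1, Complex.zero_re]
  · intro h1
    exact Complex.ext h1 (h.im_eq x)

theorem null_star (h : IsPosTrace φ) {x : K} (hx : IsNull φ x) : IsNull φ (star x) := by
  rw [h.isNull_iff] at hx ⊢
  rwa [h.nrm2_star]

theorem null_add (h : IsPosTrace φ) {x y : K} (hx : IsNull φ x) (hy : IsNull φ y) :
    IsNull φ (x + y) := by
  rw [h.isNull_iff] at hx hy ⊢
  refine le_antisymm ((h.nrm2_add_le x y).trans ?_) (nrm2_nonneg _ _)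
  rw [hx, hy, add_zero]

theorem null_neg (h : IsPosTrace φ) {x : K} (hx : IsNull φ x) : IsNull φ (-x) := by
  rw [h.isNull_iff] at hx ⊢
  rwa [nrm2_neg]

theorem null_sub (h : IsPosTrace φ) {x y : K} (hx : IsNull φ x) (hy : IsNull φ y) :
    IsNull φ (x - y) := by
  rw [sub_eq_add_neg]
  exact h.null_add hx (h.null_neg hy)

theorem null_zero (h : IsPosTrace φ) : IsNull φ 0 := by
  rw [h.isNull_iff, nrm2_zero]

theorem null_smul (h : IsPosTrace φ) (c : ℂ) {x : K} (hx : IsNull φ x) : IsNull φ (c • x) := by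
  rw [h.isNull_iff] at hx ⊢
  rw [nrm2_smul, hx, mul_zero]

theorem null_mul_left (h : IsPosTrace φ) (a : K) {x : K} (hx : IsNull φ x) :
    IsNull φ (a * x) := by
  rw [h.isNull_iff] at hx ⊢
  refine le_antisymm ((h.nrm2_mul_left_le a x).trans ?_) (nrm2_nonneg _ _)
  rw [hx, mul_zero]

theorem null_mul_right (h : IsPosTrace φ) {x : K} (hx : IsNull φ x) (a : K) :
    IsNull φ (x * a) := by
  rw [h.isNull_iff] at hx ⊢
  refine le_antisymm ((h.nrm2_mul_right_le x a).trans ?_) (nrm2_nonneg _ _)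
  rw [hx, mul_zero]

theorem null_sum (h : IsPosTrace φ) {ι : Type*} (s : Finset ι) (f : ι → K)
    (hf : ∀ i ∈ s, IsNull φ (f i)) : IsNull φ (∑ i ∈ s, f i) := by
  rw [h.isNull_iff]
  refine le_antisymm ((h.nrm2_sum_le s f).trans ?_) (nrm2_nonneg _ _)
  refine (Finset.sum_nonpos fun i hi => ?_)
  rw [(h.isNull_iff _).1 (hf i hi)]

theorem apply_null (h : IsPosTrace φ) {x : K} (hx : IsNull φ x) : φ x = 0 := by
  have h1 := h.norm_apply_le_nrm2 x
  rw [(h.isNull_iff _).1 hx, mul_zero] at h1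
  exact norm_le_zero_iff.1 h1

/-- Elements which differ by a null element have the same seminorm. -/
theorem nrm2_congr (h : IsPosTrace φ) {x y : K} (hxy : IsNull φ (x - y)) :
    nrm2 φ x = nrm2 φ y := by
  have h0 := (h.isNull_iff _).1 hxy
  have h1 : nrm2 φ x ≤ nrm2 φ y := by
    have := h.nrm2_add_le (x - y) y
    rwa [sub_add_cancel, h0, zero_add] at this
  have h2 : nrm2 φ y ≤ nrm2 φ x := by
    have := h.nrm2_sub_le x (x - y)
    rwa [sub_sub_cancel, h0, add_zero] at this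
  exact le_antisymm h1 h2

theorem sq_congr (h : IsPosTrace φ) {x y : K} (hxy : IsNull φ (x - y)) : sq φ x = sq φ y := by
  rw [← h.nrm2_sq, ← h.nrm2_sq, h.nrm2_congr hxy]

theorem apply_congr (h : IsPosTrace φ) {x y : K} (hxy : IsNull φ (x - y)) : φ x = φ y := by
  have := h.apply_null hxy
  rwa [map_sub, sub_eq_zero] at this

end IsPosTrace

end Vale.Agent.P095
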