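import Vale.Agent.P095.UnitDefs
import Vale.Agent.P095.Tr2

/-!
# P095, target T3, stage 2: the chain lemma
-/

open Filter Topology TopologicalSpace
open scoped BoundedContinuousFunction ComplexOrder

namespace Vale.Agent.P095

open Vale.Agent.P101

universe u

section AvgA

variable {K : Type*} [CStarAlgebra K] [PartialOrder K] [StarOrderedRing K]
  {ι : Type*} [Fintype ι]

theorem avgA_nonneg {ν : ι → ℝ} (hν : ∀ g, 0 ≤ ν g) {q : ι → K} (hq : ∀ g, 0 ≤ q g) :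
    0 ≤ avgA ν q := by
  unfold avgA
  refine Finset.sum_nonneg fun g _ => ?_
  rw [Complex.coe_smul]
  refine smul_nonneg (hν g) ?_
  have h := star_mul_self_nonneg (q g)
  rwa [(IsSelfAdjoint.of_nonneg (hq g)).star_eq] at h

theorem norm_avgA_le {ν : ι → ℝ} (hν : ∀ g, 0 ≤ ν g) (hν1 : ∑ g, ν g = 1) {q : ι → K}
    (hq1 : ∀ g, ‖q g‖ ≤ 1) : ‖avgA ν q‖ ≤ 1 := by
  unfold avgA
  refine (norm_sum_le _ _).trans ?_
  rw [← hν1]
  refine Finset.sum_le_sum fun g _ => ?_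
  rw [norm_smul, Complex.norm_real, Real.norm_of_nonneg (hν g)]
  refine mul_le_of_le_one_right (hν g) ?_
  exact (norm_mul_le _ _).trans (mul_le_one₀ (hq1 g) (norm_nonneg _) (hq1 g))

theorem norm_avgZ_le {ν : ι → ℝ} (hν : ∀ g, 0 ≤ ν g) (hν1 : ∑ g, ν g = 1) {q v : ι → K}
    (hq1 : ∀ g, ‖q g‖ ≤ 1) (hv : ∀ g, ‖v g‖ ≤ 1) : ‖avgZ ν q v‖ ≤ 1 := by
  unfold avgZ
  refine (norm_sum_le _ _).trans ?_
  rw [← hν1]
  refine Finset.sum_le_sum fun g _ => ?_
  rw [norm_smul, Complex.norm_real, Real.norm_of_nonneg (hν g)]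
  refine mul_le_of_le_one_right (hν g) ?_
  refine (norm_mul_le _ _).trans (mul_le_one₀ ?_ (norm_nonneg _) (hq1 g))
  exact (norm_mul_le _ _).trans (mul_le_one₀ (hq1 g) (norm_nonneg _) (hv g))

theorem spectrum_subset_unit {a : K} (ha : 0 ≤ a) (ha1 : ‖a‖ ≤ 1) :
    spectrum ℝ a ⊆ Set.Icc 0 1 := by
  intro x hx
  refine ⟨spectrum_nonneg_of_nonneg ha hx, ?_⟩
  have h1 := spectrum.norm_le_norm_mul_of_mem hx
  have h2 : ‖(1 : K)‖ ≤ 1 := by
    rcases subsingleton_or_nontrivial K with h | h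
    · rw [Subsingleton.elim (1 : K) 0, norm_zero]; exact zero_le_one
    · rw [norm_one]
  exact (Real.le_norm_self x).trans (h1.trans (mul_le_one₀ ha1 (norm_nonneg _) h2))

end AvgA

namespace Chain

section

variable {K : Type*} [CStarAlgebra K] [PartialOrder K] [StarOrderedRing K] {φ : K →ₗ[ℂ] ℂ}
  {n : ℕ} {q u : Fin n → K} {s : ℝ}

/-- The hypotheses of the chain lemma for one family `u` (`u = v` or `u = star v`). -/
structure Hyp (φ : K →ₗ[ℂ] ℂ) (q u : Fin n → K) (s : ℝ) : Prop where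
  tr : IsPosTrace φ
  q_norm : ∀ g, ‖q g‖ ≤ 1
  u_norm : ∀ g, ‖u g‖ ≤ 1
  comm : ∀ g h, IsNull φ (q g * u h - u h * q g)
  key : ∀ g h, nrm2 φ (q g * q h * (u g - u h)) ≤ s

/-- `X` is a good element of length `r`. -/
structure Good (φ : K →ₗ[ℂ] ℂ) (q u : Fin n → K) (s : ℝ) (r : ℕ) (X : K) : Prop where
  norm : ‖X‖ ≤ 1
  comm : ∀ h, IsNull φ (X * u h - u h * X)
  est : ∀ g h, nrm2 φ (q g * X * q h * (u h - u g)) ≤ (r + 1) * s

theorem good_one (h : Hyp φ q u s) : Good φ q u s 0 1 := by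
  refine ⟨?_, fun k => ?_, fun g k => ?_⟩
  · rcases subsingleton_or_nontrivial K with hK | hK
    · rw [Subsingleton.elim (1 : K) 0, norm_zero]; exact zero_le_one
    · rw [norm_one]
  · rw [one_mul, mul_one, sub_self]
    exact h.tr.null_zero
  · have h1 := h.key g k
    have e : q g * 1 * q k * (u k - u g) = -(q g * q k * (u g - u k)) := by
      noncomm_ring
    rw [e, IsPosTrace.nrm2_neg]
    simpa using h1

theorem comm_mul (h : Hyp φ q u s) {X Y a : K} (hX : IsNull φ (X * a - a * X))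
    (hY : IsNull φ (Y * a - a * Y)) : IsNull φ (X * Y * a - a * (X * Y)) := by
  have e : X * Y * a - a * (X * Y) = X * (Y * a - a * Y) + (X * a - a * X) * Y := by
    noncomm_ring
  rw [e]
  exact h.tr.null_add (h.tr.null_mul_left _ hY) (h.tr.null_mul_right hX _)

theorem Good.q_mul (h : Hyp φ q u s) {r : ℕ} {X : K} (hX : Good φ q u s r X) (k : Fin n) :
    Good φ q u s (r + 1) (q k * X) := by
  refine ⟨?_, fun j => comm_mul h (h.comm k j) (hX.comm j), fun g j => ?_⟩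
  · exact (norm_mul_le _ _).trans (mul_le_one₀ (h.q_norm k) (norm_nonneg _) hX.norm)
  · have e : q g * (q k * X) * q j * (u j - u g) =
        q g * (q k * X * q j * (u j - u k)) + q g * q k * (u k - u g) * (X * q j) +
          q g * q k * ((X * q j * u k - u k * (X * q j)) - (X * q j * u g - u g * (X * q j))) := by
      noncomm_ring
    have hnull : IsNull φ (q g * q k *
        ((X * q j * u k - u k * (X * q j)) - (X * q j * u g - u g * (X * q j)))) :=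
      h.tr.null_mul_left _ (h.tr.null_sub (comm_mul h (hX.comm k) (h.comm j k))
        (comm_mul h (hX.comm g) (h.comm j g)))
    have h1 : nrm2 φ (q g * (q k * X * q j * (u j - u k))) ≤ (r + 1) * s := by
      refine (h.tr.nrm2_mul_left_le _ _).trans ?_
      have := mul_le_of_le_one_left (IsPosTrace.nrm2_nonneg φ (q k * X * q j * (u j - u k)))
        (h.q_norm g)
      exact this.trans (hX.est k j)
    have h2 : nrm2 φ (q g * q k * (u k - u g) * (X * q j)) ≤ s := by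
      refine (h.tr.nrm2_mul_right_le _ _).trans ?_
      have hn : ‖X * q j‖ ≤ 1 :=
        (norm_mul_le _ _).trans (mul_le_one₀ hX.norm (norm_nonneg _) (h.q_norm j))
      refine (mul_le_of_le_one_left (IsPosTrace.nrm2_nonneg _ _) hn).trans ?_
      have h3 := h.key g k
      have e3 : q g * q k * (u k - u g) = -(q g * q k * (u g - u k)) := by noncomm_ring
      rw [e3, IsPosTrace.nrm2_neg]
      exact h3
    have h3 := (h.tr.isNull_iff _).1 hnull
    rw [e]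
    refine (h.tr.nrm2_add_le _ _).trans ?_
    rw [h3, add_zero]
    refine (h.tr.nrm2_add_le _ _).trans ?_
    push_cast
    linarith

theorem Good.sum (h : Hyp φ q u s) {r : ℕ} {X : Fin n → K} (hX : ∀ k, Good φ q u s r (X k))
    {ν : Fin n → ℝ} (hν : ∀ g, 0 ≤ ν g) (hν1 : ∑ g, ν g = 1) :
    Good φ q u s r (∑ k, (ν k : ℂ) • X k) := by
  refine ⟨?_, fun j => ?_, fun g j => ?_⟩
  · refine (norm_sum_le _ _).trans ?_
    rw [← hν1]
    refine Finset.sum_le_sum fun k _ => ?_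
    rw [norm_smul, Complex.norm_real, Real.norm_of_nonneg (hν k)]
    exact mul_le_of_le_one_right (hν k) (hX k).norm
  · have e : (∑ k, (ν k : ℂ) • X k) * u j - u j * (∑ k, (ν k : ℂ) • X k) =
        ∑ k, (ν k : ℂ) • (X k * u j - u j * X k) := by
      rw [Finset.sum_mul, Finset.mul_sum, ← Finset.sum_sub_distrib]
      refine Finset.sum_congr rfl fun k _ => ?_
      rw [smul_sub, smul_mul_assoc, mul_smul_comm]
    rw [e]
    exact h.tr.null_sum _ _ fun k _ => h.tr.null_smul _ ((hX k).comm j)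
  · have e : q g * (∑ k, (ν k : ℂ) • X k) * q j * (u j - u g) =
        ∑ k, (ν k : ℂ) • (q g * X k * q j * (u j - u g)) := by
      rw [Finset.mul_sum, Finset.sum_mul, Finset.sum_mul]
      refine Finset.sum_congr rfl fun k _ => ?_
      rw [mul_smul_comm, smul_mul_assoc, smul_mul_assoc]
    rw [e]
    refine (h.tr.nrm2_sum_le _ _).trans ?_
    have h1 : ∀ k ∈ (Finset.univ : Finset (Fin n)),
        nrm2 φ ((ν k : ℂ) • (q g * X k * q j * (u j - u g))) ≤ ν k * ((r + 1) * s) := by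
      intro k _
      rw [IsPosTrace.nrm2_smul, Complex.norm_real, Real.norm_of_nonneg (hν k)]
      exact mul_le_mul_of_nonneg_left ((hX k).est g j) (hν k)
    refine (Finset.sum_le_sum h1).trans ?_
    rw [← Finset.sum_mul, hν1, one_mul]

theorem Good.avgA_mul (h : Hyp φ q u s) {r : ℕ} {X : K} (hX : Good φ q u s r X)
    {ν : Fin n → ℝ} (hν : ∀ g, 0 ≤ ν g) (hν1 : ∑ g, ν g = 1) :
    Good φ q u s (r + 2) (avgA ν q * X) := by
  have e : avgA ν q * X = ∑ k, (ν k : ℂ) • (q k * (q k * X)) := by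
    unfold avgA
    rw [Finset.sum_mul]
    refine Finset.sum_congr rfl fun k _ => ?_
    rw [smul_mul_assoc, mul_assoc]
  rw [e]
  exact Good.sum h (fun k => (hX.q_mul h k).q_mul h k) hν hν1

theorem good_pow (h : Hyp φ q u s) {ν ν' : Fin n → ℝ} (hν : ∀ g, 0 ≤ ν g) (hν1 : ∑ g, ν g = 1)
    (hν' : ∀ g, 0 ≤ ν' g) (hν'1 : ∑ g, ν' g = 1) (i j : ℕ) :
    Good φ q u s (2 * (i + j)) (avgA ν q ^ i * avgA ν' q ^ j) := by
  induction i with
  | zero =>
    rw [pow_zero, one_mul, Nat.zero_add]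
    induction j with
    | zero => simpa using good_one h
    | succ j ih =>
      rw [pow_succ']
      have := ih.avgA_mul h hν' hν'1
      rwa [show 2 * j + 2 = 2 * (j + 1) by ring] at this
  | succ i ih =>
    rw [pow_succ', mul_assoc]
    have := ih.avgA_mul h hν hν1
    rwa [show 2 * (i + j) + 2 = 2 * (i + 1 + j) by ring] at this

/-- The estimate for a good element. -/
theorem Good.main (h : Hyp φ q u s) {r : ℕ} {X : K} (hX : Good φ q u s r X)
    {ν' : Fin n → ℝ} (hν' : ∀ g, 0 ≤ ν' g) (hν'1 : ∑ g, ν' g = 1) (g : Fin n) :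
    nrm2 φ (q g * X * (avgZ ν' q u - avgA ν' q * u g)) ≤ (r + 1) * s := by
  have e : q g * X * (avgZ ν' q u - avgA ν' q * u g) =
      ∑ k, (ν' k : ℂ) • (q g * X * q k * (u k - u g) * q k +
        q g * X * q k * (u g * q k - q k * u g)) := by
    unfold avgZ avgA
    rw [Finset.sum_mul, ← Finset.sum_sub_distrib, Finset.mul_sum]
    refine Finset.sum_congr rfl fun k _ => ?_
    rw [smul_mul_assoc, ← smul_sub, mul_smul_comm]
    congr 1
    noncomm_ring
  rw [e]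
  refine (h.tr.nrm2_sum_le _ _).trans ?_
  have h1 : ∀ k ∈ (Finset.univ : Finset (Fin n)),
      nrm2 φ ((ν' k : ℂ) • (q g * X * q k * (u k - u g) * q k +
        q g * X * q k * (u g * q k - q k * u g))) ≤ ν' k * ((r + 1) * s) := by
    intro k _
    rw [IsPosTrace.nrm2_smul, Complex.norm_real, Real.norm_of_nonneg (hν' k)]
    refine mul_le_mul_of_nonneg_left ?_ (hν' k)
    refine (h.tr.nrm2_add_le _ _).trans ?_
    have h2 : IsNull φ (q g * X * q k * (u g * q k - q k * u g)) := by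
      refine h.tr.null_mul_left _ ?_
      rw [← neg_sub]
      exact h.tr.null_neg (h.comm k g)
    rw [(h.tr.isNull_iff _).1 h2, add_zero]
    refine (h.tr.nrm2_mul_right_le _ _).trans ?_
    exact (mul_le_of_le_one_left (IsPosTrace.nrm2_nonneg _ _) (h.q_norm k)).trans (hX.est g k)
  refine (Finset.sum_le_sum h1).trans ?_
  rw [← Finset.sum_mul, hν'1, one_mul]

open Polynomial in
/-- The estimate for polynomials. -/
theorem poly_main (h : Hyp φ q u s) (p₁ p₂ : ℝ[X])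
    {ν ν' : Fin n → ℝ} (hν : ∀ g, 0 ≤ ν g) (hν1 : ∑ g, ν g = 1)
    (hν' : ∀ g, 0 ≤ ν' g) (hν'1 : ∑ g, ν' g = 1) (g : Fin n) :
    nrm2 φ (q g * (aeval (avgA ν q) p₁ * aeval (avgA ν' q) p₂) *
      (avgZ ν' q u - avgA ν' q * u g)) ≤
      (∑ i ∈ p₁.support, ∑ j ∈ p₂.support,
        |p₁.coeff i| * |p₂.coeff j| * (2 * ((i : ℝ) + j) + 1)) * s := by
  have e : q g * (aeval (avgA ν q) p₁ * aeval (avgA ν' q) p₂) *
      (avgZ ν' q u - avgA ν' q * u g) =
      ∑ i ∈ p₁.support, ∑ j ∈ p₂.support, ((p₁.coeff i * p₂.coeff j : ℝ) : ℂ) •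
        (q g * (avgA ν q ^ i * avgA ν' q ^ j) * (avgZ ν' q u - avgA ν' q * u g)) := by
    rw [Polynomial.aeval_def, Polynomial.aeval_def, Polynomial.eval₂_eq_sum,
      Polynomial.eval₂_eq_sum, Polynomial.sum, Polynomial.sum, Finset.sum_mul, Finset.mul_sum,
      Finset.sum_mul]
    refine Finset.sum_congr rfl fun i _ => ?_
    rw [Finset.mul_sum, Finset.mul_sum, Finset.sum_mul]
    refine Finset.sum_congr rfl fun j _ => ?_
    rw [Complex.coe_smul, Algebra.algebraMap_eq_smul_one, Algebra.algebraMap_eq_smul_one]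
    simp only [smul_mul_assoc, mul_smul_comm, one_mul, smul_smul]
    rw [mul_comm (p₂.coeff j) (p₁.coeff i)]
  rw [e, Finset.sum_mul]
  refine (h.tr.nrm2_sum_le _ _).trans (Finset.sum_le_sum fun i _ => ?_)
  rw [Finset.sum_mul]
  refine (h.tr.nrm2_sum_le _ _).trans (Finset.sum_le_sum fun j _ => ?_)
  rw [IsPosTrace.nrm2_smul, Complex.norm_real, Real.norm_eq_abs, abs_mul]
  have h1 := (good_pow h hν hν1 hν' hν'1 i j).main h hν' hν'1 g
  push_cast at h1
  calc _ ≤ |p₁.coeff i| * |p₂.coeff j| * ((2 * ((i : ℝ) + j) + 1) * s) :=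
        mul_le_mul_of_nonneg_left h1 (mul_nonneg (abs_nonneg _) (abs_nonneg _))
    _ = _ := by ring

end

open Polynomial in
/-- One family. The constant depends only on `f₁`, `f₂`, `κ`. -/
theorem one_family (f₁ f₂ : ℝ → ℝ) (hf₁ : Continuous f₁) (hf₂ : Continuous f₂) (κ : ℝ)
    (hκ : 0 < κ) : ∃ c₀ > 0, ∀ (n : ℕ) (K : Type u) [CStarAlgebra K] [PartialOrder K]
      [StarOrderedRing K] (φ : K →ₗ[ℂ] ℂ) (q u : Fin n → K) (w c : ℝ) (_ : 0 ≤ w) (_ : 0 ≤ c)
      (_ : c ≤ c₀) (_ : Hyp φ q u (c * w)) (_ : ∀ g, 0 ≤ q g) (_ : ∀ g, nrm2 φ (q g) ≤ w)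
      (ν ν' : Fin n → ℝ) (_ : ∀ g, 0 ≤ ν g) (_ : ∑ g, ν g = 1)
      (_ : ∀ g, 0 ≤ ν' g) (_ : ∑ g, ν' g = 1) (g : Fin n),
      nrm2 φ (q g * cfc f₁ (avgA ν q) * cfc f₂ (avgA ν' q) * (avgZ ν' q u - avgA ν' q * u g))
        ≤ κ * w := by
  obtain ⟨B₁, hB₁⟩ := (isCompact_Icc (a := (0 : ℝ)) (b := 1)).exists_bound_of_continuousOn
    hf₁.continuousOn
  obtain ⟨B₂, hB₂⟩ := (isCompact_Icc (a := (0 : ℝ)) (b := 1)).exists_bound_of_continuousOn
    hf₂.continuousOn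
  have hB₁0 : 0 ≤ B₁ := (norm_nonneg _).trans (hB₁ 0 (by simp))
  have hB₂0 : 0 ≤ B₂ := (norm_nonneg _).trans (hB₂ 0 (by simp))
  set δ : ℝ := min 1 (κ / (4 * (B₁ + B₂ + 1))) with hδ
  have hδ0 : 0 < δ := by
    rw [hδ]
    exact lt_min one_pos (by positivity)
  have hδ1 : δ ≤ 1 := min_le_left _ _
  have hδκ : 2 * (δ * (B₁ + B₂ + 1)) ≤ κ / 2 := by
    have h1 : δ ≤ κ / (4 * (B₁ + B₂ + 1)) := min_le_right _ _
    have h2 : 0 < B₁ + B₂ + 1 := by positivity
    calc 2 * (δ * (B₁ + B₂ + 1)) ≤ 2 * (κ / (4 * (B₁ + B₂ + 1)) * (B₁ + B₂ + 1)) := by gcongr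
      _ = κ / 2 := by field_simp; norm_num
  obtain ⟨p₁, hp₁⟩ := exists_polynomial_near_of_continuousOn 0 1 f₁ hf₁.continuousOn δ hδ0
  obtain ⟨p₂, hp₂⟩ := exists_polynomial_near_of_continuousOn 0 1 f₂ hf₂.continuousOn δ hδ0
  set C : ℝ := ∑ i ∈ p₁.support, ∑ j ∈ p₂.support,
    |p₁.coeff i| * |p₂.coeff j| * (2 * ((i : ℝ) + j) + 1) with hC
  have hC0 : 0 ≤ C := Finset.sum_nonneg fun i _ => Finset.sum_nonneg fun j _ => by positivity
  refine ⟨κ / (2 * (C + 1)), by positivity, ?_⟩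
  intro n K _ _ _ φ q u w c hw hc hcc h hq hqw ν ν' hν hν1 hν' hν'1 g
  have ha := avgA_nonneg hν hq
  have ha' := avgA_nonneg hν' hq
  have ha1 := norm_avgA_le hν hν1 h.q_norm
  have ha'1 := norm_avgA_le hν' hν'1 h.q_norm
  have hs := spectrum_subset_unit ha ha1
  have hs' := spectrum_subset_unit ha' ha'1
  set a := avgA ν q
  set a' := avgA ν' q
  set D := avgZ ν' q u - a' * u g with hD
  have hDn : ‖D‖ ≤ 2 := by
    rw [hD]
    refine (norm_sub_le _ _).trans ?_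
    have h1 := norm_avgZ_le hν' hν'1 h.q_norm h.u_norm
    have h2 : ‖a' * u g‖ ≤ 1 :=
      (norm_mul_le _ _).trans (mul_le_one₀ ha'1 (norm_nonneg _) (h.u_norm g))
    linarith
  have hp1 : cfc p₁.eval a = aeval a p₁ := cfc_polynomial p₁ a
  have hp2 : cfc p₂.eval a' = aeval a' p₂ := cfc_polynomial p₂ a'
  have hn1 : ‖cfc f₁ a - aeval a p₁‖ ≤ δ := by
    rw [← hp1, ← cfc_sub f₁ p₁.eval a]
    refine norm_cfc_le hδ0.le fun x hx => ?_
    rw [← norm_neg, neg_sub]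
    exact (hp₁ x (hs hx)).le
  have hn2 : ‖cfc f₂ a' - aeval a' p₂‖ ≤ δ := by
    rw [← hp2, ← cfc_sub f₂ p₂.eval a']
    refine norm_cfc_le hδ0.le fun x hx => ?_
    rw [← norm_neg, neg_sub]
    exact (hp₂ x (hs' hx)).le
  have hb1 : ‖cfc f₁ a‖ ≤ B₁ := norm_cfc_le hB₁0 fun x hx => hB₁ x (hs hx)
  have hb2 : ‖cfc f₂ a'‖ ≤ B₂ := norm_cfc_le hB₂0 fun x hx => hB₂ x (hs' hx)
  have hb1' : ‖aeval a p₁‖ ≤ B₁ + 1 := by
    have : aeval a p₁ = cfc f₁ a - (cfc f₁ a - aeval a p₁) := by abel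
    rw [this]
    exact (norm_sub_le _ _).trans (add_le_add hb1 (hn1.trans hδ1))
  have hY : ‖cfc f₁ a * cfc f₂ a' - aeval a p₁ * aeval a' p₂‖ ≤ δ * (B₁ + B₂ + 1) := by
    have e : cfc f₁ a * cfc f₂ a' - aeval a p₁ * aeval a' p₂ =
        (cfc f₁ a - aeval a p₁) * cfc f₂ a' + aeval a p₁ * (cfc f₂ a' - aeval a' p₂) := by
      noncomm_ring
    rw [e]
    refine (norm_add_le _ _).trans ?_
    have h1 : ‖(cfc f₁ a - aeval a p₁) * cfc f₂ a'‖ ≤ δ * B₂ :=
      (norm_mul_le _ _).trans (mul_le_mul hn1 hb2 (norm_nonneg _) hδ0.le)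
    have h2 : ‖aeval a p₁ * (cfc f₂ a' - aeval a' p₂)‖ ≤ (B₁ + 1) * δ :=
      (norm_mul_le _ _).trans (mul_le_mul hb1' hn2 (norm_nonneg _) (by positivity))
    calc _ ≤ δ * B₂ + (B₁ + 1) * δ := add_le_add h1 h2
      _ = _ := by ring
  have hpoly := poly_main h p₁ p₂ hν hν1 hν' hν'1 g
  rw [← hC] at hpoly
  have e : q g * cfc f₁ a * cfc f₂ a' * D =
      q g * ((cfc f₁ a * cfc f₂ a' - aeval a p₁ * aeval a' p₂) * D) +
        q g * (aeval a p₁ * aeval a' p₂) * D := by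
    noncomm_ring
  rw [e]
  refine (h.tr.nrm2_add_le _ _).trans ?_
  have h1 : nrm2 φ (q g * ((cfc f₁ a * cfc f₂ a' - aeval a p₁ * aeval a' p₂) * D)) ≤
      κ / 2 * w := by
    refine (h.tr.nrm2_mul_right_le _ _).trans ?_
    have h2 : ‖(cfc f₁ a * cfc f₂ a' - aeval a p₁ * aeval a' p₂) * D‖ ≤ κ / 2 := by
      refine (norm_mul_le _ _).trans ?_
      refine (mul_le_mul hY hDn (norm_nonneg _) (by positivity)).trans ?_
      linarith
    exact mul_le_mul h2 (hqw g) (IsPosTrace.nrm2_nonneg _ _) (by positivity)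
  have h2 : C * (c * w) ≤ κ / 2 * w := by
    have h3 : C * c ≤ κ / 2 := by
      calc C * c ≤ C * (κ / (2 * (C + 1))) := mul_le_mul_of_nonneg_left hcc hC0
        _ ≤ (C + 1) * (κ / (2 * (C + 1))) := by
          refine mul_le_mul_of_nonneg_right (by linarith) (by positivity)
        _ = κ / 2 := by field_simp
    calc C * (c * w) = (C * c) * w := by ring
      _ ≤ _ := mul_le_mul_of_nonneg_right h3 hw
  have h3 := hpoly.trans h2
  linarith

end Chain

/-- The chain lemma for continuous functions: constants depend only on `n`, `f₁`, `f₂`. -/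
theorem chain_lemma (n : ℕ) (f₁ f₂ : ℝ → ℝ) (hf₁ : Continuous f₁) (hf₂ : Continuous f₂) (κ : ℝ)
    (hκ : 0 < κ) : ∃ c₀ > 0, ∀ (K : Type u) [CStarAlgebra K] [PartialOrder K] [StarOrderedRing K]
      (φ : K →ₗ[ℂ] ℂ) (_ : IsPosTrace φ) (q v : Fin n → K) (η c : ℝ) (_ : UnitBlock φ q v η c)
      (_ : c ≤ c₀) (ν ν' : Fin n → ℝ) (_ : ∀ g, 0 ≤ ν g) (_ : ∑ g, ν g = 1)
      (_ : ∀ g, 0 ≤ ν' g) (_ : ∑ g, ν' g = 1) (g : Fin n),
      sq φ (q g * cfc f₁ (avgA ν q) * cfc f₂ (avgA ν' q) * (avgZ ν' q v - avgA ν' q * v g))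
        ≤ κ * η * (φ 1).re ∧
      sq φ (q g * cfc f₁ (avgA ν q) * cfc f₂ (avgA ν' q) *
        (star (avgZ ν' q v) - avgA ν' q * star (v g))) ≤ κ * η * (φ 1).re := by
  obtain ⟨c₁, hc₁, H⟩ := Chain.one_family.{u} f₁ f₂ hf₁ hf₂ (√κ) (Real.sqrt_pos.2 hκ)
  refine ⟨c₁ ^ 2, by positivity, ?_⟩
  intro K _ _ _ φ hφ q v η c h hc ν ν' hν hν1 hν' hν'1 g
  set w : ℝ := √(η * (φ 1).re) with hw
  have h1 : 0 ≤ (φ 1).re := hφ.one_re_nonneg
  have hη := h.η_pos
  have hw0 : 0 ≤ w := Real.sqrt_nonneg _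
  have hw2 : w ^ 2 = η * (φ 1).re := Real.sq_sqrt (by positivity)
  have hsqrtc : √(max c 0) ≤ c₁ := by
    rw [Real.sqrt_le_left hc₁.le]
    exact max_le hc (by positivity)
  have hkeyb : ∀ y : K, sq φ y ≤ c * η * (φ 1).re → nrm2 φ y ≤ √(max c 0) * w := by
    intro y hy
    rw [hφ.nrm2_le_iff _ (by positivity), mul_pow, hw2, Real.sq_sqrt (le_max_right _ _)]
    calc sq φ y ≤ c * η * (φ 1).re := hy
      _ ≤ max c 0 * (η * (φ 1).re) := by
        rw [mul_assoc]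
        exact mul_le_mul_of_nonneg_right (le_max_left _ _) (by positivity)
  have hqw : ∀ g, nrm2 φ (q g) ≤ w := by
    intro g
    rw [hφ.nrm2_le_iff _ hw0, hw2]
    unfold sq
    rw [(IsSelfAdjoint.of_nonneg (h.q_nonneg g)).star_eq, hφ.apply_congr (h.proj g), h.q_tr g,
      Complex.re_ofReal_mul]
  have hfin : ∀ y : K, nrm2 φ y ≤ √κ * w → sq φ y ≤ κ * η * (φ 1).re := by
    intro y hy
    rw [hφ.nrm2_le_iff _ (by positivity), mul_pow, hw2, Real.sq_sqrt hκ.le] at hy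
    linarith
  have hstar : star (avgZ ν' q v) = avgZ ν' q (fun g => star (v g)) := by
    unfold avgZ
    rw [star_sum]
    refine Finset.sum_congr rfl fun k _ => ?_
    rw [star_smul, star_mul, star_mul, (IsSelfAdjoint.of_nonneg (h.q_nonneg k)).star_eq, mul_assoc,
      Complex.star_def, Complex.conj_ofReal]
  refine ⟨hfin _ ?_, hfin _ ?_⟩
  · exact H n K φ q v w (√(max c 0)) hw0 (Real.sqrt_nonneg _) hsqrtc
      ⟨hφ, h.q_norm, h.v_norm, h.comm, fun g k => hkeyb _ (h.key g k)⟩ h.q_nonneg hqw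
      ν ν' hν hν1 hν' hν'1 g
  · rw [hstar]
    refine H n K φ q (fun g => star (v g)) w (√(max c 0)) hw0 (Real.sqrt_nonneg _) hsqrtc
      ⟨hφ, h.q_norm, fun g => by rw [norm_star]; exact h.v_norm g, fun g k => ?_,
        fun g k => hkeyb _ (h.key' g k)⟩ h.q_nonneg hqw ν ν' hν hν1 hν' hν'1 g
    have h2 := hφ.null_neg (hφ.null_star (h.comm g k))
    have e : -star (q g * v k - v k * q g) = q g * star (v k) - star (v k) * q g := by
      rw [star_sub, star_mul, star_mul, (IsSelfAdjoint.of_nonneg (h.q_nonneg g)).star_eq]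
      abel
    rwa [e] at h2

end Vale.Agent.P095
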