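import Vale.Agent.P095.NDefs

/-!
# P095 [E8, part 1]: in a simple unital algebra traces are bounded below on nonzero positive elements
-/

open Filter Topology TopologicalSpace
open scoped BoundedContinuousFunction ComplexOrder

namespace Vale.Agent.P095

open Vale.Agent.P101

universe u

namespace CompareTr

variable {A : Type u} [CStarAlgebra A]

/-- real part of a trace is star invariant -/
theorem re_star {τ : A →ₗ[ℂ] ℂ} (h : IsTrace τ) (x : A) : (τ (star x)).re = (τ x).re := by
  have e1 : ∀ z : A, (τ (star z * z)).im = 0 := fun z =>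
    (Complex.nonneg_iff.1 (h.nonneg z)).2.symm
  have e2 := e1 (1 + Complex.I • x)
  have e3 := e1 x
  have e4 := e1 (1 : A)
  rw [star_add, star_smul, star_one, add_mul, mul_add, mul_add, one_mul, one_mul, mul_one] at e2
  simp only [mul_smul_comm, smul_mul_assoc, map_add, map_smul, smul_eq_mul, smul_smul,
    Complex.star_def, Complex.conj_I, Complex.add_im, Complex.mul_im, Complex.I_re,
    Complex.I_im, Complex.neg_re, Complex.neg_im, Complex.mul_re] at e2
  rw [star_one, one_mul] at e4
  rw [e3, e4] at e2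
  linarith

theorem re_mul_star_mul_le {τ : A →ₗ[ℂ] ℂ} (h : IsTrace τ) (d z : A) :
    (τ (d * (star z * z))).re ≤ ‖d‖ * (τ (star z * z)).re := by
  have hz : τ (z * star z) = τ (star z * z) := h.trace _ _
  have hpos : 0 ≤ (τ (star z * z)).re := IsTrace.re_nonneg h z
  have key : ∀ δ : ℝ, ‖d‖ < δ → (τ (d * (star z * z))).re ≤ δ * (τ (star z * z)).re := by
    intro δ hδ
    have hδ0 : 0 < δ := lt_of_le_of_lt (norm_nonneg d) hδ
    have h1 := IsTrace.re_nonneg h (star d * star z - (δ : ℂ) • star z)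
    have h2 : star (star d * star z - (δ : ℂ) • star z) * (star d * star z - (δ : ℂ) • star z)
        = star (star d * star z) * (star d * star z) - (δ : ℂ) • (z * d * star z)
          - (δ : ℂ) • star (z * d * star z) + (δ * δ : ℂ) • (z * star z) := by
      simp only [star_sub, star_mul, star_star, star_smul, Complex.star_def, Complex.conj_ofReal,
        sub_mul, mul_sub, smul_mul_assoc, mul_smul_comm, smul_sub, smul_smul, mul_assoc]
      abel
    have h3 := IsTrace.re_mul_le h (star d) (star z)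
    rw [star_star, hz, norm_star] at h3
    rw [h2, map_add, map_sub, map_sub, map_smul, map_smul, map_smul, Complex.add_re,
      Complex.sub_re, Complex.sub_re, smul_eq_mul, smul_eq_mul, smul_eq_mul,
      Complex.re_ofReal_mul, Complex.re_ofReal_mul, re_star h, hz, ← Complex.ofReal_mul,
      Complex.re_ofReal_mul] at h1
    have h4 : τ (z * d * star z) = τ (d * (star z * z)) := by
      rw [mul_assoc, h.trace, mul_assoc]
    rw [h4] at h1
    have h5 : ‖d‖ ^ 2 * (τ (star z * z)).re ≤ δ * δ * (τ (star z * z)).re := by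
      apply mul_le_mul_of_nonneg_right _ hpos
      nlinarith [norm_nonneg d]
    have h6 : δ * (τ (d * (star z * z))).re ≤ δ * (δ * (τ (star z * z)).re) := by
      nlinarith
    exact le_of_mul_le_mul_left h6 hδ0
  by_contra hcon
  push Not at hcon
  rcases hpos.eq_or_lt with h0 | h0
  · have := key (‖d‖ + 1) (by linarith)
    rw [← h0] at this hcon
    simp at this hcon
    linarith
  · have h1 := key ((‖d‖ + (τ (d * (star z * z))).re / (τ (star z * z)).re) / 2) (by
      have : ‖d‖ < (τ (d * (star z * z))).re / (τ (star z * z)).re := by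
        rwa [lt_div_iff₀ h0]
      linarith)
    rw [div_mul_eq_mul_div, add_mul, div_mul_cancel₀ _ h0.ne'] at h1
    linarith

theorem abs_re_mul_le {τ : A →ₗ[ℂ] ℂ} (h : IsTrace τ) (d z : A) :
    |(τ (d * (star z * z))).re| ≤ ‖d‖ * (τ (star z * z)).re := by
  rw [abs_le]
  refine ⟨?_, re_mul_star_mul_le h d z⟩
  have := re_mul_star_mul_le h (-d) z
  rw [neg_mul, map_neg, Complex.neg_re, norm_neg] at this
  linarith

/-- the elements dominated by `x` under all traces, in all products: a two-sided ideal -/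
def domIdeal (x : A) (hx : ∀ τ : A →ₗ[ℂ] ℂ, IsTrace τ → 0 ≤ (τ x).re) : TwoSidedIdeal A :=
  TwoSidedIdeal.mk' {a | ∃ C : ℝ, 0 ≤ C ∧ ∀ τ : A →ₗ[ℂ] ℂ, IsTrace τ → ∀ d : A,
      |(τ (d * a)).re| ≤ C * ‖d‖ * (τ x).re}
    ⟨0, le_rfl, fun τ _ d => by simp⟩
    (by
      rintro a b ⟨C, hC, h1⟩ ⟨C', hC', h2⟩
      refine ⟨C + C', by positivity, fun τ hτ d => ?_⟩
      rw [mul_add, map_add, Complex.add_re]
      have e1 := h1 τ hτ d
      have e2 := h2 τ hτ d
      have e3 := abs_add_le (τ (d * a)).re (τ (d * b)).re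
      nlinarith)
    (by
      rintro a ⟨C, hC, h1⟩
      refine ⟨C, hC, fun τ hτ d => ?_⟩
      rw [mul_neg, map_neg, Complex.neg_re, abs_neg]
      exact h1 τ hτ d)
    (by
      rintro b a ⟨C, hC, h1⟩
      refine ⟨C * ‖b‖, by positivity, fun τ hτ d => ?_⟩
      rw [← mul_assoc]
      refine (h1 τ hτ (d * b)).trans (mul_le_mul_of_nonneg_right ?_ (hx τ hτ))
      have : C * ‖d * b‖ ≤ C * (‖d‖ * ‖b‖) := mul_le_mul_of_nonneg_left (norm_mul_le _ _) hC
      linarith)
    (by
      rintro a b ⟨C, hC, h1⟩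
      refine ⟨C * ‖b‖, by positivity, fun τ hτ d => ?_⟩
      have e1 : τ (d * (a * b)) = τ ((b * d) * a) := by
        rw [← mul_assoc, hτ.trace, mul_assoc]
      rw [e1]
      refine (h1 τ hτ (b * d)).trans (mul_le_mul_of_nonneg_right ?_ (hx τ hτ))
      have : C * ‖b * d‖ ≤ C * (‖b‖ * ‖d‖) := mul_le_mul_of_nonneg_left (norm_mul_le _ _) hC
      linarith)

end CompareTr

/-- for simple unital `A` and `x ≠ 0` positive, traces are bounded below on `x` -/
theorem exists_trace_lower {A : Type u} [CStarAlgebra A] [IsSimpleRing A] (x : A) (hx : IsPos x)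
    (hx0 : x ≠ 0) : ∃ c > 0, ∀ τ : A →ₗ[ℂ] ℂ, IsTrace τ → c ≤ (τ x).re := by
  obtain ⟨z, rfl⟩ := hx
  have hpos : ∀ τ : A →ₗ[ℂ] ℂ, IsTrace τ → 0 ≤ (τ (star z * z)).re :=
    fun τ hτ => IsTrace.re_nonneg hτ z
  have hmem : star z * z ∈ CompareTr.domIdeal (star z * z) hpos := by
    unfold CompareTr.domIdeal
    rw [TwoSidedIdeal.mem_mk']
    refine ⟨1, by norm_num, fun τ hτ d => ?_⟩
    rw [one_mul]
    exact CompareTr.abs_re_mul_le hτ d z
  have hone : (1 : A) ∈ CompareTr.domIdeal (star z * z) hpos := by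
    rcases eq_bot_or_eq_top (CompareTr.domIdeal (star z * z) hpos) with h | h
    · rw [h, TwoSidedIdeal.mem_bot] at hmem
      exact absurd hmem hx0
    · rw [h]; trivial
  unfold CompareTr.domIdeal at hone
  rw [TwoSidedIdeal.mem_mk'] at hone
  obtain ⟨C, hC, h1⟩ := hone
  have hn : (0 : ℝ) ≤ ‖(1 : A)‖ := norm_nonneg _
  refine ⟨1 / (C * ‖(1 : A)‖ + 1), by positivity, fun τ hτ => ?_⟩
  have h2 := h1 τ hτ 1
  rw [mul_one, hτ.map_one] at h2
  have h3 := hpos τ hτ
  rw [div_le_iff₀ (by positivity)]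
  simp only [Complex.one_re, abs_one] at h2
  nlinarith

end Vale.Agent.P095
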