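import Vale.Agent.P095.UnitDefs
import Vale.Agent.P095.SeedSeq
import Vale.Agent.P095.MomentLoc

/-!
# P095: basic calculus of positive tracial functionals (Cauchy-Schwarz, the `2`-norm, null ideal)
-/

open Filter Topology TopologicalSpace
open scoped BoundedContinuousFunction ComplexOrder

namespace Vale.Agent.P095.PosTr

open Vale.Agent.P101 Vale.Agent.P095

section Basic

variable {K : Type*} [CStarAlgebra K] {φ : K →ₗ[ℂ] ℂ}

theorem sq_nonneg (h : IsPosTrace φ) (x : K) : 0 ≤ sq φ x := (Complex.nonneg_iff.1 (h.nonneg x)).1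

theorem apply_star_mul_self (h : IsPosTrace φ) (x : K) : φ (star x * x) = (sq φ x : ℂ) :=
  Complex.ext rfl (Complex.nonneg_iff.1 (h.nonneg x)).2.symm

theorem map_star (h : IsPosTrace φ) (x : K) : φ (star x) = star (φ x) :=
  map_star_of_nonneg h.nonneg x

theorem isNull_iff (h : IsPosTrace φ) {x : K} : IsNull φ x ↔ sq φ x = 0 := by
  unfold IsNull
  rw [apply_star_mul_self h]
  exact_mod_cast Iff.rfl

theorem one_nonneg (h : IsPosTrace φ) : 0 ≤ (φ 1).re := by
  have := sq_nonneg h 1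
  rwa [sq, star_one, one_mul] at this

theorem apply_one (h : IsPosTrace φ) : φ 1 = ((φ 1).re : ℂ) := by
  have := apply_star_mul_self h 1
  rw [sq, star_one, one_mul] at this
  exact this

theorem sq_star (h : IsPosTrace φ) (x : K) : sq φ (star x) = sq φ x := by
  unfold sq
  rw [star_star, h.trace]

theorem sq_neg (φ : K →ₗ[ℂ] ℂ) (x : K) : sq φ (-x) = sq φ x := by
  unfold sq
  rw [star_neg, neg_mul_neg]

theorem sq_smul (φ : K →ₗ[ℂ] ℂ) (c : ℂ) (x : K) : sq φ (c • x) = ‖c‖ ^ 2 * sq φ x := by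
  unfold sq
  rw [star_smul, smul_mul_smul_comm, map_smul, smul_eq_mul]
  have : star c * c = ((‖c‖ ^ 2 : ℝ) : ℂ) := by
    rw [Complex.star_def, mul_comm, Complex.mul_conj, Complex.normSq_eq_norm_sq]
  rw [this, Complex.re_ofReal_mul]

theorem sq_add (h : IsPosTrace φ) (x y : K) :
    sq φ (x + y) = sq φ x + sq φ y + 2 * (φ (star x * y)).re := by
  unfold sq
  have e : star (x + y) * (x + y) = star x * x + star y * y + star x * y + star (star x * y) := by
    rw [star_add, star_mul, star_star]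
    noncomm_ring
  rw [e, map_add, map_add, map_add, map_star h, Complex.add_re, Complex.add_re, Complex.add_re,
    Complex.star_def, Complex.conj_re]
  ring

theorem sq_sub (h : IsPosTrace φ) (x y : K) :
    sq φ (x - y) = sq φ x + sq φ y - 2 * (φ (star x * y)).re := by
  rw [sub_eq_add_neg, sq_add h, sq_neg, mul_neg, map_neg, Complex.neg_re]
  ring

/-- Cauchy-Schwarz. -/
theorem cs (h : IsPosTrace φ) (x y : K) : ‖φ (star x * y)‖ ^ 2 ≤ sq φ x * sq φ y := by
  set c := φ (star x * y) with hc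
  have key : ∀ t : ℝ, 0 ≤ sq φ x * (t * t) + (2 * ‖c‖ ^ 2) * t + ‖c‖ ^ 2 * sq φ y := by
    intro t
    have h1 := sq_nonneg h ((t : ℂ) • x + (star c) • y)
    rw [sq_add h, sq_smul, sq_smul, star_smul, smul_mul_smul_comm, map_smul, ← hc, smul_eq_mul] at h1
    have h2 : star (t : ℂ) * star c * c = ((t * ‖c‖ ^ 2 : ℝ) : ℂ) := by
      have h3 : star c * c = ((‖c‖ ^ 2 : ℝ) : ℂ) := by
        rw [Complex.star_def, mul_comm, Complex.mul_conj, Complex.normSq_eq_norm_sq]
      rw [mul_assoc, h3, Complex.star_def, Complex.conj_ofReal]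
      push_cast
      ring
    rw [h2, Complex.ofReal_re, norm_star, Complex.norm_real, Real.norm_eq_abs, sq_abs] at h1
    linarith [h1, show sq φ x * (t * t) = t ^ 2 * sq φ x by ring]
  have hd := discrim_le_zero key
  rw [discrim] at hd
  rcases eq_or_lt_of_le (norm_nonneg c) with h0 | h0
  · rw [← h0]
    simpa using mul_nonneg (sq_nonneg h x) (sq_nonneg h y)
  · have h3 : 0 < ‖c‖ ^ 2 := by positivity
    have h4 : ‖c‖ ^ 2 * ‖c‖ ^ 2 ≤ ‖c‖ ^ 2 * (sq φ x * sq φ y) := by nlinarith
    exact le_of_mul_le_mul_left h4 h3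

/-- The `2`-norm. -/
noncomputable def n2 (φ : K →ₗ[ℂ] ℂ) (x : K) : ℝ := √(sq φ x)

theorem n2_nonneg (φ : K →ₗ[ℂ] ℂ) (x : K) : 0 ≤ n2 φ x := Real.sqrt_nonneg _

theorem n2_sq (h : IsPosTrace φ) (x : K) : n2 φ x ^ 2 = sq φ x := Real.sq_sqrt (sq_nonneg h x)

theorem n2_le_iff (h : IsPosTrace φ) {x : K} {c : ℝ} (hc : 0 ≤ c) :
    n2 φ x ≤ c ↔ sq φ x ≤ c ^ 2 := by
  rw [← n2_sq h]
  exact (pow_le_pow_iff_left₀ (n2_nonneg φ x) hc two_ne_zero).symm

theorem norm_apply_star_mul_le (h : IsPosTrace φ) (x y : K) :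
    ‖φ (star x * y)‖ ≤ n2 φ x * n2 φ y := by
  rw [n2, n2, ← Real.sqrt_mul (sq_nonneg h x)]
  exact Real.le_sqrt_of_sq_le (cs h x y)

theorem n2_star (h : IsPosTrace φ) (x : K) : n2 φ (star x) = n2 φ x := by
  rw [n2, sq_star h, n2]

theorem norm_apply_mul_le (h : IsPosTrace φ) (x y : K) : ‖φ (x * y)‖ ≤ n2 φ x * n2 φ y := by
  have := norm_apply_star_mul_le h (star x) y
  rwa [star_star, n2_star h] at this

theorem n2_neg (φ : K →ₗ[ℂ] ℂ) (x : K) : n2 φ (-x) = n2 φ x := by rw [n2, sq_neg, n2]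

theorem n2_smul (φ : K →ₗ[ℂ] ℂ) (c : ℂ) (x : K) : n2 φ (c • x) = ‖c‖ * n2 φ x := by
  rw [n2, sq_smul, Real.sqrt_mul (by positivity), Real.sqrt_sq (norm_nonneg c), n2]

theorem n2_add_le (h : IsPosTrace φ) (x y : K) : n2 φ (x + y) ≤ n2 φ x + n2 φ y := by
  rw [n2_le_iff h (add_nonneg (n2_nonneg φ x) (n2_nonneg φ y)), sq_add h, ← n2_sq h, ← n2_sq h]
  have h1 := norm_apply_star_mul_le h x y
  have h2 := Complex.re_le_norm (φ (star x * y))
  nlinarith

theorem n2_sub_le (h : IsPosTrace φ) (x y : K) : n2 φ (x - y) ≤ n2 φ x + n2 φ y := by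
  rw [sub_eq_add_neg]
  refine (n2_add_le h x (-y)).trans ?_
  rw [n2_neg]

theorem n2_zero (φ : K →ₗ[ℂ] ℂ) : n2 φ 0 = 0 := by
  rw [n2, sq]
  simp

theorem n2_sum_le (h : IsPosTrace φ) {ι : Type*} (s : Finset ι) (f : ι → K) :
    n2 φ (∑ i ∈ s, f i) ≤ ∑ i ∈ s, n2 φ (f i) := by
  classical
  induction s using Finset.induction_on with
  | empty => simp [n2_zero]
  | insert a s ha ih =>
    rw [Finset.sum_insert ha, Finset.sum_insert ha]
    exact (n2_add_le h _ _).trans (by gcongr)

theorem sq_add_le (h : IsPosTrace φ) (x y : K) : sq φ (x + y) ≤ 2 * sq φ x + 2 * sq φ y := by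
  have h1 := sq_nonneg h (x - y)
  rw [sq_sub h] at h1
  rw [sq_add h]
  linarith

theorem sq_sub_le (h : IsPosTrace φ) (x y : K) : sq φ (x - y) ≤ 2 * sq φ x + 2 * sq φ y := by
  rw [sub_eq_add_neg]
  refine (sq_add_le h x (-y)).trans ?_
  rw [sq_neg]

theorem sq_mul_left_le (h : IsPosTrace φ) (A x : K) : sq φ (A * x) ≤ ‖A‖ ^ 2 * sq φ x := by
  let _ := CStarAlgebra.spectralOrder K
  have _ := CStarAlgebra.spectralOrderedRing K
  have h1 : star A * A ≤ algebraMap ℝ K (‖A‖ ^ 2) := by
    have := IsSelfAdjoint.le_algebraMap_norm_self (IsSelfAdjoint.star_mul_self A)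
    rwa [CStarRing.norm_star_mul_self, ← pow_two] at this
  rw [← sub_nonneg, CStarAlgebra.nonneg_iff_eq_star_mul_self] at h1
  obtain ⟨z, hz⟩ := h1
  have h2 := sq_nonneg h (z * x)
  unfold sq at h2 ⊢
  have e : star (z * x) * (z * x) = ((‖A‖ ^ 2 : ℝ) : ℂ) • (star x * x) - star (A * x) * (A * x) := by
    rw [star_mul, star_mul]
    calc star x * star z * (z * x) = star x * (star z * z) * x := by noncomm_ring
      _ = star x * (algebraMap ℝ K (‖A‖ ^ 2) - star A * A) * x := by rw [hz]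
      _ = star x * (algebraMap ℝ K (‖A‖ ^ 2)) * x - star x * star A * (A * x) := by noncomm_ring
      _ = _ := by
        rw [Algebra.algebraMap_eq_smul_one, mul_smul_comm, mul_one, smul_mul_assoc, Complex.coe_smul]
  rw [e, map_sub, map_smul, smul_eq_mul, Complex.sub_re, Complex.re_ofReal_mul] at h2
  linarith

theorem sq_mul_right_le (h : IsPosTrace φ) (x B : K) : sq φ (x * B) ≤ ‖B‖ ^ 2 * sq φ x := by
  rw [← sq_star h (x * B), star_mul, ← sq_star h x]
  refine (sq_mul_left_le h _ _).trans ?_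
  rw [norm_star]

theorem n2_mul_left_le (h : IsPosTrace φ) (A x : K) : n2 φ (A * x) ≤ ‖A‖ * n2 φ x := by
  rw [n2_le_iff h (mul_nonneg (norm_nonneg _) (n2_nonneg _ _)), mul_pow, n2_sq h]
  exact sq_mul_left_le h A x

theorem n2_mul_right_le (h : IsPosTrace φ) (x B : K) : n2 φ (x * B) ≤ ‖B‖ * n2 φ x := by
  rw [n2_le_iff h (mul_nonneg (norm_nonneg _) (n2_nonneg _ _)), mul_pow, n2_sq h]
  exact sq_mul_right_le h x B

theorem norm_apply_le (h : IsPosTrace φ) (a : K) : ‖φ a‖ ≤ ‖a‖ * (φ 1).re :=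
  MomentLoc.norm_apply_le h.nonneg a

theorem continuous (h : IsPosTrace φ) : Continuous φ := by
  refine AddMonoidHomClass.continuous_of_bound φ (φ 1).re fun x => ?_
  rw [mul_comm]
  exact norm_apply_le h x

theorem sq_le_norm (h : IsPosTrace φ) (x : K) : sq φ x ≤ ‖x‖ ^ 2 * (φ 1).re := by
  have := sq_mul_left_le h x 1
  rw [mul_one] at this
  refine this.trans (le_of_eq ?_)
  rw [sq, star_one, one_mul]

/-! ### the null ideal -/

theorem isNull_iff_n2 (h : IsPosTrace φ) {x : K} : IsNull φ x ↔ n2 φ x = 0 := by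
  rw [isNull_iff h, n2, Real.sqrt_eq_zero (sq_nonneg h x)]

theorem null_star (h : IsPosTrace φ) {x : K} (hx : IsNull φ x) : IsNull φ (star x) := by
  rw [isNull_iff_n2 h] at hx ⊢
  rw [n2_star h, hx]

theorem null_add (h : IsPosTrace φ) {x y : K} (hx : IsNull φ x) (hy : IsNull φ y) :
    IsNull φ (x + y) := by
  rw [isNull_iff_n2 h] at hx hy ⊢
  have := n2_add_le h x y
  rw [hx, hy, add_zero] at this
  exact le_antisymm this (n2_nonneg _ _)

theorem null_smul (h : IsPosTrace φ) (c : ℂ) {x : K} (hx : IsNull φ x) : IsNull φ (c • x) := by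
  rw [isNull_iff_n2 h] at hx ⊢
  rw [n2_smul, hx, mul_zero]

theorem null_neg (h : IsPosTrace φ) {x : K} (hx : IsNull φ x) : IsNull φ (-x) := by
  rw [isNull_iff_n2 h] at hx ⊢
  rw [n2_neg, hx]

theorem null_sub (h : IsPosTrace φ) {x y : K} (hx : IsNull φ x) (hy : IsNull φ y) :
    IsNull φ (x - y) := by
  rw [sub_eq_add_neg]
  exact null_add h hx (null_neg h hy)

theorem null_mul_left (h : IsPosTrace φ) (A : K) {x : K} (hx : IsNull φ x) :
    IsNull φ (A * x) := by
  rw [isNull_iff_n2 h] at hx ⊢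
  have := n2_mul_left_le h A x
  rw [hx, mul_zero] at this
  exact le_antisymm this (n2_nonneg _ _)

theorem null_mul_right (h : IsPosTrace φ) (B : K) {x : K} (hx : IsNull φ x) :
    IsNull φ (x * B) := by
  rw [isNull_iff_n2 h] at hx ⊢
  have := n2_mul_right_le h x B
  rw [hx, mul_zero] at this
  exact le_antisymm this (n2_nonneg _ _)

theorem isNull_zero (φ : K →ₗ[ℂ] ℂ) : IsNull φ (0 : K) := by
  unfold IsNull
  simp

theorem null_apply (h : IsPosTrace φ) {x : K} (hx : IsNull φ x) : φ x = 0 := by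
  have := map_mul_eq_zero_of_null h.nonneg hx 1
  rwa [one_mul] at this

theorem null_apply_eq (h : IsPosTrace φ) {x y : K} (hx : IsNull φ (x - y)) : φ x = φ y := by
  have := null_apply h hx
  rw [map_sub, sub_eq_zero] at this
  exact this

theorem n2_eq_of_null (h : IsPosTrace φ) {x y : K} (hx : IsNull φ (x - y)) : n2 φ x = n2 φ y := by
  rw [isNull_iff_n2 h] at hx
  have h1 := n2_add_le h (x - y) y
  have h2 := n2_sub_le h x (x - y)
  rw [sub_add_cancel, hx, zero_add] at h1
  rw [sub_sub_cancel, hx, add_zero] at h2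
  exact le_antisymm h1 h2

theorem isClosed_null (h : IsPosTrace φ) : IsClosed {x : K | IsNull φ x} := by
  have : Continuous fun x : K => φ (star x * x) :=
    (continuous h).comp (continuous_star.mul continuous_id)
  exact isClosed_singleton.preimage this

/-- The closed star subalgebra of the elements commuting with `v` and `v⋆` modulo null elements. -/
def commAlg (φ : K →ₗ[ℂ] ℂ) (h : IsPosTrace φ) (v : K) : StarSubalgebra ℂ K where
  carrier := {y | IsNull φ (y * v - v * y) ∧ IsNull φ (y * star v - star v * y)}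
  mul_mem' := by
    intro a b ha hb
    have key : ∀ w : K, IsNull φ (a * w - w * a) → IsNull φ (b * w - w * b) →
        IsNull φ (a * b * w - w * (a * b)) := by
      intro w h1 h2
      have e : a * b * w - w * (a * b) = a * (b * w - w * b) + (a * w - w * a) * b := by
        noncomm_ring
      rw [e]
      exact null_add h (null_mul_left h a h2) (null_mul_right h b h1)
    exact ⟨key _ ha.1 hb.1, key _ ha.2 hb.2⟩
  add_mem' := by
    intro a b ha hb
    have key : ∀ w : K, IsNull φ (a * w - w * a) → IsNull φ (b * w - w * b) →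
        IsNull φ ((a + b) * w - w * (a + b)) := by
      intro w h1 h2
      have e : (a + b) * w - w * (a + b) = (a * w - w * a) + (b * w - w * b) := by
        noncomm_ring
      rw [e]
      exact null_add h h1 h2
    exact ⟨key _ ha.1 hb.1, key _ ha.2 hb.2⟩
  algebraMap_mem' := by
    intro r
    have key : ∀ w : K, IsNull φ (algebraMap ℂ K r * w - w * algebraMap ℂ K r) := by
      intro w
      rw [Algebra.commutes, sub_self]
      exact isNull_zero φ
    exact ⟨key _, key _⟩
  star_mem' := by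
    intro a ha
    have key : ∀ w : K, IsNull φ (a * w - w * a) →
        IsNull φ (star a * star w - star w * star a) := by
      intro w h1
      have e : star a * star w - star w * star a = -(star (a * w - w * a)) := by
        rw [star_sub, star_mul, star_mul]
        noncomm_ring
      rw [e]
      exact null_neg h (null_star h h1)
    refine ⟨?_, key _ ha.1⟩
    have := key _ ha.2
    rwa [star_star] at this

theorem mem_commAlg {h : IsPosTrace φ} {v y : K} : y ∈ commAlg φ h v ↔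
    IsNull φ (y * v - v * y) ∧ IsNull φ (y * star v - star v * y) := Iff.rfl

theorem isClosed_commAlg (h : IsPosTrace φ) (v : K) : IsClosed (commAlg φ h v : Set K) := by
  have h1 : ∀ w : K, IsClosed {y : K | IsNull φ (y * w - w * y)} := fun w =>
    (isClosed_null h).preimage ((continuous_id.mul continuous_const).sub
      (continuous_const.mul continuous_id))
  exact (h1 v).inter (h1 (star v))

end Basic

section Order

variable {K : Type*} [CStarAlgebra K] [PartialOrder K] [StarOrderedRing K] {φ : K →ₗ[ℂ] ℂ}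

theorem apply_nonneg (h : IsPosTrace φ) {a : K} (ha : 0 ≤ a) : 0 ≤ φ a := by
  obtain ⟨y, hy⟩ := CStarAlgebra.nonneg_iff_eq_star_mul_self.1 ha
  rw [hy]
  exact h.nonneg y

theorem re_nonneg (h : IsPosTrace φ) {a : K} (ha : 0 ≤ a) : 0 ≤ (φ a).re :=
  (Complex.nonneg_iff.1 (apply_nonneg h ha)).1

theorem re_mono (h : IsPosTrace φ) {a b : K} (hab : a ≤ b) : (φ a).re ≤ (φ b).re := by
  have := re_nonneg h (sub_nonneg.2 hab)
  rw [map_sub, Complex.sub_re] at this
  linarith

/-- `φ (a * b) ≥ 0` for positive `a`, `b`. -/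
theorem re_mul_nonneg (h : IsPosTrace φ) {a b : K} (ha : 0 ≤ a) (hb : 0 ≤ b) :
    0 ≤ (φ (a * b)).re := by
  obtain ⟨y, hy⟩ := CStarAlgebra.nonneg_iff_eq_star_mul_self.1 ha
  rw [hy, mul_assoc, h.trace]
  have : 0 ≤ y * b * star y := star_right_conjugate_nonneg hb y
  exact re_nonneg h this

/-- `φ (a * b) ≤ φ (a * c)` for `0 ≤ a`, `b ≤ c`. -/
theorem re_mul_mono (h : IsPosTrace φ) {a b c : K} (ha : 0 ≤ a) (hbc : b ≤ c) :
    (φ (a * b)).re ≤ (φ (a * c)).re := by
  have := re_mul_nonneg h ha (sub_nonneg.2 hbc)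
  rw [mul_sub, map_sub, Complex.sub_re] at this
  linarith

end Order

end Vale.Agent.P095.PosTr
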