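import Vale.Agent.P095.WDefs
import Vale.Agent.P095.CompareTr
import Vale.Agent.P095.PosTr

/-!
# P095: comparison of tracially null elements with elements of `A` (row E8 of target T5)
-/

open Filter Topology TopologicalSpace
open scoped BoundedContinuousFunction ComplexOrder

namespace Vale.Agent.P095

open Vale.Agent.P101

universe u v w

namespace Cmp

variable {A : Type u} [CStarAlgebra A]

theorem posTrace {τ : A →ₗ[ℂ] ℂ} (h : IsTrace τ) : IsPosTrace τ := ⟨h.nonneg, h.trace⟩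

theorem trace_cfc_mono {τ : A →ₗ[ℂ] ℂ} (hτ : IsTrace τ) {e : A}
    {h h' : ℝ → ℝ} (hc : Continuous h) (hc' : Continuous h')
    (hle : ∀ t ∈ spectrum ℝ e, h t ≤ h' t) :
    (τ (cfc h e)).re ≤ (τ (cfc h' e)).re := by
  let _ := CStarAlgebra.spectralOrder A
  let _ := CStarAlgebra.spectralOrderedRing A
  exact PosTr.re_mono (posTrace hτ) (cfc_mono hle hc.continuousOn hc'.continuousOn)

theorem selfAdjoint_of_isPos {e : A} (he : IsPos e) : IsSelfAdjoint e := by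
  obtain ⟨y, rfl⟩ := he
  exact IsSelfAdjoint.star_mul_self y

theorem spectrum_of_isPos {e : A} (he : IsPos e) (he1 : ‖e‖ ≤ 1) :
    ∀ t ∈ spectrum ℝ e, 0 ≤ t ∧ t ≤ 1 := by
  intro t ht
  let _ := CStarAlgebra.spectralOrder A
  let _ := CStarAlgebra.spectralOrderedRing A
  obtain ⟨y, rfl⟩ := he
  refine ⟨spectrum_nonneg_of_nonneg (star_mul_self_nonneg y) ht, ?_⟩
  rcases subsingleton_or_nontrivial A with h | h
  · rw [spectrum.of_subsingleton] at ht
    exact ht.elim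
  · exact (le_abs_self t).trans ((spectrum.norm_le_norm_of_mem ht).trans he1)

theorem rankFn_le {τ : A →ₗ[ℂ] ℂ} (hτ : IsTrace τ) {e : A} (he : IsPos e) (he1 : ‖e‖ ≤ 1)
    {δ : ℝ} (hδ : 0 < δ) :
    rankFn τ (cfc (fun t : ℝ => max (t - δ) 0) e) ≤ (τ (star e * e)).re / δ ^ 2 := by
  have hsa := selfAdjoint_of_isPos he
  refine ciSup_le fun n => ?_
  rw [← cfc_comp (fun t : ℝ => min 1 ((n : ℝ) * t)) (fun t : ℝ => max (t - δ) 0) e]
  have h1 : (τ (cfc (fun t : ℝ => (δ ^ 2)⁻¹ * t ^ 2) e)).re = (τ (star e * e)).re / δ ^ 2 := by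
    rw [cfc_const_mul (δ ^ 2)⁻¹ (fun t : ℝ => t ^ 2) e, cfc_pow_id e 2, hsa.star_eq, ← pow_two,
      ← Complex.coe_smul, map_smul, smul_eq_mul, Complex.re_ofReal_mul]
    rw [mul_comm, div_eq_mul_inv]
  rw [← h1]
  refine trace_cfc_mono hτ (by fun_prop) (by fun_prop) fun t ht => ?_
  obtain ⟨h2, h3⟩ := spectrum_of_isPos he he1 t ht
  simp only [Function.comp_apply]
  rcases le_total t δ with h4 | h4
  · rw [max_eq_right (by linarith), mul_zero, min_eq_right zero_le_one]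
    positivity
  · refine (min_le_left _ _).trans ?_
    rw [inv_mul_eq_div, one_le_div (by positivity)]
    gcongr

theorem le_rankFn {τ : A →ₗ[ℂ] ℂ} (hτ : IsTrace τ) {f : A} (hf : IsPos f) (hf1 : ‖f‖ ≤ 1)
    {κ : ℝ} (hκ : 0 < κ) :
    (τ f).re - κ ≤ rankFn τ (cfc (fun t : ℝ => max (t - κ) 0) f) := by
  have hsa := selfAdjoint_of_isPos hf
  have hbdd : BddAbove (Set.range fun n : ℕ =>
      (τ (cfc (fun t : ℝ => min 1 ((n : ℝ) * t)) (cfc (fun t : ℝ => max (t - κ) 0) f))).re) := by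
    refine ⟨1, ?_⟩
    rintro _ ⟨n, rfl⟩
    simp only
    rw [← cfc_comp (fun t : ℝ => min 1 ((n : ℝ) * t)) (fun t : ℝ => max (t - κ) 0) f]
    have h1 : (τ (cfc (fun _ : ℝ => (1 : ℝ)) f)).re = 1 := by
      rw [cfc_const_one ℝ f, hτ.map_one, Complex.one_re]
    refine le_of_le_of_eq ?_ h1
    exact trace_cfc_mono hτ (by fun_prop) (by fun_prop) fun t ht => min_le_left _ _
  have h2 := le_ciSup hbdd 1
  refine le_trans ?_ h2
  rw [← cfc_comp (fun t : ℝ => min 1 (((1 : ℕ) : ℝ) * t)) (fun t : ℝ => max (t - κ) 0) f]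
  have h3 : (τ (cfc (fun t : ℝ => t - κ) f)).re = (τ f).re - κ := by
    rw [cfc_sub (fun t : ℝ => t) (fun _ : ℝ => κ) f, cfc_id' ℝ f, cfc_const κ f, map_sub,
      IsScalarTower.algebraMap_apply ℝ ℂ A, Algebra.algebraMap_eq_smul_one (R := ℂ), map_smul,
      hτ.map_one, smul_eq_mul, mul_one, Complex.sub_re]
    rfl
  rw [← h3]
  refine trace_cfc_mono hτ (by fun_prop) (by fun_prop) fun t ht => ?_
  obtain ⟨h4, h5⟩ := spectrum_of_isPos hf hf1 t ht
  simp only [Function.comp_apply, Nat.cast_one, one_mul]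
  exact le_min (by linarith) (le_max_left _ _)

theorem sub_le_trace_cut {τ : A →ₗ[ℂ] ℂ} (hτ : IsTrace τ) {f : A} (hf : IsSelfAdjoint f)
    {κ : ℝ} : (τ f).re - κ ≤ (τ (cfc (fun t : ℝ => max (t - κ) 0) f)).re := by
  have h3 : (τ (cfc (fun t : ℝ => t - κ) f)).re = (τ f).re - κ := by
    rw [cfc_sub (fun t : ℝ => t) (fun _ : ℝ => κ) f, cfc_id' ℝ f, cfc_const κ f, map_sub,
      IsScalarTower.algebraMap_apply ℝ ℂ A, Algebra.algebraMap_eq_smul_one (R := ℂ), map_smul,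
      hτ.map_one, smul_eq_mul, mul_one, Complex.sub_re]
    rfl
  rw [← h3]
  exact trace_cfc_mono hτ (by fun_prop) (by fun_prop) fun t ht => le_max_left _ _

theorem isPos_cut (c : ℝ) (x : A) :
    IsPos (cfc (fun t : ℝ => max (t - c) 0) x) := by
  refine ⟨cfc (fun t : ℝ => √(max (t - c) 0)) x, ?_⟩
  have h1 : IsSelfAdjoint (cfc (fun t : ℝ => √(max (t - c) 0)) x) := cfc_predicate _ _
  rw [h1.star_eq, ← cfc_mul (fun t : ℝ => √(max (t - c) 0)) (fun t : ℝ => √(max (t - c) 0)) x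
    (by fun_prop) (by fun_prop)]
  refine cfc_congr fun t _ => ?_
  exact (Real.mul_self_sqrt (le_max_right _ _)).symm

/-- One comparison in `A`. -/
theorem compare_step {κ δ η : ℝ} (hcomp : ∀ a b : A, IsPos a → IsPos b → ‖a‖ ≤ 1 → ‖b‖ ≤ 1 →
      b ≠ 0 → (∀ τ : A →ₗ[ℂ] ℂ, IsTrace τ → rankFn τ a ≤ η) →
      (∀ τ : A →ₗ[ℂ] ℂ, IsTrace τ → κ ≤ (τ b).re) → CuntzLE a b)
    (hT : ∃ τ : A →ₗ[ℂ] ℂ, IsTrace τ)
    (hκ : 0 < κ) (hδ : 0 < δ) (hδ1 : δ ≤ 1) {f e : A} (hf : IsPos f) (hf1 : ‖f‖ ≤ 1)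
    (he : IsPos e) (he1 : ‖e‖ ≤ 1) (hfκ : ∀ τ : A →ₗ[ℂ] ℂ, IsTrace τ → 2 * κ ≤ (τ f).re)
    (heδ : ∀ τ : A →ₗ[ℂ] ℂ, IsTrace τ → (τ (star e * e)).re ≤ δ ^ 2 * η) :
    ∃ y : A, ‖y‖ ≤ (√κ)⁻¹ * 2 ∧ ‖star y * f * y - e‖ ≤ 2 * δ := by
  have hfs := selfAdjoint_of_isPos hf
  have hes := selfAdjoint_of_isPos he
  have ha := isPos_cut δ e
  have hb := isPos_cut κ f
  have hb0 : cfc (fun t : ℝ => max (t - κ) 0) f ≠ 0 := by
    intro h0
    obtain ⟨τ, hτ⟩ := hT
    have h1 := sub_le_trace_cut hτ hfs (κ := κ)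
    rw [h0, map_zero, Complex.zero_re] at h1
    linarith [hfκ τ hτ]
  have hcut : ∀ {c : ℝ} {y : A}, 0 < c → IsPos y → ‖y‖ ≤ 1 →
      ‖cfc (fun t : ℝ => max (t - c) 0) y‖ ≤ 1 := by
    intro c y hc hy hy1
    refine norm_cfc_le zero_le_one fun t ht => ?_
    obtain ⟨h2, h3⟩ := spectrum_of_isPos hy hy1 t ht
    rw [Real.norm_eq_abs, abs_of_nonneg (le_max_right _ _)]
    exact max_le (by linarith) zero_le_one
  have hra : ∀ τ : A →ₗ[ℂ] ℂ, IsTrace τ →
      rankFn τ (cfc (fun t : ℝ => max (t - δ) 0) e) ≤ η := by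
    intro τ hτ
    have h1 := rankFn_le hτ he he1 hδ
    have h3 : (τ (star e * e)).re / δ ^ 2 ≤ η := by
      rw [div_le_iff₀ (by positivity)]
      linarith [heδ τ hτ]
    linarith
  have htb : ∀ τ : A →ₗ[ℂ] ℂ, IsTrace τ →
      κ ≤ (τ (cfc (fun t : ℝ => max (t - κ) 0) f)).re := by
    intro τ hτ
    have h1 := sub_le_trace_cut hτ hfs (κ := κ)
    linarith [hfκ τ hτ]
  obtain ⟨z, hz⟩ := hcomp _ _ ha hb (hcut hδ he he1) (hcut hκ hf hf1) hb0 hra htb δ hδ
  have hae : ‖cfc (fun t : ℝ => max (t - δ) 0) e - e‖ ≤ δ := by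
    have h1 : cfc (fun t : ℝ => max (t - δ) 0) e - e
        = cfc (fun t : ℝ => max (t - δ) 0 - t) e := by
      rw [cfc_sub (fun t : ℝ => max (t - δ) 0) (fun t : ℝ => t) e, cfc_id' ℝ e]
    rw [h1]
    refine norm_cfc_le hδ.le fun t ht => ?_
    obtain ⟨h2, h3⟩ := spectrum_of_isPos he he1 t ht
    rw [Real.norm_eq_abs, abs_le]
    rcases le_total t δ with h4 | h4
    · rw [max_eq_right (by linarith)]
      constructor <;> linarith
    · rw [max_eq_left (by linarith)]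
      constructor <;> linarith
  set a := cfc (fun t : ℝ => max (t - δ) 0) e with ha_def
  set b := cfc (fun t : ℝ => max (t - κ) 0) f with hb_def
  set S := cfc (fun t : ℝ => √(max (t - κ) 0)) f with hS
  set K := cfc (fun t : ℝ => (√(max t κ))⁻¹) f with hK
  have hmax : ∀ t : ℝ, √(max t κ) ≠ 0 := fun t =>
    (Real.sqrt_pos.2 (lt_of_lt_of_le hκ (le_max_right _ _))).ne'
  have hkc : Continuous fun t : ℝ => (√(max t κ))⁻¹ :=
    Continuous.inv₀ (by fun_prop) hmax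
  have hSs : star S = S := (cfc_predicate (fun t : ℝ => √(max (t - κ) 0)) f : IsSelfAdjoint S)
  have hKs : star K = K := (cfc_predicate (fun t : ℝ => (√(max t κ))⁻¹) f : IsSelfAdjoint K)
  have hSS : S * S = b := by
    rw [hS, ← cfc_mul (fun t : ℝ => √(max (t - κ) 0)) (fun t : ℝ => √(max (t - κ) 0)) f
      (by fun_prop) (by fun_prop)]
    refine cfc_congr fun t _ => ?_
    exact Real.mul_self_sqrt (le_max_right _ _)
  have hSKfKS : S * K * f * K * S = b := by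
    have h1 : S * K = cfc (fun t : ℝ => √(max (t - κ) 0) * (√(max t κ))⁻¹) f := by
      rw [hS, hK, ← cfc_mul (fun t : ℝ => √(max (t - κ) 0)) (fun t : ℝ => (√(max t κ))⁻¹) f
        (by fun_prop) hkc.continuousOn]
    have h2 : K * S = cfc (fun t : ℝ => (√(max t κ))⁻¹ * √(max (t - κ) 0)) f := by
      rw [hS, hK, ← cfc_mul (fun t : ℝ => (√(max t κ))⁻¹) (fun t : ℝ => √(max (t - κ) 0)) f
        hkc.continuousOn (by fun_prop)]
    have hc1 : Continuous fun t : ℝ => √(max (t - κ) 0) * (√(max t κ))⁻¹ :=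
      Continuous.mul (by fun_prop) hkc
    have hc2 : Continuous fun t : ℝ => (√(max t κ))⁻¹ * √(max (t - κ) 0) :=
      Continuous.mul hkc (by fun_prop)
    have h3 : S * K * f = cfc (fun t : ℝ => √(max (t - κ) 0) * (√(max t κ))⁻¹ * t) f := by
      rw [h1, cfc_mul (fun t : ℝ => √(max (t - κ) 0) * (√(max t κ))⁻¹)
        (fun t : ℝ => t) f hc1.continuousOn (by fun_prop), cfc_id' ℝ f]
    rw [mul_assoc, h3, h2, ← cfc_mul (fun t : ℝ => √(max (t - κ) 0) * (√(max t κ))⁻¹ * t)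
      (fun t : ℝ => (√(max t κ))⁻¹ * √(max (t - κ) 0)) f
      (hc1.mul continuous_id).continuousOn hc2.continuousOn]
    refine cfc_congr fun t _ => ?_
    change √(max (t - κ) 0) * (√(max t κ))⁻¹ * t * ((√(max t κ))⁻¹ * √(max (t - κ) 0))
      = max (t - κ) 0
    rcases le_total t κ with h4 | h4
    · rw [max_eq_right (show t - κ ≤ 0 by linarith), Real.sqrt_zero]
      ring
    · have h5 : 0 < t := lt_of_lt_of_le hκ h4
      rw [max_eq_left (show 0 ≤ t - κ by linarith), max_eq_left h4]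
      have h6 : (√t)⁻¹ * (√t)⁻¹ * t = 1 := by
        rw [← mul_inv, Real.mul_self_sqrt h5.le, inv_mul_cancel₀ h5.ne']
      calc √(t - κ) * (√t)⁻¹ * t * ((√t)⁻¹ * √(t - κ))
          = (√(t - κ) * √(t - κ)) * ((√t)⁻¹ * (√t)⁻¹ * t) := by ring
        _ = t - κ := by rw [h6, mul_one, Real.mul_self_sqrt (by linarith)]
  have hKn : ‖K‖ ≤ (√κ)⁻¹ := by
    refine norm_cfc_le (by positivity) fun t ht => ?_
    rw [Real.norm_eq_abs, abs_of_nonneg (by positivity)]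
    refine inv_anti₀ (Real.sqrt_pos.2 hκ) (Real.sqrt_le_sqrt (le_max_right _ _))
  have hρ : ‖S * z‖ ≤ 2 := by
    have h1 : star (S * z) * (S * z) = star z * b * z := by
      rw [star_mul, hSs, ← hSS]
      noncomm_ring
    have h2 : ‖S * z‖ * ‖S * z‖ = ‖star z * b * z‖ := by
      rw [← h1, CStarRing.norm_star_mul_self]
    have h3 : ‖star z * b * z‖ ≤ 3 := by
      have h4 : star z * b * z = (star z * b * z - a) + (a - e) + e := by abel
      rw [h4]
      refine (norm_add_le _ _).trans ?_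
      have h5 := norm_add_le (star z * b * z - a) (a - e)
      linarith
    nlinarith [norm_nonneg (S * z)]
  refine ⟨K * (S * z), ?_, ?_⟩
  · exact (norm_mul_le _ _).trans (mul_le_mul hKn hρ (norm_nonneg _) (by positivity))
  · have h1 : star (K * (S * z)) * f * (K * (S * z)) = star z * b * z := by
      rw [star_mul, star_mul, hKs, hSs, ← hSKfKS]
      noncomm_ring
    rw [h1]
    have h4 : star z * b * z - e = (star z * b * z - a) + (a - e) := by abel
    rw [h4]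
    refine (norm_add_le _ _).trans ?_
    linarith

/-- Lower bound for the traces of `(x g)* (x g)` when `1 - g` is small in the trace norm. -/
theorem trace_cut_lower {τ : A →ₗ[ℂ] ℂ} (hτ : IsTrace τ) {x g : A} (hx1 : ‖x‖ ≤ 1)
    (hx : IsSelfAdjoint x) (hg : IsSelfAdjoint g) (hg1 : ‖g‖ ≤ 1) {c η : ℝ} (hη : 0 ≤ η)
    (hc : c ≤ (τ (star x * x)).re) (h : trSup (1 - g) ≤ η ^ 2) (hone : ‖(1 : A)‖ ≤ 1) :
    c - 2 * η ≤ (τ (star (x * g) * (x * g))).re := by
  have e1 : star x * x - star (x * g) * (x * g) - (x * x * (1 + g)) * (1 - g)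
      = x * x * g * g - g * (x * x * g) := by
    rw [star_mul, hx.star_eq, hg.star_eq]
    noncomm_ring
  have e2 : τ (x * x * g * g - g * (x * x * g)) = 0 := by
    rw [map_sub, hτ.trace (x * x * g) g, sub_self]
  rw [← e1, map_sub, map_sub] at e2
  have h1 := IsTrace.norm_mul_le hτ (x * x * (1 + g)) (1 - g)
  have h2 : ‖x * x * (1 + g)‖ ≤ 2 := by
    refine (norm_mul_le _ _).trans ?_
    have h3 : ‖x * x‖ ≤ 1 := (norm_mul_le _ _).trans (by nlinarith [norm_nonneg x])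
    have h4 : ‖1 + g‖ ≤ 2 := (norm_add_le _ _).trans (by linarith)
    nlinarith [norm_nonneg (x * x), norm_nonneg (1 + g)]
  have h5 : √(τ (star (1 - g) * (1 - g))).re ≤ η := by
    rw [Real.sqrt_le_left hη]
    exact (le_trSup _ hτ).trans h
  have h6 : |(τ (x * x * (1 + g) * (1 - g))).re| ≤ 2 * η := by
    refine h1.trans (mul_le_mul h2 h5 (Real.sqrt_nonneg _) zero_le_two)
  have h7 := congrArg Complex.re e2
  rw [Complex.sub_re, Complex.sub_re, Complex.zero_re] at h7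
  have h8 := (abs_le.1 h6).2
  linarith

end Cmp

theorem exists_compare {A : Type u} [CStarAlgebra A] [IsSimpleRing A]
    (hcomp : WeakComparison A) (hT : ∃ τ : A →ₗ[ℂ] ℂ, IsTrace τ)
    {ω : Ultrafilter ℕ} (hω : (ω : Filter ℕ) ≤ cofinite)
    (e e' : centralSeq ω A) (he : IsPos e) (he1 : ‖e‖ ≤ 1) (hen : e ∈ nullSet ω A)
    (he' : IsPos (1 - e')) (he1' : ‖1 - e'‖ ≤ 1) (hen' : e' ∈ nullSet ω A) (hee : e * e' = e)
    (x : A) (hx : IsPos x) (hx0 : x ≠ 0) :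
    ∃ r : Ultra ω A, star r * Ultra.diag ω (x * x) * r = e ∧ (e : Ultra ω A) * r = 0 := by
  obtain ⟨c, hc⟩ := he
  obtain ⟨d, hd⟩ := he'
  obtain ⟨cs, hcs, hcs1⟩ := Ultra.exists_rep (c : Ultra ω A)
  obtain ⟨ds, hds, hds1⟩ := Ultra.exists_rep (d : Ultra ω A)
  have hxs := Cmp.selfAdjoint_of_isPos hx
  have hcn : ‖(c : Ultra ω A)‖ ≤ 1 := by
    have h1 : ‖c‖ * ‖c‖ ≤ 1 := by rw [← CStarRing.norm_star_mul_self, ← hc]; exact he1
    have h2 : ‖c‖ = ‖(c : Ultra ω A)‖ := rfl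
    rw [← h2]
    nlinarith [norm_nonneg c]
  have hdn : ‖(d : Ultra ω A)‖ ≤ 1 := by
    have h1 : ‖d‖ * ‖d‖ ≤ 1 := by rw [← CStarRing.norm_star_mul_self, ← hd]; exact he1'
    have h2 : ‖d‖ = ‖(d : Ultra ω A)‖ := rfl
    rw [← h2]
    nlinarith [norm_nonneg d]
  have hcs2 : ∀ n, ‖cs n‖ ≤ 1 := fun n => (hcs1 n).trans hcn
  have hds2 : ∀ n, ‖ds n‖ ≤ 1 := fun n => (hds1 n).trans hdn
  -- the sequences
  set E : ℕ →ᵇ A := star cs * cs with hE
  set G : ℕ →ᵇ A := star ds * ds with hG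
  have hEmk : Ultra.mk ω E = (e : Ultra ω A) := by
    rw [hE, map_mul, map_star, hcs, hc]; rfl
  have hGmk : Ultra.mk ω G = 1 - (e' : Ultra ω A) := by
    have h1 : ((1 - e' : centralSeq ω A) : Ultra ω A) = 1 - (e' : Ultra ω A) := rfl
    rw [hG, map_mul, map_star, hds, ← h1, hd]; rfl
  have hEpos : ∀ n, IsPos (E n) := fun n => ⟨cs n, rfl⟩
  have hGpos : ∀ n, IsPos (G n) := fun n => ⟨ds n, rfl⟩
  have hE1 : ∀ n, ‖E n‖ ≤ 1 := by
    intro n
    have h1 : E n = star (cs n) * cs n := rfl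
    rw [h1, CStarRing.norm_star_mul_self]
    nlinarith [norm_nonneg (cs n), hcs2 n]
  have hG1 : ∀ n, ‖G n‖ ≤ 1 := by
    intro n
    have h1 : G n = star (ds n) * ds n := rfl
    rw [h1, CStarRing.norm_star_mul_self]
    nlinarith [norm_nonneg (ds n), hds2 n]
  have hEt : Tendsto (fun n => trSup (E n)) ω (𝓝 0) := (mem_nullSet_iff hEmk).1 hen
  have hGt : Tendsto (fun n => trSup (1 - G n)) ω (𝓝 0) := by
    have h1 : Ultra.mk ω (1 - G) = (e' : Ultra ω A) := by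
      rw [map_sub, map_one, hGmk, sub_sub_cancel]
    exact (mem_nullSet_iff h1).1 hen'
  -- normalisation of `x`
  have hxn : 0 < ‖x‖ := norm_pos_iff.2 hx0
  set X : A := ((‖x‖⁻¹ : ℝ) : ℂ) • x with hX
  have hXs : IsSelfAdjoint X := by
    rw [isSelfAdjoint_iff, hX, star_smul, hxs.star_eq, Complex.star_def, Complex.conj_ofReal]
  have hX1 : ‖X‖ ≤ 1 := by
    rw [hX, norm_smul, Complex.norm_real, Real.norm_eq_abs, abs_of_nonneg (by positivity),
      inv_mul_cancel₀ hxn.ne']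
  have hX0 : X ≠ 0 := by
    rw [hX]
    exact smul_ne_zero (by exact_mod_cast (inv_pos.2 hxn).ne') hx0
  have hone : ‖(1 : A)‖ ≤ 1 := by
    rcases subsingleton_or_nontrivial A with h | h
    · rw [Subsingleton.elim (1 : A) 0, norm_zero]
      exact zero_le_one
    · exact CStarRing.norm_one.le
  obtain ⟨c₀, hc₀, hlow⟩ := exists_trace_lower (star X * X) ⟨X, rfl⟩ (by
    intro h
    exact hX0 (CStarRing.star_mul_self_eq_zero_iff X |>.1 h))
  -- the second sequence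
  set F : ℕ →ᵇ A := star (Ultra.const X * G) * (Ultra.const X * G) with hF
  have hFn : ∀ n, F n = star (X * G n) * (X * G n) := fun n => rfl
  have hFpos : ∀ n, IsPos (F n) := fun n => ⟨X * G n, rfl⟩
  have hF1 : ∀ n, ‖F n‖ ≤ 1 := by
    intro n
    rw [hFn, CStarRing.norm_star_mul_self]
    have h1 : ‖X * G n‖ ≤ 1 := (norm_mul_le _ _).trans (by
      nlinarith [norm_nonneg X, norm_nonneg (G n), hG1 n])
    nlinarith [norm_nonneg (X * G n)]
  set κ : ℝ := c₀ / 4 with hκ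
  have hκ0 : 0 < κ := by positivity
  have hFκ : ∀ᶠ n in (ω : Filter ℕ), ∀ τ : A →ₗ[ℂ] ℂ, IsTrace τ → 2 * κ ≤ (τ (F n)).re := by
    filter_upwards [hGt.eventually (gt_mem_nhds (show (0 : ℝ) < κ ^ 2 by positivity))]
      with n hn τ hτ
    have h1 := Cmp.trace_cut_lower hτ hX1 hXs (Cmp.selfAdjoint_of_isPos (hGpos n)) (hG1 n)
      hκ0.le (hlow τ hτ) hn.le hone
    rw [hFn]
    linarith
  obtain ⟨η, hη, hcomp⟩ := hcomp κ hκ0
  set C : ℝ := (√κ)⁻¹ * 2 with hC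
  have hC0 : 0 ≤ C := by positivity
  have hex : ∀ δ : ℝ, 0 < δ → δ ≤ 1 → ∀ᶠ n in (ω : Filter ℕ),
      ∃ y : A, ‖y‖ ≤ C ∧ ‖star y * F n * y - E n‖ ≤ 2 * δ := by
    intro δ hδ hδ1
    filter_upwards [hFκ, hEt.eventually (gt_mem_nhds (show (0 : ℝ) < δ ^ 2 * η by positivity))]
      with n hn1 hn2
    exact Cmp.compare_step hcomp hT hκ0 hδ hδ1 (hFpos n) (hF1 n) (hEpos n) (hE1 n) hn1
      fun τ hτ => (le_trSup _ hτ).trans hn2.le
  have hne : Nonempty {y : A // ‖y‖ ≤ C} := ⟨⟨0, by rw [norm_zero]; exact hC0⟩⟩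
  obtain ⟨y, hy⟩ := eps_test_countable (K := Unit) (X := fun _ => {y : A // ‖y‖ ≤ C})
    (ω : Filter ℕ) hω (fun _ n y => ‖star (y : A) * F n * (y : A) - E n‖)
    (fun _ _ _ => norm_nonneg _) (by
      intro _ ε hε
      classical
      have h1 := hex (min 1 (ε / 3)) (by positivity) (min_le_left _ _)
      refine ⟨fun n => if h : ∃ y : A, ‖y‖ ≤ C ∧
        ‖star y * F n * y - E n‖ ≤ 2 * min 1 (ε / 3) then ⟨h.choose, h.choose_spec.1⟩ else
        ⟨0, by rw [norm_zero]; exact hC0⟩, fun _ _ => ?_⟩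
      filter_upwards [h1] with n hn
      rw [dif_pos hn]
      refine hn.choose_spec.2.trans_lt ?_
      have h2 : min 1 (ε / 3) ≤ ε / 3 := min_le_right _ _
      linarith)
  set Y : ℕ →ᵇ A := BoundedContinuousFunction.ofNormedAddCommGroupDiscrete
    (fun n => (y n : A)) C (fun n => (y n).2) with hY
  have hYmk : star (Ultra.mk ω Y) * Ultra.mk ω F * Ultra.mk ω Y = (e : Ultra ω A) := by
    rw [← hEmk, ← map_star, ← map_mul, ← map_mul, Ultra.mk_eq_mk_iff]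
    exact hy ()
  have hFmk : Ultra.mk ω F = star (Ultra.diag ω X * (1 - (e' : Ultra ω A))) *
      (Ultra.diag ω X * (1 - (e' : Ultra ω A))) := by
    rw [hF, map_mul, map_star, map_mul, hGmk]; rfl
  have hgs : star (1 - (e' : Ultra ω A)) = 1 - (e' : Ultra ω A) := by
    rw [← hGmk, ← map_star]
    congr 1
    rw [hG, star_mul, star_star]
  refine ⟨((‖x‖⁻¹ : ℝ) : ℂ) • ((1 - (e' : Ultra ω A)) * Ultra.mk ω Y), ?_, ?_⟩
  · rw [← hYmk, hFmk, hX, map_smul, map_mul, star_smul, star_mul, star_mul, star_smul, hgs,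
      ← map_star (Ultra.diag ω) x, hxs.star_eq, Complex.star_def, Complex.conj_ofReal]
    simp only [smul_mul_assoc, mul_smul_comm, smul_smul]
    congr 1
    noncomm_ring
  · rw [mul_smul_comm, ← mul_assoc, mul_sub, mul_one]
    have h1 : (e : Ultra ω A) * (e' : Ultra ω A) = (e : Ultra ω A) := congrArg Subtype.val hee
    rw [h1, sub_self, zero_mul, smul_zero]

end Vale.Agent.P095
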