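import Vale.Agent.P095.NucDim
import Vale.Agent.P095.Compare

/-!
# P095: very weak comparison in the ultrapower (row F5 of target T6)
-/

open Filter Topology TopologicalSpace
open scoped BoundedContinuousFunction ComplexOrder

namespace Vale.Agent.P095

open Vale.Agent.P101

universe u v w

namespace Cmp2

variable {A : Type u} [CStarAlgebra A]

theorem sqrt_spec {E : A} (hE : IsPos E) (hE1 : ‖E‖ ≤ 1) :
    IsPos (cfc (fun t : ℝ => √t) E) ∧ ‖cfc (fun t : ℝ => √t) E‖ ≤ 1 ∧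
      cfc (fun t : ℝ => √t) E * cfc (fun t : ℝ => √t) E = E := by
  have hes := Cmp.selfAdjoint_of_isPos hE
  have hsp := Cmp.spectrum_of_isPos hE hE1
  refine ⟨⟨cfc (fun t : ℝ => √√t) E, ?_⟩, ?_, ?_⟩
  · have h1 : IsSelfAdjoint (cfc (fun t : ℝ => √√t) E) := cfc_predicate _ _
    rw [h1.star_eq, ← cfc_mul (fun t : ℝ => √√t) (fun t : ℝ => √√t) E
      (by fun_prop) (by fun_prop)]
    refine cfc_congr fun t _ => ?_
    exact (Real.mul_self_sqrt (Real.sqrt_nonneg t)).symm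
  · refine norm_cfc_le zero_le_one fun t ht => ?_
    rw [Real.norm_eq_abs, abs_of_nonneg (Real.sqrt_nonneg _)]
    exact Real.sqrt_le_one.2 (hsp t ht).2
  · rw [← cfc_mul (fun t : ℝ => √t) (fun t : ℝ => √t) E (by fun_prop) (by fun_prop)]
    conv_rhs => rw [← cfc_id' ℝ E]
    refine cfc_congr fun t ht => ?_
    exact Real.mul_self_sqrt (hsp t ht).1

theorem trace_sqrt_le {τ : A →ₗ[ℂ] ℂ} (hτ : IsTrace τ) {E : A} (hE : IsPos E) (hE1 : ‖E‖ ≤ 1)
    {δ : ℝ} (hδ : 0 < δ) :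
    (τ (cfc (fun t : ℝ => √t) E)).re ≤ δ + (τ (star E * E)).re / δ ^ 3 := by
  have hsa := Cmp.selfAdjoint_of_isPos hE
  have h1 : (τ (cfc (fun t : ℝ => δ + (δ ^ 3)⁻¹ * t ^ 2) E)).re
      = δ + (τ (star E * E)).re / δ ^ 3 := by
    rw [cfc_add E (fun _ : ℝ => δ) (fun t : ℝ => (δ ^ 3)⁻¹ * t ^ 2), cfc_const δ E,
      cfc_const_mul (δ ^ 3)⁻¹ (fun t : ℝ => t ^ 2) E, cfc_pow_id E 2, hsa.star_eq, ← pow_two,
      map_add, ← Complex.coe_smul, map_smul, smul_eq_mul, Complex.add_re,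
      Complex.re_ofReal_mul, IsScalarTower.algebraMap_apply ℝ ℂ A,
      Algebra.algebraMap_eq_smul_one (R := ℂ), map_smul, hτ.map_one, smul_eq_mul, mul_one]
    rw [mul_comm (δ ^ 3)⁻¹, div_eq_mul_inv]
    rfl
  rw [← h1]
  refine Cmp.trace_cfc_mono hτ (by fun_prop) (by fun_prop) fun t ht => ?_
  obtain ⟨h2, h3⟩ := Cmp.spectrum_of_isPos hE hE1 t ht
  rcases le_total t (δ ^ 2) with h4 | h4
  · have h5 : √t ≤ δ := by
      rw [Real.sqrt_le_left hδ.le]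
      exact h4
    have h6 : 0 ≤ (δ ^ 3)⁻¹ * t ^ 2 := by positivity
    linarith
  · have h5 : δ ≤ √t := Real.le_sqrt_of_sq_le h4
    have h6 : √t ≤ (δ ^ 3)⁻¹ * t ^ 2 := by
      rw [inv_mul_eq_div, le_div_iff₀ (by positivity)]
      have h7 : t ^ 2 = √t ^ 3 * √t := by
        have h8 : √t ^ 2 = t := Real.sq_sqrt h2
        calc t ^ 2 = (√t ^ 2) ^ 2 := by rw [h8]
          _ = √t ^ 3 * √t := by ring
      rw [h7, mul_comm]
      gcongr
    linarith

end Cmp2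

theorem exists_compare2 {A : Type u} [CStarAlgebra A] (hcomp : VWComparison A)
    {ω : Ultrafilter ℕ} (hω : (ω : Filter ℕ) ≤ cofinite)
    (e : centralSeq ω A) (he : IsPos e) (he1 : ‖e‖ ≤ 1) (hen : e ∈ nullSet ω A)
    (x : A) (hx : IsPos x) (hx0 : x ≠ 0) :
    ∃ r : Ultra ω A, star r * Ultra.diag ω (x * x) * r = e := by
  obtain ⟨c, hc⟩ := he
  obtain ⟨cs, hcs, hcs1⟩ := Ultra.exists_rep (c : Ultra ω A)
  have hcn : ‖(c : Ultra ω A)‖ ≤ 1 := by
    have h1 : ‖c‖ * ‖c‖ ≤ 1 := by rw [← CStarRing.norm_star_mul_self, ← hc]; exact he1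
    have h2 : ‖c‖ = ‖(c : Ultra ω A)‖ := rfl
    rw [← h2]
    nlinarith [norm_nonneg c]
  have hcs2 : ∀ n, ‖cs n‖ ≤ 1 := fun n => (hcs1 n).trans hcn
  set E : ℕ →ᵇ A := star cs * cs with hE
  have hEmk : Ultra.mk ω E = (e : Ultra ω A) := by
    rw [hE, map_mul, map_star, hcs, hc]; rfl
  have hEpos : ∀ n, IsPos (E n) := fun n => ⟨cs n, rfl⟩
  have hE1 : ∀ n, ‖E n‖ ≤ 1 := by
    intro n
    have h1 : E n = star (cs n) * cs n := rfl
    rw [h1, CStarRing.norm_star_mul_self]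
    nlinarith [norm_nonneg (cs n), hcs2 n]
  have hEt : Tendsto (fun n => trSup (E n)) ω (𝓝 0) := (mem_nullSet_iff hEmk).1 hen
  obtain ⟨C', hC'⟩ := hcomp x hx hx0
  set C : ℝ := max C' 0 with hC
  have hC0 : 0 ≤ C := le_max_right _ _
  have hex : ∀ ε : ℝ, 0 < ε → ∀ᶠ n in (ω : Filter ℕ),
      ∃ y : A, ‖y‖ ≤ C ∧ ‖star y * (x * x) * y - E n‖ ≤ ε := by
    intro ε hε
    obtain ⟨η, hη, h⟩ := hC' ε hε
    filter_upwards [hEt.eventually (gt_mem_nhds (show (0 : ℝ) < (η / 2) ^ 3 * (η / 2) by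
      positivity))] with n hn
    obtain ⟨h1, h2, h3⟩ := Cmp2.sqrt_spec (hEpos n) (hE1 n)
    obtain ⟨r, hr, hr2⟩ := h _ h1 h2 (by
      intro τ hτ
      refine (Cmp2.trace_sqrt_le hτ (hEpos n) (hE1 n) (show 0 < η / 2 by positivity)).trans ?_
      have h4 : (τ (star (E n) * E n)).re / (η / 2) ^ 3 ≤ η / 2 := by
        rw [div_le_iff₀ (by positivity), mul_comm]
        exact (le_trSup _ hτ).trans hn.le
      linarith)
    refine ⟨r, hr.trans (le_max_left _ _), ?_⟩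
    rw [h3] at hr2
    exact hr2
  have hne : Nonempty {y : A // ‖y‖ ≤ C} := ⟨⟨0, by rw [norm_zero]; exact hC0⟩⟩
  obtain ⟨y, hy⟩ := eps_test_countable (K := Unit) (X := fun _ => {y : A // ‖y‖ ≤ C})
    (ω : Filter ℕ) hω (fun _ n y => ‖star (y : A) * (x * x) * (y : A) - E n‖)
    (fun _ _ _ => norm_nonneg _) (by
      intro _ ε hε
      classical
      have h1 := hex (ε / 2) (by positivity)
      refine ⟨fun n => if h : ∃ y : A, ‖y‖ ≤ C ∧
        ‖star y * (x * x) * y - E n‖ ≤ ε / 2 then ⟨h.choose, h.choose_spec.1⟩ else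
        ⟨0, by rw [norm_zero]; exact hC0⟩, fun _ _ => ?_⟩
      filter_upwards [h1] with n hn
      rw [dif_pos hn]
      refine hn.choose_spec.2.trans_lt ?_
      linarith)
  set Y : ℕ →ᵇ A := BoundedContinuousFunction.ofNormedAddCommGroupDiscrete
    (fun n => (y n : A)) C (fun n => (y n).2) with hY
  refine ⟨Ultra.mk ω Y, ?_⟩
  have hdiag : Ultra.diag ω (x * x) = Ultra.mk ω (Ultra.const (x * x)) := rfl
  rw [hdiag, ← hEmk, ← map_star, ← map_mul, ← map_mul, Ultra.mk_eq_mk_iff]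
  exact hy ()

end Vale.Agent.P095
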