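import Vale.Agent.P095.ConeApproxOf
import Vale.Agent.P095.Excision

/-!
# P095, row E5: approximation of completely positive maps by excisable functionals
-/

open Filter Topology TopologicalSpace
open scoped BoundedContinuousFunction ComplexOrder

namespace Vale.Agent.P095

open Vale.Agent.P101

universe u v w

theorem exists_cone_approx {A : Type u} [CStarAlgebra A] [SeparableSpace A] {k : ℕ}
    (φ : A →ₗ[ℂ] Matrix (Fin k) (Fin k) ℂ) (hφ : IsCP φ) (F : Finset A) (ε : ℝ) (hε : 0 < ε) :
    ∃ (m : ℕ) (lam : Fin m → A →ₗ[ℂ] ℂ) (b : Fin m → Fin k → A), (∀ p, Excisable (lam p)) ∧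
      ∀ a ∈ F, ∀ i j, ‖φ a i j - ∑ p, lam p (star (b p i) * a * b p j)‖ < ε :=
  exists_cone_approx_of (fun y hy hy0 => exists_excisable y hy hy0) φ hφ F ε hε

end Vale.Agent.P095
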