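import Vale.Agent.P095.ConePos

/-!
# P095, row E5: approximation of completely positive maps by excisable functionals
(the statement relative to the existence of excisable functionals, row E4)
-/

open Filter Topology TopologicalSpace
open scoped BoundedContinuousFunction ComplexOrder

namespace Vale.Agent.P095

open Vale.Agent.P101

universe u v w

namespace Cone

variable {A : Type u} [CStarAlgebra A]

/-- the pairing of a completely positive map with a positive matrix on the maximally entangled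
vector is nonnegative -/
theorem pair_nonneg {k : ℕ} {φ : A →ₗ[ℂ] Matrix (Fin k) (Fin k) ℂ} (hφ : IsCP φ)
    {X : Matrix (Fin k) (Fin k) A} (hX : IsPos X) : 0 ≤ (∑ i, ∑ j, φ (X i j) i j).re := by
  obtain ⟨Z, hZ⟩ := hφ k X hX
  have h1 : ∀ i j, φ (X i j) = ∑ l, star (Z l i) * Z l j := by
    intro i j
    have := congrFun (congrFun hZ i) j
    rw [Matrix.map_apply, Matrix.mul_apply] at this
    rw [this]
    refine Finset.sum_congr rfl fun l _ => ?_
    rw [Matrix.star_apply]
  have h2 : ∀ i j, φ (X i j) i j = ∑ l, ∑ r, star (Z l i r i) * Z l j r j := by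
    intro i j
    rw [h1, Matrix.sum_apply]
    refine Finset.sum_congr rfl fun l _ => ?_
    rw [Matrix.mul_apply]
    refine Finset.sum_congr rfl fun r _ => ?_
    rw [Matrix.star_apply]
  have h3 : ∑ i, ∑ j, φ (X i j) i j
      = ∑ l, ∑ r, star (∑ i, Z l i r i) * ∑ j, Z l j r j := by
    simp only [h2]
    calc ∑ i, ∑ j, ∑ l, ∑ r, star (Z l i r i) * Z l j r j
        = ∑ i, ∑ l, ∑ j, ∑ r, star (Z l i r i) * Z l j r j :=
          Finset.sum_congr rfl fun i _ => Finset.sum_comm
      _ = ∑ l, ∑ i, ∑ j, ∑ r, star (Z l i r i) * Z l j r j := Finset.sum_comm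
      _ = ∑ l, ∑ i, ∑ r, ∑ j, star (Z l i r i) * Z l j r j :=
          Finset.sum_congr rfl fun l _ => Finset.sum_congr rfl fun i _ => Finset.sum_comm
      _ = ∑ l, ∑ r, ∑ i, ∑ j, star (Z l i r i) * Z l j r j :=
          Finset.sum_congr rfl fun l _ => Finset.sum_comm
      _ = _ := by
          refine Finset.sum_congr rfl fun l _ => Finset.sum_congr rfl fun r _ => ?_
          rw [star_sum, Finset.sum_mul_sum]
  rw [h3, Complex.re_sum]
  refine Finset.sum_nonneg fun l _ => ?_
  rw [Complex.re_sum]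
  refine Finset.sum_nonneg fun r _ => ?_
  exact (Complex.le_def.mp (star_mul_self_nonneg _)).1

/-- completely positive maps are positive -/
theorem map_pos {k : ℕ} {φ : A →ₗ[ℂ] Matrix (Fin k) (Fin k) ℂ} (hφ : IsCP φ) (y : A) :
    IsSelfAdjoint (φ (star y * y)) := by
  obtain ⟨Z, hZ⟩ := hφ 1 (Matrix.of fun _ _ => star y * y)
    ⟨Matrix.of fun _ _ => y, by
      ext i j
      rw [Matrix.mul_apply]
      simp [Matrix.star_apply]⟩
  have := congrFun (congrFun hZ 0) 0
  rw [Matrix.map_apply, Matrix.of_apply, Matrix.mul_apply] at this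
  rw [this, Fin.sum_univ_one, Matrix.star_apply]
  exact IsSelfAdjoint.star_mul_self _

theorem map_sa {k : ℕ} {φ : A →ₗ[ℂ] Matrix (Fin k) (Fin k) ℂ} (hφ : IsCP φ) {a : A}
    (ha : IsSelfAdjoint a) : IsSelfAdjoint (φ a) := by
  let _ := CStarAlgebra.spectralOrder A
  have _ := CStarAlgebra.spectralOrderedRing A
  have h1 : 0 ≤ a + algebraMap ℝ A ‖a‖ := by
    have := IsSelfAdjoint.neg_algebraMap_norm_le_self (a := a) ha
    have h2 := add_le_add_right this (algebraMap ℝ A ‖a‖)
    first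
      | simpa using h2
      | simpa [add_comm] using h2
  have h3 : (0 : A) ≤ algebraMap ℝ A ‖a‖ := algebraMap_nonneg A (norm_nonneg a)
  obtain ⟨y, hy⟩ := CStarAlgebra.nonneg_iff_eq_star_mul_self.mp h1
  obtain ⟨z, hz⟩ := CStarAlgebra.nonneg_iff_eq_star_mul_self.mp h3
  have e : a = star y * y - star z * z := by
    rw [← hy, ← hz, add_sub_cancel_right]
  rw [e, map_sub]
  exact (map_pos hφ y).sub (map_pos hφ z)

theorem map_star {k : ℕ} {φ : A →ₗ[ℂ] Matrix (Fin k) (Fin k) ℂ} (hφ : IsCP φ) (a : A) :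
    φ (star a) = star (φ a) := by
  have hr : IsSelfAdjoint ((realPart a : selfAdjoint A) : A) := (realPart a).2
  have hi : IsSelfAdjoint ((imaginaryPart a : selfAdjoint A) : A) := (imaginaryPart a).2
  have e := realPart_add_I_smul_imaginaryPart a
  have e2 : star a = (realPart a : A) - Complex.I • (imaginaryPart a : A) := by
    conv_lhs => rw [← e]
    rw [star_add, star_smul, hr.star_eq, hi.star_eq]
    simp [sub_eq_add_neg]
  have e3 : star (φ a) = φ (realPart a : A) - Complex.I • φ (imaginaryPart a : A) := by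
    conv_lhs => rw [← e]
    rw [map_add, map_smul, star_add, star_smul, (map_sa hφ hr).star_eq, (map_sa hφ hi).star_eq]
    simp [sub_eq_add_neg]
  rw [e2, e3, map_sub, map_smul]

variable {k : ℕ} {F : Finset A}

/-- index set of the entries -/
abbrev Idx (F : Finset A) (k : ℕ) : Type _ := F × Fin k × Fin k

/-- the point of the cone given by `lam`, `b`. -/
noncomputable def psi (F : Finset A) (lam : A →ₗ[ℂ] ℂ) (b : Fin k → A) : Idx F k → ℂ :=
  fun t => lam (star (b t.2.1) * (t.1 : A) * b t.2.2)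

/-- the generators -/
def gens (F : Finset A) (k : ℕ) : Set (Idx F k → ℂ) :=
  {X | ∃ (lam : A →ₗ[ℂ] ℂ) (b : Fin k → A), Excisable lam ∧ (∀ a, 0 ≤ lam (star a * a)) ∧
    (∀ a, lam (star a) = star (lam a)) ∧ X = psi F lam b}

/-- the cone -/
def cone (F : Finset A) (k : ℕ) : AddSubmonoid (Idx F k → ℂ) := AddSubmonoid.closure (gens F k)

theorem gens_smul {t : ℝ} (ht : 0 ≤ t) {X : Idx F k → ℂ} (hX : X ∈ gens F k) :
    t • X ∈ gens F k := by
  obtain ⟨lam, b, h1, h2, h3, rfl⟩ := hX
  refine ⟨lam, fun i => ((√t : ℝ) : ℂ) • b i, h1, h2, h3, ?_⟩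
  funext s
  unfold psi
  rw [Pi.smul_apply, star_smul, smul_mul_assoc, smul_mul_assoc, mul_smul_comm, map_smul, map_smul,
    smul_smul, smul_eq_mul]
  have : star ((√t : ℝ) : ℂ) * ((√t : ℝ) : ℂ) = (t : ℂ) := by
    rw [Complex.star_def, Complex.conj_ofReal, ← Complex.ofReal_mul, Real.mul_self_sqrt ht]
  rw [this]
  simp

theorem cone_smul {t : ℝ} (ht : 0 ≤ t) {X : Idx F k → ℂ} (hX : X ∈ cone F k) :
    t • X ∈ cone F k := by
  unfold cone at hX ⊢
  induction hX using AddSubmonoid.closure_induction with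
  | mem x hx => exact AddSubmonoid.subset_closure (gens_smul ht hx)
  | zero => rw [smul_zero]; exact AddSubmonoid.zero_mem _
  | add x y _ _ hx hy => rw [smul_add]; exact AddSubmonoid.add_mem _ hx hy

theorem cone_convex : Convex ℝ (cone F k : Set (Idx F k → ℂ)) := by
  intro x hx y hy s t hs ht _
  exact (cone F k).add_mem (cone_smul hs hx) (cone_smul ht hy)

theorem cone_rep {X : Idx F k → ℂ} (hX : X ∈ cone F k) :
    ∃ (m : ℕ) (lam : Fin m → A →ₗ[ℂ] ℂ) (b : Fin m → Fin k → A), (∀ p, Excisable (lam p)) ∧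
      X = ∑ p, psi F (lam p) (b p) := by
  unfold cone at hX
  induction hX using AddSubmonoid.closure_induction with
  | mem x hx =>
    obtain ⟨lam, b, h1, h2, h3, rfl⟩ := hx
    exact ⟨1, fun _ => lam, fun _ => b, fun _ => h1, by simp⟩
  | zero => exact ⟨0, Fin.elim0, Fin.elim0, fun p => p.elim0, by simp⟩
  | add x y _ _ hx hy =>
    obtain ⟨m, lam, b, h1, rfl⟩ := hx
    obtain ⟨m', lam', b', h1', rfl⟩ := hy
    refine ⟨m + m', Fin.append lam lam', Fin.append b b', fun p => ?_, ?_⟩
    · refine Fin.addCases (fun i => ?_) (fun i => ?_) p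
      · rw [Fin.append_left]; exact h1 i
      · rw [Fin.append_right]; exact h1' i
    · rw [Fin.sum_univ_add]
      simp only [Fin.append_left, Fin.append_right]

/-- the matrix associated with a functional -/
noncomputable def Tm (w : Idx F k → ℂ) (i j : Fin k) : A := ∑ a : F, w (a, i, j) • (a : A)

/-- its hermitian part -/
noncomputable def Hm (w : Idx F k → ℂ) : Matrix (Fin k) (Fin k) A :=
  Matrix.of fun i j => (2⁻¹ : ℂ) • (Tm w i j + star (Tm w j i))

theorem Hm_star (w : Idx F k → ℂ) : star (Hm w) = Hm w := by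
  ext i j
  rw [Matrix.star_apply]
  unfold Hm
  rw [Matrix.of_apply, Matrix.of_apply, star_smul, star_add, star_star, add_comm]
  simp

theorem re_sum_Hm (w : Idx F k → ℂ) (E : Fin k → Fin k → (A →ₗ[ℂ] ℂ))
    (hE : ∀ i j a, E i j (star a) = star (E j i a)) :
    (∑ i, ∑ j, E i j (Hm w i j)).re = (∑ t : Idx F k, w t * E t.2.1 t.2.2 t.1).re := by
  have e1 : ∑ t : Idx F k, w t * E t.2.1 t.2.2 t.1 = ∑ i, ∑ j, E i j (Tm w i j) := by
    rw [Fintype.sum_prod_type]
    simp_rw [Fintype.sum_prod_type]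
    rw [Finset.sum_comm]
    refine Finset.sum_congr rfl fun i _ => ?_
    rw [Finset.sum_comm]
    refine Finset.sum_congr rfl fun j _ => ?_
    unfold Tm
    rw [map_sum]
    refine Finset.sum_congr rfl fun a _ => ?_
    rw [map_smul, smul_eq_mul]
  have e2 : ∑ i, ∑ j, E i j (star (Tm w j i)) = star (∑ i, ∑ j, E i j (Tm w i j)) := by
    rw [star_sum]
    simp_rw [star_sum, hE]
    rw [Finset.sum_comm]
  have e3 : ∑ i, ∑ j, E i j (Hm w i j)
      = (2⁻¹ : ℂ) * (∑ i, ∑ j, E i j (Tm w i j) + star (∑ i, ∑ j, E i j (Tm w i j))) := by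
    rw [← e2, mul_add, Finset.mul_sum, Finset.mul_sum, ← Finset.sum_add_distrib]
    refine Finset.sum_congr rfl fun i _ => ?_
    rw [Finset.mul_sum, Finset.mul_sum, ← Finset.sum_add_distrib]
    refine Finset.sum_congr rfl fun j _ => ?_
    unfold Hm
    rw [Matrix.of_apply, map_smul, map_add, smul_eq_mul, mul_add]
  rw [e3, e1]
  simp only [Complex.star_def, Complex.mul_re, Complex.add_re, Complex.add_im, Complex.conj_re,
    Complex.conj_im]
  norm_num
  ring

omit [CStarAlgebra A] in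
theorem func_eq [DecidableEq (Idx F k)] (f : (Idx F k → ℂ) →L[ℝ] ℝ) (X : Idx F k → ℂ) :
    f X = (∑ t, ((f (Pi.single t 1) : ℂ) - Complex.I * (f (Pi.single t Complex.I) : ℂ)) * X t).re := by
  have e : X = ∑ t, ((X t).re • (Pi.single t (1 : ℂ) : Idx F k → ℂ)
      + (X t).im • (Pi.single t Complex.I : Idx F k → ℂ)) := by
    funext s
    rw [Finset.sum_apply]
    simp only [Pi.add_apply, Pi.smul_apply, Pi.single_apply]
    rw [Finset.sum_eq_single s]
    · simp [Complex.re_add_im]
    · intro t _ ht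
      simp [Ne.symm ht]
    · simp
  conv_lhs => rw [e]
  rw [map_sum, Complex.re_sum]
  refine Finset.sum_congr rfl fun t _ => ?_
  rw [map_add, map_smul, map_smul]
  simp [Complex.mul_re, Complex.mul_im]
  ring

theorem mem_closure (hE : ∀ y : A, IsPos y → y ≠ 0 → ∃ lam : A →ₗ[ℂ] ℂ, Excisable lam ∧
      (∀ a, 0 ≤ lam (star a * a)) ∧ (∀ a, lam (star a) = star (lam a)) ∧ 0 < (lam y).re) {φ : A →ₗ[ℂ] Matrix (Fin k) (Fin k) ℂ} (hφ : IsCP φ) :
    (fun t : Idx F k => φ t.1 t.2.1 t.2.2) ∈ closure (cone F k : Set (Idx F k → ℂ)) := by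
  classical
  by_contra hn
  obtain ⟨f, u, h1, h2⟩ := geometric_hahn_banach_closed_point (cone_convex (F := F) (k := k)).closure
    isClosed_closure hn
  have hu : 0 < u := by
    have := h1 0 (subset_closure (cone F k).zero_mem)
    simpa using this
  have hneg : ∀ X ∈ cone F k, f X ≤ 0 := by
    intro X hX
    by_contra hc
    push Not at hc
    have h3 := h1 ((u / f X) • X) (subset_closure (cone_smul (by positivity) hX))
    rw [map_smul, smul_eq_mul, div_mul_cancel₀ _ hc.ne'] at h3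
    exact lt_irrefl _ h3
  set w : Idx F k → ℂ := fun t =>
    -((f (Pi.single t 1) : ℂ) - Complex.I * (f (Pi.single t Complex.I) : ℂ)) with hw
  have hf : ∀ X, (∑ t, w t * X t).re = - f X := by
    intro X
    rw [func_eq f X, ← Complex.neg_re, ← Finset.sum_neg_distrib]
    congr 1
    refine Finset.sum_congr rfl fun t _ => ?_
    rw [hw]
    ring
  have hpos : IsPos (Hm w) := by
    refine pos_of_excisable hE (Hm w) (Hm_star w) fun lam hl1 hl2 hl3 b => ?_
    have := re_sum_Hm w (fun i j => lam ∘ₗ (LinearMap.mulRight ℂ (b j)) ∘ₗ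
      (LinearMap.mulLeft ℂ (star (b i)))) (by
        intro i j a
        simp only [LinearMap.comp_apply, LinearMap.mulRight_apply, LinearMap.mulLeft_apply]
        rw [← hl3, star_mul, star_mul, star_star, mul_assoc])
    simp only [LinearMap.comp_apply, LinearMap.mulRight_apply, LinearMap.mulLeft_apply] at this
    rw [this]
    have h3 := hf (psi F lam b)
    unfold psi at h3
    rw [h3]
    have := hneg (psi F lam b) (AddSubmonoid.subset_closure ⟨lam, b, hl1, hl2, hl3, rfl⟩)
    unfold psi at this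
    linarith
  have h3 := pair_nonneg hφ hpos
  have h4 := re_sum_Hm w (fun i j => (Matrix.entryLinearMap ℂ ℂ i j) ∘ₗ φ) (by
    intro i j a
    simp only [LinearMap.comp_apply, Matrix.entryLinearMap_apply]
    rw [map_star hφ, Matrix.star_apply])
  simp only [LinearMap.comp_apply, Matrix.entryLinearMap_apply] at h4
  rw [h4, hf] at h3
  linarith

end Cone

theorem exists_cone_approx_of {A : Type u} [CStarAlgebra A] {k : ℕ}
    (hE : ∀ y : A, IsPos y → y ≠ 0 → ∃ lam : A →ₗ[ℂ] ℂ, Excisable lam ∧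
      (∀ a, 0 ≤ lam (star a * a)) ∧ (∀ a, lam (star a) = star (lam a)) ∧ 0 < (lam y).re)
    (φ : A →ₗ[ℂ] Matrix (Fin k) (Fin k) ℂ) (hφ : IsCP φ) (F : Finset A) (ε : ℝ) (hε : 0 < ε) :
    ∃ (m : ℕ) (lam : Fin m → A →ₗ[ℂ] ℂ) (b : Fin m → Fin k → A), (∀ p, Excisable (lam p)) ∧
      ∀ a ∈ F, ∀ i j, ‖φ a i j - ∑ p, lam p (star (b p i) * a * b p j)‖ < ε := by
  obtain ⟨X, hX, hd⟩ := Metric.mem_closure_iff.mp (Cone.mem_closure (F := F) hE hφ) ε hε
  obtain ⟨m, lam, b, h1, rfl⟩ := Cone.cone_rep hX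
  refine ⟨m, lam, b, h1, fun a ha i j => ?_⟩
  rw [dist_pi_lt_iff hε] at hd
  have := hd (⟨a, ha⟩, i, j)
  rw [dist_eq_norm, Finset.sum_apply] at this
  exact this

end Vale.Agent.P095
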