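import Vale.Agent.P095.NDefs
import Mathlib.Analysis.CStarAlgebra.CStarMatrix

/-!
# P095, row E5b: a matrix which is positive under all excisable functionals is positive
-/

open Filter Topology TopologicalSpace
open scoped BoundedContinuousFunction ComplexOrder

namespace Vale.Agent.P095

open Vale.Agent.P101

universe u v w

namespace ConePos

/-- `IsPos` is nonnegativity -/
theorem isPos_of_nonneg {A : Type*} [CStarAlgebra A] [PartialOrder A] [StarOrderedRing A] {x : A}
    (hx : 0 ≤ x) : IsPos x := CStarAlgebra.nonneg_iff_eq_star_mul_self.1 hx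

/-- the negative part of a matrix: in a general C*-algebra -/
theorem negPart_cube {M : Type*} [CStarAlgebra M] [PartialOrder M] [StarOrderedRing M] (h : M)
    (hh : IsSelfAdjoint h) : ∃ n W : M, IsSelfAdjoint n ∧ star (W * n) * (W * n) = -(n * h * n) ∧
      (W * n = 0 → 0 ≤ h) := by
  have h1 : 0 ≤ h⁻ := CFC.negPart_nonneg h
  obtain ⟨W, hW⟩ := CStarAlgebra.nonneg_iff_eq_star_mul_self.1 h1
  have hs : IsSelfAdjoint (h⁻) := h1.isSelfAdjoint
  have h2 : h⁺ - h⁻ = h := CFC.posPart_sub_negPart h hh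
  have h3 : h⁻ * h⁺ = 0 := CFC.negPart_mul_posPart h
  refine ⟨h⁻, W, hs, ?_, fun h4 => ?_⟩
  · have e1 : star (W * h⁻) * (W * h⁻) = h⁻ * h⁻ * h⁻ := by
      rw [star_mul, hs.star_eq]
      calc h⁻ * star W * (W * h⁻) = h⁻ * (star W * W) * h⁻ := by simp only [mul_assoc]
        _ = _ := by rw [← hW]
    rw [e1]
    have e2 : h⁻ * h * h⁻ = h⁻ * (h⁺ - h⁻) * h⁻ := by rw [h2]
    rw [e2, mul_sub, h3, zero_sub, neg_mul, neg_neg]
  · have e1 : h⁻ * h⁻ = 0 := by
      have : star W * (W * h⁻) = 0 := by rw [h4, mul_zero]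
      rwa [← mul_assoc, ← hW] at this
    have e2 : h⁻ = 0 := by
      have : star (h⁻) * h⁻ = 0 := by rw [hs.star_eq, e1]
      exact CStarRing.star_mul_self_eq_zero_iff _ |>.1 this
    rw [← h2, e2, sub_zero]
    exact CFC.posPart_nonneg h

end ConePos

open ConePos in
/-- a selfadjoint matrix on which all excisable positive functionals are nonnegative is positive -/
theorem pos_of_excisable {A : Type u} [CStarAlgebra A] {k : ℕ}
    (hE : ∀ y : A, IsPos y → y ≠ 0 → ∃ lam : A →ₗ[ℂ] ℂ, Excisable lam ∧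
      (∀ a, 0 ≤ lam (star a * a)) ∧ (∀ a, lam (star a) = star (lam a)) ∧ 0 < (lam y).re)
    (X : Matrix (Fin k) (Fin k) A) (hX : star X = X)
    (h : ∀ lam : A →ₗ[ℂ] ℂ, Excisable lam → (∀ a, 0 ≤ lam (star a * a)) →
      (∀ a, lam (star a) = star (lam a)) → ∀ b : Fin k → A,
      0 ≤ (∑ i, ∑ j, lam (star (b i) * X i j * b j)).re) : IsPos X := by
  classical
  let _ : PartialOrder A := CStarAlgebra.spectralOrder A
  have _ : StarOrderedRing A := CStarAlgebra.spectralOrderedRing A
  let _ : PartialOrder (CStarMatrix (Fin k) (Fin k) A) := CStarAlgebra.spectralOrder _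
  have _ : StarOrderedRing (CStarMatrix (Fin k) (Fin k) A) := CStarAlgebra.spectralOrderedRing _
  obtain ⟨n, W, hn, hW, h0⟩ := negPart_cube (CStarMatrix.ofMatrix X) (by
    rw [IsSelfAdjoint]; exact hX)
  have key : W * n = 0 := by
    by_contra hne
    have : ∃ i l, (W * n) i l ≠ 0 := by
      by_contra hall
      push Not at hall
      exact hne (CStarMatrix.ext hall)
    obtain ⟨i0, l, hil⟩ := this
    have e1 : (star (W * n) * (W * n)) l l = ∑ i, star ((W * n) i l) * (W * n) i l := by
      rw [CStarMatrix.mul_apply]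
      simp only [CStarMatrix.star_apply]
    have hnn : ∀ i ∈ Finset.univ, 0 ≤ star ((W * n) i l) * (W * n) i l :=
      fun i _ => star_mul_self_nonneg _
    have e2 : 0 ≤ (star (W * n) * (W * n)) l l := by
      rw [e1]
      exact Finset.sum_nonneg hnn
    have e3 : (star (W * n) * (W * n)) l l ≠ 0 := by
      intro h5
      rw [e1, Finset.sum_eq_zero_iff_of_nonneg hnn] at h5
      exact hil ((CStarRing.star_mul_self_eq_zero_iff _).1 (h5 i0 (Finset.mem_univ _)))
    obtain ⟨lam, hl1, hl2, hl3, hl4⟩ := hE _ (isPos_of_nonneg e2) e3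
    have h6 := h lam hl1 hl2 hl3 (fun j => n j l)
    have e4 : (star (W * n) * (W * n)) l l = -∑ i, ∑ j, star (n i l) * X i j * n j l := by
      rw [hW, CStarMatrix.neg_apply, CStarMatrix.mul_apply]
      congr 1
      rw [Finset.sum_comm]
      refine Finset.sum_congr rfl fun j _ => ?_
      rw [CStarMatrix.mul_apply, Finset.sum_mul]
      refine Finset.sum_congr rfl fun i _ => ?_
      rw [CStarMatrix.star_apply_of_isSelfAdjoint hn]
      rfl
    rw [e4, map_neg, Complex.neg_re, map_sum] at hl4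
    simp only [map_sum] at hl4
    linarith
  obtain ⟨Y, hY⟩ := isPos_of_nonneg (h0 key)
  exact ⟨CStarMatrix.ofMatrix.symm Y, hY⟩

end Vale.Agent.P095
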