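import Vale.Agent.P095.UnitDefs

/-!
# P095, stage 2 [C3a]: separable kernels and Connes' averaging trick
-/

open Filter Topology TopologicalSpace
open scoped BoundedContinuousFunction ComplexOrder unitInterval

namespace Vale.Agent.P095

open Vale.Agent.P101

universe u v w

section Kernel

set_option linter.unusedSectionVars false

variable {K : Type*} [CStarAlgebra K] [PartialOrder K] [StarOrderedRing K]

namespace Connes

theorem map_nonneg {φ : K →ₗ[ℂ] ℂ} (hφ : IsPosTrace φ) {x : K} (hx : 0 ≤ x) :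
    0 ≤ φ x := by
  obtain ⟨y, rfl⟩ := CStarAlgebra.nonneg_iff_eq_star_mul_self.1 hx
  exact hφ.nonneg y

theorem continuous_of {φ : K →ₗ[ℂ] ℂ} (hφ : IsPosTrace φ) : Continuous φ := by
  let f : K →ₚ[ℂ] ℂ := PositiveLinearMap.mk₀ φ (fun x hx => map_nonneg hφ hx)
  exact map_continuous f

theorem map_mul_nonneg {φ : K →ₗ[ℂ] ℂ} (hφ : IsPosTrace φ) {x y : K} (hx : 0 ≤ x)
    (hy : 0 ≤ y) : 0 ≤ φ (x * y) := by
  obtain ⟨s, rfl⟩ := CStarAlgebra.nonneg_iff_eq_star_mul_self.1 hx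
  obtain ⟨t, rfl⟩ := CStarAlgebra.nonneg_iff_eq_star_mul_self.1 hy
  have h := hφ.nonneg (s * star t)
  have e : φ (star s * s * (star t * t)) = φ (star (s * star t) * (s * star t)) := by
    rw [star_mul, star_star, ← mul_assoc, hφ.trace (star s * s * star t) t]
    simp only [mul_assoc]
  rw [e]
  exact h

/-- Bernstein weights. -/
noncomputable def bw (n : ℕ) (k : Fin (n + 1)) (a : K) : K :=
  cfc (fun x : ℝ => (n.choose k : ℝ) * x ^ (k : ℕ) * (1 - x) ^ (n - (k : ℕ))) a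

theorem spectrum_subset_unit {a : K} (ha : 0 ≤ a) (ha1 : ‖a‖ ≤ 1) :
    spectrum ℝ a ⊆ Set.Icc 0 1 := by
  intro x hx
  rcases subsingleton_or_nontrivial K with hK | hK
  · simp [spectrum.of_subsingleton] at hx
  refine ⟨spectrum_nonneg_of_nonneg ha hx, ?_⟩
  have h := spectrum.norm_le_norm_of_mem hx
  exact (le_abs_self x).trans (h.trans ha1)

theorem bw_nonneg (n : ℕ) (k : Fin (n + 1)) {a : K} (ha : 0 ≤ a) (ha1 : ‖a‖ ≤ 1) :
    0 ≤ bw n k a := by
  refine cfc_nonneg fun x hx => ?_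
  obtain ⟨h0, h1⟩ := spectrum_subset_unit ha ha1 hx
  have h2 : 0 ≤ 1 - x := by linarith
  positivity

theorem tendsto_bw {f : ℝ → ℝ} (hf : Continuous f) {a : K} (ha : 0 ≤ a) (ha1 : ‖a‖ ≤ 1) :
    Tendsto (fun n : ℕ => ∑ k : Fin (n + 1), f (bernstein.z k : I) • bw n k a) atTop
      (𝓝 (cfc f a)) := by
  have hsa : IsSelfAdjoint a := .of_nonneg ha
  have e : ∀ n : ℕ, ∑ k : Fin (n + 1), f (bernstein.z k : I) • bw n k a =
      cfc (fun x : ℝ => ∑ k : Fin (n + 1), f (bernstein.z k : I) *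
        ((n.choose k : ℝ) * x ^ (k : ℕ) * (1 - x) ^ (n - (k : ℕ)))) a := by
    intro n
    have e1 : (fun x : ℝ => ∑ k : Fin (n + 1), f (bernstein.z k : I) *
        ((n.choose k : ℝ) * x ^ (k : ℕ) * (1 - x) ^ (n - (k : ℕ)))) =
        ∑ k : Fin (n + 1), fun x : ℝ => f (bernstein.z k : I) *
        ((n.choose k : ℝ) * x ^ (k : ℕ) * (1 - x) ^ (n - (k : ℕ))) := by
      ext x
      simp only [Finset.sum_apply]
    rw [e1, cfc_sum_univ _ _ (fun i => by fun_prop)]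
    refine Finset.sum_congr rfl fun k _ => ?_
    rw [cfc_const_mul _ _ _ (by fun_prop)]
    rfl
  simp only [e]
  have hB := bernsteinApproximation_uniform (⟨fun x : I => f x, by fun_prop⟩ : C(I, ℝ))
  rw [ContinuousMap.tendsto_iff_tendstoUniformly] at hB
  refine tendsto_cfc_fun ?_ (Eventually.of_forall fun n => by fun_prop)
  rw [Metric.tendstoUniformlyOn_iff]
  rw [Metric.tendstoUniformly_iff] at hB
  intro ε hε
  filter_upwards [hB ε hε] with n hn x hx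
  have hx' := spectrum_subset_unit ha ha1 hx
  have := hn ⟨x, hx'⟩
  simp only [bernsteinApproximation.apply, ContinuousMap.coe_mk, bernstein_apply] at this
  convert this using 2
  refine Finset.sum_congr rfl fun k _ => ?_
  simp [mul_comm]

/-- `Rep φ a b F c`: the kernel `F` on the unit square represents the real number `c`. -/
def Rep (φ : K →ₗ[ℂ] ℂ) (a b : K) (F : ℝ → ℝ → ℝ) (c : ℝ) : Prop :=
  Tendsto (fun n : ℕ => ∑ k : Fin (n + 1), ∑ l : Fin (n + 1),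
    F (bernstein.z k : I) (bernstein.z l : I) * (φ (bw n k a * bw n l b)).re) atTop (𝓝 c)

variable {φ : K →ₗ[ℂ] ℂ} {a b : K}

theorem Rep.add {F G : ℝ → ℝ → ℝ} {c d : ℝ} (hF : Rep φ a b F c) (hG : Rep φ a b G d) :
    Rep φ a b (fun x y => F x y + G x y) (c + d) := by
  unfold Rep at *
  refine (hF.add hG).congr fun n => ?_
  simp only [add_mul, Finset.sum_add_distrib]

theorem Rep.const_mul {F : ℝ → ℝ → ℝ} {c : ℝ} (r : ℝ) (hF : Rep φ a b F c) :
    Rep φ a b (fun x y => r * F x y) (r * c) := by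
  unfold Rep at *
  refine (hF.const_mul r).congr fun n => ?_
  simp only [Finset.mul_sum, mul_assoc]

theorem Rep.neg {F : ℝ → ℝ → ℝ} {c : ℝ} (hF : Rep φ a b F c) :
    Rep φ a b (fun x y => - F x y) (-c) := by
  simpa using hF.const_mul (-1)

theorem Rep.sub {F G : ℝ → ℝ → ℝ} {c d : ℝ} (hF : Rep φ a b F c) (hG : Rep φ a b G d) :
    Rep φ a b (fun x y => F x y - G x y) (c - d) := by
  simpa [sub_eq_add_neg] using hF.add hG.neg

theorem Rep.zero : Rep φ a b (fun _ _ => 0) 0 := by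
  simp [Rep]

theorem Rep.sum {ι : Type*} (s : Finset ι) {F : ι → ℝ → ℝ → ℝ} {c : ι → ℝ}
    (hF : ∀ i ∈ s, Rep φ a b (F i) (c i)) :
    Rep φ a b (fun x y => ∑ i ∈ s, F i x y) (∑ i ∈ s, c i) := by
  classical
  induction s using Finset.induction_on with
  | empty => simpa using Rep.zero
  | insert i s hi ih =>
    simp only [Finset.sum_insert hi]
    exact (hF i (Finset.mem_insert_self _ _)).add
      (ih fun j hj => hF j (Finset.mem_insert_of_mem hj))

theorem Rep.congr {F G : ℝ → ℝ → ℝ} {c d : ℝ} (hF : Rep φ a b F c) (h : F = G) (h' : c = d) :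
    Rep φ a b G d := by
  rw [← h, ← h']; exact hF

/-- Product kernels. -/
theorem Rep.mul (hφ : IsPosTrace φ) (ha : 0 ≤ a) (ha1 : ‖a‖ ≤ 1) (hb : 0 ≤ b) (hb1 : ‖b‖ ≤ 1)
    {f g : ℝ → ℝ} (hf : Continuous f) (hg : Continuous g) :
    Rep φ a b (fun x y => f x * g y) (φ (cfc f a * cfc g b)).re := by
  unfold Rep
  have h := (tendsto_bw hf ha ha1).mul (tendsto_bw hg hb hb1)
  have h2 := ((Complex.continuous_re.comp (continuous_of hφ)).tendsto _).comp h
  refine h2.congr fun n => ?_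
  simp only [Function.comp]
  rw [Finset.sum_mul_sum]
  simp only [map_sum, Complex.re_sum]
  refine Finset.sum_congr rfl fun k _ => Finset.sum_congr rfl fun l _ => ?_
  rw [smul_mul_smul_comm, ← Complex.coe_smul, map_smul]
  simp

/-- Positivity. -/
theorem Rep.nonneg (hφ : IsPosTrace φ) (ha : 0 ≤ a) (ha1 : ‖a‖ ≤ 1) (hb : 0 ≤ b) (hb1 : ‖b‖ ≤ 1)
    {F : ℝ → ℝ → ℝ} {c : ℝ} (hF : Rep φ a b F c)
    (h : ∀ x ∈ Set.Icc (0 : ℝ) 1, ∀ y ∈ Set.Icc (0 : ℝ) 1, 0 ≤ F x y) : 0 ≤ c := by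
  refine ge_of_tendsto' hF fun n => ?_
  refine Finset.sum_nonneg fun k _ => Finset.sum_nonneg fun l _ => mul_nonneg ?_ ?_
  · exact h _ (bernstein.z k).2 _ (bernstein.z l).2
  · exact (Complex.nonneg_iff.1 (map_mul_nonneg hφ (bw_nonneg n k ha ha1) (bw_nonneg n l hb hb1))).1

theorem Rep.le (hφ : IsPosTrace φ) (ha : 0 ≤ a) (ha1 : ‖a‖ ≤ 1) (hb : 0 ≤ b) (hb1 : ‖b‖ ≤ 1)
    {F G : ℝ → ℝ → ℝ} {c d : ℝ} (hF : Rep φ a b F c) (hG : Rep φ a b G d)
    (h : ∀ x ∈ Set.Icc (0 : ℝ) 1, ∀ y ∈ Set.Icc (0 : ℝ) 1, F x y ≤ G x y) : c ≤ d := by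
  have := (hG.sub hF).nonneg hφ ha ha1 hb hb1 fun x hx y hy => sub_nonneg.2 (h x hx y hy)
  linarith

/-- Kernels depending on the first variable only. -/
theorem Rep.left (hφ : IsPosTrace φ) (ha : 0 ≤ a) (ha1 : ‖a‖ ≤ 1) (hb : 0 ≤ b) (hb1 : ‖b‖ ≤ 1)
    {f : ℝ → ℝ} (hf : Continuous f) :
    Rep φ a b (fun x _ => f x) (φ (cfc f a)).re := by
  have h := Rep.mul hφ ha ha1 hb hb1 hf (continuous_const (y := (1 : ℝ)))
  have hsb : IsSelfAdjoint b := .of_nonneg hb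
  refine h.congr ?_ ?_
  · ext x y; simp
  · rw [cfc_const_one ℝ b, mul_one]

/-- Kernels depending on the second variable only. -/
theorem Rep.right (hφ : IsPosTrace φ) (ha : 0 ≤ a) (ha1 : ‖a‖ ≤ 1) (hb : 0 ≤ b) (hb1 : ‖b‖ ≤ 1)
    {g : ℝ → ℝ} (hg : Continuous g) :
    Rep φ a b (fun _ y => g y) (φ (cfc g b)).re := by
  have h := Rep.mul hφ ha ha1 hb hb1 (continuous_const (y := (1 : ℝ))) hg
  have hsa : IsSelfAdjoint a := .of_nonneg ha
  refine h.congr ?_ ?_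
  · ext x y; simp
  · rw [cfc_const_one ℝ a, one_mul]

/-- Squares of differences. -/
theorem Rep.sq_sub (hφ : IsPosTrace φ) (ha : 0 ≤ a) (ha1 : ‖a‖ ≤ 1) (hb : 0 ≤ b) (hb1 : ‖b‖ ≤ 1)
    {f g : ℝ → ℝ} (hf : Continuous f) (hg : Continuous g) :
    Rep φ a b (fun x y => (f x - g y) ^ 2) (sq φ (cfc f a - cfc g b)) := by
  have h1 := Rep.left hφ ha ha1 hb hb1 (hf.mul hf)
  have h2 := Rep.right hφ ha ha1 hb hb1 (hg.mul hg)
  have h3 := Rep.mul hφ ha ha1 hb hb1 hf hg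
  refine ((h1.add h2).sub (h3.const_mul 2)).congr ?_ ?_
  · ext x y
    simp only [Pi.mul_apply]
    ring
  · have sA : star (cfc f a) = cfc f a := (cfc_predicate f a : IsSelfAdjoint _)
    have sB : star (cfc g b) = cfc g b := (cfc_predicate g b : IsSelfAdjoint _)
    have e1 : cfc (f * g) a = cfc f a * cfc g a := by
      rw [← cfc_mul f g a hf.continuousOn hg.continuousOn]
      rfl
    have e2 : cfc (f * f) a = cfc f a * cfc f a := by
      rw [← cfc_mul f f a hf.continuousOn hf.continuousOn]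
      rfl
    have e3 : cfc (g * g) b = cfc g b * cfc g b := by
      rw [← cfc_mul g g b hg.continuousOn hg.continuousOn]
      rfl
    unfold sq
    rw [star_sub, sA, sB, sub_mul, mul_sub, mul_sub, map_sub, map_sub, map_sub,
      hφ.trace (cfc g b) (cfc f a), e2, e3]
    simp only [Complex.sub_re]
    ring

/-- Squares of sums. -/
theorem Rep.sq_add (hφ : IsPosTrace φ) (ha : 0 ≤ a) (ha1 : ‖a‖ ≤ 1) (hb : 0 ≤ b) (hb1 : ‖b‖ ≤ 1)
    {f g : ℝ → ℝ} (hf : Continuous f) (hg : Continuous g) :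
    Rep φ a b (fun x y => (f x + g y) ^ 2) (sq φ (cfc f a + cfc g b)) := by
  refine (Rep.sq_sub hφ ha ha1 hb hb1 hf hg.neg).congr ?_ ?_
  · ext x y
    simp
  · have e : cfc (-g) b = - cfc g b := cfc_neg g b
    rw [e, sub_neg_eq_add]

end Connes

open Connes

/-- Positivity of separable kernels. -/
theorem kernel_pos (φ : K →ₗ[ℂ] ℂ) (hφ : IsPosTrace φ) {r : ℕ} (f g : Fin r → ℝ → ℝ)
    (hf : ∀ i, Continuous (f i)) (hg : ∀ i, Continuous (g i))
    (h : ∀ x ∈ Set.Icc (0 : ℝ) 1, ∀ y ∈ Set.Icc (0 : ℝ) 1, 0 ≤ ∑ i, f i x * g i y)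
    (a b : K) (ha : 0 ≤ a) (ha1 : ‖a‖ ≤ 1) (hb : 0 ≤ b) (hb1 : ‖b‖ ≤ 1) :
    0 ≤ (∑ i, φ (cfc (f i) a * cfc (g i) b)).re := by
  rw [Complex.re_sum]
  exact (Rep.sum Finset.univ fun i _ => Rep.mul hφ ha ha1 hb hb1 (hf i) (hg i)).nonneg
    hφ ha ha1 hb hb1 h

/-! ### The pointwise inequality -/

namespace Connes

/-- `clamp`. -/
noncomputable def cl (x : ℝ) : ℝ := max 0 (min 1 x)

theorem cl_nonneg (x : ℝ) : 0 ≤ cl x := le_max_left _ _

theorem cl_le_one (x : ℝ) : cl x ≤ 1 := max_le zero_le_one (min_le_left _ _)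

theorem cl_mono {x y : ℝ} (h : x ≤ y) : cl x ≤ cl y :=
  max_le_max le_rfl (min_le_min le_rfl h)

theorem cl_of_nonpos {x : ℝ} (h : x ≤ 0) : cl x = 0 :=
  max_eq_left ((min_le_right _ _).trans h)

theorem cl_of_one_le {x : ℝ} (h : 1 ≤ x) : cl x = 1 := by
  rw [cl, min_eq_left h, max_eq_right zero_le_one]

theorem cl_of_mem {x : ℝ} (h0 : 0 ≤ x) (h1 : x ≤ 1) : cl x = x := by
  rw [cl, min_eq_right h1, max_eq_right h0]

theorem sum_cl (t : ℝ) (ht : 0 ≤ t) (n : ℕ) : ∑ j ∈ Finset.range n, cl (t - j) = min t n := by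
  induction n with
  | zero => simp [ht]
  | succ n ih =>
    rw [Finset.sum_range_succ, ih]
    push_cast
    rcases le_total t n with h | h
    · rw [cl_of_nonpos (by linarith), min_eq_left h, min_eq_left (by linarith), add_zero]
    · rcases le_total t (n + 1) with h' | h'
      · rw [cl_of_mem (by linarith) (by linarith), min_eq_right h, min_eq_left h']
        ring
      · rw [cl_of_one_le (by linarith), min_eq_right h, min_eq_right h']

theorem sum_cl_compl (s : ℝ) (hs : 0 ≤ s) (n : ℕ) :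
    ∑ j ∈ Finset.range n, cl (s - j) * (1 - cl (s - j)) ≤ 2 * s / (1 + s) := by
  have h0 : 0 ≤ 2 * s / (1 + s) := by positivity
  have hz : ∀ j ∈ Finset.range n, j ≠ ⌊s⌋₊ → cl (s - j) * (1 - cl (s - j)) = 0 := by
    intro j _ hj
    rcases lt_or_gt_of_ne hj with h | h
    · have h1 : (j : ℝ) + 1 ≤ ⌊s⌋₊ := by exact_mod_cast h
      have h2 : (⌊s⌋₊ : ℝ) ≤ s := Nat.floor_le hs
      rw [cl_of_one_le (by linarith)]
      ring
    · have h1 : (⌊s⌋₊ : ℝ) + 1 ≤ j := by exact_mod_cast h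
      have h2 : s < ⌊s⌋₊ + 1 := Nat.lt_floor_add_one s
      rw [cl_of_nonpos (by linarith)]
      ring
  by_cases hn : ⌊s⌋₊ ∈ Finset.range n
  · rw [Finset.sum_eq_single_of_mem _ hn hz]
    have h2 : (⌊s⌋₊ : ℝ) ≤ s := Nat.floor_le hs
    have h3 : s < ⌊s⌋₊ + 1 := Nat.lt_floor_add_one s
    have h4 : (0 : ℝ) ≤ ⌊s⌋₊ := Nat.cast_nonneg _
    rw [cl_of_mem (by linarith) (by linarith)]
    set u := s - ⌊s⌋₊ with hu
    have hu0 : 0 ≤ u := by linarith
    have hu1 : u ≤ 1 := by linarith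
    have hus : u ≤ s := by linarith
    rw [le_div_iff₀ (by linarith)]
    rcases le_total s 1 with h | h
    · nlinarith [mul_nonneg hu0 (sub_nonneg.2 hu1)]
    · nlinarith [mul_nonneg hu0 (sub_nonneg.2 hu1), sq_nonneg (u - 1 / 2)]
  · rw [Finset.sum_eq_zero fun j hj => hz j hj (fun e => hn (e ▸ hj))]
    exact h0

theorem rampH_eq (R j : ℕ) (x : ℝ) : rampH R (j + 1) x = cl (R * x - j) := by
  unfold rampH cl
  congr 2
  push_cast
  ring

theorem continuous_rampH (R j : ℕ) : Continuous (rampH R j) := by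
  unfold rampH
  fun_prop

theorem sum_Icc_rampH (R : ℕ) (F : ℕ → ℝ) :
    ∑ j ∈ Finset.Icc 1 R, F j = ∑ j ∈ Finset.range R, F (j + 1) := by
  rw [Finset.range_eq_Ico, Finset.sum_Ico_add' F 0 R 1]
  rfl

/-- `(1/R) ∑ rampH = x` on the unit interval. -/
theorem avg_rampH (R : ℕ) (hR : 1 ≤ R) {x : ℝ} (hx : x ∈ Set.Icc (0 : ℝ) 1) :
    (1 / R : ℝ) * ∑ j ∈ Finset.Icc 1 R, rampH R j x = x := by
  have hR' : (0 : ℝ) < R := by exact_mod_cast hR
  rw [sum_Icc_rampH]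
  simp only [rampH_eq]
  rw [sum_cl _ (by have := hx.1; positivity), min_eq_left (by nlinarith [hx.2])]
  field_simp

theorem div_mono_aux {R x y : ℝ} (hR : 0 ≤ R) (hx : 0 ≤ x) (hxy : x ≤ y) :
    x / (1 + R * x) ≤ y / (1 + R * y) := by
  have h1 : 0 < 1 + R * x := by positivity
  have h2 : 0 < 1 + R * y := by have := hx.trans hxy; positivity
  rw [div_le_div_iff₀ h1 h2]
  nlinarith [mul_nonneg hR (mul_nonneg hx (hx.trans hxy))]

theorem pointwise_aux (R : ℕ) (hR : 1 ≤ R) {x y : ℝ} (hx : x ∈ Set.Icc (0 : ℝ) 1)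
    (hy : y ∈ Set.Icc (0 : ℝ) 1) (hxy : x ≤ y) :
    (1 / R : ℝ) * ∑ j ∈ Finset.Icc 1 R, (rampH R j x - rampH R j y) ^ 2 ≤
      y - x + 4 * (x / (1 + R * x)) := by
  have hR' : (0 : ℝ) < R := by exact_mod_cast hR
  have h1 : ∀ j ∈ Finset.range R, (rampH R (j + 1) x - rampH R (j + 1) y) ^ 2 ≤
      rampH R (j + 1) y - rampH R (j + 1) x + 2 * (cl (R * x - j) * (1 - cl (R * x - j))) := by
    intro j _
    rw [rampH_eq, rampH_eq]
    have a0 := cl_nonneg (R * x - j)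
    have a1 := cl_le_one (R * x - j)
    have b0 := cl_nonneg (R * y - j)
    have b1 := cl_le_one (R * y - j)
    have ab : cl (R * x - j) ≤ cl (R * y - j) := cl_mono (by nlinarith)
    nlinarith [mul_nonneg a0 (sub_nonneg.2 ab), mul_nonneg b0 (sub_nonneg.2 b1),
      mul_nonneg a0 (sub_nonneg.2 a1)]
  have h2 := Finset.sum_le_sum h1
  rw [Finset.sum_add_distrib, Finset.sum_sub_distrib, ← Finset.mul_sum] at h2
  have h3 := sum_cl_compl (R * x) (by have := hx.1; positivity) R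
  have e1 := avg_rampH R hR hx
  have e2 := avg_rampH R hR hy
  rw [sum_Icc_rampH] at e1 e2 ⊢
  have h4 := mul_le_mul_of_nonneg_left h2 (by positivity : (0 : ℝ) ≤ 1 / R)
  have h5 : (1 / R : ℝ) * (2 * ∑ j ∈ Finset.range R, cl (R * x - j) * (1 - cl (R * x - j))) ≤
      4 * (x / (1 + R * x)) := by
    have := mul_le_mul_of_nonneg_left h3 (by positivity : (0 : ℝ) ≤ 2 / R)
    have e3 : (2 / R : ℝ) * (2 * (R * x) / (1 + R * x)) = 4 * (x / (1 + R * x)) := by
      field_simp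
      ring
    rw [e3] at this
    refine le_trans (le_of_eq ?_) this
    ring
  rw [mul_add, mul_sub, e1, e2] at h4
  linarith

theorem pointwise (R : ℕ) (hR : 1 ≤ R) (θ : ℝ) (hθ : 0 < θ) {x y : ℝ}
    (hx : x ∈ Set.Icc (0 : ℝ) 1) (hy : y ∈ Set.Icc (0 : ℝ) 1) :
    (1 / R : ℝ) * ∑ j ∈ Finset.Icc 1 R, (rampH R j x - rampH R j y) ^ 2 ≤
      4 * (x / (1 + R * x)) + θ / 2 * (√x + √y) ^ 2 + 1 / (2 * θ) * (√x - √y) ^ 2 := by
  have hR' : (0 : ℝ) < R := by exact_mod_cast hR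
  have e1 := Real.sq_sqrt hx.1
  have e2 := Real.sq_sqrt hy.1
  have am : |x - y| ≤ θ / 2 * (√x + √y) ^ 2 + 1 / (2 * θ) * (√x - √y) ^ 2 := by
    have e3 : x - y = (√x + √y) * (√x - √y) := by nlinarith
    set p := √x + √y
    set m := √x - √y
    rw [e3]
    have e4 : θ / 2 * p ^ 2 + 1 / (2 * θ) * m ^ 2 = (θ ^ 2 * p ^ 2 + m ^ 2) / (2 * θ) := by
      field_simp
    rw [e4, le_div_iff₀ (by positivity)]
    rcases abs_cases (p * m) with ⟨h, _⟩ | ⟨h, _⟩
    · rw [h]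
      nlinarith [sq_nonneg (θ * p - m)]
    · rw [h]
      nlinarith [sq_nonneg (θ * p + m)]
  rcases le_total x y with h | h
  · have h1 := pointwise_aux R hR hx hy h
    have h2 : y - x ≤ |x - y| := by rw [abs_sub_comm]; exact le_abs_self _
    linarith
  · have h1 := pointwise_aux R hR hy hx h
    have h2 : x - y ≤ |x - y| := le_abs_self _
    have h3 := div_mono_aux hR'.le hy.1 h
    have e5 : ∑ j ∈ Finset.Icc 1 R, (rampH R j x - rampH R j y) ^ 2 =
        ∑ j ∈ Finset.Icc 1 R, (rampH R j y - rampH R j x) ^ 2 :=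
      Finset.sum_congr rfl fun j _ => by ring
    rw [e5]
    linarith

end Connes

/-- Connes' averaging trick. -/
theorem connes_trick (φ : K →ₗ[ℂ] ℂ) (hφ : IsPosTrace φ) (R : ℕ) (hR : 1 ≤ R) (θ : ℝ) (hθ : 0 < θ)
    (a b : K) (ha : 0 ≤ a) (ha1 : ‖a‖ ≤ 1) (hb : 0 ≤ b) (hb1 : ‖b‖ ≤ 1) :
    (1 / R : ℝ) * ∑ j ∈ Finset.Icc 1 R, sq φ (cfc (rampH R j) a - cfc (rampH R j) b) ≤
      4 * (φ (cfc (fun x : ℝ => x / (1 + R * x)) a)).re
      + θ / 2 * sq φ (cfc Real.sqrt a + cfc Real.sqrt b)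
      + 1 / (2 * θ) * sq φ (cfc Real.sqrt a - cfc Real.sqrt b) := by
  have hl : Rep φ a b (fun x y => (1 / R : ℝ) *
      ∑ j ∈ Finset.Icc 1 R, (rampH R j x - rampH R j y) ^ 2)
      ((1 / R : ℝ) * ∑ j ∈ Finset.Icc 1 R, sq φ (cfc (rampH R j) a - cfc (rampH R j) b)) :=
    (Rep.sum _ fun j _ => Rep.sq_sub hφ ha ha1 hb hb1 (continuous_rampH R j)
      (continuous_rampH R j)).const_mul _
  have hc : Continuous fun x : ℝ => x / (1 + R * |x|) := by
    refine continuous_id.div (by fun_prop) fun x => ?_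
    positivity
  have e : cfc (fun x : ℝ => x / (1 + R * |x|)) a = cfc (fun x : ℝ => x / (1 + R * x)) a := by
    refine cfc_congr fun x hx => ?_
    have := (spectrum_subset_unit ha ha1 hx).1
    simp only [abs_of_nonneg this]
  have hr := (((Rep.left hφ ha ha1 hb hb1 hc).const_mul 4).add
    ((Rep.sq_add hφ ha ha1 hb hb1 Real.continuous_sqrt Real.continuous_sqrt).const_mul
      (θ / 2))).add ((Rep.sq_sub hφ ha ha1 hb hb1 Real.continuous_sqrt
        Real.continuous_sqrt).const_mul (1 / (2 * θ)))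
  rw [e] at hr
  refine Rep.le hφ ha ha1 hb hb1 hl hr fun x hx y hy => ?_
  simp only [abs_of_nonneg hx.1]
  exact pointwise R hR θ hθ hx hy

end Kernel

end Vale.Agent.P095
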