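import Vale.Agent.P095.NucDim

/-!
# P095, T6, row F7: finite nuclear dimension implies nuclearity
-/

open Filter Topology TopologicalSpace
open scoped BoundedContinuousFunction ComplexOrder

namespace Vale.Agent.P095

namespace NucDimExc



theorem isPos_add {B : Type*} [CStarAlgebra B] {x y : B} (hx : IsPos x) (hy : IsPos y) :
    IsPos (x + y) := by
  let _ := CStarAlgebra.spectralOrder B
  let _ := CStarAlgebra.spectralOrderedRing B
  obtain ⟨a, rfl⟩ := hx
  obtain ⟨b, rfl⟩ := hy
  exact CStarAlgebra.nonneg_iff_eq_star_mul_self.1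
    (add_nonneg (star_mul_self_nonneg a) (star_mul_self_nonneg b))

theorem isPos_add_matrix {A : Type*} [CStarAlgebra A] {N : ℕ} {X Y : Matrix (Fin N) (Fin N) A}
    (hX : IsPos X) (hY : IsPos Y) : IsPos (X + Y) := by
  let _ := CStarAlgebra.spectralOrder A
  let _ := CStarAlgebra.spectralOrderedRing A
  exact isPos_add (B := CStarMatrix (Fin N) (Fin N) A) hX hY

theorem isCP_sum {ι F A : Type*} [Fintype ι] [Ring F] [StarRing F] [Module ℂ F] [CStarAlgebra A]
    (f : ι → F →ₗ[ℂ] A) (hf : ∀ i, IsCP (f i)) : IsCP (∑ i, f i) := by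
  classical
  intro N X hX
  have key : ∀ s : Finset ι, IsPos (X.map (∑ i ∈ s, f i : F →ₗ[ℂ] A)) := by
    intro s
    induction s using Finset.induction_on with
    | empty =>
      refine ⟨0, ?_⟩
      rw [mul_zero]
      ext p q
      simp
    | insert i s hi ih =>
      rw [Finset.sum_insert hi]
      have : X.map ((f i + ∑ j ∈ s, f j : F →ₗ[ℂ] A)) =
          X.map (f i) + X.map (∑ j ∈ s, f j : F →ₗ[ℂ] A) := by
        ext p q
        simp
      rw [this]
      exact isPos_add_matrix (hf i N X hX) ih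
  exact key Finset.univ

theorem isCP_comp {A B C : Type*} [Ring A] [StarRing A] [Module ℂ A] [Ring B] [StarRing B]
    [Module ℂ B] [Ring C] [StarRing C] [Module ℂ C] {g : B →ₗ[ℂ] C} {f : A →ₗ[ℂ] B}
    (hg : IsCP g) (hf : IsCP f) : IsCP (g ∘ₗ f) := by
  intro N X hX
  have := hg N _ (hf N X hX)
  rwa [Matrix.map_map] at this

/-- star homomorphisms are completely positive -/
theorem isCP_of_mul {A B : Type*} [Ring A] [StarRing A] [Module ℂ A] [Ring B] [StarRing B]
    [Module ℂ B] (θ : A →ₗ[ℂ] B) (h1 : ∀ x y, θ (x * y) = θ x * θ y)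
    (h2 : ∀ x, θ (star x) = star (θ x)) : IsCP θ := by
  rintro N X ⟨Y, rfl⟩
  refine ⟨Y.map θ, ?_⟩
  ext p q
  simp only [Matrix.map_apply, Matrix.mul_apply, map_sum, h1, Matrix.star_apply, h2]

theorem isCP_pi {ι : Type*} {F : Type*} {B : ι → Type*} [Ring F] [StarRing F] [Module ℂ F]
    [∀ i, Ring (B i)] [∀ i, StarRing (B i)] [∀ i, Module ℂ (B i)] (φ : F →ₗ[ℂ] (∀ i, B i))
    (h : ∀ i, IsCP ((LinearMap.proj i) ∘ₗ φ)) : IsCP φ := by
  intro N X hX
  choose Z hZ using fun i => h i N X hX
  refine ⟨Matrix.of fun p q i => Z i p q, ?_⟩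
  ext p q i
  have := congrFun (congrFun (hZ i) p) q
  simp only [Matrix.map_apply, Matrix.mul_apply, Matrix.star_apply, LinearMap.coe_comp,
    Function.comp_apply, LinearMap.proj_apply] at this
  rw [Matrix.mul_apply, Finset.sum_apply]
  exact this

/-- compression of a matrix algebra -/
def comprL {k l : Type*} (f : l → k) : Matrix k k ℂ →ₗ[ℂ] Matrix l l ℂ where
  toFun M := M.submatrix f f
  map_add' _ _ := rfl
  map_smul' _ _ := rfl

open scoped MatrixOrder in
theorem isCP_comprL {k l : Type*} [Fintype k] [DecidableEq k] [Fintype l] [DecidableEq l]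
    (f : l → k) : IsCP (comprL f) := by
  rintro N X ⟨Y, rfl⟩
  set Y' : Matrix (Fin N × k) (Fin N × k) ℂ := Matrix.comp _ _ _ _ _ Y with hY'
  have h1 : (star Y' * Y').PosSemidef := Matrix.posSemidef_conjTranspose_mul_self Y'
  have h2 := h1.submatrix (fun p : Fin N × l => (p.1, f p.2))
  obtain ⟨B, hB⟩ := CStarAlgebra.nonneg_iff_eq_star_mul_self.mp h2.nonneg
  refine ⟨(Matrix.comp _ _ _ _ _).symm B, ?_⟩
  ext p q x y
  have h3 := congrFun (congrFun hB (p, x)) (q, y)
  simp only [Matrix.submatrix_apply, Matrix.mul_apply, Fintype.sum_prod_type, Matrix.star_apply]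
    at h3
  show ((star Y * Y) p q) (f x) (f y) = _
  rw [Matrix.mul_apply, Matrix.mul_apply, Matrix.sum_apply, Matrix.sum_apply]
  simp only [Matrix.mul_apply, Matrix.star_apply]
  exact h3

end NucDimExc

open NucDimExc in
theorem isNuclear_of_nuclearDim {A : Type*} [CStarAlgebra A] {d : ℕ} (hd : HasNuclearDim A d) :
    IsNuclear A := by
  classical
  intro S ε hε
  obtain ⟨m, n, φ, ψ, hφ, -, hψ, happ⟩ := hd S ε hε
  let J := Σ c : Fin (d + 1), Σ i : Fin m, Fin (n c i)
  let e : J ≃ Fin (Fintype.card J) := Fintype.equivFin J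
  -- block diagonal embedding
  let Θ : (∀ c i, Matrix (Fin (n c i)) (Fin (n c i)) ℂ) →ₗ[ℂ]
      Matrix (Fin (Fintype.card J)) (Fin (Fintype.card J)) ℂ :=
    { toFun := fun M => (Matrix.blockDiagonal' fun c => Matrix.blockDiagonal' (M c)).submatrix
        e.symm e.symm
      map_add' := by
        intro M M'
        have : (fun c => Matrix.blockDiagonal' ((M + M') c)) =
            (fun c => Matrix.blockDiagonal' (M c)) + fun c => Matrix.blockDiagonal' (M' c) := by
          funext c
          exact Matrix.blockDiagonal'_add _ _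
        rw [this, Matrix.blockDiagonal'_add]
        rfl
      map_smul' := by
        intro r M
        have : (fun c => Matrix.blockDiagonal' ((r • M) c)) =
            r • (fun c => Matrix.blockDiagonal' (M c)) := by
          funext c
          exact Matrix.blockDiagonal'_smul r (M c)
        rw [this, Matrix.blockDiagonal'_smul]
        rfl }
  have hΘ : IsCP Θ := by
    refine isCP_of_mul _ ?_ ?_
    · intro x y
      show (Matrix.blockDiagonal' fun c => Matrix.blockDiagonal' ((x * y) c)).submatrix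
        e.symm e.symm = _
      have : (fun c => Matrix.blockDiagonal' ((x * y) c)) =
          fun c => (Matrix.blockDiagonal' (x c)) * (Matrix.blockDiagonal' (y c)) := by
        funext c
        exact Matrix.blockDiagonal'_mul _ _
      rw [this, Matrix.blockDiagonal'_mul, ← Matrix.submatrix_mul_equiv _ _ _ e.symm _]
      rfl
    · intro x
      show (Matrix.blockDiagonal' fun c => Matrix.blockDiagonal' ((star x) c)).submatrix
        e.symm e.symm = Matrix.conjTranspose _
      have : (fun c => Matrix.blockDiagonal' ((star x) c)) =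
          fun c => (Matrix.blockDiagonal' (x c)).conjTranspose := by
        funext c
        rw [Matrix.blockDiagonal'_conjTranspose]
        rfl
      rw [this, ← Matrix.blockDiagonal'_conjTranspose]
      rfl
  let φall : A →ₗ[ℂ] (∀ c i, Matrix (Fin (n c i)) (Fin (n c i)) ℂ) := LinearMap.pi φ
  have hφall : IsCP φall := isCP_pi _ fun c => by
    have : LinearMap.proj c ∘ₗ φall = φ c := by
      ext a
      rfl
    rw [this]
    exact hφ c
  let κ : ∀ c, Matrix (Fin (Fintype.card J)) (Fin (Fintype.card J)) ℂ →ₗ[ℂ]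
      (∀ i, Matrix (Fin (n c i)) (Fin (n c i)) ℂ) := fun c =>
    LinearMap.pi fun i => comprL fun x => e ⟨c, i, x⟩
  have hκ : ∀ c, IsCP (κ c) := fun c => isCP_pi _ fun i => by
    have : LinearMap.proj i ∘ₗ κ c = comprL fun x => e ⟨c, i, x⟩ := rfl
    rw [this]
    exact isCP_comprL _
  refine ⟨Fintype.card J, Θ ∘ₗ φall, ∑ c, ψ c ∘ₗ κ c, isCP_comp hΘ hφall,
    isCP_sum _ fun c => isCP_comp (hψ c).cp (hκ c), fun a ha => ?_⟩
  have h1 : ∀ c, κ c (Θ (φall a)) = φ c a := by
    intro c
    funext i
    ext x y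
    show (Matrix.blockDiagonal' fun c => Matrix.blockDiagonal' (φ c a))
      (e.symm (e ⟨c, i, x⟩)) (e.symm (e ⟨c, i, y⟩)) = _
    rw [Equiv.symm_apply_apply, Equiv.symm_apply_apply, Matrix.blockDiagonal'_apply_eq,
      Matrix.blockDiagonal'_apply_eq]
  have h2 : (∑ c, ψ c ∘ₗ κ c) ((Θ ∘ₗ φall) a) = ∑ c, ψ c (φ c a) := by
    rw [LinearMap.sum_apply]
    refine Finset.sum_congr rfl fun c _ => ?_
    rw [LinearMap.comp_apply, LinearMap.comp_apply, h1]
  rw [h2]
  exact happ a ha

end Vale.Agent.P095
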