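import Vale.Agent.P095.NucDim

/-!
# P095: elements of small trace in algebras of finite nuclear dimension (row F2d of target T6)
-/

open Filter Topology TopologicalSpace
open scoped BoundedContinuousFunction ComplexOrder

namespace Vale.Agent.P095

open Vale.Agent.P101

universe u v w

namespace RankStep

/-! ### completely positive maps -/

/-- CP maps preserve positivity -/
theorem isPos_map {A B : Type*} [Ring A] [StarRing A] [Module ℂ A] [Ring B] [StarRing B]
    [Module ℂ B] {φ : A →ₗ[ℂ] B} (hφ : IsCP φ) {x : A} (hx : IsPos x) : IsPos (φ x) := by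
  obtain ⟨y, rfl⟩ := hx
  obtain ⟨Z, hZ⟩ := hφ 1 (Matrix.of fun _ _ => star y * y) ⟨Matrix.of fun _ _ => y, by
    ext i j
    rw [Matrix.mul_apply, Fin.sum_univ_one, Matrix.star_apply]
    rfl⟩
  refine ⟨Z 0 0, ?_⟩
  have h1 := congrFun (congrFun hZ 0) 0
  rw [Matrix.mul_apply, Fin.sum_univ_one, Matrix.star_apply] at h1
  exact h1

/-- CP maps are hermitian -/
theorem map_star_of_isCP {A B : Type*} [Ring A] [StarRing A] [Module ℂ A] [Ring B] [StarRing B]
    [Module ℂ B] {φ : A →ₗ[ℂ] B} (hφ : IsCP φ) (x : A) : φ (star x) = star (φ x) := by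
  let Y : Matrix (Fin 2) (Fin 2) A := fun i j => if i = 0 then (if j = 0 then x else 1) else 0
  obtain ⟨Z, hZ⟩ := hφ 2 (star Y * Y) ⟨Y, rfl⟩
  have h1 := congrFun (congrFun hZ 0) 1
  have h2 := congrFun (congrFun hZ 1) 0
  have e1 : (star Y * Y) 0 1 = star x := by
    rw [Matrix.mul_apply, Fin.sum_univ_two, Matrix.star_apply, Matrix.star_apply]
    simp [Y]
  have e2 : (star Y * Y) 1 0 = x := by
    rw [Matrix.mul_apply, Fin.sum_univ_two, Matrix.star_apply, Matrix.star_apply]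
    simp [Y]
  rw [Matrix.map_apply, e1] at h1
  rw [Matrix.map_apply, e2] at h2
  rw [h1, h2, Matrix.mul_apply, Matrix.mul_apply, star_sum]
  refine Finset.sum_congr rfl fun p _ => ?_
  rw [star_mul, Matrix.star_apply, Matrix.star_apply, star_star]

/-! ### positivity in finite-dimensional algebras -/

open scoped MatrixOrder in
theorem isPos_add_mat {n : ℕ} {x y : Matrix (Fin n) (Fin n) ℂ} (hx : IsPos x) (hy : IsPos y) :
    IsPos (x + y) := by
  obtain ⟨a, rfl⟩ := hx
  obtain ⟨b, rfl⟩ := hy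
  have h1 : (star a * a).PosSemidef := Matrix.posSemidef_conjTranspose_mul_self a
  have h2 : (star b * b).PosSemidef := Matrix.posSemidef_conjTranspose_mul_self b
  obtain ⟨B, hB⟩ := CStarAlgebra.nonneg_iff_eq_star_mul_self.mp (h1.add h2).nonneg
  exact ⟨B, hB⟩

theorem isPos_add_pi {m : ℕ} {n : Fin m → ℕ} {x y : ∀ b, Matrix (Fin (n b)) (Fin (n b)) ℂ}
    (hx : IsPos x) (hy : IsPos y) : IsPos (x + y) := by
  obtain ⟨a, rfl⟩ := hx
  obtain ⟨b, rfl⟩ := hy
  choose Z hZ using fun i => isPos_add_mat (x := star (a i) * a i) (y := star (b i) * b i)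
    ⟨a i, rfl⟩ ⟨b i, rfl⟩
  exact ⟨Z, funext hZ⟩

theorem isPos_smul {F : Type*} [Ring F] [StarRing F] [Algebra ℂ F] [StarModule ℂ F] {x : F}
    (hx : IsPos x) {c : ℝ} (hc : 0 ≤ c) : IsPos (((c : ℝ) : ℂ) • x) := by
  obtain ⟨y, rfl⟩ := hx
  refine ⟨((√c : ℝ) : ℂ) • y, ?_⟩
  rw [star_smul, Complex.star_def, Complex.conj_ofReal, smul_mul_smul_comm, ← Complex.ofReal_mul,
    Real.mul_self_sqrt hc]

/-! ### quadratic forms of positive matrices -/

section Quad

variable {A : Type u} [CStarAlgebra A]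

/-- the quadratic form of a matrix -/
noncomputable def quad {k : ℕ} (M : Matrix (Fin k) (Fin k) A) (y : Fin k → A) : A :=
  ∑ i, ∑ i', star (y i) * M i i' * y i'

theorem isPos_quad {k : ℕ} {M : Matrix (Fin k) (Fin k) A} (hM : IsPos M) (y : Fin k → A) :
    ∃ w : Fin k → A, quad M y = ∑ p, star (w p) * w p := by
  obtain ⟨Z, rfl⟩ := hM
  refine ⟨fun p => ∑ i, Z p i * y i, ?_⟩
  unfold quad
  have h1 : ∀ i i', star (y i) * (star Z * Z) i i' * y i' =
      ∑ p, star (Z p i * y i) * (Z p i' * y i') := by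
    intro i i'
    rw [Matrix.mul_apply, Finset.mul_sum, Finset.sum_mul]
    refine Finset.sum_congr rfl fun p _ => ?_
    rw [Matrix.star_apply, star_mul]
    noncomm_ring
  simp only [h1]
  rw [Finset.sum_congr rfl fun i _ => Finset.sum_comm, Finset.sum_comm]
  refine Finset.sum_congr rfl fun p _ => ?_
  rw [star_sum, Finset.sum_mul]
  refine Finset.sum_congr rfl fun i _ => ?_
  rw [Finset.mul_sum]

theorem quad_sub {k : ℕ} (M M' : Matrix (Fin k) (Fin k) A) (y : Fin k → A) :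
    quad (M - M') y = quad M y - quad M' y := by
  unfold quad
  rw [← Finset.sum_sub_distrib]
  refine Finset.sum_congr rfl fun i _ => ?_
  rw [← Finset.sum_sub_distrib]
  refine Finset.sum_congr rfl fun i' _ => ?_
  rw [Matrix.sub_apply, mul_sub, sub_mul]

theorem norm_quad_le {k : ℕ} (M : Matrix (Fin k) (Fin k) A) (y : Fin k → A) {δ : ℝ}
    (h : ∀ i i', ‖M i i'‖ ≤ δ) : ‖quad M y‖ ≤ (∑ i, ‖y i‖) ^ 2 * δ := by
  unfold quad
  have h1 : ∀ i i', ‖star (y i) * M i i' * y i'‖ ≤ ‖y i‖ * ‖y i'‖ * δ := by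
    intro i i'
    calc ‖star (y i) * M i i' * y i'‖ ≤ ‖star (y i)‖ * ‖M i i'‖ * ‖y i'‖ :=
          (norm_mul_le _ _).trans (mul_le_mul_of_nonneg_right (norm_mul_le _ _) (norm_nonneg _))
      _ ≤ ‖y i‖ * δ * ‖y i'‖ := by
          rw [norm_star]
          gcongr
          exact h i i'
      _ = _ := by ring
  calc ‖∑ i, ∑ i', star (y i) * M i i' * y i'‖ ≤ ∑ i, ∑ i', ‖y i‖ * ‖y i'‖ * δ := by
        refine (norm_sum_le _ _).trans (Finset.sum_le_sum fun i _ => ?_)
        exact (norm_sum_le _ _).trans (Finset.sum_le_sum fun i' _ => h1 i i')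
    _ = _ := by
        rw [pow_two, Finset.sum_mul_sum, Finset.sum_mul]
        refine Finset.sum_congr rfl fun i _ => ?_
        rw [Finset.sum_mul]

end Quad

/-! ### one colour -/

section Colour

variable {A : Type u} [CStarAlgebra A]

/-- the matrix `y_i y_j*` is positive -/
theorem isPos_gram {k : ℕ} (y : Fin k → A) :
    IsPos (Matrix.of fun i i' => y i * star (y i') : Matrix (Fin k) (Fin k) A) := by
  rcases k with _ | k
  · exact ⟨0, by ext i; exact Fin.elim0 i⟩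
  · refine ⟨Matrix.of fun p q => if p = 0 then star (y q) else 0, ?_⟩
    ext i i'
    rw [Matrix.mul_apply, Finset.sum_eq_single 0]
    · rw [Matrix.star_apply, Matrix.of_apply, Matrix.of_apply, Matrix.of_apply, if_pos rfl,
        if_pos rfl, star_star]
    · intro p _ hp
      rw [Matrix.star_apply, Matrix.of_apply, Matrix.of_apply, if_neg hp, if_neg hp, star_zero,
        zero_mul]
    · intro h
      exact absurd (Finset.mem_univ _) h

theorem colour {m k N : ℕ} {n : Fin m → ℕ}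
    (hblock : ∀ (Q : Matrix (Fin k) (Fin k) (∀ b, Matrix (Fin (n b)) (Fin (n b)) ℂ)), IsPos Q →
      ∀ (κ ε : ℝ), 0 < ε → (N : ℝ) * κ ≤ ε →
      IsPos (((κ : ℝ) : ℂ) • (1 : ∀ b, Matrix (Fin (n b)) (Fin (n b)) ℂ) - ∑ i, Q i i) →
      ∃ (T : Fin N → Fin k → ∀ b, Matrix (Fin (n b)) (Fin (n b)) ℂ)
        (Q' : Matrix (Fin k) (Fin k) (∀ b, Matrix (Fin (n b)) (Fin (n b)) ℂ)), IsPos (Q - Q') ∧
        IsPos (((ε : ℝ) : ℂ) • (1 : Matrix (Fin k) (Fin k)
          (∀ b, Matrix (Fin (n b)) (Fin (n b)) ℂ)) - (Q - Q')) ∧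
        ∀ j j' i i', star (T j i) * T j' i' = if j = j' then Q' i i' else 0)
    (φ : A →ₗ[ℂ] (∀ b, Matrix (Fin (n b)) (Fin (n b)) ℂ))
    (ψ : (∀ b, Matrix (Fin (n b)) (Fin (n b)) ℂ) →ₗ[ℂ] A)
    (hoz : ∀ (X : Finset (∀ b, Matrix (Fin (n b)) (Fin (n b)) ℂ)) (δ : ℝ), 0 < δ →
      ∃ g : A, IsSelfAdjoint g ∧ (∀ x, Commute g (ψ x)) ∧
        ∀ x ∈ X, ‖g * g * ψ 1 * ψ x - ψ x‖ ≤ δ)
    (hφ : IsCP φ) (hφ1 : IsPos (1 - φ 1)) (hψ : IsOrderZero ψ) (y : Fin k → A) {η' ε1 δ : ℝ}
    (hη' : 0 ≤ η') (hy : IsPos (((η' : ℝ) : ℂ) • (1 : A) - ∑ i, y i * star (y i)))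
    (hε1 : 0 < ε1) (hN : (N : ℝ) * η' ≤ ε1) (hδ : 0 < δ) :
    ∃ z : Fin N → A, ∀ j j', ‖star (z j) * z j' - (if j = j' then
      quad (Matrix.of fun i i' => ψ (φ (y i * star (y i')))) y else 0)‖ ≤
      (∑ i, ‖y i‖) ^ 2 * δ + ε1 * ‖∑ i, star (y i) * y i‖ := by
  classical
  let _ := CStarAlgebra.spectralOrder A
  let _ := CStarAlgebra.spectralOrderedRing A
  let F := ∀ b, Matrix (Fin (n b)) (Fin (n b)) ℂ
  let G : Matrix (Fin k) (Fin k) A := Matrix.of fun i i' => y i * star (y i')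
  let Q : Matrix (Fin k) (Fin k) F := G.map φ
  have hQ : IsPos Q := hφ k G (isPos_gram y)
  have hQs : ∑ i, Q i i = φ (∑ i, y i * star (y i)) := by
    rw [map_sum]
    rfl
  have hQ1 : IsPos (((η' : ℝ) : ℂ) • (1 : F) - ∑ i, Q i i) := by
    have h1 := isPos_map hφ hy
    rw [map_sub, map_smul, ← hQs] at h1
    have h2 := isPos_smul hφ1 hη'
    have h3 := isPos_add_pi h1 h2
    have h4 : ((η' : ℝ) : ℂ) • φ 1 - ∑ i, Q i i + ((η' : ℝ) : ℂ) • (1 - φ 1) =
        ((η' : ℝ) : ℂ) • (1 : F) - ∑ i, Q i i := by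
      rw [smul_sub]
      abel
    rw [h4] at h3
    exact h3
  obtain ⟨T, Q', hT1, hT2, hT3⟩ := hblock Q hQ η' ε1 hε1 hN hQ1
  obtain ⟨g, hg1, hg2, hg3⟩ := hoz
    (Finset.univ.image fun p : Fin k × Fin k => Q' p.1 p.2) δ hδ
  have hg3' : ∀ i i', ‖g * g * ψ 1 * ψ (Q' i i') - ψ (Q' i i')‖ ≤ δ := fun i i' =>
    hg3 _ (Finset.mem_image.2 ⟨(i, i'), Finset.mem_univ _, rfl⟩)
  -- the order of `ψ 1`
  have hψ1 : ψ 1 ≤ 1 := by
    obtain ⟨x, hx⟩ := isPos_map hψ.cp (x := (1 : F)) ⟨1, by rw [star_one, one_mul]⟩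
    have h0 : 0 ≤ ψ 1 := by
      rw [hx]
      exact star_mul_self_nonneg x
    exact (CStarAlgebra.norm_le_one_iff_of_nonneg _ h0).1 hψ.norm_one
  -- the error of the splitting
  set b : A := ∑ i, star (y i) * y i with hb
  have hE : ‖quad ((Q - Q').map ψ) y‖ ≤ ε1 * ‖b‖ := by
    obtain ⟨w, hw⟩ := isPos_quad (hψ.cp k _ hT1) y
    obtain ⟨w', hw'⟩ := isPos_quad (hψ.cp k _ hT2) y
    have h0 : 0 ≤ quad ((Q - Q').map ψ) y := by
      rw [hw]
      exact Finset.sum_nonneg fun p _ => star_mul_self_nonneg _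
    have h0' : 0 ≤ quad ((((ε1 : ℝ) : ℂ) • (1 : Matrix (Fin k) (Fin k) F) -
        (Q - Q')).map ψ) y := by
      rw [hw']
      exact Finset.sum_nonneg fun p _ => star_mul_self_nonneg _
    have h1 : (((ε1 : ℝ) : ℂ) • (1 : Matrix (Fin k) (Fin k) F) - (Q - Q')).map ψ =
        (((ε1 : ℝ) : ℂ) • (1 : Matrix (Fin k) (Fin k) F)).map ψ - (Q - Q').map ψ := by
      ext i i'
      simp only [Matrix.map_apply, Matrix.sub_apply, map_sub]
    have h2 : quad ((((ε1 : ℝ) : ℂ) • (1 : Matrix (Fin k) (Fin k) F)).map ψ) y =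
        ((ε1 : ℝ) : ℂ) • ∑ i, star (y i) * ψ 1 * y i := by
      unfold quad
      rw [Finset.smul_sum]
      refine Finset.sum_congr rfl fun i _ => ?_
      rw [Finset.sum_eq_single i]
      · rw [Matrix.map_apply, Matrix.smul_apply, Matrix.one_apply_eq, map_smul, mul_smul_comm,
          smul_mul_assoc]
      · intro i' _ hne
        rw [Matrix.map_apply, Matrix.smul_apply, Matrix.one_apply_ne (Ne.symm hne), smul_zero,
          map_zero, mul_zero, zero_mul]
      · intro h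
        exact absurd (Finset.mem_univ _) h
    rw [h1, quad_sub, h2, sub_nonneg] at h0'
    have h3 : ∑ i, star (y i) * ψ 1 * y i ≤ b := by
      rw [hb]
      refine Finset.sum_le_sum fun i _ => ?_
      have h4 := star_left_conjugate_le_conjugate hψ1 (y i)
      rw [mul_one] at h4
      exact h4
    have h5 : ((ε1 : ℝ) : ℂ) • ∑ i, star (y i) * ψ 1 * y i ≤ ((ε1 : ℝ) : ℂ) • b := by
      rw [← sub_nonneg, ← smul_sub]
      obtain ⟨x, hx⟩ := CStarAlgebra.nonneg_iff_eq_star_mul_self.1 (sub_nonneg.2 h3)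
      obtain ⟨x', hx'⟩ := isPos_smul (F := A) ⟨x, hx⟩ hε1.le
      rw [hx']
      exact star_mul_self_nonneg x'
    have h6 := CStarAlgebra.norm_le_norm_of_nonneg_of_le h0 (h0'.trans h5)
    rw [norm_smul, Complex.norm_real, Real.norm_eq_abs, abs_of_pos hε1] at h6
    exact h6
  refine ⟨fun j => ∑ i, g * ψ (T j i) * y i, fun j j' => ?_⟩
  -- the product
  have hprod : star (∑ i, g * ψ (T j i) * y i) * (∑ i, g * ψ (T j' i) * y i) =
      quad (Matrix.of fun i i' => g * g * ψ 1 * ψ (if j = j' then Q' i i' else 0)) y := by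
    unfold quad
    rw [star_sum, Finset.sum_mul]
    refine Finset.sum_congr rfl fun i _ => ?_
    rw [Finset.mul_sum]
    refine Finset.sum_congr rfl fun i' _ => ?_
    rw [Matrix.of_apply, ← hT3 j j' i i']
    have h1 := (hg2 (star (T j i))).eq
    have h2 := hψ.mul (star (T j i)) (T j' i')
    calc star (g * ψ (T j i) * y i) * (g * ψ (T j' i') * y i')
        = star (y i) * (ψ (star (T j i)) * g) * (g * ψ (T j' i')) * y i' := by
          rw [star_mul, star_mul, hg1.star_eq, map_star_of_isCP hψ.cp]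
          noncomm_ring
      _ = star (y i) * (g * ψ (star (T j i))) * (g * ψ (T j' i')) * y i' := by rw [h1]
      _ = star (y i) * (g * (ψ (star (T j i)) * g) * ψ (T j' i')) * y i' := by noncomm_ring
      _ = star (y i) * (g * (g * ψ (star (T j i))) * ψ (T j' i')) * y i' := by rw [h1]
      _ = star (y i) * (g * g * (ψ (star (T j i)) * ψ (T j' i'))) * y i' := by noncomm_ring
      _ = star (y i) * (g * g * (ψ 1 * ψ (star (T j i) * T j' i'))) * y i' := by rw [h2]
      _ = _ := by noncomm_ring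
  by_cases hj : j = j'
  · rw [if_pos hj]
    simp only [if_pos hj] at hprod
    simp only
    rw [hprod]
    have h1 : quad (Matrix.of fun i i' => g * g * ψ 1 * ψ (Q' i i')) y -
        quad (Matrix.of fun i i' => ψ (φ (y i * star (y i')))) y =
        quad (Matrix.of fun i i' => g * g * ψ 1 * ψ (Q' i i') - ψ (Q' i i')) y -
          quad ((Q - Q').map ψ) y := by
      rw [← quad_sub, ← quad_sub]
      congr 1
      ext i i'
      simp only [Matrix.sub_apply, Matrix.of_apply, Matrix.map_apply, map_sub]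
      change _ = _ - (ψ (φ (y i * star (y i'))) - ψ (Q' i i'))
      abel
    rw [h1]
    refine (norm_sub_le _ _).trans (add_le_add ?_ hE)
    exact norm_quad_le _ y fun i i' => hg3' i i'
  · rw [if_neg hj]
    simp only [if_neg hj, map_zero, mul_zero] at hprod
    simp only
    have h1 : quad (Matrix.of fun _ _ => (0 : A)) y = 0 := by
      unfold quad
      simp
    rw [hprod, h1, sub_zero, norm_zero]
    positivity

end Colour

end RankStep

open RankStep

theorem exists_rank_small_of {A : Type u} [CStarAlgebra A]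
    (hcp : ∀ a : A, IsPos a → ∀ (η η' : ℝ), 0 ≤ η → η < η' →
      (∀ τ : A →ₗ[ℂ] ℂ, IsTrace τ → (τ a).re ≤ η) → ∀ (ε : ℝ), 0 < ε →
      ∃ (k : ℕ) (y : Fin k → A), ‖a - ∑ i, star (y i) * y i‖ ≤ ε ∧
        IsPos (((η' : ℝ) : ℂ) • (1 : A) - ∑ i, y i * star (y i)))
    (hblock : ∀ {m k N : ℕ} {n : Fin m → ℕ}, 0 < N →
      ∀ (Q : Matrix (Fin k) (Fin k) (∀ b, Matrix (Fin (n b)) (Fin (n b)) ℂ)), IsPos Q →
      ∀ (κ ε : ℝ), 0 < ε → (N : ℝ) * κ ≤ ε →
      IsPos (((κ : ℝ) : ℂ) • (1 : ∀ b, Matrix (Fin (n b)) (Fin (n b)) ℂ) - ∑ i, Q i i) →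
      ∃ (T : Fin N → Fin k → ∀ b, Matrix (Fin (n b)) (Fin (n b)) ℂ)
        (Q' : Matrix (Fin k) (Fin k) (∀ b, Matrix (Fin (n b)) (Fin (n b)) ℂ)), IsPos (Q - Q') ∧
        IsPos (((ε : ℝ) : ℂ) • (1 : Matrix (Fin k) (Fin k)
          (∀ b, Matrix (Fin (n b)) (Fin (n b)) ℂ)) - (Q - Q')) ∧
        ∀ j j' i i', star (T j i) * T j' i' = if j = j' then Q' i i' else 0)
    (hoz : ∀ {m : ℕ} {n : Fin m → ℕ} (ψ : (∀ b, Matrix (Fin (n b)) (Fin (n b)) ℂ) →ₗ[ℂ] A),
      IsOrderZero ψ → ∀ (X : Finset (∀ b, Matrix (Fin (n b)) (Fin (n b)) ℂ)) (δ : ℝ), 0 < δ →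
      ∃ g : A, IsSelfAdjoint g ∧ (∀ x, Commute g (ψ x)) ∧
        ∀ x ∈ X, ‖g * g * ψ 1 * ψ x - ψ x‖ ≤ δ)
    {d : ℕ} (hd : HasNuclearDim A d) (N : ℕ)
    (hN : 0 < N) (ε : ℝ) (hε : 0 < ε) :
    ∃ η : ℝ, 0 < η ∧ ∀ a : A, IsPos a → ‖a‖ ≤ 1 →
      (∀ τ : A →ₗ[ℂ] ℂ, IsTrace τ → (τ a).re ≤ η) →
      ∃ z : Fin (d + 1) → Fin N → A, ∀ j j',
        ‖∑ c, star (z c j) * z c j' - (if j = j' then a * a else 0)‖ ≤ ε := by
  classical
  have hNr : (0 : ℝ) < N := by exact_mod_cast hN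
  have hdr : (0 : ℝ) < (d : ℝ) + 1 := by positivity
  set ε1 : ℝ := ε / (8 * ((d : ℝ) + 1)) with hε1def
  have hε1 : 0 < ε1 := by positivity
  refine ⟨ε1 / (2 * N), by positivity, fun a ha ha1 htr => ?_⟩
  set ε0 : ℝ := min 1 (ε / 12) with hε0def
  have hε0 : 0 < ε0 := by positivity
  have hηη : ε1 / (2 * N) < ε1 / N := by
    rw [div_lt_div_iff₀ (by positivity) hNr]
    nlinarith
  obtain ⟨k, y, hy1, hy2⟩ := hcp a ha (ε1 / (2 * N)) (ε1 / N) (by positivity) hηη htr ε0 hε0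
  set b : A := ∑ i, star (y i) * y i with hb
  set S : ℝ := ∑ i, ‖y i‖ with hS
  have hS0 : 0 ≤ S := Finset.sum_nonneg fun i _ => norm_nonneg _
  set δ' : ℝ := ε / (8 * (S ^ 2 + 1)) with hδ'def
  have hδ' : 0 < δ' := by positivity
  obtain ⟨m, n, φ, ψ, hφ, hφ1, hψ, happ⟩ := hd
    (Finset.univ.image fun p : Fin k × Fin k => y p.1 * star (y p.2)) δ' hδ'
  have happ' : ∀ i i', ‖∑ c, ψ c (φ c (y i * star (y i'))) - y i * star (y i')‖ ≤ δ' :=
    fun i i' => (happ _ (Finset.mem_image.2 ⟨(i, i'), Finset.mem_univ _, rfl⟩)).le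
  set δ : ℝ := ε / (8 * ((d : ℝ) + 1) * (S ^ 2 + 1)) with hδdef
  have hδ : 0 < δ := by positivity
  have hcol : ∀ c : Fin (d + 1), ∃ z : Fin N → A, ∀ j j', ‖star (z j) * z j' - (if j = j' then
      quad (Matrix.of fun i i' => ψ c (φ c (y i * star (y i')))) y else 0)‖ ≤
      S ^ 2 * δ + ε1 * ‖b‖ := fun c =>
    colour (fun Q hQ κ ε h1 h2 h3 => hblock hN Q hQ κ ε h1 h2 h3) (φ c) (ψ c)
      (hoz (ψ c) (hψ c)) (hφ c) (hφ1 c) (hψ c) y (by positivity) hy2 hε1
      (by rw [mul_div_cancel₀ _ hNr.ne']) hδ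
  choose z hz using hcol
  refine ⟨z, fun j j' => ?_⟩
  have hbn : ‖b‖ ≤ 2 := by
    have h1 : b = a - (a - b) := by abel
    rw [h1]
    refine (norm_sub_le _ _).trans ?_
    have h2 : ε0 ≤ 1 := min_le_left _ _
    linarith
  -- the sum over the colours
  have hsum : ‖∑ c, star (z c j) * z c j' - (if j = j' then
      ∑ c, quad (Matrix.of fun i i' => ψ c (φ c (y i * star (y i')))) y else 0)‖ ≤
      ε / 8 + ε / 4 := by
    have h1 : ∑ c, star (z c j) * z c j' - (if j = j' then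
        ∑ c, quad (Matrix.of fun i i' => ψ c (φ c (y i * star (y i')))) y else 0) =
        ∑ c, (star (z c j) * z c j' - (if j = j' then
          quad (Matrix.of fun i i' => ψ c (φ c (y i * star (y i')))) y else 0)) := by
      rw [Finset.sum_sub_distrib]
      split_ifs
      · rfl
      · rw [Finset.sum_const_zero]
    rw [h1]
    refine (norm_sum_le _ _).trans ((Finset.sum_le_sum fun c _ => hz c j j').trans ?_)
    rw [Finset.sum_const, Finset.card_univ, Fintype.card_fin, nsmul_eq_mul, mul_add]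
    refine add_le_add ?_ ?_
    · push_cast
      have h2 : ((d : ℝ) + 1) * (S ^ 2 * δ) = ε / 8 * (S ^ 2 / (S ^ 2 + 1)) := by
        rw [hδdef]
        field_simp
      rw [h2]
      have h3 : S ^ 2 / (S ^ 2 + 1) ≤ 1 := by
        rw [div_le_one (by positivity)]
        linarith
      nlinarith
    · push_cast
      have h2 : ((d : ℝ) + 1) * (ε1 * ‖b‖) = ε / 8 * ‖b‖ := by
        rw [hε1def]
        field_simp
      rw [h2]
      nlinarith
  by_cases hj : j = j'
  · rw [if_pos hj] at hsum ⊢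
    -- the approximation
    have h2 : ‖(∑ c, quad (Matrix.of fun i i' => ψ c (φ c (y i * star (y i')))) y) - b * b‖ ≤
        ε / 8 := by
      have h3 : (∑ c, quad (Matrix.of fun i i' => ψ c (φ c (y i * star (y i')))) y) - b * b =
          quad (Matrix.of fun i i' => ∑ c, ψ c (φ c (y i * star (y i'))) -
            y i * star (y i')) y := by
        have h4 : (∑ c, quad (Matrix.of fun i i' => ψ c (φ c (y i * star (y i')))) y) =
            quad (Matrix.of fun i i' => ∑ c, ψ c (φ c (y i * star (y i')))) y := by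
          unfold quad
          rw [Finset.sum_comm]
          refine Finset.sum_congr rfl fun i _ => ?_
          rw [Finset.sum_comm]
          refine Finset.sum_congr rfl fun i' _ => ?_
          simp only [Matrix.of_apply]
          rw [Finset.mul_sum, Finset.sum_mul]
        have h5 : b * b = quad (Matrix.of fun i i' => y i * star (y i')) y := by
          unfold quad
          rw [hb, Finset.sum_mul_sum]
          refine Finset.sum_congr rfl fun i _ => Finset.sum_congr rfl fun i' _ => ?_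
          rw [Matrix.of_apply]
          noncomm_ring
        rw [h4, h5, ← quad_sub]
        rfl
      rw [h3]
      refine (norm_quad_le _ y fun i i' => happ' i i').trans ?_
      have h4 : S ^ 2 * δ' = ε / 8 * (S ^ 2 / (S ^ 2 + 1)) := by
        rw [hδ'def]
        field_simp
      change S ^ 2 * δ' ≤ _
      rw [h4]
      have h5 : S ^ 2 / (S ^ 2 + 1) ≤ 1 := by
        rw [div_le_one (by positivity)]
        linarith
      nlinarith
    have h3 : ‖b * b - a * a‖ ≤ ε / 4 := by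
      have h4 : b * b - a * a = -(b * (a - b)) - (a - b) * a := by noncomm_ring
      rw [h4]
      refine (norm_sub_le _ _).trans ?_
      rw [norm_neg]
      have h5 := norm_mul_le b (a - b)
      have h6 := norm_mul_le (a - b) a
      have h7 : ε0 ≤ ε / 12 := min_le_right _ _
      have h8 := norm_nonneg (a - b)
      have h9 := norm_nonneg a
      have h10 := norm_nonneg b
      nlinarith
    have h4 : ∑ c, star (z c j) * z c j' - a * a =
        (∑ c, star (z c j) * z c j' -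
          ∑ c, quad (Matrix.of fun i i' => ψ c (φ c (y i * star (y i')))) y) +
        ((∑ c, quad (Matrix.of fun i i' => ψ c (φ c (y i * star (y i')))) y) - b * b) +
        (b * b - a * a) := by abel
    rw [h4]
    refine (norm_add_le _ _).trans ?_
    have h5 := norm_add_le (∑ c, star (z c j) * z c j' -
          ∑ c, quad (Matrix.of fun i i' => ψ c (φ c (y i * star (y i')))) y)
        ((∑ c, quad (Matrix.of fun i i' => ψ c (φ c (y i * star (y i')))) y) - b * b)
    linarith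
  · rw [if_neg hj] at hsum ⊢
    linarith

end Vale.Agent.P095
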