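import Vale.Agent.P095.NucDim
import Vale.Agent.P095.NucDimExc
import Vale.Agent.P095.RankStepOf

/-!
# P095: commutator bounds from traces (Cuntz-Pedersen; row F1a of target T6)
-/

open Filter Topology TopologicalSpace
open scoped BoundedContinuousFunction ComplexOrder

namespace Vale.Agent.P095

open Vale.Agent.P101

universe u v w

namespace CuntzPed

variable {A : Type u} [CStarAlgebra A]

/-- elements which are, up to a commutator, strictly negative -/
def negSet (A : Type u) [CStarAlgebra A] : Set A :=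
  {x | ∃ (k : ℕ) (y : Fin k → A) (e : ℝ), 0 < e ∧
    IsPos (∑ i, star (y i) * y i - ∑ i, y i * star (y i) - (x + star x) -
      ((e : ℝ) : ℂ) • (1 : A))}

theorem add_mem {x x' : A} (hx : x ∈ negSet A) (hx' : x' ∈ negSet A) : x + x' ∈ negSet A := by
  obtain ⟨k, y, e, he, h⟩ := hx
  obtain ⟨k', y', e', he', h'⟩ := hx'
  refine ⟨k + k', Fin.append y y', e + e', by positivity, ?_⟩
  have h1 := NucDimExc.isPos_add h h'
  have h2 : (∑ i, star (y i) * y i - ∑ i, y i * star (y i) - (x + star x) -
      ((e : ℝ) : ℂ) • (1 : A)) + (∑ i, star (y' i) * y' i - ∑ i, y' i * star (y' i) -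
      (x' + star x') - ((e' : ℝ) : ℂ) • (1 : A)) =
      ∑ i, star (Fin.append y y' i) * Fin.append y y' i -
        ∑ i, Fin.append y y' i * star (Fin.append y y' i) - (x + x' + star (x + x')) -
        ((e + e' : ℝ) : ℂ) • (1 : A) := by
    rw [Fin.sum_univ_add, Fin.sum_univ_add, star_add, Complex.ofReal_add, add_smul]
    simp only [Fin.append_left, Fin.append_right]
    abel
  rw [← h2]
  exact h1

theorem smul_mem {c : ℝ} (hc : 0 < c) {x : A} (hx : x ∈ negSet A) : c • x ∈ negSet A := by
  obtain ⟨k, y, e, he, h⟩ := hx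
  refine ⟨k, fun i => ((√c : ℝ) : ℂ) • y i, c * e, by positivity, ?_⟩
  have h1 := RankStep.isPos_smul h hc.le
  have h3 : ∀ z : A, star (((√c : ℝ) : ℂ) • z) * (((√c : ℝ) : ℂ) • z) =
      ((c : ℝ) : ℂ) • (star z * z) := by
    intro z
    rw [star_smul, Complex.star_def, Complex.conj_ofReal, smul_mul_smul_comm,
      ← Complex.ofReal_mul, Real.mul_self_sqrt hc.le]
  have h3' : ∀ z : A, (((√c : ℝ) : ℂ) • z) * star (((√c : ℝ) : ℂ) • z) =
      ((c : ℝ) : ℂ) • (z * star z) := by
    intro z
    rw [star_smul, Complex.star_def, Complex.conj_ofReal, smul_mul_smul_comm,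
      ← Complex.ofReal_mul, Real.mul_self_sqrt hc.le]
  have h4 : c • x = ((c : ℝ) : ℂ) • x := (Complex.coe_smul c x).symm
  have h2 : ((c : ℝ) : ℂ) • (∑ i, star (y i) * y i - ∑ i, y i * star (y i) - (x + star x) -
      ((e : ℝ) : ℂ) • (1 : A)) =
      ∑ i, star (((√c : ℝ) : ℂ) • y i) * (((√c : ℝ) : ℂ) • y i) -
        ∑ i, (((√c : ℝ) : ℂ) • y i) * star (((√c : ℝ) : ℂ) • y i) -
        (c • x + star (c • x)) - ((c * e : ℝ) : ℂ) • (1 : A) := by
    simp only [h3, h3']
    rw [h4, star_smul, Complex.star_def, Complex.conj_ofReal, ← Finset.smul_sum,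
      ← Finset.smul_sum, Complex.ofReal_mul, mul_smul]
    simp only [smul_sub, smul_add]
  rw [← h2]
  exact h1

theorem isPos_of_sub {x : A} (hx : IsSelfAdjoint x) {c : ℝ} (hc : ‖x‖ ≤ c) :
    IsPos (((c : ℝ) : ℂ) • (1 : A) - x) := by
  let _ := CStarAlgebra.spectralOrder A
  let _ := CStarAlgebra.spectralOrderedRing A
  refine CStarAlgebra.nonneg_iff_eq_star_mul_self.1 ?_
  rw [sub_nonneg]
  have h1 : x ≤ algebraMap ℝ A ‖x‖ := hx.le_algebraMap_norm_self
  have h2 : algebraMap ℝ A ‖x‖ ≤ algebraMap ℝ A c := algebraMap_mono A hc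
  have h3 : ((c : ℝ) : ℂ) • (1 : A) = algebraMap ℝ A c := by
    rw [Algebra.algebraMap_eq_smul_one, Complex.coe_smul]
  rw [h3]
  exact h1.trans h2

theorem isOpen_negSet : IsOpen (negSet A) := by
  rw [Metric.isOpen_iff]
  rintro x ⟨k, y, e, he, h⟩
  refine ⟨e / 4, by positivity, fun x' hx' => ?_⟩
  rw [mem_ball_iff_norm] at hx'
  refine ⟨k, y, e / 2, by positivity, ?_⟩
  have h1 : IsPos (((e / 2 : ℝ) : ℂ) • (1 : A) - ((x' - x) + star (x' - x))) := by
    refine isPos_of_sub ?_ ?_
    · rw [isSelfAdjoint_iff, star_add, star_star, add_comm]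
    · refine (norm_add_le _ _).trans ?_
      rw [norm_star]
      linarith
  have h2 := NucDimExc.isPos_add h h1
  have h3 : (∑ i, star (y i) * y i - ∑ i, y i * star (y i) - (x + star x) -
      ((e : ℝ) : ℂ) • (1 : A)) + (((e / 2 : ℝ) : ℂ) • (1 : A) - ((x' - x) + star (x' - x))) =
      ∑ i, star (y i) * y i - ∑ i, y i * star (y i) - (x' + star x') -
        ((e / 2 : ℝ) : ℂ) • (1 : A) := by
    have h4 : ((e : ℝ) : ℂ) = ((e / 2 : ℝ) : ℂ) + ((e / 2 : ℝ) : ℂ) := by
      rw [← Complex.ofReal_add, add_halves]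
    rw [h4, add_smul, star_sub]
    abel
  rw [← h3]
  exact h2

theorem convex_negSet : Convex ℝ (negSet A) := by
  intro x hx x' hx' s t hs ht hst
  rcases hs.eq_or_lt with h | h
  · rw [← h, zero_smul, zero_add]
    have : t = 1 := by linarith
    rw [this, one_smul]
    exact hx'
  · rcases ht.eq_or_lt with h' | h'
    · rw [← h', zero_smul, add_zero]
      have : s = 1 := by linarith
      rw [this, one_smul]
      exact hx
    · exact add_mem (smul_mem h hx) (smul_mem h' hx')

theorem sub_mem {k : ℕ} (y : Fin k → A) (x : A) (hx : x + star x =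
    ∑ i, star (y i) * y i - ∑ i, y i * star (y i)) {e : ℝ} (he : 0 < e) :
    x - ((e : ℝ) : ℂ) • (1 : A) ∈ negSet A := by
  refine ⟨k, y, 2 * e, by positivity, 0, ?_⟩
  rw [star_sub, star_smul, star_one, Complex.star_def, Complex.conj_ofReal, star_zero, zero_mul,
    ← hx]
  have h4 : ((2 * e : ℝ) : ℂ) = ((e : ℝ) : ℂ) + ((e : ℝ) : ℂ) := by
    rw [← Complex.ofReal_add, two_mul]
  rw [h4, add_smul]
  abel

theorem neg_mem (z : A) {e : ℝ} (he : 0 < e) :
    -(star z * z) - ((e : ℝ) : ℂ) • (1 : A) ∈ negSet A := by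
  refine ⟨0, Fin.elim0, 2 * e, by positivity, ((√2 : ℝ) : ℂ) • z, ?_⟩
  rw [star_sub, star_smul, star_one, Complex.star_def, Complex.conj_ofReal, star_neg, star_mul,
    star_star, Finset.univ_eq_empty, Finset.sum_empty, Finset.sum_empty, star_smul,
    Complex.star_def, Complex.conj_ofReal, smul_mul_smul_comm, ← Complex.ofReal_mul,
    Real.mul_self_sqrt zero_le_two]
  have h4 : ((2 * e : ℝ) : ℂ) = ((e : ℝ) : ℂ) + ((e : ℝ) : ℂ) := by
    rw [← Complex.ofReal_add, two_mul]
  have h5 : ((2 : ℝ) : ℂ) = 1 + 1 := by norm_num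
  rw [h4, add_smul, h5, add_smul, one_smul]
  abel

theorem sep {s : Set A} (h1 : Convex ℝ s) (h2 : IsOpen s) {x0 : A} (hx : x0 ∉ s) :
    ∃ f : StrongDual ℝ A, ∀ x ∈ s, f x < f x0 := geometric_hahn_banach_open_point h1 h2 hx

theorem sep2 {s : Set A} (h1 : Convex ℝ s) (h2 : IsOpen s) {x0 : A} (hx : x0 ∉ s) :
    ∃ f : A →ₗ[ℂ] ℂ, ∀ x ∈ s, (f x).re < (f x0).re := by
  obtain ⟨f, hf⟩ := sep h1 h2 hx
  let g : A →ₗ[ℂ] ℂ :=
    { toFun := fun x => (f x : ℂ) - Complex.I * (f (Complex.I • x) : ℂ)
      map_add' := by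
        intro x y
        rw [smul_add, map_add, map_add, Complex.ofReal_add, Complex.ofReal_add]
        ring
      map_smul' := by
        intro c x
        have h5 : ∀ (c : ℂ) (y : A), f (c • y) = c.re * f y + c.im * f (Complex.I • y) := by
          intro c y
          have h6 : c • y = c.re • y + c.im • (Complex.I • y) := by
            conv_lhs => rw [← Complex.re_add_im c]
            rw [add_smul, mul_smul, Complex.coe_smul, Complex.coe_smul]
          rw [h6, map_add, map_smul, map_smul, smul_eq_mul, smul_eq_mul]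
        rw [smul_smul, h5 c x, h5 (Complex.I * c) x, RingHom.id_apply, smul_eq_mul]
        simp only [Complex.mul_re, Complex.mul_im, Complex.I_re, Complex.I_im]
        apply Complex.ext <;> simp }
  have hg : ∀ x, (g x).re = f x := by
    intro x
    change ((f x : ℂ) - Complex.I * (f (Complex.I • x) : ℂ)).re = f x
    simp
  exact ⟨g, fun x hx => by rw [hg, hg]; exact hf x hx⟩

/-- The separating functional is a multiple of a trace. -/
theorem trace_of_sep (f : A →ₗ[ℂ] ℂ) (x0 : A) (hx0s : star x0 = x0)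
    (hf' : ∀ x ∈ negSet A, (f x).re < (f x0).re) :
    0 ≤ (f x0).re ∧ 0 < (f 1).re ∧
      IsTrace (((((f 1).re)⁻¹ : ℝ) : ℂ) • f) := by
  have hre : ∀ (c : ℝ) (x : A), (f (((c : ℝ) : ℂ) • x)).re = c * (f x).re := by
    intro c x
    rw [map_smul, smul_eq_mul, Complex.re_ofReal_mul]
  -- `f` is nonpositive on the cone
  have hneg : ∀ x ∈ negSet A, (f x).re ≤ 0 := by
    intro x hx
    by_contra hcon
    push Not at hcon
    obtain ⟨c, hc⟩ := exists_nat_gt ((f x0).re / (f x).re)
    have hc1 : (0 : ℝ) < (c : ℝ) + 1 := by positivity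
    have h1 := hf' _ (smul_mem hc1 hx)
    rw [← Complex.coe_smul, hre] at h1
    rw [div_lt_iff₀ hcon] at hc
    nlinarith
  have hlim : ∀ {p q : ℝ}, (∀ e : ℝ, 0 < e → p - e * q ≤ 0) → p ≤ 0 := by
    intro p q hpq
    by_contra hcon
    push Not at hcon
    have h1 := hpq (p / (2 * (|q| + 1))) (by positivity)
    have h2 : p / (2 * (|q| + 1)) * q ≤ p / 2 := by
      have h3 : q ≤ |q| + 1 := (le_abs_self q).trans (by linarith)
      calc p / (2 * (|q| + 1)) * q ≤ p / (2 * (|q| + 1)) * (|q| + 1) :=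
            mul_le_mul_of_nonneg_left h3 (by positivity)
        _ = p / 2 := by field_simp
    linarith
  have hcone : ∀ (k : ℕ) (y : Fin k → A) (x : A), x + star x =
      ∑ i, star (y i) * y i - ∑ i, y i * star (y i) → (f x).re ≤ 0 := by
    intro k y x hx
    refine hlim (q := (f 1).re) fun e he => ?_
    have h1 := hneg _ (sub_mem y x hx he)
    rw [map_sub, Complex.sub_re, hre] at h1
    exact h1
  have hpos : ∀ z : A, 0 ≤ (f (star z * z)).re := by
    intro z
    have h1 : -(f (star z * z)).re ≤ 0 := by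
      refine hlim (q := (f 1).re) fun e he => ?_
      have h1 := hneg _ (neg_mem z he)
      rw [map_sub, map_neg, Complex.sub_re, Complex.neg_re, hre] at h1
      exact h1
    linarith
  have hskew : ∀ x : A, x + star x = 0 → (f x).re = 0 := by
    intro x hx
    have h1 : (f x).re ≤ 0 := hcone 0 Fin.elim0 x (by simpa using hx)
    have h2 : (f (-x)).re ≤ 0 := hcone 0 Fin.elim0 (-x) (by
      rw [star_neg, ← neg_add, hx]
      simp)
    rw [map_neg, Complex.neg_re] at h2
    linarith
  have him : ∀ x : A, star x = x → (f x).im = 0 := by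
    intro x hx
    have h1 := hskew (Complex.I • x) (by
      rw [star_smul, hx, Complex.star_def, Complex.conj_I, neg_smul, add_neg_cancel])
    rw [map_smul, smul_eq_mul, Complex.mul_re, Complex.I_re, Complex.I_im] at h1
    linarith
  have htr1 : ∀ y : A, (f (star y * y)).re ≤ (f (y * star y)).re := by
    intro y
    have h1 := hcone 2 (fun _ => y) (star y * y - y * star y) (by
      rw [star_sub, star_mul, star_star, star_mul, star_star, Fin.sum_univ_two,
        Fin.sum_univ_two]
      abel)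
    rw [map_sub, Complex.sub_re] at h1
    linarith
  have htr2 : ∀ y : A, f (star y * y) = f (y * star y) := by
    intro y
    refine Complex.ext (le_antisymm (htr1 y) ?_) ?_
    · have h1 := htr1 (star y)
      rw [star_star] at h1
      exact h1
    · rw [him _ (by rw [star_mul, star_star]), him _ (by rw [star_mul, star_star])]
  -- polarisation
  have htr3 : ∀ x y : A, f (star x * y) = f (y * star x) := by
    intro x y
    have h1 := htr2 (x + y)
    have h2 := htr2 (x + Complex.I • y)
    have hx := htr2 x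
    have hy := htr2 y
    have e1 : star (x + y) * (x + y) = star x * x + star y * y + star x * y + star y * x := by
      rw [star_add]
      noncomm_ring
    have e2 : (x + y) * star (x + y) = x * star x + y * star y + x * star y + y * star x := by
      rw [star_add]
      noncomm_ring
    have e3 : star (x + Complex.I • y) * (x + Complex.I • y) =
        star x * x + star y * y + Complex.I • (star x * y) - Complex.I • (star y * x) := by
      rw [star_add, star_smul, Complex.star_def, Complex.conj_I, add_mul, mul_add, mul_add,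
        mul_smul_comm, smul_mul_assoc, smul_mul_smul_comm, neg_mul, Complex.I_mul_I, neg_neg,
        one_smul, neg_smul]
      abel
    have e4 : (x + Complex.I • y) * star (x + Complex.I • y) =
        x * star x + y * star y - Complex.I • (x * star y) + Complex.I • (y * star x) := by
      rw [star_add, star_smul, Complex.star_def, Complex.conj_I, add_mul, mul_add, mul_add,
        mul_smul_comm, smul_mul_assoc, smul_mul_smul_comm, mul_neg, Complex.I_mul_I, neg_neg,
        one_smul, neg_smul]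
      abel
    rw [e1, e2] at h1
    rw [e3, e4] at h2
    simp only [map_add, map_sub, map_smul, smul_eq_mul] at h1 h2
    have h3 : Complex.I * (f (star x * y) - f (star y * x)) =
        Complex.I * (f (y * star x) - f (x * star y)) := by
      linear_combination h2 - hx - hy
    have h4 := mul_left_cancel₀ Complex.I_ne_zero h3
    linear_combination (1 / 2) * (h1 - hx - hy) + (1 / 2) * h4
  have htrace : ∀ x y : A, f (x * y) = f (y * x) := by
    intro x y
    have h1 := htr3 (star x) y
    rw [star_star] at h1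
    exact h1
  -- normalisation
  have hx0f : 0 ≤ (f x0).re := by
    by_contra hcon
    push Not at hcon
    have h1 : -(star (0 : A) * 0) - ((1 : ℝ) : ℂ) • (1 : A) ∈ negSet A := neg_mem 0 one_pos
    set z := -(star (0 : A) * 0) - ((1 : ℝ) : ℂ) • (1 : A) with hz
    obtain ⟨c, hc⟩ := exists_nat_gt ((-(f z).re) / (-(f x0).re))
    have hc1 : (0 : ℝ) < (c : ℝ) + 1 := by positivity
    have h2 := hf' _ (smul_mem (inv_pos.2 hc1) h1)
    rw [← Complex.coe_smul, hre] at h2
    rw [div_lt_iff₀ (by linarith)] at hc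
    have h3 : ((c : ℝ) + 1)⁻¹ * (f z).re * ((c : ℝ) + 1) < (f x0).re * ((c : ℝ) + 1) :=
      mul_lt_mul_of_pos_right h2 hc1
    rw [mul_comm (((c : ℝ) + 1)⁻¹), mul_assoc, inv_mul_cancel₀ hc1.ne', mul_one] at h3
    nlinarith
  have hf1 : 0 < (f 1).re := by
    have h1 := hpos 1
    rw [star_one, one_mul] at h1
    rcases h1.eq_or_lt with h2 | h2
    · exfalso
      have h3 := hf' _ (neg_mem (0 : A) one_pos)
      rw [mul_zero, neg_zero, zero_sub, map_neg, Complex.neg_re, hre, ← h2, mul_zero,
        neg_zero] at h3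
      obtain ⟨w, hw⟩ := isPos_of_sub (x := x0) hx0s (le_refl ‖x0‖)
      have h4 := hpos w
      rw [← hw, map_sub, Complex.sub_re, hre, ← h2, mul_zero] at h4
      linarith
    · exact h2
  have hf1' : f 1 = (((f 1).re : ℝ) : ℂ) := by
    refine Complex.ext rfl ?_
    rw [him 1 (star_one A), Complex.ofReal_im]
  refine ⟨hx0f, hf1, ?_, ?_, ?_⟩
  · rw [LinearMap.smul_apply, smul_eq_mul, hf1', Complex.ofReal_re, ← Complex.ofReal_mul,
      inv_mul_cancel₀ hf1.ne', Complex.ofReal_one]
  · intro x
    rw [LinearMap.smul_apply, smul_eq_mul]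
    have h1 : f (star x * x) = (((f (star x * x)).re : ℝ) : ℂ) := by
      refine Complex.ext rfl ?_
      rw [him _ (by rw [star_mul, star_star]), Complex.ofReal_im]
    rw [h1, ← Complex.ofReal_mul]
    exact Complex.zero_le_real.2 (mul_nonneg (inv_nonneg.2 hf1.le) (hpos x))
  · intro x y
    rw [LinearMap.smul_apply, LinearMap.smul_apply, htrace]

end CuntzPed

open CuntzPed

theorem exists_commutator_bound {A : Type u} [CStarAlgebra A] (a : A) (ha : IsSelfAdjoint a)
    (η η' : ℝ) (hη : η < η') (h : ∀ τ : A →ₗ[ℂ] ℂ, IsTrace τ → (τ a).re ≤ η) :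
    ∃ (k : ℕ) (y : Fin k → A), IsPos (((η' : ℝ) : ℂ) • (1 : A) + ∑ i, star (y i) * y i -
      ∑ i, y i * star (y i) - a) := by
  set x0 : A := a - ((η' : ℝ) : ℂ) • (1 : A) with hx0
  have hx0s : star x0 = x0 := by
    rw [hx0, star_sub, ha.star_eq, star_smul, star_one, Complex.star_def, Complex.conj_ofReal]
  by_cases hmem : x0 ∈ negSet A
  · obtain ⟨k, y, e, he, hp⟩ := hmem
    have h1 : IsPos (((e : ℝ) : ℂ) • (1 : A)) :=
      RankStep.isPos_smul ⟨1, by rw [star_one, one_mul]⟩ he.le
    have h2 := RankStep.isPos_smul (NucDimExc.isPos_add hp h1) (c := 1 / 2) (by norm_num)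
    refine ⟨k, fun i => ((√(1 / 2) : ℝ) : ℂ) • y i, ?_⟩
    have h3 : ∀ z : A, star (((√(1 / 2) : ℝ) : ℂ) • z) * (((√(1 / 2) : ℝ) : ℂ) • z) =
        ((1 / 2 : ℝ) : ℂ) • (star z * z) := by
      intro z
      rw [star_smul, Complex.star_def, Complex.conj_ofReal, smul_mul_smul_comm,
        ← Complex.ofReal_mul, Real.mul_self_sqrt (by norm_num)]
    have h3' : ∀ z : A, (((√(1 / 2) : ℝ) : ℂ) • z) * star (((√(1 / 2) : ℝ) : ℂ) • z) =
        ((1 / 2 : ℝ) : ℂ) • (z * star z) := by
      intro z
      rw [star_smul, Complex.star_def, Complex.conj_ofReal, smul_mul_smul_comm,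
        ← Complex.ofReal_mul, Real.mul_self_sqrt (by norm_num)]
    have h4 : ((1 / 2 : ℝ) : ℂ) • (x0 + x0) = x0 := by
      rw [← two_smul ℂ x0, smul_smul]
      norm_num
    have h5 : ((1 / 2 : ℝ) : ℂ) • (∑ i, star (y i) * y i - ∑ i, y i * star (y i) -
        (x0 + star x0) - ((e : ℝ) : ℂ) • (1 : A) + ((e : ℝ) : ℂ) • (1 : A)) =
        ((η' : ℝ) : ℂ) • (1 : A) + ∑ i, star (((√(1 / 2) : ℝ) : ℂ) • y i) *
          (((√(1 / 2) : ℝ) : ℂ) • y i) -
          ∑ i, (((√(1 / 2) : ℝ) : ℂ) • y i) * star (((√(1 / 2) : ℝ) : ℂ) • y i) - a := by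
      simp only [h3, h3']
      rw [hx0s, sub_add_cancel, smul_sub, smul_sub, h4, Finset.smul_sum, Finset.smul_sum, hx0]
      abel
    rw [← h5]
    exact h2
  · exfalso
    obtain ⟨f, hf'⟩ := sep2 convex_negSet isOpen_negSet hmem
    obtain ⟨hx0f, hf1, hτtr⟩ := trace_of_sep f x0 hx0s hf'
    have h1 := h _ hτtr
    rw [LinearMap.smul_apply, smul_eq_mul, Complex.re_ofReal_mul] at h1
    have h2 : (f x0).re = (f a).re - η' * (f 1).re := by
      rw [hx0, map_sub, Complex.sub_re, map_smul, smul_eq_mul, Complex.re_ofReal_mul]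
    have h3 : (f a).re ≤ η * (f 1).re := by
      rw [inv_mul_le_iff₀ hf1] at h1
      linarith
    nlinarith

end Vale.Agent.P095
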