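import Vale.Agent.P095.CuntzPed
import Vale.Agent.P095.CPedSub

/-!
# P095: positive elements of small trace are Cuntz-Pedersen below small multiples of the unit
(row F1b of target T6)
-/

open Filter Topology TopologicalSpace
open scoped BoundedContinuousFunction ComplexOrder

namespace Vale.Agent.P095

open Vale.Agent.P101

universe u v w

theorem exists_cp_decomp {A : Type u} [CStarAlgebra A] (a : A) (ha : IsPos a)
    (η η' : ℝ) (h0 : 0 ≤ η) (hη : η < η') (h : ∀ τ : A →ₗ[ℂ] ℂ, IsTrace τ → (τ a).re ≤ η)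
    (ε : ℝ) (hε : 0 < ε) :
    ∃ (k : ℕ) (y : Fin k → A), ‖a - ∑ i, star (y i) * y i‖ ≤ ε ∧
      IsPos (((η' : ℝ) : ℂ) • (1 : A) - ∑ i, y i * star (y i)) :=
  exists_cp_decomp_of (fun a ha η η' h1 h2 => exists_commutator_bound a ha η η' h1 h2)
    a ha η η' h0 hη h ε hε

end Vale.Agent.P095
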