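import Vale.Agent.P095.DiffusionOf
import Vale.Agent.P095.BlockMain

/-!
# P095: almost fixed signs (row B6)
-/

open Filter Topology TopologicalSpace
open scoped BoundedContinuousFunction ComplexOrder

namespace Vale.Agent.P095

open Vale.Agent.P101

universe u v w

section Seeds

variable {G : Type*} [Group G] {B : Type u} [CStarAlgebra B] {β : G →* (B ≃⋆ₐ[ℂ] B)}
  {T : Set (B →ₗ[ℂ] ℂ)} {J : Set B}

theorem blockMain_holds : BlockMain.{u} := fun ι _ _ κ hκ => block_main.{u} ι κ hκ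

theorem exists_sign_approx [Countable G] (sys : TracialSystem β T J) (hG : ReiterAmenable G)
    (hseed : HasSeed J) (S : StarSubalgebra ℂ B) (hS : IsClosed (S : Set B))
    (hsep : IsSeparable (S : Set B)) (K : Finset G) (ε : ℝ) (hε : 0 < ε) :
    ∃ s : B, IsSelfAdjoint s ∧ ‖s‖ ≤ 1 ∧ (∀ x ∈ S, Commute s x) ∧ ∀ τ ∈ T,
      (τ (1 - s * s)).re ≤ ε ∧ (∀ k ∈ K, sq τ (β k s - s) ≤ ε) ∧ ∀ b ∈ S, τ (b * s) = 0 :=
  exists_sign_approx_of blockMain_holds sys hG hseed S hS hsep K ε hε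

/-- The averaging trick: fixed up to `ε` in norm. -/
theorem exists_sign_approx' [Countable G] (sys : TracialSystem β T J) (hG : ReiterAmenable G)
    (hseed : HasSeed J) (S : StarSubalgebra ℂ B) (hS : IsClosed (S : Set B))
    (hsep : IsSeparable (S : Set B)) (K : Finset G) (ε : ℝ) (hε : 0 < ε) :
    ∃ s : B, IsSelfAdjoint s ∧ ‖s‖ ≤ 1 ∧ (∀ x ∈ S, Commute s x) ∧ (∀ k ∈ K, ‖β k s - s‖ ≤ ε) ∧
      ∀ τ ∈ T, sq τ (1 - s * s) ≤ ε ∧ ∀ b ∈ S, τ (b * s) = 0 :=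
  exists_sign_approx_of' blockMain_holds sys hG hseed S hS hsep K ε hε

end Seeds

end Vale.Agent.P095
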