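import Vale.Agent.P095.TraceAux

/-!
# P095: the abstract diffusion `s (n+1) = s n + δ (1 - s n²) y n`
-/

open Filter Topology TopologicalSpace
open scoped BoundedContinuousFunction ComplexOrder

namespace Vale.Agent.P095

open Vale.Agent.P101

universe u v w

section Order

variable {B : Type*} [CStarAlgebra B]

/-- A selfadjoint `s` with `‖s‖ ≤ 1` has `-1 ≤ s ≤ 1`. -/
theorem le_one_of_norm [PartialOrder B] [StarOrderedRing B] {s : B} (hs : IsSelfAdjoint s)
    (h : ‖s‖ ≤ 1) : -1 ≤ s ∧ s ≤ 1 := by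
  have h1 := hs.neg_algebraMap_norm_le_self
  have h2 := hs.le_algebraMap_norm_self
  have h3 : algebraMap ℝ B ‖s‖ ≤ 1 := by
    have := algebraMap_mono (α := ℝ) (β := B) h
    simpa using this
  exact ⟨(neg_le_neg h3).trans h1, h2.trans h3⟩

/-- a selfadjoint element whose square is `≤ 1` is a contraction -/
theorem norm_le_one_of_sq_le [PartialOrder B] [StarOrderedRing B] {s : B} (hs : IsSelfAdjoint s)
    (h : 0 ≤ 1 - s * s) : ‖s‖ ≤ 1 := by
  have h1 : 0 ≤ s * s := by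
    have := star_mul_self_nonneg s
    rwa [hs.star_eq] at this
  have h2 : ‖s * s‖ ≤ 1 := (CStarAlgebra.norm_le_one_iff_of_nonneg (s * s) h1).2 (sub_nonneg.1 h)
  have h3 : ‖s * s‖ = ‖s‖ * ‖s‖ := by
    have := CStarRing.norm_star_mul_self (x := s)
    rwa [hs.star_eq] at this
  nlinarith [norm_nonneg s]

/-- one step of the diffusion keeps `‖s‖ ≤ 1` -/
theorem step_norm {s y : B} (hs : IsSelfAdjoint s) (hy : IsSelfAdjoint y) (h : Commute s y)
    (hs1 : ‖s‖ ≤ 1) (hy1 : ‖y‖ ≤ 1 / 2) :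
    IsSelfAdjoint (s + (1 - s * s) * y) ∧ ‖s + (1 - s * s) * y‖ ≤ 1 := by
  let _ := CStarAlgebra.spectralOrder B
  have _ := CStarAlgebra.spectralOrderedRing B
  have hc : Commute (1 - s * s) y := (Commute.one_left y).sub_left (h.mul_left h)
  have hsa : IsSelfAdjoint ((1 - s * s) * y) := by
    rw [IsSelfAdjoint, star_mul, star_sub, star_mul, star_one, hs.star_eq, hy.star_eq]
    exact hc.symm
  refine ⟨hs.add hsa, norm_le_one_of_sq_le (hs.add hsa) ?_⟩
  obtain ⟨hl, hr⟩ := le_one_of_norm hs hs1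
  have hp : 0 ≤ 1 - s := sub_nonneg.2 hr
  have hq : 0 ≤ 1 + s := by
    have := sub_nonneg.2 hl
    rwa [sub_neg_eq_add, add_comm] at this
  -- the factors `1 ∓ y (1 ± s)`
  have key : ∀ t : B, IsSelfAdjoint t → Commute t y → ‖t‖ ≤ 1 → 0 ≤ 1 - y * (1 + t) := by
    intro t ht hty ht1
    have h1 : IsSelfAdjoint (y * (1 + t)) := by
      rw [IsSelfAdjoint, star_mul, star_add, star_one, ht.star_eq, hy.star_eq]
      exact ((Commute.one_left y).add_left hty)
    have h2 : ‖y * (1 + t)‖ ≤ 1 := by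
      have h3 : ‖(1 : B) + t‖ ≤ 2 := by
        refine (norm_add_le _ _).trans ?_
        have : ‖(1 : B)‖ ≤ 1 := by
          rcases subsingleton_or_nontrivial B with hB | hB
          · rw [Subsingleton.elim (1 : B) 0, norm_zero]; norm_num
          · rw [CStarRing.norm_one]
        linarith
      calc ‖y * (1 + t)‖ ≤ ‖y‖ * ‖1 + t‖ := norm_mul_le _ _
        _ ≤ 1 / 2 * 2 := mul_le_mul hy1 h3 (norm_nonneg _) (by norm_num)
        _ = 1 := by norm_num
    exact sub_nonneg.2 (le_one_of_norm h1 h2).2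
  have h1 : 0 ≤ 1 - y * (1 + s) := key s hs h hs1
  have h2 : 0 ≤ 1 + y * (1 - s) := by
    have h3 : IsSelfAdjoint (-(y * (1 - s))) := by
      rw [IsSelfAdjoint, star_neg, star_mul, star_sub, star_one, hs.star_eq, hy.star_eq]
      rw [((Commute.one_left y).sub_left h).eq]
    have h4 : ‖-(y * (1 - s))‖ ≤ 1 := by
      rw [norm_neg]
      have h3 : ‖(1 : B) - s‖ ≤ 2 := by
        refine (norm_sub_le _ _).trans ?_
        have : ‖(1 : B)‖ ≤ 1 := by
          rcases subsingleton_or_nontrivial B with hB | hB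
          · rw [Subsingleton.elim (1 : B) 0, norm_zero]; norm_num
          · rw [CStarRing.norm_one]
        linarith
      calc ‖y * (1 - s)‖ ≤ ‖y‖ * ‖1 - s‖ := norm_mul_le _ _
        _ ≤ 1 / 2 * 2 := mul_le_mul hy1 h3 (norm_nonneg _) (by norm_num)
        _ = 1 := by norm_num
    have := sub_nonneg.2 (le_one_of_norm h3 h4).2
    rwa [sub_neg_eq_add] at this
  -- `1 - s' = (1 - s)(1 - y(1+s))`, `1 + s' = (1+s)(1 + y(1-s))`
  have e1 : (1 - (s + (1 - s * s) * y)) = (1 - s) * (1 - y * (1 + s)) := by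
    have := h.eq
    have h5 : y * (1 + s) = (1 + s) * y := by rw [mul_add, add_mul, one_mul, mul_one, this]
    rw [h5]
    noncomm_ring
  have e2 : (1 + (s + (1 - s * s) * y)) = (1 + s) * (1 + y * (1 - s)) := by
    have := h.eq
    have h5 : y * (1 - s) = (1 - s) * y := by rw [mul_sub, sub_mul, one_mul, mul_one, this]
    rw [h5]
    noncomm_ring
  have hys : Commute y s := h.symm
  have c1 : Commute (1 - s) (1 - y * (1 + s)) :=
    (((Commute.one_left _).sub_left ((Commute.one_right s).sub_right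
      (h.mul_right ((Commute.one_right s).add_right (Commute.refl s))))))
  have c2 : Commute (1 + s) (1 + y * (1 - s)) :=
    (((Commute.one_left _).add_left ((Commute.one_right s).add_right
      (h.mul_right ((Commute.one_right s).sub_right (Commute.refl s))))))
  have p1 : 0 ≤ 1 - (s + (1 - s * s) * y) := by
    rw [e1]; exact c1.mul_nonneg hp h1
  have p2 : 0 ≤ 1 + (s + (1 - s * s) * y) := by
    rw [e2]; exact c2.mul_nonneg hq h2
  have e3 : 1 - (s + (1 - s * s) * y) * (s + (1 - s * s) * y) =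
      (1 - (s + (1 - s * s) * y)) * (1 + (s + (1 - s * s) * y)) := by noncomm_ring
  rw [e3]
  refine Commute.mul_nonneg p1 p2 ?_
  exact (Commute.one_left _).sub_left ((Commute.one_right _).add_right (Commute.refl _))

end Order

section Diff

variable {G : Type*} [Group G] {B : Type u} [CStarAlgebra B]

theorem sq_add {φ : B →ₗ[ℂ] ℂ} (hφ : ∀ x, 0 ≤ φ (star x * x)) (a b : B) :
    sq φ (a + b) = sq φ a + sq φ b + 2 * (φ (star a * b)).re := by
  have h1 : star (a + b) * (a + b) = star a * a + star b * b + (star a * b + star (star a * b)) := by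
    rw [star_add, star_mul, star_star]
    noncomm_ring
  rw [sq, h1, map_add, map_add, map_add, apply_star hφ, Complex.add_re, Complex.add_re,
    Complex.add_re, Complex.star_def, Complex.conj_re, sq, sq]
  ring

/-- Hypotheses on the driving sequence `y` of the diffusion; `R n` is an algebra containing
everything that happened before time `n`. -/
structure Driving (β : G →* (B ≃⋆ₐ[ℂ] B)) (T : Set (B →ₗ[ℂ] ℂ)) (K : Finset G) (e₀ Y : ℝ)
    (R : ℕ → StarSubalgebra ℂ B) (y : ℕ → B) : Prop where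
  mono : ∀ n, R n ≤ R (n + 1)
  inv : ∀ n g, ∀ w ∈ R n, β g w ∈ R n
  sa : ∀ n, IsSelfAdjoint (y n)
  norm : ∀ n, ‖y n‖ ≤ Y
  mem : ∀ n, y n ∈ R (n + 1)
  comm : ∀ n, ∀ w ∈ R n, Commute w (y n)
  zero : ∀ n, ∀ w ∈ R n, ∀ τ ∈ T, τ (w * y n) = 0
  lower : ∀ n, ∀ w ∈ R n, ∀ τ ∈ T, sq τ w / 2 ≤ sq τ (w * y n)
  upper : ∀ n, ∀ w ∈ R n, ∀ τ ∈ T, sq τ (w * y n) ≤ 3 / 2 * sq τ w
  diff : ∀ n, ∀ w ∈ R n, ∀ τ ∈ T, ∀ k ∈ K, sq τ (w * (β k (y n) - y n)) ≤ e₀ * sq τ w

/-- the diffusion -/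
noncomputable def dif (δ : ℝ) (y : ℕ → B) : ℕ → B
  | 0 => 0
  | n + 1 => dif δ y n + (1 - dif δ y n * dif δ y n) * ((δ : ℂ) • y n)

theorem dif_succ (δ : ℝ) (y : ℕ → B) (n : ℕ) :
    dif δ y (n + 1) = dif δ y n + (1 - dif δ y n * dif δ y n) * ((δ : ℂ) • y n) := rfl

variable {β : G →* (B ≃⋆ₐ[ℂ] B)} {T : Set (B →ₗ[ℂ] ℂ)} {K : Finset G} {e₀ Y : ℝ}
  {R : ℕ → StarSubalgebra ℂ B} {y : ℕ → B}

theorem dif_mem (h : Driving β T K e₀ Y R y) (δ : ℝ) (n : ℕ) : dif δ y n ∈ R n := by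
  induction n with
  | zero => exact zero_mem _
  | succ n ih =>
    rw [dif_succ]
    have ih' := h.mono n ih
    exact add_mem ih' (mul_mem (sub_mem (one_mem _) (mul_mem ih' ih'))
      (SMulMemClass.smul_mem _ (h.mem n)))

theorem sa_smul {δ : ℝ} {x : B} (hx : IsSelfAdjoint x) : IsSelfAdjoint ((δ : ℂ) • x) := by
  rw [IsSelfAdjoint, star_smul, hx.star_eq, Complex.star_def, Complex.conj_ofReal]

theorem dif_norm (h : Driving β T K e₀ Y R y) {δ : ℝ} (hδ : 0 ≤ δ) (hδY : δ * Y ≤ 1 / 2) (n : ℕ) :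
    IsSelfAdjoint (dif δ y n) ∧ ‖dif δ y n‖ ≤ 1 := by
  induction n with
  | zero => exact ⟨IsSelfAdjoint.zero B, by rw [dif, norm_zero]; norm_num⟩
  | succ n ih =>
    rw [dif_succ]
    refine step_norm ih.1 (sa_smul (h.sa n)) ?_ ih.2 ?_
    · exact (h.comm n _ (dif_mem h δ n)).smul_right _
    · rw [norm_smul, Complex.norm_real, Real.norm_of_nonneg hδ]
      exact (mul_le_mul_of_nonneg_left (h.norm n) hδ).trans hδY

theorem mem_mono (h : Driving β T K e₀ Y R y) (n : ℕ) {x : B} (hx : x ∈ R 0) : x ∈ R n := by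
  induction n with
  | zero => exact hx
  | succ n ih => exact h.mono n ih

theorem dif_commute (h : Driving β T K e₀ Y R y) (δ : ℝ) {x : B} (hx : x ∈ R 0) (n : ℕ) :
    Commute (dif δ y n) x := by
  induction n with
  | zero => exact Commute.zero_left x
  | succ n ih =>
    rw [dif_succ]
    have h1 : Commute (y n) x := (h.comm n x (mem_mono h n hx)).symm
    exact ih.add_left (((Commute.one_left x).sub_left (ih.mul_left ih)).mul_left
      (h1.smul_left _))

theorem dif_zero (h : Driving β T K e₀ Y R y) (δ : ℝ) {x : B} (hx : x ∈ R 0) {τ : B →ₗ[ℂ] ℂ}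
    (hτ : τ ∈ T) (n : ℕ) : τ (x * dif δ y n) = 0 := by
  induction n with
  | zero => rw [dif, mul_zero, map_zero]
  | succ n ih =>
    have hs := dif_mem h δ n
    rw [dif_succ, mul_add, map_add, ih, zero_add, mul_smul_comm, mul_smul_comm, ← mul_assoc,
      map_smul]
    rw [h.zero n _ (mul_mem (mem_mono h n hx) (sub_mem (one_mem _) (mul_mem hs hs))) τ hτ,
      smul_zero]

theorem norm_one_sub_sq {s : B} (hs : IsSelfAdjoint s) (h1 : ‖s‖ ≤ 1) : ‖1 - s * s‖ ≤ 1 := by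
  let _ := CStarAlgebra.spectralOrder B
  have _ := CStarAlgebra.spectralOrderedRing B
  have h2 : 0 ≤ s * s := by
    have := star_mul_self_nonneg s
    rwa [hs.star_eq] at this
  have h3 : ‖s * s‖ ≤ 1 := (norm_mul_le _ _).trans (by nlinarith [norm_nonneg s])
  have h4 : s * s ≤ 1 := (CStarAlgebra.norm_le_one_iff_of_nonneg (s * s) h2).1 h3
  exact (CStarAlgebra.norm_le_one_iff_of_nonneg (1 - s * s) (sub_nonneg.2 h4)).2
    (sub_le_self _ h2)

theorem sa_one_sub_sq {s : B} (hs : IsSelfAdjoint s) : IsSelfAdjoint (1 - s * s) := by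
  rw [IsSelfAdjoint, star_sub, star_mul, star_one, hs.star_eq]

/-- growth of `τ(s²)` -/
theorem dif_growth (h : Driving β T K e₀ Y R y) (htr : ∀ τ ∈ T, IsTrace τ) {δ : ℝ} (hδ : 0 ≤ δ)
    (hδY : δ * Y ≤ 1 / 2) {τ : B →ₗ[ℂ] ℂ} (hτ : τ ∈ T) (n : ℕ) :
    sq τ (dif δ y n) + δ ^ 2 / 2 * (1 - sq τ (dif δ y n)) ^ 2 ≤ sq τ (dif δ y (n + 1)) := by
  obtain ⟨hsa, hs1⟩ := dif_norm h hδ hδY n
  have hs := dif_mem h δ n
  have hpos := (htr τ hτ).nonneg
  set s := dif δ y n with hsdef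
  have hw : 1 - s * s ∈ R n := sub_mem (one_mem _) (mul_mem hs hs)
  have e1 : (1 - s * s) * ((δ : ℂ) • y n) = (δ : ℂ) • ((1 - s * s) * y n) := mul_smul_comm _ _ _
  rw [dif_succ, ← hsdef, sq_add hpos, e1, mul_smul_comm, hsa.star_eq, ← mul_assoc, map_smul,
    h.zero n _ (mul_mem hs hw) τ hτ, smul_zero, Complex.zero_re, mul_zero, add_zero, sq_smul,
    Complex.norm_real, Real.norm_of_nonneg hδ]
  have h1 := h.lower n _ hw τ hτ
  have h2 := re_sq_le hpos (htr τ hτ).map_one (sa_one_sub_sq hsa)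
  have h3 : (τ (1 - s * s)).re = 1 - sq τ s := by
    rw [map_sub, (htr τ hτ).map_one, Complex.sub_re, Complex.one_re, sq_sa hsa]
  rw [h3] at h2
  have h4 : δ ^ 2 * ((1 - sq τ s) ^ 2 / 2) ≤ δ ^ 2 * sq τ ((1 - s * s) * y n) := by
    apply mul_le_mul_of_nonneg_left _ (sq_nonneg δ)
    linarith
  linarith

/-- control of the displacement -/
theorem dif_disp (h : Driving β T K e₀ Y R y) (htr : ∀ τ ∈ T, IsTrace τ)
    (hinv : ∀ τ ∈ T, ∀ g, τ ∘ₗ (β g : B →⋆ₐ[ℂ] B).toAlgHom.toLinearMap ∈ T)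
    (he₀ : 0 ≤ e₀) {δ : ℝ} (hδ : 0 ≤ δ)
    (hδY : δ * Y ≤ 1 / 2) {τ : B →ₗ[ℂ] ℂ} (hτ : τ ∈ T) {k : G} (hk : k ∈ K) (n : ℕ) :
    sq τ (β k (dif δ y (n + 1)) - dif δ y (n + 1)) ≤
      (1 + 12 * δ ^ 2) * sq τ (β k (dif δ y n) - dif δ y n) + 2 * δ ^ 2 * e₀ := by
  obtain ⟨hsa, hs1⟩ := dif_norm h hδ hδY n
  have hs := dif_mem h δ n
  have hpos := (htr τ hτ).nonneg
  have htrτ := (htr τ hτ).trace
  set b := dif δ y n with hbdef
  set a := β k b with hadef
  have hasa : IsSelfAdjoint a := by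
    rw [hadef, IsSelfAdjoint, ← map_star, hsa.star_eq]
  have ha1 : ‖a‖ ≤ 1 := by rw [hadef, norm_act]; exact hs1
  have ha : a ∈ R n := h.inv n k _ hs
  have hD : IsSelfAdjoint (a - b) := hasa.sub hsa
  -- `τ (w * β k (y n)) = 0`
  have hzero' : ∀ w ∈ R n, τ (w * β k (y n)) = 0 := by
    intro w hw
    have h1 := h.zero n (β k⁻¹ w) (h.inv n _ _ hw) _ (hinv τ hτ k)
    have h2 : β k (β k⁻¹ w * y n) = w * β k (y n) := by
      rw [map_mul, ← StarAlgEquiv.mul_apply, ← map_mul, mul_inv_cancel, map_one]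
      rfl
    change τ (β k (β k⁻¹ w * y n)) = 0 at h1
    rwa [h2] at h1
  set E := (1 - a * a) * (β k (y n)) - (1 - b * b) * (y n) with hE
  have e1 : β k (dif δ y (n + 1)) - dif δ y (n + 1) = (a - b) + (δ : ℂ) • E := by
    rw [dif_succ, ← hbdef, map_add, map_mul, map_sub, map_mul, map_one, map_smul, ← hadef, hE,
      smul_sub, mul_smul_comm, mul_smul_comm]
    abel
  have e2 : τ ((a - b) * E) = 0 := by
    rw [hE, mul_sub, map_sub, ← mul_assoc, ← mul_assoc,
      hzero' _ (mul_mem (sub_mem ha hs) (sub_mem (one_mem _) (mul_mem ha ha))),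
      h.zero n _ (mul_mem (sub_mem ha hs) (sub_mem (one_mem _) (mul_mem hs hs))) τ hτ, sub_zero]
  have e3 : E = (1 - a * a) * (β k (y n) - y n) + (b * b - a * a) * y n := by
    rw [hE]; noncomm_ring
  have e4 : sq τ E ≤ 2 * e₀ + 12 * sq τ (a - b) := by
    rw [e3]
    refine (sq_add_le hpos _ _).trans ?_
    have h1 := h.diff n (1 - a * a) (sub_mem (one_mem _) (mul_mem ha ha)) τ hτ k hk
    have h2 : sq τ (1 - a * a) ≤ 1 := by
      have := sq_le_one hpos (norm_one_sub_sq hasa ha1)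
      rwa [(htr τ hτ).map_one, Complex.one_re] at this
    have h3 := h.upper n (b * b - a * a) (sub_mem (mul_mem hs hs) (mul_mem ha ha)) τ hτ
    have h4 : sq τ (b * b - a * a) ≤ 4 * sq τ (a - b) := by
      have e5 : b * b - a * a = -(a * (a - b) + (a - b) * b) := by noncomm_ring
      rw [e5, sq_neg]
      refine (sq_add_le hpos _ _).trans ?_
      have h5 := sq_mul_le hpos ha1 (a - b)
      have h6 := sq_mul_le' hpos htrτ hs1 (a - b)
      linarith
    have h7 : e₀ * sq τ (1 - a * a) ≤ e₀ * 1 := mul_le_mul_of_nonneg_left h2 he₀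
    linarith
  rw [e1, sq_add hpos, hD.star_eq, mul_smul_comm, map_smul, e2, smul_zero, Complex.zero_re,
    mul_zero, add_zero, sq_smul, Complex.norm_real, Real.norm_of_nonneg hδ]
  nlinarith [sq_nonneg δ, mul_le_mul_of_nonneg_left e4 (sq_nonneg δ)]

/-- scalar recursion 1 -/
theorem scalar_growth {g c : ℝ} {u : ℕ → ℝ} {n : ℕ} (hc : 0 ≤ c) (hg : 0 ≤ g) (h0 : u 0 ≤ 1)
    (hu : ∀ n, u (n + 1) ≤ u n - c * (u n) ^ 2) :
    u n ≤ g ∨ u n ≤ 1 - n * (c * g ^ 2) := by
  induction n with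
  | zero => right; simpa using h0
  | succ n ih =>
    have h1 := hu n
    by_cases h2 : u n ≤ g
    · left
      have : 0 ≤ c * (u n) ^ 2 := by positivity
      linarith
    · rcases ih with h3 | h3
      · exact absurd h3 h2
      · right
        push Not at h2
        have h4 : g ^ 2 ≤ (u n) ^ 2 := by nlinarith
        have h5 : c * g ^ 2 ≤ c * (u n) ^ 2 := mul_le_mul_of_nonneg_left h4 hc
        push_cast
        linarith

/-- scalar recursion 2 -/
theorem scalar_disp {a b : ℝ} {u : ℕ → ℝ} (n : ℕ) (ha : 0 ≤ a) (hb : 0 ≤ b) (h0 : u 0 = 0)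
    (hu : ∀ n, u (n + 1) ≤ (1 + a) * u n + b) :
    u n ≤ b * n * (1 + a) ^ n := by
  induction n with
  | zero => simp [h0]
  | succ n ih =>
    refine (hu n).trans ?_
    have h1 : (1 + a) * u n ≤ (1 + a) * (b * n * (1 + a) ^ n) :=
      mul_le_mul_of_nonneg_left ih (by linarith)
    have h2 : 1 ≤ (1 + a) ^ (n + 1) := one_le_pow₀ (by linarith)
    have h3 : b * 1 ≤ b * (1 + a) ^ (n + 1) := mul_le_mul_of_nonneg_left h2 hb
    push_cast
    rw [pow_succ] at *
    nlinarith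

/-- THE DIFFUSION. -/
theorem diffusion (htr : ∀ τ ∈ T, IsTrace τ)
    (hinv : ∀ τ ∈ T, ∀ g, τ ∘ₗ (β g : B →⋆ₐ[ℂ] B).toAlgHom.toLinearMap ∈ T) (K : Finset G)
    (ε : ℝ) (hε : 0 < ε) :
    ∃ e₀ : ℝ, 0 < e₀ ∧ ∀ (Y : ℝ) (R : ℕ → StarSubalgebra ℂ B) (y : ℕ → B),
      Driving β T K e₀ Y R y → ∃ s : B, IsSelfAdjoint s ∧ ‖s‖ ≤ 1 ∧ (∀ x ∈ R 0, Commute s x) ∧
        ∀ τ ∈ T, (τ (1 - s * s)).re ≤ ε ∧ (∀ k ∈ K, sq τ (β k s - s) ≤ ε) ∧
          ∀ b ∈ R 0, τ (b * s) = 0 := by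
  set A : ℝ := 2 / ε ^ 2 + 1 with hA
  have hA0 : 0 < A := by positivity
  refine ⟨ε / (2 * A * Real.exp (12 * A)), by positivity, ?_⟩
  intro Y R y h
  set e₀ : ℝ := ε / (2 * A * Real.exp (12 * A)) with he₀
  have he₀0 : 0 < e₀ := by positivity
  set δ : ℝ := 1 / (2 * (|Y| + 1)) with hδ
  have hY1 : 0 < |Y| + 1 := by positivity
  have hδ0 : 0 < δ := by positivity
  have hδ1 : δ ≤ 1 := by
    rw [hδ, div_le_one (by positivity)]
    linarith [abs_nonneg Y]
  have hδY : δ * Y ≤ 1 / 2 := by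
    rw [hδ, div_mul_eq_mul_div, one_mul, div_le_div_iff₀ (by positivity) (by norm_num)]
    linarith [le_abs_self Y]
  set L : ℕ := ⌈2 / (δ ^ 2 * ε ^ 2)⌉₊ with hL
  have hL1 : 2 / (δ ^ 2 * ε ^ 2) ≤ L := Nat.le_ceil _
  have hL2 : (L : ℝ) ≤ 2 / (δ ^ 2 * ε ^ 2) + 1 := (Nat.ceil_lt_add_one (by positivity)).le
  have hL3 : δ ^ 2 * L ≤ A := by
    have h1 : δ ^ 2 * L ≤ δ ^ 2 * (2 / (δ ^ 2 * ε ^ 2) + 1) :=
      mul_le_mul_of_nonneg_left hL2 (sq_nonneg δ)
    have h2 : δ ^ 2 * (2 / (δ ^ 2 * ε ^ 2) + 1) = 2 / ε ^ 2 + δ ^ 2 := by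
      field_simp
    have h3 : δ ^ 2 ≤ 1 := by nlinarith
    rw [hA]; linarith
  obtain ⟨hsa, hs1⟩ := dif_norm h hδ0.le hδY L
  refine ⟨dif δ y L, hsa, hs1, fun x hx => dif_commute h δ hx L, fun τ hτ => ⟨?_, ?_, ?_⟩⟩
  · -- growth
    have hpos := (htr τ hτ).nonneg
    have h3 : (τ (1 - dif δ y L * dif δ y L)).re = 1 - sq τ (dif δ y L) := by
      rw [map_sub, (htr τ hτ).map_one, Complex.sub_re, Complex.one_re, sq_sa hsa]
    rw [h3]
    have key := scalar_growth (g := ε) (c := δ ^ 2 / 2) (u := fun n => 1 - sq τ (dif δ y n))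
      (n := L) (by positivity) hε.le (by simp [dif]) (by
        intro n
        have := dif_growth h htr hδ0.le hδY hτ n
        linarith)
    rcases key with h4 | h4
    · exact h4
    · have h5 : 1 ≤ (L : ℝ) * (δ ^ 2 / 2 * ε ^ 2) := by
        have : 2 / (δ ^ 2 * ε ^ 2) * (δ ^ 2 / 2 * ε ^ 2) = 1 := by field_simp
        rw [← this]
        exact mul_le_mul_of_nonneg_right hL1 (by positivity)
      linarith
  · -- displacement
    intro k hk
    have key := scalar_disp (a := 12 * δ ^ 2) (b := 2 * δ ^ 2 * e₀)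
      (u := fun n => sq τ (β k (dif δ y n) - dif δ y n)) L (by positivity) (by positivity)
      (by simp [dif]) (fun n => dif_disp h htr hinv he₀0.le hδ0.le hδY hτ hk n)
    refine key.trans ?_
    have h1 : (1 + 12 * δ ^ 2) ^ L ≤ Real.exp (12 * A) := by
      calc (1 + 12 * δ ^ 2) ^ L ≤ (Real.exp (12 * δ ^ 2)) ^ L := by
            apply pow_le_pow_left₀ (by positivity)
            rw [add_comm]; exact Real.add_one_le_exp _
        _ = Real.exp (L * (12 * δ ^ 2)) := by rw [← Real.exp_nat_mul]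
        _ ≤ Real.exp (12 * A) := by
            apply Real.exp_le_exp.2
            nlinarith
    calc 2 * δ ^ 2 * e₀ * L * (1 + 12 * δ ^ 2) ^ L
        ≤ 2 * δ ^ 2 * e₀ * L * Real.exp (12 * A) := mul_le_mul_of_nonneg_left h1 (by positivity)
      _ = 2 * (δ ^ 2 * L) * e₀ * Real.exp (12 * A) := by ring
      _ ≤ 2 * A * e₀ * Real.exp (12 * A) := by
          apply mul_le_mul_of_nonneg_right _ (Real.exp_pos _).le
          apply mul_le_mul_of_nonneg_right _ he₀0.le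
          linarith
      _ = ε := by
          rw [he₀]
          have := (Real.exp_pos (12 * A)).ne'
          field_simp
  · intro b hb
    exact dif_zero h δ hb hτ L

end Diff

end Vale.Agent.P095
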