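import Vale.Agent.P095.BlockDrive

/-!
# P095: almost fixed signs (row B6), from the block lemma as a hypothesis
-/

open Filter Topology TopologicalSpace
open scoped BoundedContinuousFunction ComplexOrder

namespace Vale.Agent.P095

open Vale.Agent.P101

universe u v w

section Shift

variable {G : Type*} {ι : Type*} [Fintype ι] {M : Type*} [AddCommMonoid M]

theorem sum_emb {e : ι → G} (he : Function.Injective e) {F : Finset G}
    (hF : ∀ h ∈ F, ∃ g, e g = h) (Q : G → M) (hQ : ∀ h, h ∉ F → Q h = 0) :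
    ∑ g, Q (e g) = ∑ h ∈ F, Q h := by
  classical
  have h1 : ∑ g, Q (e g) = ∑ h ∈ Finset.univ.image e, Q h := by
    rw [Finset.sum_image fun a _ b _ hab => he hab]
  rw [h1]
  symm
  apply Finset.sum_subset
  · intro h hh
    obtain ⟨g, rfl⟩ := hF h hh
    exact Finset.mem_image_of_mem _ (Finset.mem_univ g)
  · intro h _ hh
    exact hQ h hh

end Shift

section Shift2

variable {G : Type*} [Group G] {ι : Type*} [Fintype ι] {M : Type*} [AddCommGroup M] [Module ℂ M]

theorem sum_shift {e : ι → G} (he : Function.Injective e) {F : Finset G} {μ : G → ℝ} (k : G)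
    (hμ : ∀ g, g ∉ F → μ g = 0) (hF : ∀ h ∈ F, ∃ g, e g = h) (hkF : ∀ h ∈ F, ∃ g, e g = k * h)
    (H : G → M) :
    ∑ g, (μ (e g) : ℂ) • H (k * e g) = ∑ g, (μ (k⁻¹ * e g) : ℂ) • H (e g) := by
  classical
  rw [sum_emb he hF (fun h => (μ h : ℂ) • H (k * h)) (fun h hh => by rw [hμ h hh]; simp)]
  rw [sum_emb he (F := F.image (k * ·)) (fun h hh => ?_) (fun h => (μ (k⁻¹ * h) : ℂ) • H h)
    (fun h hh => ?_)]
  · rw [Finset.sum_image fun a _ b _ hab => mul_left_cancel hab]
    exact Finset.sum_congr rfl fun h _ => by rw [inv_mul_cancel_left]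
  · obtain ⟨h', hh', rfl⟩ := Finset.mem_image.1 hh
    exact hkF h' hh'
  · have : k⁻¹ * h ∉ F := fun h1 => hh (Finset.mem_image.2 ⟨k⁻¹ * h, h1, mul_inv_cancel_left k h⟩)
    rw [hμ _ this]; simp

omit [Group G] in
theorem sum_prob {e : ι → G} (he : Function.Injective e) {F : Finset G} {μ : G → ℝ}
    (hμ : ∀ g, g ∉ F → μ g = 0) (hF : ∀ h ∈ F, ∃ g, e g = h) (hsum : ∑ g ∈ F, μ g = 1) :
    ∑ g, μ (e g) = 1 := by
  rw [sum_emb he hF μ hμ, hsum]

theorem sum_prob' {e : ι → G} (he : Function.Injective e) {F : Finset G} {μ : G → ℝ} (k : G)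
    (hμ : ∀ g, g ∉ F → μ g = 0) (hkF : ∀ h ∈ F, ∃ g, e g = k * h) (hsum : ∑ g ∈ F, μ g = 1) :
    ∑ g, μ (k⁻¹ * e g) = 1 := by
  classical
  rw [sum_emb he (F := F.image (k * ·)) (fun h hh => ?_) (fun h => μ (k⁻¹ * h)) (fun h hh => ?_)]
  · rw [Finset.sum_image fun a _ b _ hab => mul_left_cancel hab]
    simp only [inv_mul_cancel_left]
    exact hsum
  · obtain ⟨h', hh', rfl⟩ := Finset.mem_image.1 hh
    exact hkF h' hh'
  · exact hμ _ fun h1 => hh (Finset.mem_image.2 ⟨k⁻¹ * h, h1, mul_inv_cancel_left k h⟩)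

end Shift2

section Future

variable {G : Type*} [Group G] {B : Type u} [CStarAlgebra B] (β : G →* (B ≃⋆ₐ[ℂ] B)) (v : ℕ → B)

/-- the elements commuting with all the translates of the `v j`, `j ≥ m` -/
noncomputable def fut (m : ℕ) : StarSubalgebra ℂ B :=
  StarSubalgebra.centralizer ℂ {z | ∃ g, ∃ j, m ≤ j ∧ z = β g (v j)}

variable {β v}

theorem mem_fut {m : ℕ} {z : B} :
    z ∈ fut β v m ↔ ∀ g j, m ≤ j → Commute (β g (v j)) z ∧ Commute (star (β g (v j))) z := by
  rw [fut, StarSubalgebra.mem_centralizer_iff]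
  constructor
  · intro h g j hj
    exact h _ ⟨g, j, hj, rfl⟩
  · rintro h _ ⟨g, j, hj, rfl⟩
    exact h g j hj

theorem fut_mono {m m' : ℕ} (h : m ≤ m') : fut β v m ≤ fut β v m' := fun z hz =>
  mem_fut.2 fun g j hj => mem_fut.1 hz g j (h.trans hj)

theorem act_act (g h : G) (x : B) : β g (β h x) = β (g * h) x := by
  rw [map_mul]; rfl

theorem fut_inv (m : ℕ) (h : G) {z : B} (hz : z ∈ fut β v m) : β h z ∈ fut β v m := by
  refine mem_fut.2 fun g j hj => ?_
  obtain ⟨h1, h2⟩ := mem_fut.1 hz (h⁻¹ * g) j hj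
  have h3 := h1.map (β h)
  have h4 := h2.map (β h)
  rw [act_act, mul_inv_cancel_left] at h3
  rw [map_star, act_act, mul_inv_cancel_left] at h4
  exact ⟨h3, h4⟩

/-- the sign of the seed `v j` -/
noncomputable def sgn (v : ℕ → B) (j : ℕ) : B := v j * star (v j) - star (v j) * v j

theorem sgn_sa (j : ℕ) : IsSelfAdjoint (sgn v j) := by
  rw [sgn, IsSelfAdjoint, star_sub, star_mul, star_mul, star_star]

theorem sgn_norm {j : ℕ} (h1 : ‖v j‖ ≤ 1) : ‖sgn v j‖ ≤ 1 := by
  let _ := CStarAlgebra.spectralOrder B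
  have _ := CStarAlgebra.spectralOrderedRing B
  have ha : 0 ≤ star (v j) * v j := star_mul_self_nonneg _
  have hb : 0 ≤ v j * star (v j) := mul_star_self_nonneg _
  have na : ‖star (v j) * v j‖ ≤ 1 := by
    rw [CStarRing.norm_star_mul_self]; nlinarith [norm_nonneg (v j)]
  have nb : ‖v j * star (v j)‖ ≤ 1 := by
    rw [CStarRing.norm_self_mul_star]; nlinarith [norm_nonneg (v j)]
  have ha1 : star (v j) * v j ≤ 1 := (CStarAlgebra.norm_le_one_iff_of_nonneg _ ha).1 na
  have hb1 : v j * star (v j) ≤ 1 := (CStarAlgebra.norm_le_one_iff_of_nonneg _ hb).1 nb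
  have h3 : sgn v j ≤ 1 := (sub_le_self _ ha).trans hb1
  have h4 : -1 ≤ sgn v j := by
    rw [sgn]
    have : -(1 : B) ≤ -(star (v j) * v j) := neg_le_neg ha1
    refine this.trans ?_
    rw [sub_eq_add_neg]
    exact le_add_of_nonneg_left hb
  refine norm_le_one_of_sq_le (sgn_sa j) ?_
  have e : 1 - sgn v j * sgn v j = (1 - sgn v j) * (1 + sgn v j) := by noncomm_ring
  rw [e]
  refine Commute.mul_nonneg (sub_nonneg.2 h3) ?_ ?_
  · have := sub_nonneg.2 h4
    rwa [sub_neg_eq_add, add_comm] at this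
  · exact (Commute.one_left _).sub_left ((Commute.one_right _).add_right (Commute.refl _))

theorem act_sgn (g : G) (j : ℕ) :
    β g (sgn v j) = β g (v j) * star (β g (v j)) - star (β g (v j)) * β g (v j) := by
  rw [sgn, map_sub, map_mul, map_mul, map_star]

theorem commute_sgn {m j : ℕ} (hj : m ≤ j) {z : B} (hz : z ∈ fut β v m) (g : G) :
    Commute z (β g (sgn v j)) := by
  obtain ⟨h1, h2⟩ := mem_fut.1 hz g j hj
  rw [act_sgn]
  exact ((h1.mul_left h2).sub_left (h2.mul_left h1)).symm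

variable (hv : ∀ m n, m ≠ n → ∀ g h, Commute (β g (v m)) (β h (v n)) ∧
        Commute (β g (v m)) (star (β h (v n))))

include hv in
theorem act_v_mem {j m : ℕ} (hj : j < m) (g : G) : β g (v j) ∈ fut β v m := by
  refine mem_fut.2 fun h j' hj' => ?_
  have hne : j' ≠ j := by omega
  obtain ⟨h1, h2⟩ := hv j' j hne h g
  obtain ⟨h3, h4⟩ := hv j j' hne.symm g h
  exact ⟨h1, h4.symm⟩

include hv in
theorem act_sgn_mem {j m : ℕ} (hj : j < m) (g : G) : β g (sgn v j) ∈ fut β v m := by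
  rw [act_sgn]
  have h1 := act_v_mem hv hj g
  have h2 := star_mem h1
  exact sub_mem (mul_mem h1 h2) (mul_mem h2 h1)

/-- the `n`-th block -/
noncomputable def blk {ι : Type*} (β : G →* (B ≃⋆ₐ[ℂ] B)) (v : ℕ → B) (N : ℕ) (e : ι → G) (n : ℕ) :
    Fin N → ι → B := fun i g => β (e g) (sgn v (n * N + i))

end Future

section Drive

variable {G : Type*} [Group G] {B : Type u} [CStarAlgebra B] {β : G →* (B ≃⋆ₐ[ℂ] B)}
  {T : Set (B →ₗ[ℂ] ℂ)} {J : Set B}

theorem blk_comm {ι : Type*} {v : ℕ → B}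
    (hcomm : ∀ m n, m ≠ n → ∀ g h, Commute (β g (v m)) (β h (v n)) ∧
        Commute (β g (v m)) (star (β h (v n)))) (N : ℕ) (e : ι → G) (n : ℕ) :
    ∀ i j, i ≠ j → ∀ g h, Commute (blk β v N e n i g) (blk β v N e n j h) := by
  have key : ∀ i j : ℕ, i ≠ j → ∀ g h, Commute (β g (sgn v i)) (β h (sgn v j)) := by
    intro i j hij g h
    rw [act_sgn, act_sgn]
    obtain ⟨h1, h2⟩ := hcomm i j hij g h
    have h3 := h1.star_star
    have h4 := h2.star_star
    rw [star_star] at h4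
    exact ((((h1.mul_right h2).mul_left (h4.mul_right h3))).sub_left
      ((h4.mul_right h3).mul_left (h1.mul_right h2))).sub_right
      ((((h2.mul_right h1).mul_left (h3.mul_right h4))).sub_left
        ((h3.mul_right h4).mul_left (h2.mul_right h1)))
  intro i j hij g h
  exact key _ _ (by
    intro h
    exact hij (Fin.ext (by omega))) _ _

theorem commute_adjoin {ι : Type*} {N : ℕ} {x : Fin N → ι → B} {z : B} {P : Fin N → Prop}
    (h : ∀ i g, P i → Commute z (x i g)) {c : B}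
    (hc : c ∈ Algebra.adjoin ℂ {y | ∃ j h, P j ∧ y = x j h}) : Commute z c := by
  induction hc using Algebra.adjoin_induction with
  | mem y hy =>
    obtain ⟨j, h', hj, rfl⟩ := hy
    exact h j h' hj
  | algebraMap r => exact (Algebra.commutes r _).symm
  | add a b _ _ ha hb => exact ha.add_right hb
  | mul a b _ _ ha hb => exact ha.mul_right hb

/-- the statement of `block_main` -/
def BlockMain : Prop := ∀ (ι : Type) [Fintype ι] [DecidableEq ι] (κ : ℝ), 0 < κ →
  ∃ (N M : ℕ) (p : ℕ → ℝ), BlockProp.{u} ι κ N M p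

/-- DRIVING SEQUENCE FROM BLOCKS. -/
theorem exists_driving [Countable G] (HB : BlockMain.{u}) (sys : TracialSystem β T J) (hG : ReiterAmenable G)
    (hseed : HasSeed J) (S : StarSubalgebra ℂ B) (hS : IsClosed (S : Set B))
    (hsep : IsSeparable (S : Set B)) (K : Finset G) (e₀ : ℝ) (he₀ : 0 < e₀) :
    ∃ (Y : ℝ) (R : ℕ → StarSubalgebra ℂ B) (y : ℕ → B), Driving β T K e₀ Y R y ∧ S ≤ R 0 := by
  classical
  obtain ⟨v, hv1, hvS, hvc⟩ := exists_seed_seq sys hseed S hS hsep
  set κ : ℝ := min (1 / 2) (e₀ / 2) with hκ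
  have hκ0 : 0 < κ := by positivity
  obtain ⟨F, μ, hμ0, hμF, hμ1, hμK⟩ := hG K (e₀ / 8) (by positivity)
  set E : Finset G := F ∪ (K ×ˢ F).image (fun p => p.1 * p.2) with hE
  let e : Fin E.card → G := fun i => (E.equivFin.symm i : G)
  have he : Function.Injective e := fun a b hab =>
    E.equivFin.symm.injective (Subtype.ext hab)
  have hrange : ∀ h ∈ E, ∃ g, e g = h := fun h hh => ⟨E.equivFin ⟨h, hh⟩, by simp [e]⟩
  have hFr : ∀ h ∈ F, ∃ g, e g = h := fun h hh => hrange h (Finset.mem_union_left _ hh)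
  have hkF : ∀ k ∈ K, ∀ h ∈ F, ∃ g, e g = k * h := fun k hk h hh =>
    hrange _ (Finset.mem_union_right _ (Finset.mem_image.2 ⟨(k, h), by simp [hk, hh], rfl⟩))
  obtain ⟨N, M, p, H'⟩ := HB (Fin E.card) κ hκ0
  let ν : Fin E.card → ℝ := fun g => μ (e g)
  let ν' : G → Fin E.card → ℝ := fun k g => μ (k⁻¹ * e g)
  have hν : IsProb ν := ⟨fun g => hμ0 _, sum_prob he hμF hFr hμ1⟩
  have hν' : ∀ k ∈ K, IsProb (ν' k) := fun k hk =>
    ⟨fun g => hμ0 _, sum_prob' he k hμF (hkF k hk) hμ1⟩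
  let x : ℕ → Fin N → Fin E.card → B := blk β v N e
  let y : ℕ → B := fun n => chaosY M p ν (x n)
  let R : ℕ → StarSubalgebra ℂ B := fun n => fut β v (n * N)
  have hxsa : ∀ n i g, IsSelfAdjoint (x n i g) := by
    intro n i g
    show IsSelfAdjoint (β (e g) (sgn v (n * N + i)))
    rw [IsSelfAdjoint, ← map_star, (sgn_sa _).star_eq]
  have hx1 : ∀ n i g, ‖x n i g‖ ≤ 1 := by
    intro n i g
    show ‖β (e g) (sgn v (n * N + i))‖ ≤ 1
    rw [norm_act]
    exact sgn_norm (hv1 _).1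
  have hxc : ∀ n, ∀ i j, i ≠ j → ∀ g h, Commute (x n i g) (x n j h) := fun n =>
    blk_comm hvc N e n
  have hblock0 : ∀ n, IsBlock (0 : B →ₗ[ℂ] ℂ) (x n) := fun n =>
    ⟨hxsa n, hx1 n, hxc n, fun _ _ _ _ => rfl, fun _ _ _ => rfl⟩
  have hysa : ∀ n, IsSelfAdjoint (y n) := fun n => chaosY_selfAdjoint M p ν (hblock0 n)
  have hadj : ∀ n, {y | ∃ j h, y = x n j h} = {y | ∃ j h, True ∧ y = x n j h} := by
    intro n; ext z; simp
  -- `β k (y n)`
  have hβy : ∀ k ∈ K, ∀ n, β k (y n) = chaosY M p (ν' k) (x n) := by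
    intro k hk n
    have h1 : β k (y n) = chaosY M p ν (fun i g => β k (x n i g)) :=
      map_chaosY (β k : B →⋆ₐ[ℂ] B) M p ν (x n)
    rw [h1]
    refine chaosY_congr fun i j => ?_
    rw [bondP, bondP]
    have h2 := sum_shift (M := B) he k hμF hFr (hkF k hk)
      (fun h => β h (sgn v (n * N + i)) * β h (sgn v (n * N + j)))
    refine Eq.trans ?_ h2
    refine Finset.sum_congr rfl fun g _ => ?_
    show (ν g : ℂ) • (β k (β (e g) _) * β k (β (e g) _)) = _
    rw [act_act, act_act]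
  -- elements of `R n` commute with the block `n`
  have hRx : ∀ n, ∀ w ∈ R n, ∀ i g, Commute w (x n i g) := by
    intro n w hw i g
    exact commute_sgn (by omega) hw _
  -- the future of a seed of the block `n`, relative to the other elements of the block
  have hzero : ∀ n, ∀ w ∈ R n, ∀ τ ∈ T, ∀ i g,
      ∀ c ∈ Algebra.adjoin ℂ {y | ∃ j h, j ≠ i ∧ y = x n j h}, τ (w * (c * x n i g)) = 0 := by
    intro n w hw τ hτ i g c hc
    rw [← mul_assoc]
    refine (seed_identities sys (hv1 (n * N + i)).2.1 (hv1 (n * N + i)).1 (hv1 (n * N + i)).2.2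
      τ hτ (e g) (w * c)).1 ?_ ?_
    · intro h
      obtain ⟨h1, h2⟩ := mem_fut.1 hw h (n * N + i) (by omega)
      refine Commute.mul_left h1.symm ?_
      refine (commute_adjoin (z := β h (v (n * N + i))) ?_ hc).symm
      intro j g' hj
      show Commute _ (β (e g') (sgn v (n * N + j)))
      rw [act_sgn]
      have hne : n * N + (i : ℕ) ≠ n * N + (j : ℕ) := by
        intro h; exact hj (Fin.ext (by omega))
      obtain ⟨h3, h4⟩ := hvc _ _ hne h (e g')
      exact (h3.mul_right h4).sub_right (h4.mul_right h3)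
    · intro h
      obtain ⟨h1, h2⟩ := mem_fut.1 hw h (n * N + i) (by omega)
      refine Commute.mul_left h2.symm ?_
      refine (commute_adjoin (z := star (β h (v (n * N + i)))) ?_ hc).symm
      intro j g' hj
      show Commute _ (β (e g') (sgn v (n * N + j)))
      rw [act_sgn]
      have hne : n * N + (i : ℕ) ≠ n * N + (j : ℕ) := by
        intro h; exact hj (Fin.ext (by omega))
      obtain ⟨h3, h4⟩ := hvc _ _ hne h (e g')
      have h5 := h3.star_star
      have h6 := h4.star_star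
      rw [star_star] at h6
      exact (h6.mul_right h5).sub_right (h5.mul_right h6)
  have hone : ∀ n, ∀ τ ∈ T, ∀ i g c, τ (c * (1 - x n i g * x n i g)) = 0 := by
    intro n τ hτ i g c
    exact (seed_identities sys (hv1 (n * N + i)).2.1 (hv1 (n * N + i)).1 (hv1 (n * N + i)).2.2
      τ hτ (e g) c).2
  have hW : ∀ n, ∀ w ∈ R n, ∀ τ ∈ T, WBlock τ w (x n) := by
    intro n w hw τ hτ
    refine ⟨hxsa n, hx1 n, hxc n, hRx n w hw, ?_, hone n τ hτ⟩
    intro i g c hc
    exact hzero n (star w * w) (mul_mem (star_mem hw) hw) τ hτ i g c hc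
  have hyR : ∀ n, ∀ w ∈ R n, Commute w (y n) := by
    intro n w hw
    have h1 := chaosY_mem_adjoin M p ν (x n)
    rw [hadj] at h1
    exact commute_adjoin (P := fun _ => True) (fun i g _ => hRx n w hw i g) h1
  refine ⟨∑ m ∈ Finset.Icc 1 M, |p m| * N, R, y, ?_, ?_⟩
  · refine ⟨?_, ?_, hysa, ?_, ?_, hyR, ?_, ?_, ?_, ?_⟩
    · intro n
      exact fut_mono (Nat.mul_le_mul_right _ (Nat.le_succ n))
    · intro n g w hw
      exact fut_inv _ g hw
    · intro n
      exact norm_chaosY_le M p hν (hblock0 n)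
    · intro n
      have h1 := chaosY_mem_adjoin M p ν (x n)
      have h2 : Algebra.adjoin ℂ {y | ∃ j h, y = x n j h} ≤ (R (n + 1)).toSubalgebra := by
        rw [Algebra.adjoin_le_iff]
        rintro _ ⟨j, h, rfl⟩
        refine act_sgn_mem hvc ?_ _
        have := j.2
        rw [Nat.succ_mul]
        omega
      exact h2 h1
    · intro n w hw τ hτ
      have h1 := apply_chaosY (ψ := τ ∘ₗ LinearMap.mulLeft ℂ w) M p ν (hxc n) (by
        intro i g c hc
        exact hzero n w hw τ hτ i g c hc)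
      exact h1
    · intro n w hw τ hτ
      have h1 := (WBlock.estimate H' (sys.trace τ hτ) (hW n w hw τ hτ) hν hν).1
      have h2 := (abs_le.1 h1).1
      have h3 : κ * sq τ w ≤ 1 / 2 * sq τ w :=
        mul_le_mul_of_nonneg_right (min_le_left _ _) (sq_nonneg' (sys.trace τ hτ).nonneg w)
      show sq τ w / 2 ≤ sq τ (w * chaosY M p ν (x n))
      linarith
    · intro n w hw τ hτ
      have h1 := (WBlock.estimate H' (sys.trace τ hτ) (hW n w hw τ hτ) hν hν).1
      have h2 := (abs_le.1 h1).2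
      have h3 : κ * sq τ w ≤ 1 / 2 * sq τ w :=
        mul_le_mul_of_nonneg_right (min_le_left _ _) (sq_nonneg' (sys.trace τ hτ).nonneg w)
      show sq τ (w * chaosY M p ν (x n)) ≤ 3 / 2 * sq τ w
      linarith
    · intro n w hw τ hτ k hk
      have h1 := (WBlock.estimate H' (sys.trace τ hτ) (hW n w hw τ hτ) hν (hν' k hk)).2
      rw [hβy k hk n]
      show sq τ (w * (chaosY M p (ν' k) (x n) - chaosY M p ν (x n))) ≤ e₀ * sq τ w
      refine h1.trans ?_
      refine mul_le_mul_of_nonneg_right ?_ (sq_nonneg' (sys.trace τ hτ).nonneg w)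
      have h2 : ∑ g, |ν' k g - ν g| ≤ e₀ / 8 := by
        have h3 := hμK k hk E
        have h4 : ∑ g, |ν' k g - ν g| = ∑ g ∈ E, |μ (k⁻¹ * g) - μ g| := by
          rw [← Finset.sum_coe_sort E (fun g => |μ (k⁻¹ * g) - μ g|)]
          exact E.equivFin.symm.sum_comp (fun g : E => |μ (k⁻¹ * (g : G)) - μ g|)
        rw [h4]; exact h3
      have h5 : κ ≤ e₀ / 2 := min_le_right _ _
      linarith
  · intro z hz
    refine mem_fut.2 fun g j _ => ⟨hvS j g z hz, ?_⟩
    have := (hvS j g (star z) (star_mem hz)).star_star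
    rwa [star_star] at this

theorem exists_sign_approx_of [Countable G] (HB : BlockMain.{u}) (sys : TracialSystem β T J) (hG : ReiterAmenable G)
    (hseed : HasSeed J) (S : StarSubalgebra ℂ B) (hS : IsClosed (S : Set B))
    (hsep : IsSeparable (S : Set B)) (K : Finset G) (ε : ℝ) (hε : 0 < ε) :
    ∃ s : B, IsSelfAdjoint s ∧ ‖s‖ ≤ 1 ∧ (∀ x ∈ S, Commute s x) ∧ ∀ τ ∈ T,
      (τ (1 - s * s)).re ≤ ε ∧ (∀ k ∈ K, sq τ (β k s - s) ≤ ε) ∧ ∀ b ∈ S, τ (b * s) = 0 := by
  obtain ⟨e₀, he₀, H⟩ := diffusion (β := β) sys.trace sys.inv K ε hε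
  obtain ⟨Y, R, y, hd, hSR⟩ := exists_driving HB sys hG hseed S hS hsep K e₀ he₀
  obtain ⟨s, hs, hs1, hc, hτ⟩ := H Y R y hd
  exact ⟨s, hs, hs1, fun x hx => hc x (hSR hx), fun τ hT =>
    ⟨(hτ τ hT).1, (hτ τ hT).2.1, fun b hb => (hτ τ hT).2.2 b (hSR hb)⟩⟩

/-- convexity of `sq` -/
theorem sq_sum_le {φ : B →ₗ[ℂ] ℂ} (hφ : ∀ x, 0 ≤ φ (star x * x)) {α : Type*} {F : Finset α}
    {μ : α → ℝ} (hμ : ∀ g, 0 ≤ μ g) (h1 : ∑ g ∈ F, μ g = 1) (z : α → B) :
    sq φ (∑ g ∈ F, (μ g : ℂ) • z g) ≤ ∑ g ∈ F, μ g * sq φ (z g) := by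
  set m := ∑ g ∈ F, (μ g : ℂ) • z g with hm
  have h2 : ∀ g, sq φ (z g - m) = sq φ (z g) + sq φ m - 2 * (φ (star m * z g)).re := by
    intro g
    have h3 := sq_add hφ m (z g - m)
    rw [add_sub_cancel] at h3
    have h4 : (φ (star m * (z g - m))).re = (φ (star m * z g)).re - sq φ m := by
      rw [mul_sub, map_sub, Complex.sub_re]; rfl
    rw [h4] at h3
    linarith
  have h3 : 0 ≤ ∑ g ∈ F, μ g * sq φ (z g - m) :=
    Finset.sum_nonneg fun g _ => mul_nonneg (hμ g) (sq_nonneg' hφ _)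
  have h4 : ∑ g ∈ F, μ g * sq φ (z g - m) = ∑ g ∈ F, μ g * sq φ (z g) + sq φ m * 1 -
      2 * (φ (star m * m)).re := by
    have h5 : (φ (star m * m)).re = ∑ g ∈ F, μ g * (φ (star m * z g)).re := by
      conv_lhs => rw [hm]
      rw [← hm, Finset.mul_sum, map_sum, Complex.re_sum]
      exact Finset.sum_congr rfl fun g _ => by
        rw [mul_smul_comm, map_smul, smul_eq_mul, Complex.re_ofReal_mul]
    rw [h5, ← h1, Finset.mul_sum, Finset.mul_sum, ← Finset.sum_add_distrib,
      ← Finset.sum_sub_distrib]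
    exact Finset.sum_congr rfl fun g _ => by rw [h2]; ring
  have h5 : (φ (star m * m)).re = sq φ m := rfl
  rw [h4, h5] at h3
  linarith

/-- The averaging trick: fixed up to `ε` in norm. -/
theorem exists_sign_approx_of' [Countable G] (HB : BlockMain.{u}) (sys : TracialSystem β T J) (hG : ReiterAmenable G)
    (hseed : HasSeed J) (S : StarSubalgebra ℂ B) (_hS : IsClosed (S : Set B))
    (hsep : IsSeparable (S : Set B)) (K : Finset G) (ε : ℝ) (hε : 0 < ε) :
    ∃ s : B, IsSelfAdjoint s ∧ ‖s‖ ≤ 1 ∧ (∀ x ∈ S, Commute s x) ∧ (∀ k ∈ K, ‖β k s - s‖ ≤ ε) ∧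
      ∀ τ ∈ T, sq τ (1 - s * s) ≤ ε ∧ ∀ b ∈ S, τ (b * s) = 0 := by
  classical
  let X : Set B := ⋃ g : G, β g '' (S : Set B)
  have hXsep : IsSeparable X := IsSeparable.iUnion fun g => hsep.image (continuous_act β g)
  have hSX : ∀ g, ∀ x ∈ S, β g x ∈ cgen X := fun g x hx =>
    subset_cgen X (Set.mem_iUnion.2 ⟨g, x, hx, rfl⟩)
  obtain ⟨F, μ, hμ0, hμF, hμ1, hμK⟩ := hG K ε hε
  obtain ⟨s, hs, hs1, hc, hτ⟩ := exists_sign_approx_of HB sys hG hseed (cgen X) (isClosed_cgen X)
    (isSeparable_cgen hXsep) F (ε / 10) (by positivity)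
  set s' : B := ∑ g ∈ F, (μ g : ℂ) • β g s with hs'
  have hgs : ∀ g, IsSelfAdjoint (β g s) := fun g => by
    rw [IsSelfAdjoint, ← map_star, hs.star_eq]
  have hs'sa : IsSelfAdjoint s' := by
    rw [hs', IsSelfAdjoint, star_sum]
    exact Finset.sum_congr rfl fun g _ => (sa_smul (hgs g)).star_eq
  have hs'1 : ‖s'‖ ≤ 1 := by
    rw [hs']
    refine (norm_sum_le _ _).trans ?_
    rw [← hμ1]
    refine Finset.sum_le_sum fun g _ => ?_
    rw [norm_smul, Complex.norm_real, Real.norm_of_nonneg (hμ0 g), norm_act]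
    exact mul_le_of_le_one_right (hμ0 g) hs1
  refine ⟨s', hs'sa, hs'1, ?_, ?_, ?_⟩
  · intro x hx
    rw [hs']
    refine Finset.sum_induction _ (fun z => Commute z x) (fun a b ha hb => ha.add_left hb)
      (Commute.zero_left x) fun g _ => Commute.smul_left ?_ _
    have h1 := (hc _ (hSX g⁻¹ x hx)).map (β g)
    rwa [act_act, mul_inv_cancel, map_one] at h1
  · intro k hk
    set E : Finset G := F ∪ F.image (k * ·) with hE
    have h1 : β k s' = ∑ h ∈ E, (μ (k⁻¹ * h) : ℂ) • β h s := by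
      rw [hs', map_sum]
      have h2 : ∑ g ∈ F, β k ((μ g : ℂ) • β g s) =
          ∑ h ∈ F.image (k * ·), (μ (k⁻¹ * h) : ℂ) • β h s := by
        rw [Finset.sum_image fun a _ b _ hab => mul_left_cancel hab]
        exact Finset.sum_congr rfl fun g _ => by rw [map_smul, act_act, inv_mul_cancel_left]
      rw [h2]
      apply Finset.sum_subset Finset.subset_union_right
      intro h _ hh
      have : k⁻¹ * h ∉ F := fun h1 =>
        hh (Finset.mem_image.2 ⟨k⁻¹ * h, h1, mul_inv_cancel_left k h⟩)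
      rw [hμF _ this]; simp
    have h3 : s' = ∑ h ∈ E, (μ h : ℂ) • β h s := by
      rw [hs']
      apply Finset.sum_subset Finset.subset_union_left
      intro h _ hh
      rw [hμF _ hh]; simp
    have h4 : β k s' - s' = ∑ h ∈ E, ((μ (k⁻¹ * h) - μ h : ℝ) : ℂ) • β h s := by
      rw [h1, h3, ← Finset.sum_sub_distrib]
      exact Finset.sum_congr rfl fun h _ => by rw [Complex.ofReal_sub, sub_smul]
    rw [h4]
    refine (norm_sum_le _ _).trans ((Finset.sum_le_sum fun h _ => ?_).trans (hμK k hk E))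
    rw [norm_smul, Complex.norm_real, norm_act, Real.norm_eq_abs]
    exact mul_le_of_le_one_right (abs_nonneg _) hs1
  · intro τ hT
    obtain ⟨h1, h2, h3⟩ := hτ τ hT
    have hpos := (sys.trace τ hT).nonneg
    have htr := (sys.trace τ hT).trace
    constructor
    · -- `sq (1 - s²) ≤ τ (1 - s²)`
      have h4 : sq τ (1 - s * s) ≤ ε / 10 := by
        refine le_trans ?_ h1
        let _ := CStarAlgebra.spectralOrder B
        have _ := CStarAlgebra.spectralOrderedRing B
        rw [sq_sa (sa_one_sub_sq hs)]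
        refine IsPosTrace.re_mono hpos ?_
        have h5 : 0 ≤ s * s := by
          have := star_mul_self_nonneg s
          rwa [hs.star_eq] at this
        have h6 : ‖s * s‖ ≤ 1 := (norm_mul_le _ _).trans (by nlinarith [norm_nonneg s])
        have h7 : s * s ≤ 1 := (CStarAlgebra.norm_le_one_iff_of_nonneg (s * s) h5).1 h6
        have h8 : (1 - s * s) - (1 - s * s) * (1 - s * s) = (1 - s * s) * (s * s) := by
          noncomm_ring
        rw [← sub_nonneg, h8]
        exact Commute.mul_nonneg (sub_nonneg.2 h7) h5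
          ((Commute.one_left _).sub_left (Commute.refl _))
      have h5 : sq τ (s - s') ≤ ε / 10 := by
        have h6 : s - s' = ∑ g ∈ F, (μ g : ℂ) • (s - β g s) := by
          rw [hs']
          simp only [smul_sub]
          rw [Finset.sum_sub_distrib, ← Finset.sum_smul, ← Complex.ofReal_sum, hμ1,
            Complex.ofReal_one, one_smul]
        rw [h6]
        refine (sq_sum_le hpos hμ0 hμ1 _).trans ?_
        calc ∑ g ∈ F, μ g * sq τ (s - β g s) ≤ ∑ g ∈ F, μ g * (ε / 10) := by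
              refine Finset.sum_le_sum fun g hg => mul_le_mul_of_nonneg_left ?_ (hμ0 g)
              rw [← sq_neg, neg_sub]
              exact h2 g hg
          _ = ε / 10 := by rw [← Finset.sum_mul, hμ1, one_mul]
      have h6 : 1 - s' * s' = (1 - s * s) + (s * (s - s') + (s - s') * s') := by noncomm_ring
      rw [h6]
      have h7 := sq_add_le hpos (1 - s * s) (s * (s - s') + (s - s') * s')
      have h8 := sq_add_le hpos (s * (s - s')) ((s - s') * s')
      have h9 := sq_mul_le hpos hs1 (s - s')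
      have h10 := sq_mul_le' hpos htr hs'1 (s - s')
      linarith
    · intro b hb
      rw [hs', Finset.mul_sum, map_sum]
      refine Finset.sum_eq_zero fun g _ => ?_
      rw [mul_smul_comm, map_smul]
      have h4 := (hτ _ (sys.inv τ hT g)).2.2 (β g⁻¹ b) (hSX g⁻¹ b hb)
      change τ (β g (β g⁻¹ b * s)) = 0 at h4
      rw [map_mul, act_act, mul_inv_cancel, map_one] at h4
      change τ (b * β g s) = 0 at h4
      rw [h4, smul_zero]

end Drive

end Vale.Agent.P095
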