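import Vale.Agent.P095.NDefs

/-!
# P095, row E1: the norm is multiplicative on commuting subalgebras without zero divisors
-/

open Filter Topology TopologicalSpace
open scoped BoundedContinuousFunction ComplexOrder

namespace Vale.Agent.P095

open Vale.Agent.P101

universe u v w

namespace SimpleNorm

/-- cut off below the level `c` -/
noncomputable def fcut (c t : ℝ) : ℝ := max 0 (|t| - c)

/-- inverse function away from `[-c, c]` -/
noncomputable def hcut (c t : ℝ) : ℝ := t / max (t ^ 2) (c ^ 2)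

theorem continuous_fcut (c : ℝ) : Continuous (fcut c) := by
  unfold fcut; fun_prop

theorem continuous_hcut {c : ℝ} (hc : 0 < c) : Continuous (hcut c) := by
  unfold hcut
  refine Continuous.div (by fun_prop) (by fun_prop) fun t => ?_
  have : 0 < max (t ^ 2) (c ^ 2) := lt_of_lt_of_le (by positivity) (le_max_right _ _)
  exact this.ne'

theorem hcut_mul {c : ℝ} (hc : 0 < c) (t : ℝ) : hcut c t * t * fcut c t = fcut c t := by
  rcases le_or_gt |t| c with h | h
  · have : fcut c t = 0 := by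
      unfold fcut; exact max_eq_left (by linarith)
    rw [this]; ring
  · have h1 : c ^ 2 ≤ t ^ 2 := by
      rw [← sq_abs t]; exact pow_le_pow_left₀ hc.le h.le 2
    have h2 : t ^ 2 ≠ 0 := by
      have : 0 < t ^ 2 := lt_of_lt_of_le (by positivity) h1
      exact this.ne'
    have h3 : hcut c t * t = 1 := by
      unfold hcut
      rw [max_eq_left h1, div_mul_eq_mul_div, ← pow_two, div_self h2]
    rw [h3, one_mul]

theorem abs_hcut_le {c : ℝ} (hc : 0 < c) (t : ℝ) : |hcut c t| ≤ 1 / c := by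
  unfold hcut
  have hm : 0 < max (t ^ 2) (c ^ 2) := lt_of_lt_of_le (by positivity) (le_max_right _ _)
  rw [abs_div, abs_of_pos hm, div_le_div_iff₀ hm hc, one_mul]
  rcases le_or_gt |t| c with h | h
  · refine le_trans ?_ (le_max_right _ _)
    nlinarith [abs_nonneg t]
  · refine le_trans ?_ (le_max_left _ _)
    rw [← sq_abs t]
    nlinarith [abs_nonneg t]

variable {K : Type*} [CStarAlgebra K]

theorem cut_ne_zero {a : K} (ha : IsSelfAdjoint a) {c : ℝ} (hc0 : 0 ≤ c) (hc : c < ‖a‖) :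
    cfc (fcut c) a ≠ 0 := by
  intro h
  have h1 : cfc (fcut c) a = cfc (fun _ : ℝ => (0 : ℝ)) a := by rw [h, cfc_const_zero]
  rw [cfc_eq_cfc_iff_eqOn (ha := ha) (hf := (continuous_fcut c).continuousOn)
    (hg := continuousOn_const)] at h1
  have h2 : ‖cfc (fun t : ℝ => t) a‖ ≤ c := by
    refine norm_cfc_le hc0 fun x hx => ?_
    have h3 := h1 hx
    simp only [fcut] at h3
    have h4 : |x| - c ≤ 0 := by
      by_contra hcon
      push Not at hcon
      rw [max_eq_right hcon.le] at h3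
      linarith
    rw [Real.norm_eq_abs]; linarith
  rw [cfc_id' ℝ a ha] at h2
  linarith

/-- the main estimate for selfadjoint elements -/
theorem norm_mul_selfAdjoint (M N : StarSubalgebra ℂ K)
    (hM : IsClosed (M : Set K)) (hN : IsClosed (N : Set K)) (hc : ∀ x ∈ M, ∀ y ∈ N, Commute x y)
    (h0 : ∀ x ∈ M, ∀ y ∈ N, x * y = 0 → x = 0 ∨ y = 0) {a b : K} (ha : a ∈ M) (hb : b ∈ N)
    (sa : IsSelfAdjoint a) (sb : IsSelfAdjoint b) {c d : ℝ} (hc0 : 0 < c) (hca : c < ‖a‖)
    (hd0 : 0 < d) (hdb : d < ‖b‖) : c * d ≤ ‖a * b‖ := by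
  have hp := cut_ne_zero sa hc0.le hca
  have hq := cut_ne_zero sb hd0.le hdb
  have hpM : cfc (fcut c) a ∈ M := cfc_mem (𝕜 := ℝ) (𝕜' := ℂ) (hs := hM) (fcut c) ha
  have hqN : cfc (fcut d) b ∈ N := cfc_mem (𝕜 := ℝ) (𝕜' := ℂ) (hs := hN) (fcut d) hb
  have hrM : cfc (hcut c) a ∈ M := cfc_mem (𝕜 := ℝ) (𝕜' := ℂ) (hs := hM) (hcut c) ha
  have hsN : cfc (hcut d) b ∈ N := cfc_mem (𝕜 := ℝ) (𝕜' := ℂ) (hs := hN) (hcut d) hb
  have e1 : cfc (hcut c) a * a * cfc (fcut c) a = cfc (fcut c) a := by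
    have h1 : cfc (hcut c) a * a = cfc (fun t => hcut c t * t) a := by
      rw [cfc_mul (hcut c) (fun t => t) a (continuous_hcut hc0).continuousOn
        continuousOn_id, cfc_id' ℝ a sa]
    rw [h1, ← cfc_mul (fun t => hcut c t * t) (fcut c) a
      ((continuous_hcut hc0).mul continuous_id).continuousOn (continuous_fcut c).continuousOn]
    exact cfc_congr fun t _ => hcut_mul hc0 t
  have e2 : cfc (hcut d) b * b * cfc (fcut d) b = cfc (fcut d) b := by
    have h1 : cfc (hcut d) b * b = cfc (fun t => hcut d t * t) b := by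
      rw [cfc_mul (hcut d) (fun t => t) b (continuous_hcut hd0).continuousOn
        continuousOn_id, cfc_id' ℝ b sb]
    rw [h1, ← cfc_mul (fun t => hcut d t * t) (fcut d) b
      ((continuous_hcut hd0).mul continuous_id).continuousOn (continuous_fcut d).continuousOn]
    exact cfc_congr fun t _ => hcut_mul hd0 t
  set p := cfc (fcut c) a with hpdef
  set q := cfc (fcut d) b with hqdef
  set r := cfc (hcut c) a with hrdef
  set s := cfc (hcut d) b with hsdef
  have hpq : p * q ≠ 0 := fun h => (h0 p hpM q hqN h).elim hp hq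
  have key : p * q = (r * s) * (a * b) * (p * q) := by
    have c1 : a * s = s * a := (hc a ha s hsN).eq
    have c2 : p * b = b * p := (hc p hpM b hb).eq
    have c3 : p * s = s * p := (hc p hpM s hsN).eq
    calc p * q = (r * a * p) * (s * b * q) := by rw [e1, e2]
      _ = r * a * (p * s) * b * q := by noncomm_ring
      _ = r * (a * s) * (p * b) * q := by rw [c3]; noncomm_ring
      _ = (r * s) * (a * b) * (p * q) := by rw [c1, c2]; noncomm_ring
  have nr : ‖r‖ ≤ 1 / c := norm_cfc_le (by positivity) fun x _ => by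
    rw [Real.norm_eq_abs]; exact abs_hcut_le hc0 x
  have ns : ‖s‖ ≤ 1 / d := norm_cfc_le (by positivity) fun x _ => by
    rw [Real.norm_eq_abs]; exact abs_hcut_le hd0 x
  have hpos : 0 < ‖p * q‖ := norm_pos_iff.mpr hpq
  have h1 : ‖p * q‖ ≤ (1 / c * (1 / d)) * ‖a * b‖ * ‖p * q‖ := by
    calc ‖p * q‖ = ‖(r * s) * (a * b) * (p * q)‖ := by rw [← key]
      _ ≤ ‖r * s‖ * ‖a * b‖ * ‖p * q‖ := by
          refine le_trans (norm_mul_le _ _) ?_
          gcongr
          exact norm_mul_le _ _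
      _ ≤ (1 / c * (1 / d)) * ‖a * b‖ * ‖p * q‖ := by
          have : ‖r * s‖ ≤ 1 / c * (1 / d) :=
            le_trans (norm_mul_le _ _) (mul_le_mul nr ns (norm_nonneg _) (by positivity))
          gcongr
  have h2 : 1 ≤ (1 / c * (1 / d)) * ‖a * b‖ := by
    by_contra hcon
    push Not at hcon
    nlinarith
  have h3 : (1 / c * (1 / d)) * ‖a * b‖ = ‖a * b‖ / (c * d) := by field_simp
  rw [h3, le_div_iff₀ (by positivity), one_mul] at h2
  exact h2

end SimpleNorm

open SimpleNorm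

/-- commuting subalgebras without zero divisors: the norm is multiplicative -/
theorem norm_mul_of_commute {K : Type*} [CStarAlgebra K] (M N : StarSubalgebra ℂ K)
    (hM : IsClosed (M : Set K)) (hN : IsClosed (N : Set K)) (hc : ∀ x ∈ M, ∀ y ∈ N, Commute x y)
    (h0 : ∀ x ∈ M, ∀ y ∈ N, x * y = 0 → x = 0 ∨ y = 0) {x y : K} (hx : x ∈ M) (hy : y ∈ N) :
    ‖x * y‖ = ‖x‖ * ‖y‖ := by
  refine le_antisymm (norm_mul_le _ _) ?_
  rcases eq_or_ne x 0 with rfl | hx0
  · simp
  rcases eq_or_ne y 0 with rfl | hy0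
  · simp
  have px : 0 < ‖x‖ := norm_pos_iff.mpr hx0
  have py : 0 < ‖y‖ := norm_pos_iff.mpr hy0
  have ha : star x * x ∈ M := mul_mem (star_mem hx) hx
  have hb : star y * y ∈ N := mul_mem (star_mem hy) hy
  have e1 : ‖star x * x‖ = ‖x‖ * ‖x‖ := CStarRing.norm_star_mul_self
  have e2 : ‖star y * y‖ = ‖y‖ * ‖y‖ := CStarRing.norm_star_mul_self
  have e3 : ‖(star x * x) * (star y * y)‖ = ‖x * y‖ * ‖x * y‖ := by
    rw [← CStarRing.norm_star_mul_self (x := x * y)]
    congr 1
    have c1 : (star x * x) * star y = star y * (star x * x) := (hc _ ha _ (star_mem hy)).eq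
    calc (star x * x) * (star y * y) = ((star x * x) * star y) * y := by noncomm_ring
      _ = star y * (star x * x) * y := by rw [c1]
      _ = star (x * y) * (x * y) := by rw [star_mul]; noncomm_ring
  have main : ∀ c d : ℝ, 0 < c → c < ‖star x * x‖ → 0 < d → d < ‖star y * y‖ →
      c * d ≤ ‖x * y‖ * ‖x * y‖ := by
    intro c d hc0 hc1 hd0 hd1
    rw [← e3]
    exact norm_mul_selfAdjoint M N hM hN hc h0 ha hb (IsSelfAdjoint.star_mul_self x)
      (IsSelfAdjoint.star_mul_self y) hc0 hc1 hd0 hd1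
  have h1 : (‖x‖ * ‖y‖) ^ 2 ≤ ‖x * y‖ ^ 2 := by
    have h2 : ∀ θ : ℝ, 0 < θ → θ < 1 → (θ * θ) * (‖x‖ * ‖y‖) ^ 2 ≤ ‖x * y‖ ^ 2 := by
      intro θ t0 t1
      have h3 := main (θ * (‖x‖ * ‖x‖)) (θ * (‖y‖ * ‖y‖)) (by positivity)
        (by rw [e1]; nlinarith [mul_pos px px]) (by positivity)
        (by rw [e2]; nlinarith [mul_pos py py])
      calc (θ * θ) * (‖x‖ * ‖y‖) ^ 2 = θ * (‖x‖ * ‖x‖) * (θ * (‖y‖ * ‖y‖)) := by ring
        _ ≤ ‖x * y‖ * ‖x * y‖ := h3
        _ = ‖x * y‖ ^ 2 := by ring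
    have h4 : Tendsto (fun θ : ℝ => (θ * θ) * (‖x‖ * ‖y‖) ^ 2) (𝓝[<] 1)
        (𝓝 ((1 * 1) * (‖x‖ * ‖y‖) ^ 2)) := by
      have : Continuous (fun θ : ℝ => (θ * θ) * (‖x‖ * ‖y‖) ^ 2) := by fun_prop
      exact (this.tendsto 1).mono_left nhdsWithin_le_nhds
    have h5 : (1 * 1) * (‖x‖ * ‖y‖) ^ 2 ≤ ‖x * y‖ ^ 2 := by
      refine le_of_tendsto h4 ?_
      filter_upwards [Ioo_mem_nhdsLT (show (0 : ℝ) < 1 by norm_num)] with θ hθ
      exact h2 θ hθ.1 hθ.2
    linarith
  exact (pow_le_pow_iff_left₀ (by positivity) (norm_nonneg _) (by norm_num)).mp h1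

theorem isClosed_range_diag {A : Type u} [CStarAlgebra A] (ω : Ultrafilter ℕ) :
    IsClosed ((Ultra.diag ω : A →⋆ₐ[ℂ] Ultra ω A).range : Set (Ultra ω A)) := by
  have hiso : Isometry (Ultra.diag ω : A →⋆ₐ[ℂ] Ultra ω A) :=
    AddMonoidHomClass.isometry_of_norm _ fun a => Ultra.norm_diag a
  have : ((Ultra.diag ω : A →⋆ₐ[ℂ] Ultra ω A).range : Set (Ultra ω A))
      = Set.range (Ultra.diag ω : A →⋆ₐ[ℂ] Ultra ω A) := by
    rfl
  rw [this]
  exact hiso.isClosedEmbedding.isClosed_range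

/-- no zero divisors between `A` and `F_ω(A)` for simple `A` -/
theorem diag_mul_eq_zero {A : Type u} [CStarAlgebra A] [IsSimpleRing A] {ω : Ultrafilter ℕ}
    {a : A} {z : Ultra ω A} (hz : z ∈ centralSeq ω A) (h : Ultra.diag ω a * z = 0) :
    a = 0 ∨ z = 0 := by
  rw [mem_centralSeq_iff] at hz
  let I : TwoSidedIdeal A := TwoSidedIdeal.mk' {b : A | Ultra.diag ω b * z = 0}
    (by simp)
    (by
      intro x y hx hy
      simp only [Set.mem_ofPred_eq] at hx hy ⊢
      rw [map_add, add_mul, hx, hy, add_zero])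
    (by
      intro x hx
      simp only [Set.mem_ofPred_eq] at hx ⊢
      rw [map_neg, neg_mul, hx, neg_zero])
    (by
      intro x y hy
      simp only [Set.mem_ofPred_eq] at hy ⊢
      rw [map_mul, mul_assoc, hy, mul_zero])
    (by
      intro x y hx
      simp only [Set.mem_ofPred_eq] at hx ⊢
      rw [map_mul, mul_assoc, (hz y).eq, ← mul_assoc, hx, zero_mul])
  have haI : a ∈ I := by
    rw [TwoSidedIdeal.mem_mk']; exact h
  rcases eq_bot_or_eq_top I with hI | hI
  · left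
    rw [hI] at haI
    simpa using haI
  · right
    have h1 : (1 : A) ∈ I := by rw [hI]; trivial
    rw [TwoSidedIdeal.mem_mk'] at h1
    simpa using h1

theorem norm_diag_mul {A : Type u} [CStarAlgebra A] [IsSimpleRing A] {ω : Ultrafilter ℕ} (a : A)
    (c : Ultra ω A) (hc : c ∈ centralSeq ω A) : ‖Ultra.diag ω a * c‖ = ‖a‖ * ‖c‖ := by
  have h := norm_mul_of_commute (Ultra.diag ω : A →⋆ₐ[ℂ] Ultra ω A).range (centralSeq ω A)
    (isClosed_range_diag ω) isClosed_centralSeq
    (by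
      rintro x ⟨b, rfl⟩ y hy
      exact (mem_centralSeq_iff.mp hy) b)
    (by
      rintro x ⟨b, rfl⟩ y hy hxy
      rcases diag_mul_eq_zero hy hxy with h | h
      · left; subst h; exact map_zero _
      · right; exact h)
    (x := Ultra.diag ω a) (y := c) ⟨a, rfl⟩ hc
  rw [h, Ultra.norm_diag]

end Vale.Agent.P095
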