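import Vale.Agent.P095.NDefs
import Vale.Agent.P095.SimpleNorm

/-!
# P095: free equivariant copies in the central sequence algebra of a simple algebra
-/

open Filter Topology TopologicalSpace
open scoped BoundedContinuousFunction ComplexOrder

namespace Vale.Agent.P095

open Vale.Agent.P101

universe u v w

section

variable {A : Type u} [CStarAlgebra A] {ω : Ultrafilter ℕ}

/-- Reindexing of countably many bounded sequences so that the norms do not increase in the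
ultrapower, and the reindexed sequences commute with countably many given central sequences and
are free from them. -/
theorem exists_reindex_free [IsSimpleRing A] (hω : (ω : Filter ℕ) ≤ cofinite)
    (Z : Set (ℕ →ᵇ A)) (hZ : Z.Countable)
    (Y : Set (ℕ →ᵇ A)) (hY : Y.Countable) (hYc : ∀ y ∈ Y, Ultra.mk ω y ∈ centralSeq ω A) :
    ∃ σ : ℕ → ℕ, (∀ z ∈ Z, ‖Ultra.mk ω (reindex σ z)‖ ≤ ‖Ultra.mk ω z‖) ∧
      (∀ z ∈ Z, ∀ y ∈ Y, Commute (Ultra.mk ω (reindex σ z)) (Ultra.mk ω y)) ∧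
      ∀ z ∈ Z, ∀ y ∈ Y, ‖Ultra.mk ω (reindex σ z) * Ultra.mk ω y‖ =
        ‖Ultra.mk ω z‖ * ‖Ultra.mk ω y‖ := by
  classical
  have := hZ.to_subtype
  have := hY.to_subtype
  let f : Z ⊕ ((Z × Y) ⊕ (Z × Y)) → (n : ℕ) → ℕ → ℝ := fun k n m =>
    match k with
    | Sum.inl z => max 0 (‖(z : ℕ →ᵇ A) m‖ - ‖Ultra.mk ω (z : ℕ →ᵇ A)‖)
    | Sum.inr (Sum.inl (z, y)) =>
      ‖(z : ℕ →ᵇ A) m * (y : ℕ →ᵇ A) n - (y : ℕ →ᵇ A) n * (z : ℕ →ᵇ A) m‖
    | Sum.inr (Sum.inr (z, y)) =>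
      |‖(z : ℕ →ᵇ A) m * (y : ℕ →ᵇ A) n‖ - ‖Ultra.mk ω (z : ℕ →ᵇ A)‖ * ‖(y : ℕ →ᵇ A) n‖|
  obtain ⟨σ, hσ⟩ := eps_test_countable (X := fun _ => ℕ) (ω : Filter ℕ) hω f (by
    rintro (z | ⟨z, y⟩ | ⟨z, y⟩) n m
    · exact le_max_left _ _
    · exact norm_nonneg _
    · exact abs_nonneg _) (by
    intro F ε hε
    -- choose a good index `m`
    have h1 : ∀ z : Z, ∀ δ > 0, ∀ᶠ m in (ω : Filter ℕ),
        |‖(z : ℕ →ᵇ A) m‖ - ‖Ultra.mk ω (z : ℕ →ᵇ A)‖| < δ := by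
      intro z δ hδ
      have h2 := Ultra.tendsto_norm_mk (ω := ω) (z : ℕ →ᵇ A)
      have h3 := (Metric.tendsto_nhds.1 h2) δ hδ
      exact h3
    have h3 : ∀ᶠ m in (ω : Filter ℕ), ∀ k ∈ F,
        (∀ z : Z, k = Sum.inl z →
          max 0 (‖(z : ℕ →ᵇ A) m‖ - ‖Ultra.mk ω (z : ℕ →ᵇ A)‖) < ε) ∧
        ∀ p : Z × Y, k = Sum.inr (Sum.inr p) →
          |‖(p.1 : ℕ →ᵇ A) m‖ - ‖Ultra.mk ω (p.1 : ℕ →ᵇ A)‖| *
            ‖Ultra.mk ω (p.2 : ℕ →ᵇ A)‖ < ε := by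
      rw [Filter.eventually_all_finset]
      rintro (z | zy | p) _
      · filter_upwards [h1 z ε hε] with m hm
        refine ⟨fun z' hz' => ?_, fun z' hz' => (by cases hz')⟩
        obtain rfl := Sum.inl_injective hz'
        exact max_lt hε ((le_abs_self _).trans_lt hm)
      · exact Eventually.of_forall (fun m =>
          ⟨fun z' hz' => (by cases hz'), fun z' hz' => (by cases hz')⟩)
      · have hpos : 0 < ‖Ultra.mk ω (p.2 : ℕ →ᵇ A)‖ + 1 := by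
          linarith [norm_nonneg (Ultra.mk ω (p.2 : ℕ →ᵇ A))]
        filter_upwards [h1 p.1 (ε / (‖Ultra.mk ω (p.2 : ℕ →ᵇ A)‖ + 1)) (by positivity)] with m hm
        refine ⟨fun z' hz' => (by cases hz'), fun z' hz' => ?_⟩
        obtain rfl := Sum.inr_injective (Sum.inr_injective hz')
        rw [lt_div_iff₀ hpos] at hm
        have h4 := abs_nonneg (‖(p.1 : ℕ →ᵇ A) m‖ - ‖Ultra.mk ω (p.1 : ℕ →ᵇ A)‖)
        nlinarith [norm_nonneg (Ultra.mk ω (p.2 : ℕ →ᵇ A))]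
    obtain ⟨m, hm⟩ := h3.exists
    refine ⟨fun _ => m, ?_⟩
    rintro (z | ⟨z, y⟩ | ⟨z, y⟩) hk
    · exact Eventually.of_forall (fun n => (hm _ hk).1 z rfl)
    · have h4 := (mk_mem_centralSeq_iff.1 (hYc y y.2)) ((z : ℕ →ᵇ A) m)
      exact h4.eventually (gt_mem_nhds hε)
    · have h4 := (hm _ hk).2 (z, y) rfl
      -- the limit in `n`
      have h5 := Ultra.tendsto_norm_mk (ω := ω) (Ultra.const ((z : ℕ →ᵇ A) m) * (y : ℕ →ᵇ A))
      rw [map_mul, ← Ultra.diag_apply, norm_diag_mul _ _ (hYc y y.2)] at h5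
      have h6 := (Ultra.tendsto_norm_mk (ω := ω) (y : ℕ →ᵇ A)).const_mul
        ‖Ultra.mk ω (z : ℕ →ᵇ A)‖
      have h7 := (h5.sub h6).abs
      have h8 : |‖(z : ℕ →ᵇ A) m‖ * ‖Ultra.mk ω (y : ℕ →ᵇ A)‖ -
          ‖Ultra.mk ω (z : ℕ →ᵇ A)‖ * ‖Ultra.mk ω (y : ℕ →ᵇ A)‖| < ε := by
        rw [← sub_mul, abs_mul, abs_norm]
        exact h4
      exact h7.eventually (gt_mem_nhds h8))
  refine ⟨σ, ?_, ?_, ?_⟩
  · intro z hz
    have h1 := hσ (Sum.inl ⟨z, hz⟩)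
    have h2 : Tendsto (fun n => max 0 (‖z (σ n)‖ - ‖Ultra.mk ω z‖) + ‖Ultra.mk ω z‖) ω
        (𝓝 (0 + ‖Ultra.mk ω z‖)) := h1.add tendsto_const_nhds
    rw [zero_add] at h2
    refine le_of_tendsto_of_tendsto (Ultra.tendsto_norm_mk (reindex σ z)) h2
      (Eventually.of_forall fun n => ?_)
    simp only [reindex_apply]
    linarith [le_max_right 0 (‖z (σ n)‖ - ‖Ultra.mk ω z‖)]
  · intro z hz y hy
    have h1 := hσ (Sum.inr (Sum.inl (⟨z, hz⟩, ⟨y, hy⟩)))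
    rw [commute_iff_eq, ← map_mul, ← map_mul, Ultra.mk_eq_mk_iff]
    exact h1
  · intro z hz y hy
    have h1 : Tendsto (fun n => |‖z (σ n) * y n‖ - ‖Ultra.mk ω z‖ * ‖y n‖|) ω (𝓝 0) :=
      hσ (Sum.inr (Sum.inr (⟨z, hz⟩, ⟨y, hy⟩)))
    have h2 := Ultra.tendsto_norm_mk (ω := ω) (reindex σ z * y)
    have h3 := (Ultra.tendsto_norm_mk (ω := ω) y).const_mul ‖Ultra.mk ω z‖
    have h4 := (h2.sub h3).abs
    have h5 := tendsto_nhds_unique h4 h1
    rw [abs_eq_zero, sub_eq_zero, map_mul] at h5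
    exact h5

end

/-- A family of reindexed lifts of a sequence in the central sequence algebra. -/
theorem exists_free_seq {G : Type*} [Group G] [Countable G] {A : Type u} [CStarAlgebra A]
    [SeparableSpace A] [IsSimpleRing A] {ω : Ultrafilter ℕ} (hω : (ω : Filter ℕ) ≤ cofinite)
    (α : G →* (A ≃⋆ₐ[ℂ] A)) (d : ℕ → Ultra ω A) (hdc : ∀ i, d i ∈ centralSeq ω A) :
    ∃ ψ : ℕ → Ultra ω A, (∀ i, ψ i ∈ centralSeq ω A) ∧
      (∀ i j, ‖ψ i - ψ j‖ ≤ ‖d i - d j‖) ∧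
      (∀ i j k, ‖ψ i + ψ j - ψ k‖ ≤ ‖d i + d j - d k‖) ∧
      (∀ i j k, ‖ψ i * ψ j - ψ k‖ ≤ ‖d i * d j - d k‖) ∧
      (∀ i k, ‖star (ψ i) - ψ k‖ ≤ ‖star (d i) - d k‖) ∧
      (∀ i k, ‖Complex.I • ψ i - ψ k‖ ≤ ‖Complex.I • d i - d k‖) ∧
      (∀ k, ‖1 - ψ k‖ ≤ ‖1 - d k‖) ∧
      (∀ i j, Commute (ψ i) (d j)) ∧
      (∀ g i j, ‖ultraAct ω α g (ψ i) - ψ j‖ ≤ ‖ultraAct ω α g (d i) - d j‖) ∧
      ∀ i j, ‖ψ i * d j‖ = ‖d i‖ * ‖d j‖ := by
  classical
  obtain ⟨a, ha⟩ := TopologicalSpace.exists_dense_seq A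
  -- lifts
  have hlift : ∀ i, ∃ y : ℕ →ᵇ A, Ultra.mk ω y = d i := fun i => by
    obtain ⟨y, hy, -⟩ := Ultra.exists_rep (d i)
    exact ⟨y, hy⟩
  choose y hy using hlift
  let Z : Fin 9 → Set (ℕ →ᵇ A) := ![
    Set.range y,
    Set.range (fun p : ℕ × ℕ => y p.1 - y p.2),
    Set.range (fun p : ℕ × ℕ × ℕ => y p.1 + y p.2.1 - y p.2.2),
    Set.range (fun p : ℕ × ℕ × ℕ => y p.1 * y p.2.1 - y p.2.2),
    Set.range (fun p : ℕ × ℕ => star (y p.1) - y p.2),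
    Set.range (fun p : ℕ × ℕ => Complex.I • y p.1 - y p.2),
    Set.range (fun k : ℕ => 1 - y k),
    Set.range (fun p : ℕ × ℕ => Ultra.const (a p.1) * y p.2 - y p.2 * Ultra.const (a p.1)),
    Set.range (fun p : G × ℕ × ℕ => seqMap (α p.1 : A →⋆ₐ[ℂ] A) (y p.2.1) - y p.2.2)]
  have hZ : (⋃ k, Z k).Countable := by
    refine Set.countable_iUnion fun k => ?_
    fin_cases k <;> exact Set.countable_range _
  have hmem : ∀ k, ∀ z ∈ Z k, z ∈ ⋃ k, Z k := fun k z hz => Set.mem_iUnion.2 ⟨k, hz⟩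
  obtain ⟨σ, hσ1, hσ2, hσ3⟩ := exists_reindex_free hω _ hZ (Set.range y) (Set.countable_range y) (by
    rintro _ ⟨i, rfl⟩
    rw [hy]
    exact hdc i)
  refine ⟨fun i => Ultra.mk ω (reindex σ (y i)), ?_, ?_, ?_, ?_, ?_, ?_, ?_, ?_, ?_, ?_⟩
  · intro i
    rw [mem_centralSeq_iff]
    have hcl : IsClosed {b : A | Commute (Ultra.diag ω b) (Ultra.mk ω (reindex σ (y i)))} := by
      have hc : Continuous (Ultra.diag ω : A → Ultra ω A) :=
        AddMonoidHomClass.continuous_of_bound (Ultra.diag ω) 1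
          (fun b => by rw [one_mul, Ultra.norm_diag])
      exact isClosed_eq (hc.mul continuous_const) (continuous_const.mul hc)
    intro b
    have h1 : closure (Set.range a) ⊆
        {b : A | Commute (Ultra.diag ω b) (Ultra.mk ω (reindex σ (y i)))} := by
      apply closure_minimal _ hcl
      rintro _ ⟨j, rfl⟩
      have h2 := hσ1 (Ultra.const (a j) * y i - y i * Ultra.const (a j))
        (hmem 7 _ ⟨(j, i), rfl⟩)
      have h3 : Ultra.mk ω (Ultra.const (a j) * y i - y i * Ultra.const (a j)) = 0 := by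
        rw [map_sub, map_mul, map_mul, hy, sub_eq_zero]
        exact (mem_centralSeq_iff.1 (hdc i) (a j))
      rw [h3, norm_zero] at h2
      have h4 := norm_le_zero_iff.1 h2
      have h5 : reindex σ (Ultra.const (a j) * y i - y i * Ultra.const (a j)) =
          Ultra.const (a j) * reindex σ (y i) - reindex σ (y i) * Ultra.const (a j) := by
        ext n
        rfl
      rw [h5, map_sub, map_mul, map_mul, sub_eq_zero] at h4
      exact h4
    exact h1 (ha b)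
  · intro i j
    have h1 := hσ1 (y i - y j) (hmem 1 _ ⟨(i, j), rfl⟩)
    rw [map_sub, hy, hy] at h1
    exact h1
  · intro i j k
    have h1 := hσ1 (y i + y j - y k) (hmem 2 _ ⟨(i, j, k), rfl⟩)
    rw [map_sub, map_add, hy, hy, hy] at h1
    exact h1
  · intro i j k
    have h1 := hσ1 (y i * y j - y k) (hmem 3 _ ⟨(i, j, k), rfl⟩)
    rw [map_sub, map_mul, hy, hy, hy] at h1
    exact h1
  · intro i k
    have h1 := hσ1 (star (y i) - y k) (hmem 4 _ ⟨(i, k), rfl⟩)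
    rw [map_sub, map_star, hy, hy] at h1
    exact h1
  · intro i k
    have h1 := hσ1 (Complex.I • y i - y k) (hmem 5 _ ⟨(i, k), rfl⟩)
    rw [map_sub, map_smul, hy, hy] at h1
    exact h1
  · intro k
    have h1 := hσ1 (1 - y k) (hmem 6 _ ⟨k, rfl⟩)
    rw [map_sub, map_one, hy] at h1
    exact h1
  · intro i j
    have h1 := hσ2 (y i) (hmem 0 _ ⟨i, rfl⟩) (y j) ⟨j, rfl⟩
    rw [hy j] at h1
    exact h1
  · intro g i j
    have h1 := hσ1 (seqMap (α g : A →⋆ₐ[ℂ] A) (y i) - y j) (hmem 8 _ ⟨(g, i, j), rfl⟩)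
    have h2 : reindex σ (seqMap (α g : A →⋆ₐ[ℂ] A) (y i) - y j) =
        seqMap (α g : A →⋆ₐ[ℂ] A) (reindex σ (y i)) - reindex σ (y j) := by
      ext n
      rfl
    rw [h2, map_sub, map_sub, ← ultraAct_mk, ← ultraAct_mk, hy, hy] at h1
    exact h1
  · intro i j
    have h1 := hσ3 (y i) (hmem 0 _ ⟨i, rfl⟩) (y j) ⟨j, rfl⟩
    rw [hy i, hy j] at h1
    exact h1

/-- Free equivariant copies from copies of sequences. -/
theorem hasFreeCopies_of_seq {G : Type*} [Group G] {B : Type*} [CStarAlgebra B]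
    (β : G →* (B ≃⋆ₐ[ℂ] B))
    (h : ∀ d : ℕ → B, ∃ ψ : ℕ → B,
      (∀ i j, ‖ψ i - ψ j‖ ≤ ‖d i - d j‖) ∧
      (∀ i j k, ‖ψ i + ψ j - ψ k‖ ≤ ‖d i + d j - d k‖) ∧
      (∀ i j k, ‖ψ i * ψ j - ψ k‖ ≤ ‖d i * d j - d k‖) ∧
      (∀ i k, ‖star (ψ i) - ψ k‖ ≤ ‖star (d i) - d k‖) ∧
      (∀ i k, ‖Complex.I • ψ i - ψ k‖ ≤ ‖Complex.I • d i - d k‖) ∧
      (∀ k, ‖1 - ψ k‖ ≤ ‖1 - d k‖) ∧
      (∀ i j, Commute (ψ i) (d j)) ∧
      (∀ g i j, ‖β g (ψ i) - ψ j‖ ≤ ‖β g (d i) - d j‖) ∧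
      ∀ i j, ‖ψ i * d j‖ = ‖d i‖ * ‖d j‖) : HasFreeCopies β := by
  intro S hS hsep _
  have : SeparableSpace S := hsep.separableSpace
  obtain ⟨d, hd⟩ := TopologicalSpace.exists_dense_seq S
  obtain ⟨ψ, h0, hadd, hmul, hstar, hI, hone, hcomm, hact, hfree⟩ := h (fun i => (d i : B))
  have hcs : ContinuousStar S :=
    ⟨Continuous.subtype_mk (continuous_star.comp continuous_subtype_val) _⟩
  obtain ⟨Φ, hΦ, hΦn⟩ := exists_hom_of_dense d hd ψ h0 hadd hmul hstar hI hone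
  have hΦc : Continuous Φ := AddMonoidHomClass.continuous_of_bound Φ 1
    (fun b => by rw [one_mul]; exact hΦn b)
  refine ⟨Φ, ?_, ?_, ?_⟩
  · intro x z
    refine hd.induction_on₂ (p := fun x z : S => Commute (Φ x) (z : B)) ?_ ?_ x z
    · exact isClosed_eq (by fun_prop) (by fun_prop)
    · intro i j
      rw [hΦ]
      exact hcomm i j
  · intro g x z hxz
    have hβ := continuous_act β g
    have key : ∀ x z : S, ‖β g (Φ x) - Φ z‖ ≤ ‖β g (x : B) - (z : B)‖ := by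
      intro x z
      refine hd.induction_on₂ (p := fun x z : S => ‖β g (Φ x) - Φ z‖ ≤ ‖β g (x : B) - (z : B)‖)
        ?_ ?_ x z
      · refine isClosed_le ?_ ?_
        · exact continuous_norm.comp (((hβ.comp hΦc).comp continuous_fst).sub
            (hΦc.comp continuous_snd))
        · exact continuous_norm.comp (((hβ.comp continuous_subtype_val).comp continuous_fst).sub
            (continuous_subtype_val.comp continuous_snd))
      · intro i j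
        rw [hΦ, hΦ]
        exact hact g i j
    have h1 := key x z
    rw [← hxz, sub_self, norm_zero] at h1
    exact (sub_eq_zero.1 (norm_le_zero_iff.1 h1)).symm
  · intro x z
    refine hd.induction_on₂ (p := fun x z : S => ‖Φ x * (z : B)‖ = ‖x‖ * ‖z‖) ?_ ?_ x z
    · exact isClosed_eq (by fun_prop) (by fun_prop)
    · intro i j
      rw [hΦ]
      exact hfree i j

theorem hasFreeCopies_centralSeq {G : Type*} [Group G] [Countable G] {A : Type u} [CStarAlgebra A]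
    [SeparableSpace A] [IsSimpleRing A] {ω : Ultrafilter ℕ} (hω : (ω : Filter ℕ) ≤ cofinite)
    (α : G →* (A ≃⋆ₐ[ℂ] A)) : HasFreeCopies (centralAct ω α) := by
  refine hasFreeCopies_of_seq _ fun d => ?_
  obtain ⟨ψ', hψc, h0, hadd, hmul, hstar, hI, hone, hcomm, hact, hfree⟩ := exists_free_seq hω α
    (fun i => (d i : Ultra ω A)) (fun i => (d i).2)
  refine ⟨fun i => ⟨ψ' i, hψc i⟩, h0, hadd, hmul, hstar, hI, hone, ?_, ?_, ?_⟩
  · intro i j
    rw [commute_iff_eq, Subtype.ext_iff]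
    exact hcomm i j
  · intro g i j
    have h1 := hact g i j
    rw [← coe_centralAct] at h1
    change ‖((centralAct ω α g ⟨ψ' i, hψc i⟩ : centralSeq ω A) : Ultra ω A) - ψ' j‖ ≤ _
    rw [coe_centralAct]
    exact h1
  · intro i j
    exact hfree i j

end Vale.Agent.P095
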