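import Vale.Agent.P095.SimpleNorm
import Vale.Agent.P095.Bumps

/-!
# P095: excisors with orthogonal orbits (row E7)
-/

open Filter Topology TopologicalSpace
open scoped BoundedContinuousFunction ComplexOrder

namespace Vale.Agent.P095

open Vale.Agent.P101

universe u

namespace Excis

/-- the cut-off data of a selfadjoint element of norm larger than `1/2` -/
theorem exists_cut {A : Type*} [CStarAlgebra A] (t : A) (ht : IsSelfAdjoint t)
    (hn : 1 / 2 < ‖t‖) :
    ∃ L Y X : A, L * t = Y ∧ t * L = Y ∧ ‖L‖ ≤ 2 ∧ ‖Y‖ ≤ 1 ∧ IsSelfAdjoint Y ∧ IsPos X ∧ X ≠ 0 ∧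
      Y * X = X := by
  have hch : Continuous (SimpleNorm.hcut (1 / 2)) := SimpleNorm.continuous_hcut (by norm_num)
  have hcf : Continuous (SimpleNorm.fcut (1 / 2)) := SimpleNorm.continuous_fcut (1 / 2)
  have hid : cfc (fun s : ℝ => s) t = t := cfc_id' ℝ t
  have e1 : cfc (fun s : ℝ => SimpleNorm.hcut (1 / 2) s * s) t =
      cfc (SimpleNorm.hcut (1 / 2)) t * t := by
    have := cfc_mul (SimpleNorm.hcut (1 / 2)) (fun s : ℝ => s) t hch.continuousOn
      continuous_id.continuousOn
    rwa [hid] at this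
  have e2 : cfc (fun s : ℝ => SimpleNorm.hcut (1 / 2) s * s) t =
      t * cfc (SimpleNorm.hcut (1 / 2)) t := by
    have := cfc_mul (fun s : ℝ => s) (SimpleNorm.hcut (1 / 2)) t
      continuous_id.continuousOn hch.continuousOn
    rw [hid] at this
    rw [← this]
    congr 1
    funext s
    ring
  have hchs : Continuous fun s : ℝ => SimpleNorm.hcut (1 / 2) s * s := hch.mul continuous_id
  have hsq : Continuous fun s : ℝ => √(SimpleNorm.fcut (1 / 2) s) :=
    Real.continuous_sqrt.comp hcf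
  have hf0 : ∀ s : ℝ, 0 ≤ SimpleNorm.fcut (1 / 2) s := fun s => le_max_left _ _
  refine ⟨cfc (SimpleNorm.hcut (1 / 2)) t, cfc (fun s : ℝ => SimpleNorm.hcut (1 / 2) s * s) t,
    cfc (SimpleNorm.fcut (1 / 2)) t, e1.symm, e2.symm, ?_, ?_, ?_, ?_, ?_, ?_⟩
  · refine norm_cfc_le (by norm_num) fun s _ => ?_
    have := SimpleNorm.abs_hcut_le (c := 1 / 2) (by norm_num) s
    rw [Real.norm_eq_abs]
    linarith
  · refine norm_cfc_le zero_le_one fun s _ => ?_
    have h0 : 0 < max (s ^ 2) ((1 / 2 : ℝ) ^ 2) :=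
      lt_of_lt_of_le (by norm_num) (le_max_right _ _)
    have h1 : SimpleNorm.hcut (1 / 2) s * s = s ^ 2 / max (s ^ 2) ((1 / 2 : ℝ) ^ 2) := by
      unfold SimpleNorm.hcut
      ring
    rw [h1, Real.norm_eq_abs, abs_of_nonneg (by positivity), div_le_one h0]
    exact le_max_left _ _
  · exact IsSelfAdjoint.cfc
  · have h1 : cfc (SimpleNorm.fcut (1 / 2)) t =
        cfc (fun s : ℝ => √(SimpleNorm.fcut (1 / 2) s)) t *
          cfc (fun s : ℝ => √(SimpleNorm.fcut (1 / 2) s)) t := by
      rw [← cfc_mul (fun s : ℝ => √(SimpleNorm.fcut (1 / 2) s))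
        (fun s : ℝ => √(SimpleNorm.fcut (1 / 2) s)) t hsq.continuousOn hsq.continuousOn]
      congr 1
      funext s
      exact (Real.mul_self_sqrt (hf0 s)).symm
    rw [h1]
    exact Bumps.isPos_mul_self IsSelfAdjoint.cfc
  · exact SimpleNorm.cut_ne_zero ht (by norm_num) hn
  · rw [← cfc_mul (fun s : ℝ => SimpleNorm.hcut (1 / 2) s * s) (SimpleNorm.fcut (1 / 2)) t
      hchs.continuousOn hcf.continuousOn]
    congr 1
    funext s
    exact SimpleNorm.hcut_mul (by norm_num) s

end Excis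

theorem exists_excisors {G : Type*} [Group G] [Countable G] {A : Type u} [CStarAlgebra A]
    [SeparableSpace A] [IsSimpleRing A] {ω : Ultrafilter ℕ} (α : G →* (A ≃⋆ₐ[ℂ] A)) {m : ℕ}
    (lam : Fin m → A →ₗ[ℂ] ℂ) (hlam : ∀ p, Excisable (lam p)) (F : Finset A) (K : Finset G)
    (hH : ∃ H : Fin m → centralSeq ω A, (∀ p, IsPos (H p)) ∧ (∀ p, ‖H p‖ = 1) ∧
      (∀ p q, p ≠ q → H p * H q = 0) ∧ ∀ p q, ∀ g ∈ K, H p * centralAct ω α g (H q) = 0)
    (δ : ℝ) (hδ : 0 < δ) :
    ∃ x y : Fin m → A, (∀ p, IsPos (x p)) ∧ (∀ p, x p ≠ 0) ∧ (∀ p, ‖y p‖ ≤ 1) ∧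
      (∀ p, IsSelfAdjoint (y p)) ∧ (∀ p, y p * x p = x p) ∧
      (∀ p, ∀ a ∈ F, ‖y p * a * y p - lam p a • (y p * y p)‖ ≤ δ) ∧
      (∀ p q, p ≠ q → ∀ a ∈ F, ‖y p * a * y q‖ ≤ δ) ∧
      ∀ p q, ∀ g ∈ K, ∀ a ∈ F, ‖y p * a * α g (y q)‖ ≤ δ := by
  classical
  obtain ⟨H, hH1, hH2, hH3, hH4⟩ := hH
  choose h hh using hH1
  choose v hv1 hv2 hv3 using fun p => hlam p F (δ / 8) (by positivity)
  choose w hw using hv1
  have hev : ∀ (z : ℕ →ᵇ A) (ε : ℝ), ‖Ultra.mk ω z‖ < ε → ∀ᶠ n in (ω : Filter ℕ), ‖z n‖ < ε :=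
    fun z ε hz => (Ultra.tendsto_norm_mk z).eventually (gt_mem_nhds hz)
  have hcomm : ∀ (a : A) (c : centralSeq ω A),
      Ultra.diag ω a * (c : Ultra ω A) = c * Ultra.diag ω a := fun a c =>
    (mem_centralSeq_iff.1 c.2 a).eq
  let Y : Fin m → Ultra ω A := fun p => Ultra.diag ω (w p) * (h p : Ultra ω A)
  have hHc : ∀ p, (H p : Ultra ω A) = star (h p : Ultra ω A) * h p := fun p =>
    congrArg Subtype.val (hh p)
  have hX : ∀ p, star (Y p) * Y p = Ultra.diag ω (v p) * (H p : Ultra ω A) := by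
    intro p
    show star (Ultra.diag ω (w p) * (h p : Ultra ω A)) * (Ultra.diag ω (w p) * (h p : Ultra ω A)) = _
    have h1 : star (h p : Ultra ω A) * Ultra.diag ω (star (w p) * w p) =
        Ultra.diag ω (star (w p) * w p) * star (h p : Ultra ω A) :=
      (hcomm (star (w p) * w p) (star (h p))).symm
    rw [star_mul, ← map_star, hHc, hw p]
    calc star (h p : Ultra ω A) * Ultra.diag ω (star (w p)) *
          (Ultra.diag ω (w p) * (h p : Ultra ω A))
        = star (h p : Ultra ω A) * Ultra.diag ω (star (w p) * w p) * (h p : Ultra ω A) := by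
          rw [map_mul]
          simp only [mul_assoc]
      _ = _ := by rw [h1, mul_assoc]
  have hXn : ∀ p, ‖Ultra.diag ω (v p) * (H p : Ultra ω A)‖ = 1 := by
    intro p
    rw [norm_diag_mul (v p) _ (H p).2, hv2 p, one_mul]
    exact hH2 p
  have hYn : ∀ p, ‖Y p‖ ≤ 1 := by
    intro p
    have h1 : ‖Y p‖ * ‖Y p‖ = 1 := by
      rw [← CStarRing.norm_star_mul_self, hX p, hXn p]
    nlinarith [norm_nonneg (Y p)]
  choose y hy hyn using fun p => Ultra.exists_rep (Y p)
  obtain ⟨t, htd⟩ : ∃ t : Fin m → (ℕ →ᵇ A), t = fun p => star (y p) * y p := ⟨_, rfl⟩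
  have ht : ∀ p, Ultra.mk ω (t p) = Ultra.diag ω (v p) * (H p : Ultra ω A) := by
    intro p
    rw [htd]
    show Ultra.mk ω (star (y p) * y p) = _
    rw [map_mul, map_star, hy, hX]
  have hHn : ∀ p, ‖(H p : Ultra ω A)‖ = 1 := hH2
  -- the four conditions
  have E1 : ∀ᶠ n in (ω : Filter ℕ), ∀ p, 1 / 2 < ‖t p n‖ := by
    rw [Filter.eventually_all]
    intro p
    have h1 := Ultra.tendsto_norm_mk (ω := ω) (t p)
    rw [ht, hXn] at h1
    exact h1.eventually (lt_mem_nhds (by norm_num))
  have E2 : ∀ᶠ n in (ω : Filter ℕ), ∀ p, ∀ a ∈ F,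
      ‖t p n * a * t p n - lam p a • (t p n * t p n)‖ < δ / 4 := by
    rw [Filter.eventually_all]
    intro p
    rw [Filter.eventually_all_finset]
    intro a ha
    refine hev (t p * Ultra.const a * t p - lam p a • (t p * t p)) (δ / 4) ?_
    rw [map_sub, map_mul, map_mul, map_smul, map_mul, ht, ← Ultra.diag_apply]
    have h1 : Ultra.diag ω (v p) * (H p : Ultra ω A) * Ultra.diag ω a *
        (Ultra.diag ω (v p) * (H p : Ultra ω A)) - lam p a • (Ultra.diag ω (v p) *
          (H p : Ultra ω A) * (Ultra.diag ω (v p) * (H p : Ultra ω A))) =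
        Ultra.diag ω (v p * a * v p - lam p a • (v p * v p)) *
          ((H p : Ultra ω A) * (H p : Ultra ω A)) := by
      rw [map_sub, map_smul, map_mul, map_mul, map_mul, sub_mul, smul_mul_assoc]
      congr 1
      · calc Ultra.diag ω (v p) * (H p : Ultra ω A) * Ultra.diag ω a *
              (Ultra.diag ω (v p) * (H p : Ultra ω A))
            = Ultra.diag ω (v p) * ((H p : Ultra ω A) * Ultra.diag ω (a * v p)) *
              (H p : Ultra ω A) := by
              rw [map_mul]
              simp only [mul_assoc]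
          _ = _ := by
              rw [← hcomm, map_mul]
              simp only [mul_assoc]
      · congr 1
        calc Ultra.diag ω (v p) * (H p : Ultra ω A) * (Ultra.diag ω (v p) * (H p : Ultra ω A))
            = Ultra.diag ω (v p) * ((H p : Ultra ω A) * Ultra.diag ω (v p)) *
              (H p : Ultra ω A) := by
              simp only [mul_assoc]
          _ = _ := by
              rw [← hcomm]
              simp only [mul_assoc]
    rw [h1]
    have h2 : ‖(H p : Ultra ω A) * (H p : Ultra ω A)‖ ≤ 1 := by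
      refine (norm_mul_le _ _).trans ?_
      rw [hHn, one_mul]
    calc ‖Ultra.diag ω (v p * a * v p - lam p a • (v p * v p)) *
          ((H p : Ultra ω A) * (H p : Ultra ω A))‖
        ≤ ‖Ultra.diag ω (v p * a * v p - lam p a • (v p * v p))‖ *
          ‖(H p : Ultra ω A) * (H p : Ultra ω A)‖ := norm_mul_le _ _
      _ ≤ (δ / 8) * 1 := by
          refine mul_le_mul ?_ h2 (norm_nonneg _) (by positivity)
          rw [Ultra.norm_diag]
          exact hv3 p a ha
      _ < δ / 4 := by linarith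
  have E3 : ∀ᶠ n in (ω : Filter ℕ), ∀ p q, p ≠ q → ∀ a ∈ F, ‖t p n * a * t q n‖ < δ / 4 := by
    rw [Filter.eventually_all]
    intro p
    rw [Filter.eventually_all]
    intro q
    by_cases hpq : p ≠ q
    · have h0 : ∀ᶠ n in (ω : Filter ℕ), ∀ a ∈ F, ‖t p n * a * t q n‖ < δ / 4 := by
        rw [Filter.eventually_all_finset]
        intro a ha
        refine hev (t p * Ultra.const a * t q) (δ / 4) ?_
        rw [map_mul, map_mul, ht, ht, ← Ultra.diag_apply]
        have h2 : (H p : Ultra ω A) * (H q : Ultra ω A) = 0 :=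
          congrArg Subtype.val (hH3 p q hpq)
        have h1 : Ultra.diag ω (v p) * (H p : Ultra ω A) * Ultra.diag ω a *
            (Ultra.diag ω (v q) * (H q : Ultra ω A)) = 0 := by
          calc Ultra.diag ω (v p) * (H p : Ultra ω A) * Ultra.diag ω a *
                (Ultra.diag ω (v q) * (H q : Ultra ω A))
              = Ultra.diag ω (v p) * ((H p : Ultra ω A) * Ultra.diag ω (a * v q)) *
                (H q : Ultra ω A) := by
                rw [map_mul]
                simp only [mul_assoc]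
            _ = Ultra.diag ω (v p) * Ultra.diag ω (a * v q) *
                ((H p : Ultra ω A) * (H q : Ultra ω A)) := by
                rw [← hcomm]
                simp only [mul_assoc]
            _ = 0 := by rw [h2, mul_zero]
        rw [h1, norm_zero]
        positivity
      filter_upwards [h0] with n hn _
      exact hn
    · exact Eventually.of_forall fun n h => absurd h hpq
  have E4 : ∀ᶠ n in (ω : Filter ℕ), ∀ p q, ∀ g ∈ K, ∀ a ∈ F,
      ‖t p n * a * α g (t q n)‖ < δ / 4 := by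
    rw [Filter.eventually_all]
    intro p
    rw [Filter.eventually_all]
    intro q
    rw [Filter.eventually_all_finset]
    intro g hg
    rw [Filter.eventually_all_finset]
    intro a ha
    refine hev (t p * Ultra.const a * seqMap (α g : A →⋆ₐ[ℂ] A) (t q)) (δ / 4) ?_
    rw [map_mul, map_mul, ← ultraAct_mk, ht, ht, ← Ultra.diag_apply, map_mul, ultraAct_diag]
    have h2 : (H p : Ultra ω A) * ultraAct ω α g (H q : Ultra ω A) = 0 :=
      congrArg Subtype.val (hH4 p q g hg)
    have h1 : Ultra.diag ω (v p) * (H p : Ultra ω A) * Ultra.diag ω a *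
        (Ultra.diag ω (α g (v q)) * ultraAct ω α g (H q : Ultra ω A)) = 0 := by
      calc Ultra.diag ω (v p) * (H p : Ultra ω A) * Ultra.diag ω a *
            (Ultra.diag ω (α g (v q)) * ultraAct ω α g (H q : Ultra ω A))
          = Ultra.diag ω (v p) * ((H p : Ultra ω A) * Ultra.diag ω (a * α g (v q))) *
            ultraAct ω α g (H q : Ultra ω A) := by
            rw [map_mul]
            simp only [mul_assoc]
        _ = Ultra.diag ω (v p) * Ultra.diag ω (a * α g (v q)) *
            ((H p : Ultra ω A) * ultraAct ω α g (H q : Ultra ω A)) := by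
            rw [← hcomm]
            simp only [mul_assoc]
        _ = 0 := by rw [h2, mul_zero]
    rw [h1, norm_zero]
    positivity
  obtain ⟨n, hn1, hn2, hn3, hn4⟩ := (E1.and (E2.and (E3.and E4))).exists
  have htn : ∀ p, IsSelfAdjoint (t p n) := fun p => by
    rw [htd]
    exact IsSelfAdjoint.star_mul_self (y p n)
  choose L Yc X c1 c2 c3 c4 c5 c6 c7 c8 using fun p => Excis.exists_cut (t p n) (htn p) (hn1 p)
  have key : ∀ (L₁ L₂ b : A), ‖L₁‖ ≤ 2 → ‖L₂‖ ≤ 2 → ‖b‖ < δ / 4 → ‖L₁ * b * L₂‖ ≤ δ := by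
    intro L₁ L₂ b h1 h2 h3
    calc ‖L₁ * b * L₂‖ ≤ ‖L₁‖ * ‖b‖ * ‖L₂‖ :=
          (norm_mul_le _ _).trans (mul_le_mul_of_nonneg_right (norm_mul_le _ _) (norm_nonneg _))
      _ ≤ 2 * (δ / 4) * 2 := by
          refine mul_le_mul (mul_le_mul h1 h3.le (norm_nonneg _) (by norm_num)) h2
            (norm_nonneg _) (by positivity)
      _ = δ := by ring
  refine ⟨X, Yc, c6, c7, c4, c5, c8, ?_, ?_, ?_⟩
  · intro p a ha
    have h1 : Yc p * a * Yc p - lam p a • (Yc p * Yc p) =
        L p * (t p n * a * t p n - lam p a • (t p n * t p n)) * L p := by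
      rw [mul_sub, sub_mul, mul_smul_comm, smul_mul_assoc]
      congr 1
      · nth_rewrite 1 [← c1 p]
        rw [← c2 p]
        simp only [mul_assoc]
      · congr 1
        nth_rewrite 1 [← c1 p]
        rw [← c2 p]
        simp only [mul_assoc]
    rw [h1]
    exact key _ _ _ (c3 p) (c3 p) (hn2 p a ha)
  · intro p q hpq a ha
    have h1 : Yc p * a * Yc q = L p * (t p n * a * t q n) * L q := by
      rw [← c1 p, ← c2 q]
      simp only [mul_assoc]
    rw [h1]
    exact key _ _ _ (c3 p) (c3 q) (hn3 p q hpq a ha)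
  · intro p q g hg a ha
    have h1 : Yc p * a * α g (Yc q) = L p * (t p n * a * α g (t q n)) * α g (L q) := by
      rw [← c1 p, ← c2 q, map_mul]
      simp only [mul_assoc]
    rw [h1]
    have h2 : ‖α g (L q)‖ ≤ 2 := (norm_act α g (L q)).le.trans (c3 q)
    exact key _ _ _ (c3 p) h2 (hn4 p q g hg a ha)

end Vale.Agent.P095
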