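import Vale.Agent.P095.SeedSeq

/-!
# P095: independent fixed labels (row C1)
-/

open Filter Topology TopologicalSpace
open scoped BoundedContinuousFunction ComplexOrder

namespace Vale.Agent.P095

open Vale.Agent.P101

universe u v w

namespace Lab

variable {G : Type*} [Group G] {B : Type u} [CStarAlgebra B] {β : G →* (B ≃⋆ₐ[ℂ] B)}
  {T : Set (B →ₗ[ℂ] ℂ)} {J : Set B}

/-! ### The null ideal -/

theorem mem_iff (sys : TracialSystem β T J) {x : B} : x ∈ J ↔ ∀ τ ∈ T, ∀ y, τ (y * x) = 0 := by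
  rw [sys.null]
  constructor
  · intro h τ hτ y
    exact map_mul_eq_zero_of_null (sys.trace τ hτ).nonneg (h τ hτ) y
  · intro h τ hτ
    exact h τ hτ _

theorem zero_mem (sys : TracialSystem β T J) : (0 : B) ∈ J := by
  rw [mem_iff sys]
  intro τ _ y
  rw [mul_zero, map_zero]

theorem add_mem (sys : TracialSystem β T J) {x y : B} (hx : x ∈ J) (hy : y ∈ J) : x + y ∈ J := by
  rw [mem_iff sys] at *
  intro τ hτ z
  rw [mul_add, map_add, hx τ hτ, hy τ hτ, add_zero]

theorem sub_mem (sys : TracialSystem β T J) {x y : B} (hx : x ∈ J) (hy : y ∈ J) : x - y ∈ J := by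
  rw [mem_iff sys] at *
  intro τ hτ z
  rw [mul_sub, map_sub, hx τ hτ, hy τ hτ, sub_zero]

theorem mul_mem_left (sys : TracialSystem β T J) (a : B) {x : B} (hx : x ∈ J) : a * x ∈ J := by
  rw [mem_iff sys] at *
  intro τ hτ z
  rw [← mul_assoc]
  exact hx τ hτ _

theorem mul_mem_right (sys : TracialSystem β T J) (a : B) {x : B} (hx : x ∈ J) : x * a ∈ J := by
  rw [mem_iff sys] at *
  intro τ hτ z
  rw [← mul_assoc, (sys.trace τ hτ).trace, ← mul_assoc]
  exact hx τ hτ _

theorem sum_mem (sys : TracialSystem β T J) {κ : Type*} (s : Finset κ) (f : κ → B)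
    (h : ∀ k ∈ s, f k ∈ J) : ∑ k ∈ s, f k ∈ J := by
  classical
  induction s using Finset.induction_on with
  | empty => exact zero_mem sys
  | insert a s ha ih =>
    rw [Finset.sum_insert ha]
    exact add_mem sys (h a (Finset.mem_insert_self a s))
      (ih fun k hk => h k (Finset.mem_insert_of_mem hk))

theorem tr_eq_zero (sys : TracialSystem β T J) {x : B} (hx : x ∈ J) {τ : B →ₗ[ℂ] ℂ} (hτ : τ ∈ T)
    (b : B) : τ (b * x) = 0 := (mem_iff sys).1 hx τ hτ b

/-! ### Functions of a sign -/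

theorem spec_sub {s : B} (h1 : ‖s‖ ≤ 1) : ∀ x ∈ spectrum ℝ s, x ∈ Set.Icc (-1 : ℝ) 1 := by
  intro x hx
  rcases subsingleton_or_nontrivial B with hB | hB
  · exfalso
    rw [spectrum.of_subsingleton] at hx
    exact hx
  · have := (spectrum.norm_le_norm_of_mem hx).trans h1
    rw [Real.norm_eq_abs, abs_le] at this
    exact this

theorem cfc_sa (f : ℝ → ℝ) (s : B) : star (cfc f s) = cfc f s :=
  (cfc_predicate f s : IsSelfAdjoint _).star_eq

/-- A nonnegative function of a sign has a square root. -/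
theorem cfc_sq {s : B} (h1 : ‖s‖ ≤ 1) {f : ℝ → ℝ} (hf : Continuous f)
    (h0 : ∀ x ∈ Set.Icc (-1 : ℝ) 1, 0 ≤ f x) :
    cfc f s = star (cfc (fun x => √(f x)) s) * cfc (fun x => √(f x)) s := by
  rw [cfc_sa, ← cfc_mul (fun x => √(f x)) (fun x => √(f x)) s (by fun_prop) (by fun_prop)]
  apply cfc_congr
  intro x hx
  exact (Real.mul_self_sqrt (h0 x (spec_sub h1 x hx))).symm

theorem norm_cfc_le_one {s : B} (h1 : ‖s‖ ≤ 1) {f : ℝ → ℝ}
    (h0 : ∀ x ∈ Set.Icc (-1 : ℝ) 1, |f x| ≤ 1) : ‖cfc f s‖ ≤ 1 :=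
  norm_cfc_le zero_le_one fun x hx => h0 x (spec_sub h1 x hx)

theorem null_cfc (sys : TracialSystem β T J) {s : B} (hs : IsSelfAdjoint s) (h1 : ‖s‖ ≤ 1)
    (hJ : 1 - s * s ∈ J) {f : ℝ → ℝ} (hf : Continuous f)
    (h0 : ∀ x ∈ Set.Icc (-1 : ℝ) 1, f x * f x ≤ 4 * (1 - x * x)) : cfc f s ∈ J := by
  rw [sys.null]
  intro τ hτ
  have htr := sys.trace τ hτ
  rw [cfc_sa]
  have e1 : cfc (fun x : ℝ => 4 * (1 - x * x)) s = (4 : ℝ) • (1 - s * s) := by
    rw [cfc_const_mul (4 : ℝ) (fun x => 1 - x * x) s (by fun_prop),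
      cfc_sub (fun _ => (1 : ℝ)) (fun x => x * x) s (by fun_prop) (by fun_prop),
      cfc_const_one ℝ s, cfc_mul (fun x : ℝ => x) (fun x => x) s (by fun_prop) (by fun_prop),
      cfc_id' ℝ s]
  have e2 : cfc (fun x : ℝ => 4 * (1 - x * x) - f x * f x) s =
      (4 : ℝ) • (1 - s * s) - cfc f s * cfc f s := by
    rw [cfc_sub (fun x : ℝ => 4 * (1 - x * x)) (fun x => f x * f x) s (by fun_prop)
      (by fun_prop), e1, cfc_mul f f s (by fun_prop) (by fun_prop)]
  have h2 : 0 ≤ τ (cfc (fun x : ℝ => 4 * (1 - x * x) - f x * f x) s) := by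
    rw [cfc_sq h1 (by fun_prop) (fun x hx => by have := h0 x hx; linarith)]
    exact htr.nonneg _
  have h3 : τ (1 - s * s) = 0 := by
    have := tr_eq_zero sys hJ hτ 1
    rwa [one_mul] at this
  rw [e2, map_sub, LinearMap.map_smul_of_tower, h3, smul_zero, zero_sub, neg_nonneg] at h2
  have h4 : 0 ≤ τ (cfc f s * cfc f s) := by
    have := htr.nonneg (cfc f s)
    rwa [cfc_sa] at this
  exact le_antisymm h2 h4

/-- the functions -/
noncomputable def hh (x : ℝ) : ℝ := max 0 (min 1 (2 * x))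

noncomputable def hk (x : ℝ) : ℝ := max 0 (min 1 (2 * x - 1))

theorem continuous_hh : Continuous hh := by unfold hh; fun_prop

theorem continuous_hk : Continuous hk := by unfold hk; fun_prop

noncomputable def uu (σ : Bool) (x : ℝ) : ℝ := if σ then hh x else hh (-x)

noncomputable def uk (σ : Bool) (x : ℝ) : ℝ := if σ then hk x else hk (-x)

theorem continuous_uu (σ : Bool) : Continuous (uu σ) := by
  cases σ
  · exact continuous_hh.comp continuous_neg
  · exact continuous_hh

theorem continuous_uk (σ : Bool) : Continuous (uk σ) := by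
  cases σ
  · exact continuous_hk.comp continuous_neg
  · exact continuous_hk

theorem hh_mem (x : ℝ) : 0 ≤ hh x ∧ hh x ≤ 1 := by
  unfold hh
  exact ⟨le_max_left _ _, max_le zero_le_one (min_le_left _ _)⟩

theorem hk_mem (x : ℝ) : 0 ≤ hk x ∧ hk x ≤ 1 := by
  unfold hk
  exact ⟨le_max_left _ _, max_le zero_le_one (min_le_left _ _)⟩

theorem uu_mem (σ : Bool) (x : ℝ) : 0 ≤ uu σ x ∧ uu σ x ≤ 1 := by
  cases σ
  · exact hh_mem _
  · exact hh_mem _

theorem uk_mem (σ : Bool) (x : ℝ) : 0 ≤ uk σ x ∧ uk σ x ≤ 1 := by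
  cases σ
  · exact hk_mem _
  · exact hk_mem _

theorem hh_mul_hk (x : ℝ) : hh x * hk x = hk x := by
  unfold hh hk
  rcases le_total (2 * x) 1 with h | h
  · rw [min_eq_right (by linarith : 2 * x - 1 ≤ 1), max_eq_left (by linarith : 2 * x - 1 ≤ 0),
      mul_zero]
  · rw [min_eq_left h, max_eq_right (zero_le_one), one_mul]

theorem uu_mul_uk (σ : Bool) (x : ℝ) : uu σ x * uk σ x = uk σ x := by
  cases σ
  · exact hh_mul_hk _
  · exact hh_mul_hk _

theorem hh_mul_neg (x : ℝ) : hh x * hh (-x) = 0 := by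
  unfold hh
  rcases le_total x 0 with h | h
  · rw [min_eq_right (by linarith : 2 * x ≤ 1), max_eq_left (by linarith : 2 * x ≤ 0), zero_mul]
  · rw [min_eq_right (by linarith : 2 * -x ≤ 1), max_eq_left (by linarith : 2 * -x ≤ 0),
      mul_zero]

theorem uu_mul_ne {σ σ' : Bool} (h : σ ≠ σ') (x : ℝ) : uu σ x * uu σ' x = 0 := by
  cases σ <;> cases σ' <;> simp only [ne_eq, not_true_eq_false, reduceCtorEq,
    not_false_eq_true] at h
  · show hh (-x) * hh x = 0
    rw [mul_comm]
    exact hh_mul_neg x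
  · exact hh_mul_neg x

theorem hh_idem (x : ℝ) (hx : x ∈ Set.Icc (-1 : ℝ) 1) :
    (hh x * hh x - hh x) * (hh x * hh x - hh x) ≤ 4 * (1 - x * x) := by
  obtain ⟨h1, h2⟩ := hx
  unfold hh
  rcases le_total (2 * x) 0 with h | h
  · rw [min_eq_right (by linarith : 2 * x ≤ 1), max_eq_left (by linarith : 2 * x ≤ 0)]
    nlinarith
  · rcases le_total (2 * x) 1 with h' | h'
    · rw [min_eq_right h', max_eq_right h]
      have h3 : 0 ≤ 2 * x * (1 - 2 * x) := mul_nonneg h (by linarith)
      have h4 : 2 * x * (1 - 2 * x) ≤ 1 := by nlinarith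
      nlinarith
    · rw [min_eq_left h', max_eq_right zero_le_one]
      nlinarith

theorem uu_idem (σ : Bool) (x : ℝ) (hx : x ∈ Set.Icc (-1 : ℝ) 1) :
    (uu σ x * uu σ x - uu σ x) * (uu σ x * uu σ x - uu σ x) ≤ 4 * (1 - x * x) := by
  cases σ
  · have := hh_idem (-x) ⟨by linarith [hx.2], by linarith [hx.1]⟩
    rw [neg_mul_neg] at this
    exact this
  · exact hh_idem x hx

theorem hh_sub (x : ℝ) (hx : x ∈ Set.Icc (-1 : ℝ) 1) :
    (hh x - (1 + x) / 2) * (hh x - (1 + x) / 2) ≤ 4 * (1 - x * x) := by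
  obtain ⟨h1, h2⟩ := hx
  unfold hh
  rcases le_total (2 * x) 0 with h | h
  · rw [min_eq_right (by linarith : 2 * x ≤ 1), max_eq_left (by linarith : 2 * x ≤ 0)]
    nlinarith
  · rcases le_total (2 * x) 1 with h' | h'
    · rw [min_eq_right h', max_eq_right h]
      nlinarith
    · rw [min_eq_left h', max_eq_right zero_le_one]
      nlinarith

theorem hk_sub (x : ℝ) (hx : x ∈ Set.Icc (-1 : ℝ) 1) :
    (hk x - (1 + x) / 2) * (hk x - (1 + x) / 2) ≤ 4 * (1 - x * x) := by
  obtain ⟨h1, h2⟩ := hx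
  unfold hk
  rcases le_total (2 * x) 1 with h | h
  · rw [min_eq_right (by linarith : 2 * x - 1 ≤ 1), max_eq_left (by linarith : 2 * x - 1 ≤ 0)]
    rcases le_total x 0 with h' | h'
    · nlinarith
    · nlinarith
  · rw [min_eq_right (by linarith : 2 * x - 1 ≤ 1), max_eq_right (by linarith)]
    nlinarith

/-- `(1 ± x) / 2` -/
noncomputable def lin (σ : Bool) (x : ℝ) : ℝ := if σ then (1 + x) / 2 else (1 + -x) / 2

theorem continuous_lin (σ : Bool) : Continuous (lin σ) := by
  cases σ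
  · show Continuous fun x : ℝ => (1 + -x) / 2
    fun_prop
  · show Continuous fun x : ℝ => (1 + x) / 2
    fun_prop

theorem uu_sub (σ : Bool) (x : ℝ) (hx : x ∈ Set.Icc (-1 : ℝ) 1) :
    (uu σ x - lin σ x) * (uu σ x - lin σ x) ≤ 4 * (1 - x * x) := by
  cases σ
  · have := hh_sub (-x) ⟨by linarith [hx.2], by linarith [hx.1]⟩
    rw [neg_mul_neg] at this
    exact this
  · exact hh_sub x hx

theorem uk_sub (σ : Bool) (x : ℝ) (hx : x ∈ Set.Icc (-1 : ℝ) 1) :
    (uk σ x - lin σ x) * (uk σ x - lin σ x) ≤ 4 * (1 - x * x) := by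
  cases σ
  · have := hk_sub (-x) ⟨by linarith [hx.2], by linarith [hx.1]⟩
    rw [neg_mul_neg] at this
    exact this
  · exact hk_sub x hx

theorem cfc_lin_true {s : B} (hs : IsSelfAdjoint s) :
    cfc (lin true) s = (2 : ℂ)⁻¹ • (1 + s) := by
  have : lin true = fun x : ℝ => (2 : ℝ)⁻¹ * (1 + x) := by
    funext x
    show (1 + x) / 2 = _
    ring
  rw [this, cfc_const_mul (2 : ℝ)⁻¹ (fun x => 1 + x) s (by fun_prop),
    cfc_add s (fun _ => (1 : ℝ)) (fun x => x) (by fun_prop) (by fun_prop), cfc_const_one ℝ s,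
    cfc_id' ℝ s, ← Complex.coe_smul]
  norm_num

theorem cfc_lin_false {s : B} (hs : IsSelfAdjoint s) :
    cfc (lin false) s = (2 : ℂ)⁻¹ • (1 - s) := by
  have : lin false = fun x : ℝ => (2 : ℝ)⁻¹ * (1 - x) := by
    funext x
    show (1 + -x) / 2 = _
    ring
  rw [this, cfc_const_mul (2 : ℝ)⁻¹ (fun x => 1 - x) s (by fun_prop),
    cfc_sub (fun _ => (1 : ℝ)) (fun x => x) s (by fun_prop) (by fun_prop), cfc_const_one ℝ s,
    cfc_id' ℝ s, ← Complex.coe_smul]
  norm_num

theorem tr_lin {τ : B →ₗ[ℂ] ℂ} {s : B} (hs : IsSelfAdjoint s) {b : B} (h : τ (b * s) = 0)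
    (σ : Bool) : τ (b * cfc (lin σ) s) = τ b / 2 := by
  cases σ
  · rw [cfc_lin_false hs, mul_smul_comm, map_smul, mul_sub, map_sub, mul_one, h, sub_zero,
      smul_eq_mul]
    ring
  · rw [cfc_lin_true hs, mul_smul_comm, map_smul, mul_add, map_add, mul_one, h, add_zero,
      smul_eq_mul]
    ring

/-! ### Independent projections -/

/-- a sign independent of `S` -/
structure IsSign (β : G →* (B ≃⋆ₐ[ℂ] B)) (T : Set (B →ₗ[ℂ] ℂ)) (J : Set B)
    (S : StarSubalgebra ℂ B) (s : B) : Prop where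
  sa : IsSelfAdjoint s
  norm : ‖s‖ ≤ 1
  fix : ∀ g, β g s = s
  comm : ∀ x ∈ S, Commute s x
  null : 1 - s * s ∈ J
  tr : ∀ τ ∈ T, ∀ b ∈ S, τ (b * s) = 0

theorem exists_sign (hs : HasFixedSigns β T J) (S : StarSubalgebra ℂ B)
    (hS : IsClosed (S : Set B)) (hsep : IsSeparable (S : Set B)) : ∃ s, IsSign β T J S s := by
  obtain ⟨s, h1, h2, h3, h4, h5, h6⟩ := hs S hS hsep
  exact ⟨s, h1, h2, h3, h4, h5, h6⟩

theorem fix_cfc {S : StarSubalgebra ℂ B} {s : B} (h : IsSign β T J S s) {f : ℝ → ℝ}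
    (hf : Continuous f) (g : G) : β g (cfc f s) = cfc f s := by
  have h1 := StarAlgHomClass.map_cfc (β g : B →⋆ₐ[ℂ] B) f s (by fun_prop)
    (continuous_act β g) (h.sa) (by
      show IsSelfAdjoint (β g s)
      rw [h.fix g]
      exact h.sa)
  have h2 : β g (cfc f s) = cfc f (β g s) := h1
  rw [h2, h.fix g]

/-- the next algebra -/
noncomputable def nx (S : StarSubalgebra ℂ B) (s : B) : StarSubalgebra ℂ B :=
  cgen ((S : Set B) ∪ {s})

theorem le_nx (S : StarSubalgebra ℂ B) (s : B) : S ≤ nx S s :=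
  fun _ hx => subset_cgen _ (Or.inl hx)

theorem mem_nx (S : StarSubalgebra ℂ B) (s : B) : s ∈ nx S s := subset_cgen _ (Or.inr rfl)

theorem isClosed_nx (S : StarSubalgebra ℂ B) (s : B) : IsClosed (nx S s : Set B) :=
  isClosed_cgen _

theorem isSeparable_nx {S : StarSubalgebra ℂ B} (hsep : IsSeparable (S : Set B)) (s : B) :
    IsSeparable (nx S s : Set B) :=
  isSeparable_cgen (hsep.union (Set.countable_singleton s).isSeparable)

theorem cfc_mem_nx (S : StarSubalgebra ℂ B) (s : B) (f : ℝ → ℝ) : cfc f s ∈ nx S s := by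
  have := isClosed_nx S s
  exact cfc_mem (𝕜 := ℝ) (𝕜' := ℂ) f (mem_nx S s)

/-- Independent fixed projections (modulo `J`). -/
theorem exists_rho (sys : TracialSystem β T J) (hs : HasFixedSigns β T J) (m : ℕ) :
    ∀ S : StarSubalgebra ℂ B, IsClosed (S : Set B) → IsSeparable (S : Set B) →
    ∃ ρ : Fin m → B, (∀ j g, β g (ρ j) = ρ j) ∧
      (∀ j, ∃ y, ρ j = star y * y ∧ ‖y‖ ≤ 1 ∧ ∃ y', 1 - ρ j = star y' * y') ∧
      (∀ j, ρ j * ρ j - ρ j ∈ J) ∧ (∀ x ∈ S, ∀ j, Commute x (ρ j)) ∧
      (∀ j j', Commute (ρ j) (ρ j')) ∧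
      ∀ τ ∈ T, ∀ b ∈ S, ∀ e : Fin m → Bool,
        τ (b * (List.ofFn fun j => if e j then ρ j else 1 - ρ j).prod) = τ b / 2 ^ m := by
  induction m with
  | zero =>
    intro S _ _
    refine ⟨fun _ => 0, fun j => j.elim0, fun j => j.elim0, fun j => j.elim0,
      fun _ _ j => j.elim0, fun j => j.elim0, ?_⟩
    intro τ _ b _ e
    rw [List.ofFn_zero, List.prod_nil, mul_one, pow_zero, div_one]
  | succ m ih =>
    intro S hS hsep
    obtain ⟨s, hsg⟩ := exists_sign hs S hS hsep
    obtain ⟨ρ, h1, h2, h3, h4, h5, h6⟩ := ih (nx S s) (isClosed_nx S s) (isSeparable_nx hsep s)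
    set r := cfc (lin true) s with hr
    have hrm : r ∈ nx S s := cfc_mem_nx S s _
    have hr1 : 1 - r = cfc (lin false) s := by
      rw [hr, cfc_lin_true hsg.sa, cfc_lin_false hsg.sa]
      have : (1 : B) = (2 : ℂ)⁻¹ • (1 + 1) := by
        rw [← two_smul ℂ (1 : B), smul_smul, inv_mul_cancel₀ two_ne_zero, one_smul]
      nth_rw 1 [this]
      rw [← smul_sub]
      congr 1
      abel
    have hpos : ∀ σ, ∀ x ∈ Set.Icc (-1 : ℝ) 1, 0 ≤ lin σ x ∧ lin σ x ≤ 1 := by
      intro σ x hx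
      cases σ
      · show 0 ≤ (1 + -x) / 2 ∧ (1 + -x) / 2 ≤ 1
        constructor <;> linarith [hx.1, hx.2]
      · show 0 ≤ (1 + x) / 2 ∧ (1 + x) / 2 ≤ 1
        constructor <;> linarith [hx.1, hx.2]
    refine ⟨Fin.cons r ρ, ?_, ?_, ?_, ?_, ?_, ?_⟩
    · intro j g
      refine Fin.cases ?_ (fun j => ?_) j
      · rw [Fin.cons_zero]
        exact fix_cfc hsg (continuous_lin true) g
      · rw [Fin.cons_succ]
        exact h1 j g
    · intro j
      refine Fin.cases ?_ (fun j => ?_) j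
      · rw [Fin.cons_zero]
        have h7 : 1 - r = star (cfc (fun x => √(lin false x)) s) *
            cfc (fun x => √(lin false x)) s := by
          rw [hr1]
          exact cfc_sq hsg.norm (continuous_lin false) (fun x hx => (hpos false x hx).1)
        refine ⟨_, cfc_sq hsg.norm (continuous_lin true) (fun x hx => (hpos true x hx).1), ?_,
          _, h7⟩
        refine norm_cfc_le_one hsg.norm fun x hx => ?_
        rw [abs_of_nonneg (Real.sqrt_nonneg _)]
        exact Real.sqrt_le_one.2 (hpos true x hx).2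
      · rw [Fin.cons_succ]
        exact h2 j
    · intro j
      refine Fin.cases ?_ (fun j => ?_) j
      · rw [Fin.cons_zero, hr, ← cfc_mul (lin true) (lin true) s
          (continuous_lin true).continuousOn (continuous_lin true).continuousOn,
          ← cfc_sub (fun x => lin true x * lin true x) (lin true) s
          ((continuous_lin true).mul (continuous_lin true)).continuousOn
          (continuous_lin true).continuousOn]
        refine null_cfc sys hsg.sa hsg.norm hsg.null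
          (((continuous_lin true).mul (continuous_lin true)).sub (continuous_lin true)) ?_
        intro x hx
        show ((1 + x) / 2 * ((1 + x) / 2) - (1 + x) / 2) *
          ((1 + x) / 2 * ((1 + x) / 2) - (1 + x) / 2) ≤ 4 * (1 - x * x)
        have h7 : (1 + x) / 2 * ((1 + x) / 2) - (1 + x) / 2 = -(1 - x * x) / 4 := by ring
        rw [h7]
        have h8 : 0 ≤ 1 - x * x := by nlinarith [hx.1, hx.2]
        have h9 : 1 - x * x ≤ 1 := by nlinarith
        nlinarith
      · rw [Fin.cons_succ]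
        exact h3 j
    · intro x hx j
      refine Fin.cases ?_ (fun j => ?_) j
      · rw [Fin.cons_zero]
        exact ((hsg.comm x hx).cfc_real _).symm
      · rw [Fin.cons_succ]
        exact h4 x (le_nx S s hx) j
    · intro j j'
      refine Fin.cases ?_ (fun j => ?_) j
      · refine Fin.cases ?_ (fun j' => ?_) j'
        · exact Commute.refl _
        · rw [Fin.cons_zero, Fin.cons_succ]
          exact h4 r hrm j'
      · refine Fin.cases ?_ (fun j' => ?_) j'
        · rw [Fin.cons_zero, Fin.cons_succ]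
          exact (h4 r hrm j).symm
        · rw [Fin.cons_succ, Fin.cons_succ]
          exact h5 j j'
    · intro τ hτ b hb e
      rw [List.ofFn_succ, List.prod_cons, ← mul_assoc]
      simp only [Fin.cons_zero, Fin.cons_succ]
      have h7 : (if e 0 then r else 1 - r) = cfc (lin (e 0)) s := by
        cases e 0
        · exact hr1
        · rfl
      rw [h7, h6 τ hτ _ (mul_mem (le_nx S s hb) (cfc_mem_nx S s _)) (fun j => e j.succ),
        tr_lin hsg.sa (hsg.tr τ hτ b hb), pow_succ]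
      ring

/-! ### Partitions of unity -/

theorem fns_prod {S : StarSubalgebra ℂ B} {s : B} (_ : IsSign β T J S s) (f g : ℝ → ℝ)
    (hf : Continuous f) (hg : Continuous g) : cfc f s * cfc g s = cfc (fun x => f x * g x) s :=
  (cfc_mul f g s hf.continuousOn hg.continuousOn).symm

/-- `R, R'` is a partition of unity modulo `J`, contained in `S'` and independent of `S`. -/
structure IsPart (β : G →* (B ≃⋆ₐ[ℂ] B)) (T : Set (B →ₗ[ℂ] ℂ)) (J : Set B)
    (S S' : StarSubalgebra ℂ B) (n : ℕ) (R R' : Fin n → B) : Prop where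
  le : S ≤ S'
  closed : IsClosed (S' : Set B)
  sep : IsSeparable (S' : Set B)
  mem : ∀ k, R k ∈ S'
  mem' : ∀ k, R' k ∈ S'
  fix : ∀ k g, β g (R k) = R k ∧ β g (R' k) = R' k
  pos : ∀ k, ∃ y, R k = star y * y
  norm : ∀ k, ‖R k‖ ≤ 1
  pos' : ∀ k, ∃ y, R' k = star y * y ∧ ‖y‖ ≤ 1
  mul : ∀ k, R k * R' k = R' k ∧ R' k * R k = R' k
  orth : ∀ k k', k ≠ k' → R k * R k' = 0
  sub : ∀ k, R k - R' k ∈ J
  sum : 1 - ∑ k, R' k ∈ J
  idem : ∀ k, R k * R k - R k ∈ J
  comm : ∀ x ∈ S, ∀ k, Commute x (R k) ∧ Commute x (R' k)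
  tr : ∀ τ ∈ T, ∀ b ∈ S, ∀ k, τ (b * R k) = τ b / n

theorem isPart_one (sys : TracialSystem β T J) (S : StarSubalgebra ℂ B)
    (hS : IsClosed (S : Set B)) (hsep : IsSeparable (S : Set B)) :
    IsPart β T J S S 1 (fun _ => 1) (fun _ => 1) where
  le := le_rfl
  closed := hS
  sep := hsep
  mem _ := one_mem S
  mem' _ := one_mem S
  fix _ g := ⟨map_one (β g), map_one (β g)⟩
  pos _ := ⟨1, by rw [star_one, one_mul]⟩
  norm _ := by
    rcases subsingleton_or_nontrivial B with hB | hB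
    · rw [Subsingleton.elim (1 : B) 0, norm_zero]
      exact zero_le_one
    · rw [norm_one]
  pos' _ := ⟨1, by rw [star_one, one_mul], by
    rcases subsingleton_or_nontrivial B with hB | hB
    · rw [Subsingleton.elim (1 : B) 0, norm_zero]
      exact zero_le_one
    · rw [norm_one]⟩
  mul _ := ⟨mul_one _, mul_one _⟩
  orth k k' h := (h (Subsingleton.elim k k')).elim
  sub _ := by rw [sub_self]; exact zero_mem sys
  sum := by
    rw [Fin.sum_univ_one, sub_self]
    exact zero_mem sys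
  idem _ := by rw [mul_one, sub_self]; exact zero_mem sys
  comm x _ _ := ⟨Commute.one_right x, Commute.one_right x⟩
  tr τ _ b _ _ := by rw [mul_one, Nat.cast_one, div_one]

theorem IsPart.double (sys : TracialSystem β T J) {S S' : StarSubalgebra ℂ B} {n : ℕ}
    {R R' : Fin n → B} (h : IsPart β T J S S' n R R') {s : B} (hs : IsSign β T J S' s)
    {N : ℕ} (hN : N = n * 2) (e : Fin N ≃ Fin n × Bool) :
    IsPart β T J S (nx S' s) N (fun k => R (e k).1 * cfc (uu (e k).2) s)
      (fun k => R' (e k).1 * cfc (uk (e k).2) s) := by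
  have hc : ∀ x ∈ S', ∀ f : ℝ → ℝ, Commute (cfc f s) x := fun x hx f => (hs.comm x hx).cfc_real f
  have hcc : ∀ f g : ℝ → ℝ, Commute (cfc f s) (cfc g s) := fun f g => cfc_commute_cfc f g s
  have hsq : ∀ (f : ℝ → ℝ), Continuous f → (∀ x, 0 ≤ f x ∧ f x ≤ 1) → ∀ (r y : B), r ∈ S' →
      r = star y * y → r * cfc f s = star (y * cfc (fun x => √(f x)) s) *
        (y * cfc (fun x => √(f x)) s) := by
    intro f hf hf0 r y hr hy
    rw [star_mul, mul_assoc, ← mul_assoc (star y) y, ← hy, ← mul_assoc, cfc_sa,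
      (hc r hr _).eq, mul_assoc, fns_prod hs _ _ (by fun_prop) (by fun_prop)]
    congr 2
    funext x
    exact (Real.mul_self_sqrt (hf0 x).1).symm
  have hsn : ∀ (f : ℝ → ℝ), (∀ x, 0 ≤ f x ∧ f x ≤ 1) →
      ‖cfc (fun x => √(f x)) s‖ ≤ 1 := by
    intro f hf
    refine norm_cfc_le_one hs.norm fun x _ => ?_
    rw [abs_of_nonneg (Real.sqrt_nonneg _)]
    exact Real.sqrt_le_one.2 (hf x).2
  have hun : ∀ σ, ‖cfc (uu σ) s‖ ≤ 1 := by
    intro σ
    refine norm_cfc_le_one hs.norm fun x _ => ?_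
    rw [abs_of_nonneg (uu_mem σ x).1]
    exact (uu_mem σ x).2
  refine ⟨h.le.trans (le_nx S' s), isClosed_nx S' s, isSeparable_nx h.sep s, ?_, ?_, ?_, ?_, ?_,
    ?_, ?_, ?_, ?_, ?_, ?_, ?_, ?_⟩
  · intro k
    exact mul_mem (le_nx S' s (h.mem _)) (cfc_mem_nx S' s _)
  · intro k
    exact mul_mem (le_nx S' s (h.mem' _)) (cfc_mem_nx S' s _)
  · intro k g
    rw [map_mul, map_mul, (h.fix _ g).1, (h.fix _ g).2, fix_cfc hs (continuous_uu _),
      fix_cfc hs (continuous_uk _)]
    exact ⟨rfl, rfl⟩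
  · intro k
    obtain ⟨y, hy⟩ := h.pos (e k).1
    exact ⟨_, hsq _ (continuous_uu _) (uu_mem _) _ y (h.mem _) hy⟩
  · intro k
    refine (norm_mul_le _ _).trans ?_
    have h1 := h.norm (e k).1
    have h2 := hun (e k).2
    have h3 := norm_nonneg (R (e k).1)
    have h4 := norm_nonneg (cfc (uu (e k).2) s)
    nlinarith
  · intro k
    obtain ⟨y, hy, hy1⟩ := h.pos' (e k).1
    refine ⟨_, hsq _ (continuous_uk _) (uk_mem _) _ y (h.mem' _) hy, ?_⟩
    refine (norm_mul_le _ _).trans ?_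
    have h2 := hsn _ (uk_mem (e k).2)
    have h3 := norm_nonneg y
    have h4 := norm_nonneg (cfc (fun x => √(uk (e k).2 x)) s)
    nlinarith
  · intro k
    have h1 : cfc (uu (e k).2) s * cfc (uk (e k).2) s = cfc (uk (e k).2) s := by
      rw [fns_prod hs _ _ (continuous_uu _) (continuous_uk _)]
      congr 1
      funext x
      exact uu_mul_uk _ x
    constructor
    · calc R (e k).1 * cfc (uu (e k).2) s * (R' (e k).1 * cfc (uk (e k).2) s)
          = R (e k).1 * (cfc (uu (e k).2) s * R' (e k).1) * cfc (uk (e k).2) s := by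
            simp only [mul_assoc]
        _ = (R (e k).1 * R' (e k).1) * (cfc (uu (e k).2) s * cfc (uk (e k).2) s) := by
            rw [(hc _ (h.mem' _) _).eq]
            simp only [mul_assoc]
        _ = _ := by rw [h1, (h.mul _).1]
    · calc R' (e k).1 * cfc (uk (e k).2) s * (R (e k).1 * cfc (uu (e k).2) s)
          = R' (e k).1 * (cfc (uk (e k).2) s * R (e k).1) * cfc (uu (e k).2) s := by
            simp only [mul_assoc]
        _ = (R' (e k).1 * R (e k).1) * (cfc (uk (e k).2) s * cfc (uu (e k).2) s) := by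
            rw [(hc _ (h.mem _) _).eq]
            simp only [mul_assoc]
        _ = _ := by rw [(hcc _ _).eq, h1, (h.mul _).2]
  · intro k k' hkk
    have h2 : R (e k).1 * cfc (uu (e k).2) s * (R (e k').1 * cfc (uu (e k').2) s) =
        (R (e k).1 * R (e k').1) * (cfc (uu (e k).2) s * cfc (uu (e k').2) s) := by
      calc _ = R (e k).1 * (cfc (uu (e k).2) s * R (e k').1) * cfc (uu (e k').2) s := by
            simp only [mul_assoc]
        _ = _ := by
            rw [(hc _ (h.mem _) _).eq]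
            simp only [mul_assoc]
    show R (e k).1 * cfc (uu (e k).2) s * (R (e k').1 * cfc (uu (e k').2) s) = 0
    rw [h2]
    by_cases h3 : (e k).1 = (e k').1
    · have h4 : (e k).2 ≠ (e k').2 := by
        intro h5
        exact hkk (e.injective (Prod.ext h3 h5))
      rw [fns_prod hs _ _ (continuous_uu _) (continuous_uu _)]
      have h6 : (fun x => uu (e k).2 x * uu (e k').2 x) = fun _ => (0 : ℝ) := by
        funext x
        exact uu_mul_ne h4 x
      rw [h6, cfc_const_zero, mul_zero]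
    · rw [h.orth _ _ h3, zero_mul]
  · intro k
    have h1 : cfc (uu (e k).2) s - cfc (uk (e k).2) s ∈ J := by
      have h2 : cfc (uu (e k).2) s - cfc (uk (e k).2) s =
          cfc (fun x => uu (e k).2 x - lin (e k).2 x) s -
          cfc (fun x => uk (e k).2 x - lin (e k).2 x) s := by
        rw [cfc_sub (uu (e k).2) (lin (e k).2) s (continuous_uu _).continuousOn
          (continuous_lin _).continuousOn, cfc_sub (uk (e k).2) (lin (e k).2) s
          (continuous_uk _).continuousOn (continuous_lin _).continuousOn]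
        abel
      rw [h2]
      exact sub_mem sys (null_cfc sys hs.sa hs.norm hs.null
        ((continuous_uu _).sub (continuous_lin _)) (uu_sub _))
        (null_cfc sys hs.sa hs.norm hs.null
        ((continuous_uk _).sub (continuous_lin _)) (uk_sub _))
    have h3 : R (e k).1 * cfc (uu (e k).2) s - R' (e k).1 * cfc (uk (e k).2) s =
        (R (e k).1 - R' (e k).1) * cfc (uu (e k).2) s +
        R' (e k).1 * (cfc (uu (e k).2) s - cfc (uk (e k).2) s) := by
      noncomm_ring
    show R (e k).1 * cfc (uu (e k).2) s - R' (e k).1 * cfc (uk (e k).2) s ∈ J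
    rw [h3]
    exact add_mem sys (mul_mem_right sys _ (h.sub _)) (mul_mem_left sys _ h1)
  · have h1 : ∑ k, R' (e k).1 * cfc (uk (e k).2) s =
        ∑ k, R' k * (cfc (uk true) s + cfc (uk false) s) := by
      rw [Equiv.sum_comp e (fun p => R' p.1 * cfc (uk p.2) s), Fintype.sum_prod_type]
      refine Finset.sum_congr rfl fun k _ => ?_
      rw [Fintype.sum_bool, mul_add]
    have h2 : 1 - ∑ k, R' k * (cfc (uk true) s + cfc (uk false) s) =
        (1 - ∑ k, R' k) + ∑ k, R' k * (1 - (cfc (uk true) s + cfc (uk false) s)) := by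
      simp only [mul_sub, mul_one, Finset.sum_sub_distrib]
      abel
    have h3 : 1 - (cfc (uk true) s + cfc (uk false) s) ∈ J := by
      have h4 : 1 - (cfc (uk true) s + cfc (uk false) s) =
          (0 : B) - (cfc (fun x => uk true x - lin true x) s +
            cfc (fun x => uk false x - lin false x) s) := by
        have h5 : (1 : B) = cfc (lin true) s + cfc (lin false) s := by
          rw [cfc_lin_true hs.sa, cfc_lin_false hs.sa, ← smul_add]
          have : (1 + s + (1 - s) : B) = (2 : ℂ) • (1 : B) := by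
            rw [two_smul]
            abel
          rw [this, smul_smul, inv_mul_cancel₀ two_ne_zero, one_smul]
        rw [cfc_sub (uk true) (lin true) s (continuous_uk _).continuousOn
          (continuous_lin _).continuousOn, cfc_sub (uk false) (lin false) s
          (continuous_uk _).continuousOn (continuous_lin _).continuousOn]
        nth_rw 1 [h5]
        abel
      rw [h4]
      exact sub_mem sys (zero_mem sys) (add_mem sys (null_cfc sys hs.sa hs.norm hs.null
        ((continuous_uk _).sub (continuous_lin _)) (uk_sub _))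
        (null_cfc sys hs.sa hs.norm hs.null
        ((continuous_uk _).sub (continuous_lin _)) (uk_sub _)))
    rw [h1, h2]
    exact add_mem sys h.sum (sum_mem sys _ _ fun k _ => mul_mem_left sys _ h3)
  · intro k
    have h1 : cfc (uu (e k).2) s * cfc (uu (e k).2) s - cfc (uu (e k).2) s ∈ J := by
      rw [fns_prod hs _ _ (continuous_uu _) (continuous_uu _),
        ← cfc_sub (fun x => uu (e k).2 x * uu (e k).2 x) (uu (e k).2) s
        ((continuous_uu _).mul (continuous_uu _)).continuousOn (continuous_uu _).continuousOn]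
      exact null_cfc sys hs.sa hs.norm hs.null
        (((continuous_uu _).mul (continuous_uu _)).sub (continuous_uu _)) (uu_idem _)
    have h2 : R (e k).1 * cfc (uu (e k).2) s * (R (e k).1 * cfc (uu (e k).2) s) =
        (R (e k).1 * R (e k).1) * (cfc (uu (e k).2) s * cfc (uu (e k).2) s) := by
      calc _ = R (e k).1 * (cfc (uu (e k).2) s * R (e k).1) * cfc (uu (e k).2) s := by
            simp only [mul_assoc]
        _ = _ := by
            rw [(hc _ (h.mem _) _).eq]
            simp only [mul_assoc]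
    show R (e k).1 * cfc (uu (e k).2) s * (R (e k).1 * cfc (uu (e k).2) s) -
      R (e k).1 * cfc (uu (e k).2) s ∈ J
    rw [h2]
    have h3 : (R (e k).1 * R (e k).1) * (cfc (uu (e k).2) s * cfc (uu (e k).2) s) -
        R (e k).1 * cfc (uu (e k).2) s =
        (R (e k).1 * R (e k).1 - R (e k).1) * (cfc (uu (e k).2) s * cfc (uu (e k).2) s) +
        R (e k).1 * (cfc (uu (e k).2) s * cfc (uu (e k).2) s - cfc (uu (e k).2) s) := by
      noncomm_ring
    rw [h3]
    exact add_mem sys (mul_mem_right sys _ (h.idem _)) (mul_mem_left sys _ h1)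
  · intro x hx k
    exact ⟨(h.comm x hx _).1.mul_right (hc x (h.le hx) _).symm,
      (h.comm x hx _).2.mul_right (hc x (h.le hx) _).symm⟩
  · intro τ hτ b hb k
    have h1 : τ (b * (R (e k).1 * cfc (uu (e k).2) s)) =
        τ ((b * R (e k).1) * cfc (lin (e k).2) s) := by
      have h0 : cfc (fun x => uu (e k).2 x - lin (e k).2 x) s ∈ J :=
        null_cfc sys hs.sa hs.norm hs.null
          ((continuous_uu _).sub (continuous_lin _)) (uu_sub (e k).2)
      have h2 := tr_eq_zero sys h0 hτ (b * R (e k).1)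
      rw [cfc_sub (uu (e k).2) (lin (e k).2) s (continuous_uu _).continuousOn
          (continuous_lin _).continuousOn, mul_sub, map_sub, sub_eq_zero] at h2
      rw [← mul_assoc, h2]
    rw [h1, tr_lin hs.sa (hs.tr τ hτ _ (mul_mem (h.le hb) (h.mem _))), h.tr τ hτ b hb, hN]
    push_cast
    rw [div_div]

theorem exists_part (sys : TracialSystem β T J) (hs : HasFixedSigns β T J)
    (S : StarSubalgebra ℂ B) (hS : IsClosed (S : Set B)) (hsep : IsSeparable (S : Set B))
    (l : ℕ) : ∃ (S' : StarSubalgebra ℂ B) (R R' : Fin (2 ^ l) → B),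
      IsPart β T J S S' (2 ^ l) R R' := by
  induction l with
  | zero => exact ⟨S, _, _, isPart_one sys S hS hsep⟩
  | succ l ih =>
    obtain ⟨S', R, R', h⟩ := ih
    obtain ⟨s, hsg⟩ := exists_sign hs S' h.closed h.sep
    let e : Fin (2 ^ (l + 1)) ≃ Fin (2 ^ l) × Bool :=
      (finCongr (pow_succ 2 l)).trans (finProdFinEquiv.symm.trans
        (Equiv.prodCongr (Equiv.refl _) finTwoEquiv))
    exact ⟨_, _, _, h.double sys hsg (pow_succ 2 l) e⟩

/-- positive elements have a square root commuting with everything that commutes with them -/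
theorem exists_sqrt {a y : B} (h : a = star y * y) :
    ∃ z, a = star z * z ∧ ∀ x, Commute x a → Commute x z := by
  have ha : IsSelfAdjoint a := by
    rw [h]
    exact IsSelfAdjoint.star_mul_self y
  have h0 : ∀ x ∈ spectrum ℝ a, 0 ≤ x := by
    rw [h]
    exact fun x hx => spectrum_star_mul_self_nonneg x hx
  refine ⟨cfc Real.sqrt a, ?_, fun x hx => (hx.symm.cfc_real _).symm⟩
  rw [cfc_sa, ← cfc_mul Real.sqrt Real.sqrt a Real.continuous_sqrt.continuousOn
    Real.continuous_sqrt.continuousOn]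
  nth_rw 1 [← cfc_id' ℝ a]
  exact cfc_congr fun x hx => (Real.mul_self_sqrt (h0 x hx)).symm

end Lab

section

variable {G : Type*} [Group G] {B : Type u} [CStarAlgebra B] {β : G →* (B ≃⋆ₐ[ℂ] B)}
  {T : Set (B →ₗ[ℂ] ℂ)} {J : Set B}

/-- Fixed partition of unity `R' ≤ R` with `R κ` exactly orthogonal, and independent fixed
projections `ρ j` (modulo `J`), all independent of `S`. -/
theorem exists_labels (sys : TracialSystem β T J) (hs : HasFixedSigns β T J)
    (S : StarSubalgebra ℂ B) (hS : IsClosed (S : Set B)) (hsep : IsSeparable (S : Set B))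
    (l m : ℕ) :
    ∃ (R R' : Fin (2 ^ l) → B) (ρ : Fin m → B),
      (∀ k g, β g (R k) = R k ∧ β g (R' k) = R' k) ∧ (∀ j g, β g (ρ j) = ρ j) ∧
      (∀ k, IsSelfAdjoint (R k) ∧ ‖R k‖ ≤ 1 ∧ (∃ y, R k = star y * y ∧ ∀ x, Commute x (R k) →
        Commute x y)) ∧
      (∀ k, (∃ y, R' k = star y * y ∧ ‖y‖ ≤ 1) ∧ R k * R' k = R' k ∧ R' k * R k = R' k) ∧
      (∀ j, ∃ y, ρ j = star y * y ∧ ‖y‖ ≤ 1 ∧ ∃ y', 1 - ρ j = star y' * y') ∧
      (∀ k k', k ≠ k' → R k * R k' = 0) ∧ (∀ k, R k - R' k ∈ J) ∧ 1 - ∑ k, R' k ∈ J ∧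
      (∀ k, R k * R k - R k ∈ J) ∧ (∀ j, ρ j * ρ j - ρ j ∈ J) ∧
      (∀ x ∈ S, (∀ k, Commute x (R k) ∧ Commute x (R' k)) ∧ ∀ j, Commute x (ρ j)) ∧
      (∀ k j, Commute (R k) (ρ j) ∧ Commute (R' k) (ρ j)) ∧ (∀ j j', Commute (ρ j) (ρ j')) ∧
      ∀ τ ∈ T, ∀ b ∈ S, ∀ k, ∀ e : Fin m → Bool,
        τ (b * R k * (List.ofFn fun j => if e j then ρ j else 1 - ρ j).prod) =
          τ b / (2 ^ l * 2 ^ m) := by
  obtain ⟨S', R, R', h⟩ := Lab.exists_part sys hs S hS hsep l
  obtain ⟨ρ, h1, h2, h3, h4, h5, h6⟩ := Lab.exists_rho sys hs m S' h.closed h.sep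
  refine ⟨R, R', ρ, h.fix, h1, ?_, fun k => ⟨h.pos' k, h.mul k⟩, h2, h.orth, h.sub, h.sum,
    h.idem, h3, ?_, ?_, h5, ?_⟩
  · intro k
    obtain ⟨y, hy⟩ := h.pos k
    refine ⟨?_, h.norm k, Lab.exists_sqrt hy⟩
    rw [hy]
    exact IsSelfAdjoint.star_mul_self y
  · intro x hx
    exact ⟨fun k => h.comm x hx k, fun j => h4 x (h.le hx) j⟩
  · intro k j
    exact ⟨h4 _ (h.mem k) j, h4 _ (h.mem' k) j⟩
  · intro τ hτ b hb k e
    rw [h6 τ hτ _ (mul_mem (h.le hb) (h.mem k)) e, h.tr τ hτ b hb k]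
    push_cast
    rw [div_div]

end

end Vale.Agent.P095
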