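import Vale.Agent.P095.KeyMain
import Vale.Agent.P095.Labels

/-!
# P095: the block of matrix units
-/

open Filter Topology TopologicalSpace
open scoped BoundedContinuousFunction ComplexOrder

namespace Vale.Agent.P095

open Vale.Agent.P101

universe u v w

namespace KeyAux

section Elements

variable {B : Type u} [CStarAlgebra B] {T : Set (B →ₗ[ℂ] ℂ)} {htr : ∀ τ ∈ T, IsTrace τ} {n : ℕ}
  {W : Fin n → StarSubalgebra ℂ B}
  (hW : ∀ i j, i ≠ j → ∀ a ∈ W i, ∀ b ∈ W j, Commute a b)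
  {S : StarSubalgebra ℂ B} {R : Fin n × (Fin n → Bool) → B}

include hW in
theorem Qf_nonneg [PartialOrder B] [StarOrderedRing B] {s : Fin n → B}
    (hs : ∀ j, IsSeed T htr (s j)) (hsW : ∀ j, s j ∈ W j)
    (c : Fin n × (Fin n → Bool)) : 0 ≤ Qf s c ∧ Qf s c ≤ 1 := by
  have h0 : ∀ j, 0 ≤ Function.update (fun j => pp (c.2 j) (s j)) c.1 1 j := by
    intro j
    rcases eq_or_ne j c.1 with h | h
    · rw [h, Function.update_self]; exact zero_le_one
    · rw [Function.update_of_ne h]; exact pp_nonneg (hs j) _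
  have h1 : ∀ j, Function.update (fun j => pp (c.2 j) (s j)) c.1 1 j ≤ 1 := by
    intro j
    rcases eq_or_ne j c.1 with h | h
    · rw [h, Function.update_self]
    · rw [Function.update_of_ne h]; exact pp_le_one (hs j) _
  have h2 : ∀ i j, i ≠ j → Commute (Function.update (fun j => pp (c.2 j) (s j)) c.1 1 i)
      (Function.update (fun j => pp (c.2 j) (s j)) c.1 1 j) := fun i j hij =>
    hW i j hij _ (update_mem (fun j => pp_mem (hsW j) _) (one_mem _) i) _
      (update_mem (fun j => pp_mem (hsW j) _) (one_mem _) j)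
  exact ⟨P_nonneg _ h0 h2, P_le_one _ h0 h1 h2⟩

include hW in
theorem mk_Qf_sq {s : Fin n → B} (hs : ∀ j, IsSeed T htr (s j)) (hsW : ∀ j, s j ∈ W j)
    (c : Fin n × (Fin n → Bool)) :
    Ideal.Quotient.mk (nullIdeal T htr) (Qf s c * Qf s c) =
      Ideal.Quotient.mk (nullIdeal T htr) (Qf s c) := by
  have m1 : ∀ j, pp (c.2 j) (s j) ∈ W j := fun j => pp_mem (hsW j) _
  unfold Qf
  rw [mul_update hW m1 m1]
  exact mk_update_congr _ fun j => pp_mk (hs j) _

include hW in
theorem comm_Qf {s : Fin n → B} (hsW : ∀ j, s j ∈ W j) (c : Fin n × (Fin n → Bool)) {z : B}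
    (hz : z ∈ W c.1) : Commute z (Qf s c) :=
  comm_update hW (fun j => pp_mem (hsW j) _) hz

/-- The positive contraction `q`. -/
theorem q_nonneg [PartialOrder B] [StarOrderedRing B] {κ : Type} [Fintype κ] {R a : κ → B}
    (hR : Labels T htr S R) (ha : ∀ c, a c ∈ S)
    (h0 : ∀ c, 0 ≤ a c) : 0 ≤ cs R a := by
  refine Finset.sum_nonneg fun c _ => Commute.mul_nonneg
    (CStarAlgebra.nonneg_iff_eq_star_mul_self.2 (hR.pos c)) (h0 c) (hR.comm _ (ha c) c).symm

theorem q_norm {κ : Type} [Fintype κ] {R a : κ → B}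
    (hR : Labels T htr S R) (ha : ∀ c, a c ∈ S) (hsa : ∀ c, star (a c) = a c)
    (h1 : ∀ c, ‖a c‖ ≤ 1) : ‖cs R a‖ ≤ 1 := by
  refine norm_sum_le_one_of_orth _ (fun c => ?_) (fun c => ?_) fun c d hcd => ?_
  · rw [isSelfAdjoint_iff, star_mul, hsa, (hR.sa c).star_eq]
    exact (hR.comm _ (ha c) c).eq
  · exact (norm_mul_le _ _).trans (mul_le_one₀ (hR.norm c) (norm_nonneg _) (h1 c))
  · rw [mul_assoc, ← mul_assoc (a c), (hR.comm _ (ha c) d).eq, ← mul_assoc, ← mul_assoc,
      hR.orth c d hcd, zero_mul, zero_mul]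

theorem v_norm {κ : Type} [Fintype κ] {R a : κ → B}
    (hR : Labels T htr S R) (ha : ∀ c, a c ∈ S)
    (h1 : ∀ c, ‖a c‖ ≤ 1) : ‖cs R a‖ ≤ 1 := by
  have h2 : star (cs R a) * cs R a = ∑ c, (R c * R c) * (star (a c) * a c) := by
    rw [star_cs hR ha, cs_mul hR fun c => star_mem (ha c)]
  have h3 : ‖∑ c, (R c * R c) * (star (a c) * a c)‖ ≤ 1 := by
    have hc : ∀ c d, Commute (star (a c) * a c) (R d) := fun c d =>
      (hR.comm _ (star_mem (ha c)) d).mul_left (hR.comm _ (ha c) d)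
    refine norm_sum_le_one_of_orth _ (fun c => ?_) (fun c => ?_) fun c d hcd => ?_
    · rw [isSelfAdjoint_iff, star_mul, star_mul, star_mul, star_star, (hR.sa c).star_eq]
      exact ((hc c c).mul_right (hc c c)).eq
    · refine (norm_mul_le _ _).trans (mul_le_one₀ ?_ (norm_nonneg _) ?_)
      · exact (norm_mul_le _ _).trans (mul_le_one₀ (hR.norm c) (norm_nonneg _) (hR.norm c))
      · rw [CStarRing.norm_star_mul_self]
        exact mul_le_one₀ (h1 c) (norm_nonneg _) (h1 c)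
    · have e : R c * R c * (star (a c) * a c) * (R d * R d * (star (a d) * a d)) =
          R c * (R c * R d) * R d * (star (a c) * a c) * (star (a d) * a d) := by
        calc _ = R c * R c * ((star (a c) * a c) * (R d * R d)) * (star (a d) * a d) := by
              simp only [mul_assoc]
          _ = _ := by
              rw [((hc c d).mul_right (hc c d)).eq]
              simp only [mul_assoc]
      rw [e, hR.orth c d hcd, mul_zero, zero_mul, zero_mul, zero_mul]
  have h4 : ‖cs R a‖ * ‖cs R a‖ ≤ 1 := by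
    rw [← CStarRing.norm_star_mul_self, h2]
    exact h3
  nlinarith [norm_nonneg (cs R a)]

include hW in
theorem trace_q (hR : Labels T htr S R) {s : Fin n → B}
    (hs : ∀ j, IsSeed T htr (s j)) (hsW : ∀ j, s j ∈ W j) (hWS : ∀ j, W j ≤ S) {b : B}
    (hb : b ∈ S) (hbW : ∀ j, ∀ a ∈ W j, Commute b a) {τ : B →ₗ[ℂ] ℂ} (hτ : τ ∈ T)
    (hn : 1 ≤ n) :
    τ (b * cs R (Qf s)) = (2 : ℂ)⁻¹ ^ (n - 1) * τ b := by
  rw [trace_cs hR (Qf_mem fun j => hWS j (hsW j)) hb hτ]
  have h1 : ∀ c : Fin n × (Fin n → Bool), τ (b * Qf s c) = (2 : ℂ)⁻¹ ^ (n - 1) * τ b := by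
    intro c
    unfold Qf
    rw [trace_P hW (update_mem (fun j => pp_mem (hsW j) _) (one_mem _))
      (Function.update (fun _ => 2⁻¹) c.1 1) (fun j y hy => ?_) b hbW]
    · rw [Finset.prod_update_of_mem (Finset.mem_univ _), one_mul, Finset.prod_const]
      congr 2
      rw [Finset.card_sdiff, Finset.card_univ, Fintype.card_fin]
      simp
    · rcases eq_or_ne j c.1 with h | h
      · rw [h, Function.update_self, Function.update_self, mul_one, one_mul]
      · rw [Function.update_of_ne h, Function.update_of_ne h]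
        exact trace_pp (hs j) _ hτ (hy _ (hsW j)) (hy _ (star_mem (hsW j)))
  rw [Finset.sum_congr rfl fun c _ => h1 c, Finset.sum_const, Finset.card_univ, nsmul_eq_mul]
  have h2 : (Fintype.card (Fin n × (Fin n → Bool)) : ℂ) ≠ 0 := by
    have : 0 < Fintype.card (Fin n × (Fin n → Bool)) := by
      rw [Fintype.card_pos_iff]
      exact ⟨(⟨0, hn⟩, fun _ => true)⟩
    exact_mod_cast this.ne'
  rw [mul_comm, mul_div_assoc, div_self h2, mul_one]

theorem cs_sub {κ : Type} [Fintype κ] (R a b : κ → B) :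
    cs R a - cs R b = cs R fun c => a c - b c := by
  unfold cs
  rw [← Finset.sum_sub_distrib]
  exact Finset.sum_congr rfl fun c _ => (mul_sub _ _ _).symm

end Elements

section Act

variable {G : Type*} [Group G] {B : Type u} [CStarAlgebra B] (β : G →* (B ≃⋆ₐ[ℂ] B))

theorem act_cs {κ : Type} [Fintype κ] {R : κ → B} {g : G} (hR : ∀ c, β g (R c) = R c)
    (a : κ → B) : β g (cs R a) = cs R fun c => β g (a c) := by
  unfold cs
  rw [map_sum]
  exact Finset.sum_congr rfl fun c _ => by rw [map_mul, hR]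

theorem act_pp (g : G) (ε : Bool) (s : B) : β g (pp ε s) = pp ε (β g s) := by
  unfold pp half
  rw [map_smul, map_add, map_add, map_one, map_star, map_smul]

theorem act_Qf (g : G) {n : ℕ} (s : Fin n → B) (c : Fin n × (Fin n → Bool)) :
    β g (Qf s c) = Qf (fun j => β g (s j)) c := by
  unfold Qf
  rw [P_map]
  congr 1
  funext j
  rcases eq_or_ne j c.1 with h | h
  · rw [h, Function.update_self, Function.update_self, map_one]
  · rw [Function.update_of_ne h, Function.update_of_ne h, act_pp]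

end Act

theorem adjoin_comm {B : Type u} [CStarAlgebra B] {X Y : Set B}
    (h : ∀ x ∈ X, ∀ y ∈ Y, Commute x y ∧ Commute x (star y)) {a b : B}
    (ha : a ∈ StarAlgebra.adjoin ℂ X) (hb : b ∈ StarAlgebra.adjoin ℂ Y) : Commute a b := by
  have h1 : StarAlgebra.adjoin ℂ X ≤ StarSubalgebra.centralizer ℂ Y := by
    apply StarAlgebra.adjoin_le
    intro x hx
    rw [SetLike.mem_coe, StarSubalgebra.mem_centralizer_iff]
    intro y hy
    exact ⟨(h x hx y hy).1.symm.eq, (h x hx y hy).2.symm.eq⟩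
  have h2 : ∀ y ∈ Y, ∀ z ∈ StarAlgebra.adjoin ℂ X, y * z = z * y := by
    intro y hy z hz
    have := h1 hz
    rw [StarSubalgebra.mem_centralizer_iff] at this
    exact (this y hy).1
  have h3 : StarAlgebra.adjoin ℂ Y ≤ StarSubalgebra.centralizer ℂ {a} := by
    apply StarAlgebra.adjoin_le
    intro y hy
    rw [SetLike.mem_coe, StarSubalgebra.mem_centralizer_iff]
    intro z hz
    rw [Set.mem_singleton_iff] at hz
    rw [hz]
    exact ⟨(h2 y hy a ha).symm, (h2 y hy _ (star_mem ha)).symm⟩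
  have h4 := h3 hb
  rw [StarSubalgebra.mem_centralizer_iff] at h4
  exact (h4 a (Set.mem_singleton a)).1

section Sys

variable {G : Type*} [Group G] {B : Type u} [CStarAlgebra B] {β : G →* (B ≃⋆ₐ[ℂ] B)}
  {T : Set (B →ₗ[ℂ] ℂ)} {J : Set B}

theorem mem_J_iff (sys : TracialSystem β T J) {x : B} : x ∈ J ↔ x ∈ nullIdeal T sys.trace :=
  sys.null x

theorem exists_cfg_labels (sys : TracialSystem β T J) (hs : HasFixedSigns β T J)
    (S : StarSubalgebra ℂ B) (hS : IsClosed (S : Set B)) (hsep : IsSeparable (S : Set B))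
    {κ : Type} [Fintype κ] {L : ℕ} (hκ : Fintype.card κ = 2 ^ L) :
    ∃ R : κ → B, Labels T sys.trace S R ∧ ∀ c g, β g (R c) = R c := by
  obtain ⟨R, R', ρ, h1, -, h3, -, -, h6, h7, h8, h9, -, h11, -, -, h14⟩ :=
    exists_labels sys hs S hS hsep L 0
  let e := Fintype.equivFinOfCardEq hκ
  refine ⟨fun c => R (e c), ⟨fun c => (h3 _).1, fun c => (h3 _).2.1, fun c => ?_,
    fun c d hcd => h6 _ _ fun h => hcd (e.injective h), fun c => (mem_J_iff sys).1 (h9 _), ?_,
    fun x hx c => ((h11 x hx).1 _).1, ?_⟩, fun c g => (h1 _ g).1⟩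
  · obtain ⟨y, hy, -⟩ := (h3 (e c)).2.2
    exact ⟨y, hy⟩
  · have e1 : ∑ c, R (e c) = ∑ k, R k := Equiv.sum_comp e R
    have e2 : 1 - ∑ k, R k = (1 - ∑ k, R' k) - ∑ k, (R k - R' k) := by
      rw [Finset.sum_sub_distrib]
      abel
    rw [e1, e2]
    refine Submodule.sub_mem _ ((mem_J_iff sys).1 h8) (Submodule.sum_mem _ fun k _ => ?_)
    exact (mem_J_iff sys).1 (h7 k)
  · intro τ hτ b hb c
    have h := h14 τ hτ b hb (e c) (fun j => j.elim0)
    rw [List.ofFn_zero, List.prod_nil, mul_one, pow_zero, mul_one] at h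
    rw [h, hκ]
    push_cast
    rfl

end Sys

end KeyAux

open KeyAux in
/-- The block of matrix units. -/
theorem exists_unitBlock {G : Type*} [Group G] {B : Type u} [CStarAlgebra B]
    {β : G →* (B ≃⋆ₐ[ℂ] B)} {T : Set (B →ₗ[ℂ] ℂ)} {J : Set B}
    [Countable G] (sys : TracialSystem β T J) (hs : HasFixedSigns β T J)
    (hseed : HasSeed J) (S : StarSubalgebra ℂ B) (hS : IsClosed (S : Set B))
    (hsep : IsSeparable (S : Set B)) (l : ℕ) :
    ∃ q v : B, (∃ y, q = star y * y) ∧ ‖q‖ ≤ 1 ∧ ‖v‖ ≤ 1 ∧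
      (∀ x ∈ S, ∀ g, Commute (β g q) x ∧ Commute (β g v) x) ∧
      q * q - q ∈ J ∧ v * v ∈ J ∧ 1 - star v * v - v * star v ∈ J ∧
      (∀ g h, β g q * β h v - β h v * β g q ∈ J) ∧
      ∀ τ ∈ T, ∀ b ∈ S, (∃ y ∈ S, b = star y * y) →
        τ (b * q) = (2 : ℂ)⁻¹ ^ (2 ^ l - 1) * τ b ∧
        ∀ g h, (τ (b * (star (β g q * β h q * (β g v - β h v)) *
            (β g q * β h q * (β g v - β h v))))).re ≤
              100 / 2 ^ l * (2 : ℝ)⁻¹ ^ (2 ^ l - 1) * (τ b).re ∧
          (τ (b * (star (β g q * β h q * (β g (star v) - β h (star v))) *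
            (β g q * β h q * (β g (star v) - β h (star v)))))).re ≤
              100 / 2 ^ l * (2 : ℝ)⁻¹ ^ (2 ^ l - 1) * (τ b).re := by
  let _ := CStarAlgebra.spectralOrder B
  have _ := CStarAlgebra.spectralOrderedRing B
  obtain ⟨v, hv, hvS, hvv⟩ := exists_seed_seq sys hseed S hS hsep
  obtain ⟨n, hn⟩ : ∃ n, n = 2 ^ l := ⟨_, rfl⟩
  have hn1 : 1 ≤ n := by rw [hn]; exact Nat.one_le_two_pow
  -- the sites
  obtain ⟨sg, hsg⟩ : ∃ sg : G → Fin n → B, sg = fun g (j : Fin n) => β g (v j) := ⟨_, rfl⟩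
  obtain ⟨W, hWdef⟩ : ∃ W : Fin n → StarSubalgebra ℂ B,
      W = fun (j : Fin n) => StarAlgebra.adjoin ℂ {x | ∃ g, x = β g (v j)} := ⟨_, rfl⟩
  have hW : ∀ i j, i ≠ j → ∀ a ∈ W i, ∀ b ∈ W j, Commute a b := by
    intro i j hij a ha b hb
    rw [hWdef] at ha hb
    refine adjoin_comm ?_ ha hb
    rintro x ⟨g, rfl⟩ y ⟨h, rfl⟩
    exact hvv i j (fun h => hij (Fin.ext h)) g h
  have hsW : ∀ g j, sg g j ∈ W j := by
    intro g j
    rw [hsg, hWdef]
    exact StarAlgebra.subset_adjoin ℂ _ ⟨g, rfl⟩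
  have hJ : ∀ g, ∀ x ∈ J, β g x ∈ J := by
    intro g x hx
    rw [sys.null] at hx ⊢
    intro τ hτ
    have := hx _ (sys.inv τ hτ g)
    rw [← map_star, ← map_mul]
    exact this
  have hseeds : ∀ g j, IsSeed T sys.trace (sg g j) := by
    intro g j
    rw [hsg]
    refine ⟨by rw [norm_act]; exact (hv j).1, ?_, ?_⟩
    · show β g (v j) * β g (v j) = 0
      rw [← map_mul, (hv j).2.1, map_zero]
    · have h1 := hJ g _ (hv j).2.2
      rw [map_sub, map_sub, map_one, map_mul, map_mul, map_star] at h1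
      exact (mem_J_iff sys).1 h1
  obtain ⟨S', hS'def⟩ : ∃ S' : StarSubalgebra ℂ B,
      S' = cgen ((S : Set B) ∪ {x | ∃ g : G, ∃ j : Fin n, x = β g (v j)}) := ⟨_, rfl⟩
  have hSS' : S ≤ S' := by
    rw [hS'def]
    exact fun x hx => subset_cgen _ (Or.inl hx)
  have hWS : ∀ j, W j ≤ S' := by
    intro j
    rw [hWdef, hS'def]
    apply StarAlgebra.adjoin_le
    rintro x ⟨g, rfl⟩
    exact subset_cgen _ (Or.inr ⟨g, j, rfl⟩)
  have hS'sep : IsSeparable (S' : Set B) := by
    rw [hS'def]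
    refine isSeparable_cgen (hsep.union ?_)
    have : {x | ∃ g : G, ∃ j : Fin n, x = β g (v j)} =
        Set.range fun p : G × Fin n => β p.1 (v p.2) := by
      ext x
      constructor
      · rintro ⟨g, j, rfl⟩
        exact ⟨(g, j), rfl⟩
      · rintro ⟨⟨g, j⟩, rfl⟩
        exact ⟨g, j, rfl⟩
    rw [this]
    exact (Set.countable_range _).isSeparable
  have hS'cl : IsClosed (S' : Set B) := by
    rw [hS'def]
    exact isClosed_cgen _
  have hSW : ∀ b ∈ S, ∀ j, ∀ a ∈ W j, Commute b a := by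
    intro b hb j a ha
    rw [hWdef] at ha
    have hb' : b ∈ StarAlgebra.adjoin ℂ (S : Set B) := StarAlgebra.subset_adjoin ℂ _ hb
    refine (adjoin_comm ?_ ha hb').symm
    rintro x ⟨g, rfl⟩ y hy
    exact ⟨hvS j g y hy, hvS j g _ (star_mem hy)⟩
  -- the labels
  have hcard : Fintype.card (Fin n × (Fin n → Bool)) = 2 ^ (l + n) := by
    rw [Fintype.card_prod, Fintype.card_fin, Fintype.card_pi]
    simp [hn, pow_add]
  obtain ⟨R, hR, hRβ⟩ := exists_cfg_labels sys hs S' hS'cl hS'sep hcard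
  have hsS : ∀ g j, sg g j ∈ S' := fun g j => hWS j (hsW g j)
  have hQS : ∀ g c, Qf (sg g) c ∈ S' := fun g => Qf_mem (hsS g)
  have hsg1 : sg 1 = fun j : Fin n => v j := by
    rw [hsg]
    funext j
    show β 1 (v j) = v j
    rw [map_one]
    rfl
  have hβq : ∀ g, β g (cs R (Qf (sg 1))) = cs R (Qf (sg g)) := by
    intro g
    rw [act_cs β fun c => hRβ c g]
    congr 1
    funext c
    rw [act_Qf, hsg1, hsg]
  have hβv : ∀ g, β g (cs R fun c => sg 1 c.1) = cs R fun c => sg g c.1 := by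
    intro g
    rw [act_cs β fun c => hRβ c g, hsg1, hsg]
  have hstar : ∀ g, star (cs R fun c => sg g c.1) = cs R fun c => star (sg g c.1) := fun g =>
    star_cs hR fun c => hsS g c.1
  have hβv' : ∀ g, β g (star (cs R fun c => sg 1 c.1)) = cs R fun c => star (sg g c.1) := by
    intro g
    rw [map_star, hβv, hstar]
  have hcomm : ∀ x ∈ S, ∀ a : Fin n × (Fin n → Bool) → B, (∀ c, Commute (a c) x) →
      Commute (cs R a) x := by
    intro x hx a ha
    exact Commute.sum_left _ _ _ fun c _ => ((hR.comm x (hSS' hx) c).symm.mul_left (ha c))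
  refine ⟨cs R (Qf (sg 1)), cs R fun c => sg 1 c.1, ?_, ?_, ?_, ?_, ?_, ?_, ?_, ?_, ?_⟩
  · exact CStarAlgebra.nonneg_iff_eq_star_mul_self.1 (q_nonneg hR (hQS 1)
      fun c => (Qf_nonneg hW (hseeds 1) (hsW 1) c).1)
  · refine q_norm hR (hQS 1) (Qf_sa hW (hseeds 1) (hsW 1)) fun c => ?_
    have h1 := Qf_nonneg hW (hseeds 1) (hsW 1) c
    exact (CStarAlgebra.norm_le_one_iff_of_nonneg _ h1.1).2 h1.2
  · exact v_norm hR (fun c => hsS 1 c.1) fun c => (hseeds 1 c.1).norm
  · intro x hx g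
    rw [hβq, hβv]
    refine ⟨hcomm x hx _ fun c => ?_, hcomm x hx _ fun c => ?_⟩
    · refine (P_commute _ _ fun j => ?_).symm
      exact hSW x hx j _ (update_mem (fun j => pp_mem (hsW g j) _) (one_mem _) j)
    · exact (hSW x hx c.1 _ (hsW g c.1)).symm
  · rw [mem_J_iff sys, ← Ideal.Quotient.eq, mk_cs_mul hR (hQS 1)]
    exact mk_cs_congr _ _ fun c => mk_Qf_sq hW (hseeds 1) (hsW 1) c
  · rw [mem_J_iff sys, cs_mul hR fun c => hsS 1 c.1]
    have : ∑ c : Fin n × (Fin n → Bool), R c * R c * (sg 1 c.1 * sg 1 c.1) = 0 :=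
      Finset.sum_eq_zero fun c _ => by rw [(hseeds 1 c.1).sq, mul_zero]
    rw [this]
    exact (nullIdeal T sys.trace).zero_mem
  · rw [mem_J_iff sys, ← Ideal.Quotient.eq_zero_iff_mem, hstar, map_sub, map_sub,
      mk_cs_mul hR fun c => star_mem (hsS 1 c.1), mk_cs_mul hR fun c => hsS 1 c.1]
    have h1 : Ideal.Quotient.mk (nullIdeal T sys.trace) 1 =
        Ideal.Quotient.mk (nullIdeal T sys.trace) (cs R fun _ => 1) := by
      rw [Ideal.Quotient.eq]
      have : (cs R fun _ => 1) = ∑ c, R c := by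
        unfold cs
        exact Finset.sum_congr rfl fun c _ => mul_one _
      rw [this]
      exact hR.sum
    rw [h1, ← map_sub, ← map_sub, cs_sub, cs_sub]
    have h2 : Ideal.Quotient.mk (nullIdeal T sys.trace) (cs R fun _ => (0 : B)) = 0 := by
      have : (cs R fun _ => (0 : B)) = 0 := by
        unfold cs
        exact Finset.sum_eq_zero fun c _ => mul_zero _
      rw [this, map_zero]
    rw [← h2]
    refine mk_cs_congr _ _ fun c => ?_
    rw [map_zero, Ideal.Quotient.eq_zero_iff_mem]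
    exact (hseeds 1 c.1).null
  · intro g h
    rw [hβq, hβv, cs_mul hR (hQS g), cs_mul hR fun c => hsS h c.1, mem_J_iff sys]
    have : ∑ c, R c * R c * (Qf (sg g) c * sg h c.1) -
        ∑ c, R c * R c * (sg h c.1 * Qf (sg g) c) = 0 := by
      rw [sub_eq_zero]
      refine Finset.sum_congr rfl fun c _ => ?_
      rw [(comm_Qf hW (hsW g) c (hsW h c.1)).eq]
    rw [this]
    exact (nullIdeal T sys.trace).zero_mem
  · intro τ hτ b hb hby
    have hb0 : ∃ y, b = star y * y := by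
      obtain ⟨y, -, hy⟩ := hby
      exact ⟨y, hy⟩
    have hτb : 0 ≤ (τ b).re := by
      obtain ⟨y, rfl⟩ := hb0
      exact (Complex.nonneg_iff.1 ((sys.trace τ hτ).nonneg y)).1
    have hconst : 4 / (n * 2 ^ n) * (τ b).re ≤
        100 / 2 ^ l * (2 : ℝ)⁻¹ ^ (2 ^ l - 1) * (τ b).re := by
      refine mul_le_mul_of_nonneg_right ?_ hτb
      have e1 : (2 : ℝ) ^ n = 2 * 2 ^ (2 ^ l - 1) := by
        rw [← hn, ← pow_succ']
        congr 1
        omega
      have e2 : (n : ℝ) = 2 ^ l := by rw [hn]; push_cast; rfl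
      rw [e1, e2, inv_pow]
      have h1 : (0 : ℝ) < 2 ^ l := by positivity
      have h2 : (0 : ℝ) < 2 ^ (2 ^ l - 1) := by positivity
      rw [div_le_iff₀ (by positivity)]
      field_simp
      norm_num
    refine ⟨?_, fun g h => ⟨?_, ?_⟩⟩
    · rw [← hn]
      exact trace_q hW hR (hseeds 1) (hsW 1) hWS (hSS' hb) (hSW b hb) hτ hn1
    · rw [hβq, hβq, hβv, hβv, cs_sub]
      refine le_trans ?_ hconst
      exact key_le hW hR (hseeds g) (hseeds h) (hsW g) (hsW h) hWS
        (X := fun k => sg g k - sg h k) (Or.inl rfl) (hSS' hb) hb0 (hSW b hb) hτ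
    · rw [hβq, hβq, hβv', hβv', cs_sub]
      refine le_trans ?_ hconst
      exact key_le hW hR (hseeds g) (hseeds h) (hsW g) (hsW h) hWS
        (X := fun k => star (sg g k) - star (sg h k)) (Or.inr rfl) (hSS' hb) hb0 (hSW b hb) hτ

end Vale.Agent.P095
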