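import Vale.Agent.P095.TDefs

/-!
# P095: stage 2 (fixed matrix units), definitions
-/

open Filter Topology TopologicalSpace
open scoped BoundedContinuousFunction ComplexOrder

namespace Vale.Agent.P095

open Vale.Agent.P101

section Defs

variable {K : Type*} [CStarAlgebra K] [PartialOrder K] [StarOrderedRing K]

/-- `q g` are positive contractions, projections modulo null elements, of trace `η`; `v g` are
matrix units modulo null elements commuting with the `q h` modulo null elements, and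
`q g q h (v g - v h)` is relatively small. -/
structure UnitBlock {ι : Type*} (φ : K →ₗ[ℂ] ℂ) (q v : ι → K) (η c : ℝ) : Prop where
  η_pos : 0 < η
  η_le : η ≤ 1
  q_nonneg : ∀ g, 0 ≤ q g
  q_norm : ∀ g, ‖q g‖ ≤ 1
  v_norm : ∀ g, ‖v g‖ ≤ 1
  proj : ∀ g, IsNull φ (q g * q g - q g)
  comm : ∀ g h, IsNull φ (q g * v h - v h * q g)
  v_sq : ∀ g, IsNull φ (v g * v g)
  v_one : ∀ g, IsNull φ (1 - star (v g) * v g - v g * star (v g))
  q_tr : ∀ g, φ (q g) = η * φ 1
  key : ∀ g h, sq φ (q g * q h * (v g - v h)) ≤ c * η * (φ 1).re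
  key' : ∀ g h, sq φ (q g * q h * (star (v g) - star (v h))) ≤ c * η * (φ 1).re

end Defs

/-- ramp functions: `rampH R j x = clamp (R x - j + 1)`, `rampK R j` with
`x * rampK R j x ^ 2 = clamp (R x - j)` for `1 ≤ j`. -/
noncomputable def rampH (R j : ℕ) (x : ℝ) : ℝ := max 0 (min 1 (R * x - j + 1))

noncomputable def rampK (R j : ℕ) (x : ℝ) : ℝ :=
  √(max 0 (min 1 (R * x - j)) / max x (1 / R))

section Elements

variable {K : Type*} [CStarAlgebra K] {ι : Type*} [Fintype ι]

noncomputable def avgA (ν : ι → ℝ) (q : ι → K) : K := ∑ g, (ν g : ℂ) • (q g * q g)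

noncomputable def avgZ (ν : ι → ℝ) (q v : ι → K) : K := ∑ g, (ν g : ℂ) • (q g * v g * q g)

noncomputable def pieceH (R j : ℕ) (ν : ι → ℝ) (q : ι → K) : K := cfc (rampH R j) (avgA ν q)

noncomputable def pieceW (R j : ℕ) (ν : ι → ℝ) (q v : ι → K) : K :=
  cfc (rampK R j) (avgA ν q) * avgZ ν q v * cfc (rampK R j) (avgA ν q)

end Elements

end Vale.Agent.P095
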