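import Mathlib
import Vale.Agent.P095.UnitDefs
import Vale.Agent.P095.Chain

/-!
# P095 [C0b]: basic facts on the pieces `pieceH`, `pieceW`
-/

open Filter Topology TopologicalSpace
open scoped BoundedContinuousFunction ComplexOrder

namespace Vale.Agent.P095

open Vale.Agent.P101

section Ramps

theorem rampH_nonneg (R j : ℕ) (x : ℝ) : 0 ≤ rampH R j x := le_max_left _ _

theorem rampH_le_one (R j : ℕ) (x : ℝ) : rampH R j x ≤ 1 :=
  max_le zero_le_one (min_le_left _ _)

theorem rampK_nonneg (R j : ℕ) (x : ℝ) : 0 ≤ rampK R j x := Real.sqrt_nonneg _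

theorem continuous_rampH (R j : ℕ) : Continuous (rampH R j) := by
  unfold rampH
  fun_prop

theorem continuous_rampK (R j : ℕ) (hR : 1 ≤ R) : Continuous (rampK R j) := by
  have hR' : (0 : ℝ) < 1 / R := by
    have : (0 : ℝ) < R := by exact_mod_cast hR
    positivity
  unfold rampK
  refine Real.continuous_sqrt.comp ?_
  refine Continuous.div (by fun_prop) (by fun_prop) fun x => ?_
  exact (lt_of_lt_of_le hR' (le_max_right _ _)).ne'

theorem rampH_mul_rampK (R j : ℕ) (x : ℝ) : rampH R j x * rampK R j x = rampK R j x := by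
  by_cases h : (R : ℝ) * x - j ≤ 0
  · have : rampK R j x = 0 := by
      unfold rampK
      rw [max_eq_left ((min_le_right _ _).trans h), zero_div, Real.sqrt_zero]
    rw [this, mul_zero]
  · have : rampH R j x = 1 := by
      unfold rampH
      rw [min_eq_left (by linarith), max_eq_right zero_le_one]
    rw [this, one_mul]

theorem sq_rampK (R j : ℕ) (hR : 1 ≤ R) (x : ℝ) :
    rampK R j x * rampK R j x = max 0 (min 1 (R * x - j)) / max x (1 / R) := by
  have hR' : (0 : ℝ) < 1 / R := by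
    have : (0 : ℝ) < R := by exact_mod_cast hR
    positivity
  unfold rampK
  exact Real.mul_self_sqrt (div_nonneg (le_max_left _ _)
    (hR'.le.trans (le_max_right _ _)))

/-- `x * rampK R j x ^ 2 = clamp (R x - j)` for `1 ≤ j`. -/
theorem mul_sq_rampK (R j : ℕ) (hR : 1 ≤ R) (hj : 1 ≤ j) (x : ℝ) :
    x * (rampK R j x * rampK R j x) = max 0 (min 1 (R * x - j)) := by
  have hR0 : (0 : ℝ) < R := by exact_mod_cast hR
  have hj1 : (1 : ℝ) ≤ j := by exact_mod_cast hj
  rw [sq_rampK R j hR]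
  by_cases h : (R : ℝ) * x - j ≤ 0
  · rw [max_eq_left ((min_le_right _ _).trans h), zero_div, mul_zero]
  · have hx : 1 / (R : ℝ) ≤ x := by
      rw [div_le_iff₀ hR0]
      nlinarith
    have hx0 : 0 < x := lt_of_lt_of_le (by positivity) hx
    rw [max_eq_left hx]
    field_simp

theorem abs_mul_sq_rampK_le (R j : ℕ) (hR : 1 ≤ R) {x : ℝ} (hx : 0 ≤ x) :
    |x * (rampK R j x * rampK R j x)| ≤ 1 := by
  have hR' : (0 : ℝ) < 1 / R := by
    have : (0 : ℝ) < R := by exact_mod_cast hR
    positivity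
  have hm : 0 < max x (1 / (R : ℝ)) := lt_of_lt_of_le hR' (le_max_right _ _)
  rw [abs_of_nonneg (mul_nonneg hx (mul_self_nonneg _)), sq_rampK R j hR, mul_div_assoc',
    div_le_one hm]
  calc x * max 0 (min 1 ((R : ℝ) * x - j)) ≤ x * 1 :=
        mul_le_mul_of_nonneg_left (max_le zero_le_one (min_le_left _ _)) hx
    _ ≤ max x (1 / R) := by rw [mul_one]; exact le_max_left _ _

end Ramps

section Estimates

variable {K : Type*} [CStarAlgebra K] [PartialOrder K] [StarOrderedRing K]
variable {ι : Type*} [Fintype ι]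

open scoped CStarAlgebra

/-- Cauchy-Schwarz: `‖∑ aᵢ bᵢ‖² ≤ ‖∑ aᵢ aᵢ*‖ ‖∑ bᵢ* bᵢ‖`. -/
theorem norm_sum_mul_le (a b : ι → K) :
    ‖∑ i, a i * b i‖ ≤ √‖∑ i, a i * star (a i)‖ * √‖∑ i, star (b i) * b i‖ := by
  have h := CStarModule.norm_inner_le (A := K) (WithCStarModule K (ι → K))
    (x := (WithCStarModule.equiv K (ι → K)).symm fun i => star (b i))
    (y := (WithCStarModule.equiv K (ι → K)).symm a)
  rw [WithCStarModule.pi_inner, WithCStarModule.pi_norm, WithCStarModule.pi_norm] at h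
  simp only [WithCStarModule.inner_def, WithCStarModule.equiv_symm_pi_apply, star_star] at h
  rw [mul_comm]
  exact h

theorem norm_pieceW_le (R j : ℕ) (hR : 1 ≤ R) (hj : 1 ≤ j)
    {ν : ι → ℝ} (hν : ∀ g, 0 ≤ ν g) {q v : ι → K} (hq : ∀ g, 0 ≤ q g) (hv : ∀ g, ‖v g‖ ≤ 1) :
    ‖pieceW R j ν q v‖ ≤ 1 := by
  have ha : 0 ≤ avgA ν q := avgA_nonneg hν hq
  have hasa : IsSelfAdjoint (avgA ν q) := IsSelfAdjoint.of_nonneg ha
  set k : K := cfc (rampK R j) (avgA ν q) with hk
  have hksa : star k = k := (cfc_predicate (R := ℝ) (rampK R j) (avgA ν q) : IsSelfAdjoint _).star_eq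
  have hqsa : ∀ g, star (q g) = q g := fun g => (IsSelfAdjoint.of_nonneg (hq g)).star_eq
  have hcont : ContinuousOn (rampK R j) (spectrum ℝ (avgA ν q)) :=
    (continuous_rampK R j hR).continuousOn
  -- `k a k` is a contraction
  have hkak : ‖k * avgA ν q * k‖ ≤ 1 := by
    have e : k * avgA ν q * k = cfc (fun x => rampK R j x * x * rampK R j x) (avgA ν q) := by
      rw [cfc_mul (fun x => rampK R j x * x) (rampK R j) (avgA ν q) (hcont.mul continuousOn_id)
        hcont, cfc_mul (rampK R j) (fun x => x) (avgA ν q) hcont continuousOn_id, cfc_id' ℝ _ hasa]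
    rw [e]
    refine norm_cfc_le zero_le_one fun x hx => ?_
    have hx0 : 0 ≤ x := spectrum_nonneg_of_nonneg ha hx
    have := abs_mul_sq_rampK_le R j hR hx0
    rw [Real.norm_eq_abs]
    convert this using 2
    ring
  have e1 : k * avgA ν q * k = ∑ g, (ν g : ℂ) • (k * (q g * q g) * k) := by
    unfold avgA
    rw [Finset.mul_sum, Finset.sum_mul]
    refine Finset.sum_congr rfl fun g _ => ?_
    rw [mul_smul_comm, smul_mul_assoc]
  have hs : ∀ g, ((√(ν g) : ℝ) : ℂ) * ((√(ν g) : ℝ) : ℂ) = (ν g : ℂ) := fun g => by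
    rw [← Complex.ofReal_mul, Real.mul_self_sqrt (hν g)]
  have e2 : pieceW R j ν q v = ∑ g, (((√(ν g) : ℝ) : ℂ) • (k * q g * v g)) *
      (((√(ν g) : ℝ) : ℂ) • (q g * k)) := by
    unfold pieceW avgZ
    rw [← hk, Finset.mul_sum, Finset.sum_mul]
    refine Finset.sum_congr rfl fun g _ => ?_
    rw [smul_mul_smul_comm, hs, mul_smul_comm, smul_mul_assoc]
    simp only [mul_assoc]
  rw [e2]
  refine (norm_sum_mul_le _ _).trans ?_
  have h2 : ∑ g, star (((√(ν g) : ℝ) : ℂ) • (q g * k)) * (((√(ν g) : ℝ) : ℂ) • (q g * k)) =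
      k * avgA ν q * k := by
    rw [e1]
    refine Finset.sum_congr rfl fun g _ => ?_
    rw [star_smul, smul_mul_smul_comm, star_mul, hksa, hqsa, RCLike.star_def, Complex.conj_ofReal,
      hs]
    simp only [mul_assoc]
  have h1 : ‖∑ g, (((√(ν g) : ℝ) : ℂ) • (k * q g * v g)) *
      star (((√(ν g) : ℝ) : ℂ) • (k * q g * v g))‖ ≤ ‖k * avgA ν q * k‖ := by
    refine CStarAlgebra.norm_le_norm_of_nonneg_of_le
      (Finset.sum_nonneg fun g _ => mul_star_self_nonneg _) ?_
    rw [e1]
    refine Finset.sum_le_sum fun g _ => ?_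
    rw [star_smul, smul_mul_smul_comm, RCLike.star_def, Complex.conj_ofReal, hs]
    have hvv : v g * star (v g) ≤ 1 := by
      have h3 : ‖v g * star (v g)‖ ≤ 1 := by
        rw [CStarRing.norm_self_mul_star]
        exact mul_le_one₀ (hv g) (norm_nonneg _) (hv g)
      exact (CStarAlgebra.norm_le_one_iff_of_nonneg _ (mul_star_self_nonneg _)).1 h3
    have h4 : k * q g * v g * star (k * q g * v g) = (k * q g) * (v g * star (v g)) *
        star (k * q g) := by
      simp only [star_mul, mul_assoc]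
    have h5 : k * (q g * q g) * k = (k * q g) * 1 * star (k * q g) := by
      simp only [star_mul, mul_assoc, hksa, hqsa, one_mul]
    rw [h4, h5, Complex.coe_smul, Complex.coe_smul]
    exact smul_le_smul_of_nonneg_left (star_right_conjugate_le_conjugate hvv _) (hν g)
  rw [h2]
  calc √‖∑ g, (((√(ν g) : ℝ) : ℂ) • (k * q g * v g)) *
      star (((√(ν g) : ℝ) : ℂ) • (k * q g * v g))‖ * √‖k * avgA ν q * k‖
      ≤ 1 * 1 := by
        refine mul_le_mul ?_ ?_ (Real.sqrt_nonneg _) zero_le_one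
        · exact Real.sqrt_le_one.2 (h1.trans hkak)
        · exact Real.sqrt_le_one.2 hkak
    _ = 1 := one_mul 1

theorem pieceH_mul_pieceW (R j : ℕ) (hR : 1 ≤ R) (hj : 1 ≤ j)
    {ν : ι → ℝ} (hν : ∀ g, 0 ≤ ν g) {q v : ι → K} (hq : ∀ g, 0 ≤ q g) :
    pieceH R j ν q * pieceW R j ν q v = pieceW R j ν q v ∧
    pieceW R j ν q v * pieceH R j ν q = pieceW R j ν q v := by
  have ha : 0 ≤ avgA ν q := avgA_nonneg hν hq
  have hcont : ContinuousOn (rampK R j) (spectrum ℝ (avgA ν q)) :=
    (continuous_rampK R j hR).continuousOn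
  have hcont' : ContinuousOn (rampH R j) (spectrum ℝ (avgA ν q)) :=
    (continuous_rampH R j).continuousOn
  have h1 : cfc (rampH R j) (avgA ν q) * cfc (rampK R j) (avgA ν q) =
      cfc (rampK R j) (avgA ν q) := by
    rw [← cfc_mul (rampH R j) (rampK R j) (avgA ν q) hcont' hcont]
    simp only [rampH_mul_rampK]
  have h2 : cfc (rampK R j) (avgA ν q) * cfc (rampH R j) (avgA ν q) =
      cfc (rampK R j) (avgA ν q) := by
    rw [← cfc_mul (rampK R j) (rampH R j) (avgA ν q) hcont hcont']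
    have : (fun x => rampK R j x * rampH R j x) = rampK R j := by
      funext x
      rw [mul_comm, rampH_mul_rampK]
    rw [this]
  constructor
  · unfold pieceH pieceW
    rw [← mul_assoc, ← mul_assoc, h1]
  · unfold pieceH pieceW
    rw [mul_assoc, h2]

end Estimates

end Vale.Agent.P095
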