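import Vale.Agent.P095.Connes

/-!
# P095: scalar facts on the ramps and their operator versions
-/

open Filter Topology TopologicalSpace
open scoped BoundedContinuousFunction ComplexOrder

namespace Vale.Agent.P095

open Vale.Agent.P101

namespace PieceScal

open Connes

theorem cl_le_two_mul (y : ℝ) (hy : 0 ≤ y) : cl y ≤ 2 * y / (1 + y) := by
  rw [le_div_iff₀ (by linarith)]
  rcases le_total y 1 with h | h
  · rw [cl_of_mem hy h]
    nlinarith
  · rw [cl_of_one_le h]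
    linarith

/-- shift -/
theorem sum_shift (R : ℕ) (x : ℝ) (hx : x ∈ Set.Icc (0 : ℝ) 1) (F : ℝ → ℝ) (hF : F 0 = 0) :
    ∑ j ∈ Finset.Icc 1 R, F (rampH R (j + 1) x) =
      ∑ j ∈ Finset.range R, F (cl (R * x - j)) - F (cl (R * x)) := by
  have hR0 : (0 : ℝ) ≤ R := Nat.cast_nonneg _
  have h1 : ∑ j ∈ Finset.Icc 1 R, F (rampH R (j + 1) x) =
      ∑ j ∈ Finset.range R, F (cl (R * x - (j + 1 : ℕ))) := by
    rw [sum_Icc_rampH R (fun j => F (rampH R (j + 1) x))]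
    exact Finset.sum_congr rfl fun j _ => by rw [rampH_eq]
  have h2 := Finset.sum_range_succ (fun j : ℕ => F (cl (R * x - j))) R
  have h3 := Finset.sum_range_succ' (fun j : ℕ => F (cl (R * x - j))) R
  have h4 : cl (R * x - R) = 0 := cl_of_nonpos (by nlinarith [hx.2])
  rw [h4, hF, add_zero] at h2
  rw [h1, ← h2, h3]
  simp

theorem sum_sq_ge (R : ℕ) {x : ℝ} (hx : x ∈ Set.Icc (0 : ℝ) 1) :
    R * x - 4 * (R * x) / (1 + R * x) ≤ ∑ j ∈ Finset.Icc 1 R, rampH R (j + 1) x ^ 2 := by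
  have hR0 : (0 : ℝ) ≤ R := Nat.cast_nonneg _
  have hy : 0 ≤ R * x := mul_nonneg hR0 hx.1
  rw [sum_shift R x hx (fun t => t ^ 2) (by norm_num)]
  have h1 := sum_cl (R * x) hy R
  rw [min_eq_left (by nlinarith [hx.2])] at h1
  have h2 := sum_cl_compl (R * x) hy R
  have h3 : ∑ j ∈ Finset.range R, cl (R * x - j) ^ 2 =
      ∑ j ∈ Finset.range R, cl (R * x - j) -
        ∑ j ∈ Finset.range R, cl (R * x - j) * (1 - cl (R * x - j)) := by
    rw [← Finset.sum_sub_distrib]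
    exact Finset.sum_congr rfl fun j _ => by ring
  have h4 : cl (R * x) ^ 2 ≤ 2 * (R * x) / (1 + R * x) := by
    refine le_trans ?_ (cl_le_two_mul _ hy)
    nlinarith [cl_nonneg (R * x), cl_le_one (R * x)]
  have h5 : 4 * (R * x) / (1 + R * x) = 2 * (R * x) / (1 + R * x) + 2 * (R * x) / (1 + R * x) := by
    ring
  rw [h5, h3, h1]
  linarith

theorem sum_sq_le (R : ℕ) {x : ℝ} (hx : x ∈ Set.Icc (0 : ℝ) 1) :
    ∑ j ∈ Finset.Icc 1 R, rampH R (j + 1) x ^ 2 ≤ R * x := by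
  have hR0 : (0 : ℝ) ≤ R := Nat.cast_nonneg _
  have hy : 0 ≤ R * x := mul_nonneg hR0 hx.1
  rw [sum_shift R x hx (fun t => t ^ 2) (by norm_num)]
  have h1 := sum_cl (R * x) hy R
  rw [min_eq_left (by nlinarith [hx.2])] at h1
  have h2 : ∑ j ∈ Finset.range R, cl (R * x - j) ^ 2 ≤ ∑ j ∈ Finset.range R, cl (R * x - j) :=
    Finset.sum_le_sum fun j _ => by nlinarith [cl_nonneg (R * x - j), cl_le_one (R * x - j)]
  have h3 : 0 ≤ cl (R * x) ^ 2 := by positivity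
  linarith

theorem sum_sub_le (R : ℕ) {x : ℝ} (hx : x ∈ Set.Icc (0 : ℝ) 1) :
    ∑ j ∈ Finset.Icc 1 R, (rampH R j x - rampH R j x ^ 2) ≤ 2 * (R * x) / (1 + R * x) := by
  have hR0 : (0 : ℝ) ≤ R := Nat.cast_nonneg _
  have hy : 0 ≤ R * x := mul_nonneg hR0 hx.1
  have h2 := sum_cl_compl (R * x) hy R
  rw [sum_Icc_rampH R (fun j => rampH R j x - rampH R j x ^ 2)]
  refine le_trans (le_of_eq ?_) h2
  refine Finset.sum_congr rfl fun j _ => ?_
  rw [rampH_eq]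
  ring

/-! ### operator versions -/

section Op

variable {K : Type*} [CStarAlgebra K] [PartialOrder K] [StarOrderedRing K] {φ : K →ₗ[ℂ] ℂ}
  {a : K}

theorem rep_div (hφ : IsPosTrace φ) (R : ℕ) (ha : 0 ≤ a) (ha1 : ‖a‖ ≤ 1) :
    Rep φ a a (fun x _ => x / (1 + R * |x|))
      (φ (cfc (fun x : ℝ => x / (1 + R * x)) a)).re := by
  have hR0 : (0 : ℝ) ≤ R := Nat.cast_nonneg _
  have hc : Continuous fun x : ℝ => x / (1 + R * |x|) := by
    refine continuous_id.div (by fun_prop) fun x => ?_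
    positivity
  have e : cfc (fun x : ℝ => x / (1 + R * |x|)) a = cfc (fun x : ℝ => x / (1 + R * x)) a := by
    refine cfc_congr fun x hx => ?_
    have := (Connes.spectrum_subset_unit ha ha1 hx).1
    simp only [abs_of_nonneg this]
  have := Rep.left hφ ha ha1 ha ha1 hc
  rwa [e] at this

theorem rep_id (hφ : IsPosTrace φ) (ha : 0 ≤ a) (ha1 : ‖a‖ ≤ 1) :
    Rep φ a a (fun x _ => x) (φ a).re := by
  have hsa : IsSelfAdjoint a := .of_nonneg ha
  have := Rep.left hφ ha ha1 ha ha1 (continuous_id (X := ℝ))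
  have e : cfc (id : ℝ → ℝ) a = a := cfc_id ℝ a
  rwa [e] at this

omit [PartialOrder K] [StarOrderedRing K] in
theorem cfc_mul_self (f : ℝ → ℝ) (hf : Continuous f) (a : K) :
    cfc (f ^ 2) a = cfc f a * cfc f a := by
  rw [← cfc_mul f f a hf.continuousOn hf.continuousOn]
  congr 1
  ext x
  simp only [Pi.pow_apply]
  ring

/-- the averages of the ramps -/
theorem avg_H (hφ : IsPosTrace φ) (R : ℕ) (hR : 1 ≤ R) (ha : 0 ≤ a) (ha1 : ‖a‖ ≤ 1) :
    (1 / R : ℝ) * ∑ j ∈ Finset.Icc 1 R, (φ (cfc (rampH R j) a)).re = (φ a).re := by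
  have h1 : Rep φ a a (fun x _ => (1 / R : ℝ) * ∑ j ∈ Finset.Icc 1 R, rampH R j x)
      ((1 / R : ℝ) * ∑ j ∈ Finset.Icc 1 R, (φ (cfc (rampH R j) a)).re) :=
    (Rep.sum _ fun j _ => Rep.left hφ ha ha1 ha ha1 (continuous_rampH R j)).const_mul _
  have h2 := rep_id hφ ha ha1
  refine le_antisymm (Rep.le hφ ha ha1 ha ha1 h1 h2 fun x hx y hy => ?_)
    (Rep.le hφ ha ha1 ha ha1 h2 h1 fun x hx y hy => ?_)
  · exact (avg_rampH R hR hx).le
  · exact (avg_rampH R hR hx).ge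

theorem sum_HH_ge (hφ : IsPosTrace φ) (R : ℕ) (ha : 0 ≤ a) (ha1 : ‖a‖ ≤ 1) :
    R * (φ a).re - 4 * R * (φ (cfc (fun x : ℝ => x / (1 + R * x)) a)).re ≤
      ∑ j ∈ Finset.Icc 1 R, (φ (cfc (rampH R (j + 1)) a * cfc (rampH R (j + 1)) a)).re := by
  have h1 : Rep φ a a (fun x _ => ∑ j ∈ Finset.Icc 1 R, rampH R (j + 1) x ^ 2)
      (∑ j ∈ Finset.Icc 1 R, (φ (cfc (rampH R (j + 1)) a * cfc (rampH R (j + 1)) a)).re) := by
    refine Rep.sum _ fun j _ => ?_
    have := Rep.left hφ ha ha1 ha ha1 ((continuous_rampH R (j + 1)).pow 2)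
    rwa [cfc_mul_self _ (continuous_rampH R (j + 1))] at this
  have h2 := ((rep_id hφ ha ha1).const_mul R).sub ((rep_div hφ R ha ha1).const_mul (4 * R))
  refine Rep.le hφ ha ha1 ha ha1 h2 h1 fun x hx y hy => ?_
  simp only [abs_of_nonneg hx.1]
  refine le_trans (le_of_eq ?_) (sum_sq_ge R hx)
  ring

theorem sum_HH_le (hφ : IsPosTrace φ) (R : ℕ) (ha : 0 ≤ a) (ha1 : ‖a‖ ≤ 1) :
    ∑ j ∈ Finset.Icc 1 R, (φ (cfc (rampH R (j + 1)) a * cfc (rampH R (j + 1)) a)).re ≤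
      R * (φ a).re := by
  have h1 : Rep φ a a (fun x _ => ∑ j ∈ Finset.Icc 1 R, rampH R (j + 1) x ^ 2)
      (∑ j ∈ Finset.Icc 1 R, (φ (cfc (rampH R (j + 1)) a * cfc (rampH R (j + 1)) a)).re) := by
    refine Rep.sum _ fun j _ => ?_
    have := Rep.left hφ ha ha1 ha ha1 ((continuous_rampH R (j + 1)).pow 2)
    rwa [cfc_mul_self _ (continuous_rampH R (j + 1))] at this
  have h2 := (rep_id hφ ha ha1).const_mul R
  exact Rep.le hφ ha ha1 ha ha1 h1 h2 fun x hx y hy => sum_sq_le R hx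

theorem sum_H_sub_le (hφ : IsPosTrace φ) (R : ℕ) (ha : 0 ≤ a) (ha1 : ‖a‖ ≤ 1) :
    ∑ j ∈ Finset.Icc 1 R, (φ (cfc (rampH R j) a - cfc (rampH R j) a * cfc (rampH R j) a)).re ≤
      2 * R * (φ (cfc (fun x : ℝ => x / (1 + R * x)) a)).re := by
  have h1 : Rep φ a a (fun x _ => ∑ j ∈ Finset.Icc 1 R, (rampH R j x - rampH R j x ^ 2))
      (∑ j ∈ Finset.Icc 1 R,
        (φ (cfc (rampH R j) a - cfc (rampH R j) a * cfc (rampH R j) a)).re) := by
    refine Rep.sum _ fun j _ => ?_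
    have h3 := Rep.left hφ ha ha1 ha ha1 (continuous_rampH R j)
    have h4 := Rep.left hφ ha ha1 ha ha1 ((continuous_rampH R j).pow 2)
    rw [cfc_mul_self _ (continuous_rampH R j)] at h4
    have := h3.sub h4
    rw [map_sub, Complex.sub_re]
    exact this
  have h2 := (rep_div hφ R ha ha1).const_mul (2 * R)
  refine Rep.le hφ ha ha1 ha ha1 h1 h2 fun x hx y hy => ?_
  simp only [abs_of_nonneg hx.1]
  refine (sum_sub_le R hx).trans (le_of_eq ?_)
  ring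

end Op

end PieceScal

end Vale.Agent.P095
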