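import Vale.Agent.P095.Chain

/-!
# P095, target T3, stage 2: the small part of the average (the inverse is antitone)
-/

open Filter Topology TopologicalSpace
open scoped BoundedContinuousFunction ComplexOrder

namespace Vale.Agent.P095

open Vale.Agent.P101

variable {K : Type*} [CStarAlgebra K] [PartialOrder K] [StarOrderedRing K]

namespace SmallPart

theorem id_mul_cfc {a : K} (ha : IsSelfAdjoint a) (f : ℝ → ℝ)
    (hf : ContinuousOn f (spectrum ℝ a)) : a * cfc f a = cfc (fun x => x * f x) a := by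
  rw [cfc_mul (fun x : ℝ => x) f a continuousOn_id hf, cfc_id' ℝ a]

theorem cfc_mul_id {a : K} (ha : IsSelfAdjoint a) (f : ℝ → ℝ)
    (hf : ContinuousOn f (spectrum ℝ a)) : cfc f a * a = cfc (fun x => f x * x) a := by
  rw [cfc_mul f (fun x : ℝ => x) a hf continuousOn_id, cfc_id' ℝ a]

/-- `(1 + t y)⁻¹` by functional calculus. -/
theorem inverse_eq (t : ℝ) (ht : 0 ≤ t) {y : K} (hy : 0 ≤ y) :
    cfc (fun x : ℝ => (1 + t * x)⁻¹) y = Ring.inverse (1 + t • y) := by
  have hsp : ∀ x ∈ spectrum ℝ y, 0 ≤ x := fun x hx => spectrum_nonneg_of_nonneg hy hx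
  have hne : ∀ x ∈ spectrum ℝ y, 1 + t * x ≠ 0 := fun x hx => by
    have := mul_nonneg ht (hsp x hx)
    positivity
  rw [cfc_inv (fun x : ℝ => 1 + t * x) y hne]
  congr 1
  rw [cfc_const_add 1 (fun x : ℝ => t * x) y, cfc_const_mul_id t y]
  simp

theorem strictlyPositive {t : ℝ} (ht : 0 ≤ t) {y : K} (hy : 0 ≤ y) :
    IsStrictlyPositive (1 + t • y) := by
  have h1 : IsStrictlyPositive (1 : K) := by
    exact isStrictlyPositive_one
  exact h1.add_nonneg (smul_nonneg ht hy)

end SmallPart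

open SmallPart

theorem small_part {ι : Type*} [Fintype ι] (φ : K →ₗ[ℂ] ℂ) (hφ : IsPosTrace φ) {q v : ι → K}
    {η c : ℝ} (h : UnitBlock φ q v η c) {ν : ι → ℝ} (hν : ∀ g, 0 ≤ ν g) (hν1 : ∑ g, ν g = 1)
    (R : ℕ) (hR : 1 ≤ R) :
    (φ (cfc (fun x : ℝ => x / (1 + R * x)) (avgA ν q))).re ≤
      Fintype.card ι / R * η * (φ 1).re := by
  have hR0 : (0 : ℝ) < R := by exact_mod_cast hR
  have hq : ∀ g, IsSelfAdjoint (q g) := fun g => .of_nonneg (h.q_nonneg g)
  have ha := avgA_nonneg hν h.q_nonneg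
  set a := avgA ν q with had
  have hsp : ∀ x ∈ spectrum ℝ a, 0 ≤ x := fun x hx => spectrum_nonneg_of_nonneg ha hx
  set m := cfc (fun x : ℝ => (1 + R * x)⁻¹) a with hm
  have hcont : ContinuousOn (fun x : ℝ => (1 + R * x)⁻¹) (spectrum ℝ a) := by
    refine ContinuousOn.inv₀ (by fun_prop) fun x hx => ?_
    have := hsp x hx
    positivity
  have e1 : cfc (fun x : ℝ => x / (1 + R * x)) a = a * m := by
    rw [hm, id_mul_cfc (.of_nonneg ha) _ hcont]
    rfl
  have e2 : φ (a * m) = ∑ g, (ν g : ℂ) * φ (q g * m * q g) := by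
    rw [had]
    unfold avgA
    rw [Finset.sum_mul, map_sum]
    refine Finset.sum_congr rfl fun g _ => ?_
    rw [smul_mul_assoc, map_smul, smul_eq_mul, mul_assoc, hφ.trace, mul_assoc]
  have hterm : ∀ g, ν g * (φ (q g * m * q g)).re ≤ 1 / R * (η * (φ 1).re) := by
    intro g
    have hqq : 0 ≤ q g * q g := by
      have h1 := star_mul_self_nonneg (q g)
      rwa [(hq g).star_eq] at h1
    have hge : ν g • (q g * q g) ≤ a := by
      rw [had]
      unfold avgA
      simp only [Complex.coe_smul]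
      refine Finset.single_le_sum (f := fun k => ν k • (q k * q k)) (fun k _ => ?_)
        (Finset.mem_univ g)
      have h1 := star_mul_self_nonneg (q k)
      rw [(hq k).star_eq] at h1
      exact smul_nonneg (hν k) h1
    -- the inverse is antitone
    have hinv : m ≤ cfc (fun x : ℝ => (1 + R * x)⁻¹) (ν g • (q g * q g)) := by
      rw [hm, inverse_eq _ hR0.le ha, inverse_eq _ hR0.le (smul_nonneg (hν g) hqq)]
      refine CStarAlgebra.ringInverse_le_ringInverse ?_
        (strictlyPositive hR0.le (smul_nonneg (hν g) hqq))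
      exact add_le_add le_rfl (smul_le_smul_of_nonneg_left hge hR0.le)
    have e3 : cfc (fun x : ℝ => (1 + R * x)⁻¹) (ν g • (q g * q g)) =
        cfc (fun x : ℝ => (1 + R * (ν g * x ^ 2))⁻¹) (q g) := by
      have e4 : ν g • (q g * q g) = cfc (fun x : ℝ => ν g * x ^ 2) (q g) := by
        rw [cfc_const_mul (ν g) (fun x : ℝ => x ^ 2) (q g), cfc_pow_id (q g) 2, pow_two]
      rw [inverse_eq _ hR0.le (smul_nonneg (hν g) hqq), e4]
      rw [cfc_inv (fun x : ℝ => 1 + R * (ν g * x ^ 2)) (q g)]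
      · congr 1
        rw [cfc_const_add 1 (fun x : ℝ => R * (ν g * x ^ 2)) (q g),
          cfc_const_mul (R : ℝ) (fun x : ℝ => ν g * x ^ 2) (q g)]
        simp
      · intro x _
        have := hν g
        positivity
    rw [e3] at hinv
    have hcon := (hq g).conjugate_le_conjugate hinv
    have hmono := hφ.re_mono_le hcon
    have hcont2 : ContinuousOn (fun x : ℝ => (1 + R * (ν g * x ^ 2))⁻¹) (spectrum ℝ (q g)) := by
      refine ContinuousOn.inv₀ (by fun_prop) fun x _ => ?_
      have := hν g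
      positivity
    have e5 : q g * cfc (fun x : ℝ => (1 + R * (ν g * x ^ 2))⁻¹) (q g) * q g =
        cfc (fun x : ℝ => x * (1 + R * (ν g * x ^ 2))⁻¹ * x) (q g) := by
      rw [id_mul_cfc (hq g) _ hcont2]
      exact cfc_mul_id (hq g) (fun x : ℝ => x * (1 + R * (ν g * x ^ 2))⁻¹)
        (continuousOn_id.mul hcont2)
    have hle : ν g • cfc (fun x : ℝ => x * (1 + R * (ν g * x ^ 2))⁻¹ * x) (q g) ≤
        (1 / R : ℝ) • q g + ν g • (q g - q g * q g) := by
      have e6 : (1 / R : ℝ) • q g + ν g • (q g - q g * q g) =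
          cfc (fun x : ℝ => 1 / R * x + ν g * (x - x ^ 2)) (q g) := by
        rw [cfc_add (q g) (fun x : ℝ => 1 / R * x) (fun x : ℝ => ν g * (x - x ^ 2)),
          cfc_const_mul_id (1 / R : ℝ) (q g), cfc_const_mul (ν g) (fun x : ℝ => x - x ^ 2) (q g),
          cfc_sub (fun x : ℝ => x) (fun x : ℝ => x ^ 2) (q g), cfc_id' ℝ (q g),
          cfc_pow_id (q g) 2, pow_two]
      have hcont3 : ContinuousOn (fun x : ℝ => x * (1 + R * (ν g * x ^ 2))⁻¹ * x)
          (spectrum ℝ (q g)) := (continuousOn_id.mul hcont2).mul continuousOn_id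
      rw [e6, ← cfc_const_mul (ν g) _ (q g) hcont3]
      refine cfc_mono (fun x hx => ?_) (hcont3.const_mul _) (by fun_prop)
      obtain ⟨hx0, hx1⟩ := spectrum_subset_unit (h.q_nonneg g) (h.q_norm g) hx
      have hν0 := hν g
      have hden : 0 < 1 + R * (ν g * x ^ 2) := by positivity
      show ν g * (x * (1 + R * (ν g * x ^ 2))⁻¹ * x) ≤ 1 / R * x + ν g * (x - x ^ 2)
      have e7 : ν g * (x * (1 + R * (ν g * x ^ 2))⁻¹ * x) =
          ν g * x ^ 2 / (1 + R * (ν g * x ^ 2)) := by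
        field_simp
      rw [e7, div_le_iff₀ hden]
      have h1 : 0 ≤ x - x ^ 2 := by nlinarith
      have h2 : 1 / R * x * (1 + R * (ν g * x ^ 2)) = 1 / R * x + ν g * x ^ 3 := by
        field_simp
      have h3 : 0 ≤ ν g * (x - x ^ 2) * (R * (ν g * x ^ 2)) := by positivity
      have h4 : 0 ≤ 1 / (R : ℝ) * x := by positivity
      have h5 : ν g * x ^ 2 ≤ ν g * x ^ 3 + ν g * (x - x ^ 2) := by
        have : 0 ≤ ν g * (x * (x - 1) ^ 2) := by positivity
        nlinarith
      calc ν g * x ^ 2 ≤ (1 / R * x + ν g * x ^ 3) + ν g * (x - x ^ 2) +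
            ν g * (x - x ^ 2) * (R * (ν g * x ^ 2)) := by linarith
        _ = (1 / R * x + ν g * (x - x ^ 2)) * (1 + R * (ν g * x ^ 2)) := by
            rw [← h2]
            ring
    have hfin := hφ.re_mono_le hle
    rw [map_add, ← Complex.coe_smul, ← Complex.coe_smul, ← Complex.coe_smul, map_smul, map_smul,
      map_smul, map_sub, smul_eq_mul, smul_eq_mul, smul_eq_mul, Complex.add_re,
      Complex.re_ofReal_mul, Complex.re_ofReal_mul, Complex.re_ofReal_mul,
      hφ.apply_congr (h.proj g), sub_self, Complex.zero_re, mul_zero, add_zero, h.q_tr g,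
      Complex.re_ofReal_mul] at hfin
    rw [e5] at hmono
    calc ν g * (φ (q g * m * q g)).re ≤
          ν g * (φ (cfc (fun x : ℝ => x * (1 + R * (ν g * x ^ 2))⁻¹ * x) (q g))).re :=
          mul_le_mul_of_nonneg_left hmono (hν g)
      _ ≤ _ := hfin
  rw [e1, e2, Complex.re_sum]
  have hsum : ∑ g, ((ν g : ℂ) * φ (q g * m * q g)).re ≤ ∑ _g : ι, 1 / R * (η * (φ 1).re) := by
    refine Finset.sum_le_sum fun g _ => ?_
    rw [Complex.re_ofReal_mul]
    exact hterm g
  refine hsum.trans_eq ?_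
  rw [Finset.sum_const, Finset.card_univ, nsmul_eq_mul]
  ring

end Vale.Agent.P095
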