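import Vale.Agent.P095.PStormer
import Vale.Agent.P095.PieceScal
import Vale.Agent.P095.SmallPart
import Vale.Agent.P095.PieceBasic

/-!
# P095: the estimates for one piece
-/

open Filter Topology TopologicalSpace
open scoped BoundedContinuousFunction ComplexOrder

namespace Vale.Agent.P095

open Vale.Agent.P101

universe u v w

namespace PieceEst

section Half

variable {K : Type*} [CStarAlgebra K] [PartialOrder K] [StarOrderedRing K]
  {φ : K →ₗ[ℂ] ℂ} {n : ℕ} {q v : Fin n → K} {η c : ℝ}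

theorem q_star (h : UnitBlock φ q v η c) (g : Fin n) : star (q g) = q g :=
  (IsSelfAdjoint.of_nonneg (h.q_nonneg g)).star_eq

theorem q_mem (hφ : IsPosTrace φ) (h : UnitBlock φ q v η c) (g k : Fin n) :
    q k ∈ PosTr.commAlg φ hφ (v g) := by
  rw [PosTr.mem_commAlg]
  refine ⟨h.comm k g, ?_⟩
  have := PosTr.null_neg hφ (PosTr.null_star hφ (h.comm k g))
  have e : -star (q k * v g - v g * q k) = q k * star (v g) - star (v g) * q k := by
    rw [star_sub, star_mul, star_mul, q_star h k, neg_sub]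
  rwa [e] at this

theorem avgA_mem (hφ : IsPosTrace φ) (h : UnitBlock φ q v η c) (ν : Fin n → ℝ) (g : Fin n) :
    avgA ν q ∈ PosTr.commAlg φ hφ (v g) :=
  sum_mem fun k _ => SMulMemClass.smul_mem _ (mul_mem (q_mem hφ h g k) (q_mem hφ h g k))

theorem cfc_mem_commAlg (hφ : IsPosTrace φ) (w : K) (f : ℝ → ℝ) {a : K}
    (ha : a ∈ PosTr.commAlg φ hφ w) : cfc f a ∈ PosTr.commAlg φ hφ w := by
  have : IsClosed (PosTr.commAlg φ hφ w : Set K) := PosTr.isClosed_commAlg hφ w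
  exact cfc_mem f ha

/-- `φ (y v⋆ v) = φ(y) / 2` for `y` commuting with `v`. -/
theorem half (hφ : IsPosTrace φ) (h : UnitBlock φ q v η c) (g : Fin n) {y : K}
    (hy : y ∈ PosTr.commAlg φ hφ (v g)) : φ (y * (star (v g) * v g)) = φ y / 2 := by
  have h1 : φ (y * (star (v g) * v g)) = φ (y * (v g * star (v g))) := by
    rw [← mul_assoc, hφ.trace (y * star (v g)) (v g), ← mul_assoc, ← mul_assoc]
    refine PosTr.null_apply_eq hφ ?_
    rw [← sub_mul]
    have := PosTr.null_neg hφ hy.1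
    rw [neg_sub] at this
    exact PosTr.null_mul_right hφ _ this
  have h2 : φ (y * (1 - star (v g) * v g - v g * star (v g))) = 0 :=
    PosTr.null_apply hφ (PosTr.null_mul_left hφ y (h.v_one g))
  have e : y * (1 - star (v g) * v g - v g * star (v g)) =
      y - y * (star (v g) * v g) - y * (v g * star (v g)) := by noncomm_ring
  rw [e, map_sub, map_sub, ← h1] at h2
  linear_combination (-1 / 2 : ℂ) * h2

theorem half3 (hφ : IsPosTrace φ) (h : UnitBlock φ q v η c) (g : Fin n) {y₁ y₂ y₃ : K}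
    (h1 : y₁ ∈ PosTr.commAlg φ hφ (v g)) (h2 : y₂ ∈ PosTr.commAlg φ hφ (v g))
    (h3 : y₃ ∈ PosTr.commAlg φ hφ (v g)) :
    φ (y₁ * star (v g) * y₂ * v g * y₃) = φ (y₁ * y₂ * y₃) / 2 := by
  have e1 : φ (y₁ * star (v g) * y₂ * v g * y₃) = φ (y₃ * y₁ * (star (v g) * y₂) * v g) := by
    rw [hφ.trace]
    simp only [mul_assoc]
  have e2 : φ (y₃ * y₁ * (star (v g) * y₂) * v g) = φ (y₃ * y₁ * (y₂ * star (v g)) * v g) := by
    refine PosTr.null_apply_eq hφ ?_
    rw [← sub_mul, ← mul_sub]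
    have := PosTr.null_neg hφ h2.2
    rw [neg_sub] at this
    exact PosTr.null_mul_right hφ _ (PosTr.null_mul_left hφ _ this)
  have e3 : y₃ * y₁ * (y₂ * star (v g)) * v g = y₃ * y₁ * y₂ * (star (v g) * v g) := by
    simp only [mul_assoc]
  rw [e1, e2, e3, half hφ h g (mul_mem (mul_mem h3 h1) h2), mul_assoc y₃, hφ.trace]

/-- the trace of `q_g²`. -/
theorem tr_qq (hφ : IsPosTrace φ) (h : UnitBlock φ q v η c) (g : Fin n) :
    φ (q g * q g) = η * φ 1 := by
  rw [← h.q_tr g]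
  exact PosTr.null_apply_eq hφ (h.proj g)

theorem sq_q (hφ : IsPosTrace φ) (h : UnitBlock φ q v η c) (g : Fin n) :
    sq φ (q g) = η * (φ 1).re := by
  unfold sq
  rw [q_star h g, tr_qq hφ h g, PosTr.apply_one hφ, ← Complex.ofReal_mul, Complex.ofReal_re,
    Complex.ofReal_re]

theorem tr_avgA (hφ : IsPosTrace φ) (h : UnitBlock φ q v η c) {ν : Fin n → ℝ}
    (hν1 : ∑ g, ν g = 1) : φ (avgA ν q) = η * φ 1 := by
  unfold avgA
  rw [map_sum]
  simp only [map_smul, tr_qq hφ h, smul_eq_mul]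
  rw [← Finset.sum_mul, ← Complex.ofReal_sum, hν1, Complex.ofReal_one, one_mul]

theorem re_tr_avgA (hφ : IsPosTrace φ) (h : UnitBlock φ q v η c) {ν : Fin n → ℝ}
    (hν1 : ∑ g, ν g = 1) : (φ (avgA ν q)).re = η * (φ 1).re := by
  rw [tr_avgA hφ h hν1, PosTr.apply_one hφ, ← Complex.ofReal_mul, Complex.ofReal_re,
    Complex.ofReal_re]

end Half

section Cross

variable {K : Type*} [CStarAlgebra K] [PartialOrder K] [StarOrderedRing K]
  {φ : K →ₗ[ℂ] ℂ} {n : ℕ} {q v : Fin n → K} {η c : ℝ}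

theorem norm_k_le (R j : ℕ) (hR : 1 ≤ R) (a : K) : ‖cfc (rampK R j) a‖ ≤ √R := by
  refine norm_cfc_le (Real.sqrt_nonneg _) fun x _ => ?_
  rw [Real.norm_of_nonneg (rampK_nonneg R j x)]
  have hR' : (0 : ℝ) < R := by exact_mod_cast hR
  unfold rampK
  refine Real.sqrt_le_sqrt ?_
  have h1 : (0 : ℝ) < 1 / R := by positivity
  have h2 : 0 < max x (1 / (R : ℝ)) := lt_of_lt_of_le h1 (le_max_right _ _)
  rw [div_le_iff₀ h2]
  have h3 : max 0 (min 1 ((R : ℝ) * x - j)) ≤ 1 := max_le zero_le_one (min_le_left _ _)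
  have h4 : (1 : ℝ) ≤ R * max x (1 / R) := by
    have := mul_le_mul_of_nonneg_left (le_max_right x (1 / (R : ℝ))) hR'.le
    rwa [mul_one_div_cancel hR'.ne'] at this
  linarith

theorem k_star (R j : ℕ) (a : K) : star (cfc (rampK R j) a) = cfc (rampK R j) a :=
  (cfc_predicate (R := ℝ) (rampK R j) a : IsSelfAdjoint _).star_eq

theorem kak (R j : ℕ) (hR : 1 ≤ R) (hj : 1 ≤ j) {a : K} (ha : IsSelfAdjoint a) :
    cfc (rampK R j) a * a * cfc (rampK R j) a = cfc (rampH R (j + 1)) a := by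
  have hcont : ContinuousOn (rampK R j) (spectrum ℝ a) := (continuous_rampK R j hR).continuousOn
  have e : cfc (rampK R j) a * a * cfc (rampK R j) a =
      cfc (fun x => rampK R j x * x * rampK R j x) a := by
    rw [cfc_mul (fun x => rampK R j x * x) (rampK R j) a (hcont.mul continuousOn_id)
      hcont, cfc_mul (rampK R j) (fun x => x) a hcont continuousOn_id, cfc_id' ℝ _ ha]
  rw [e]
  congr 1
  ext x
  have := mul_sq_rampK R j hR hj x
  unfold rampH
  rw [show (R : ℝ) * x - ((j + 1 : ℕ) : ℝ) + 1 = R * x - j by push_cast; ring, ← this]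
  ring

theorem star_avgZ (h : UnitBlock φ q v η c) (ν : Fin n → ℝ) :
    star (avgZ ν q v) = ∑ g, (ν g : ℂ) • (q g * star (v g) * q g) := by
  unfold avgZ
  rw [star_sum]
  refine Finset.sum_congr rfl fun g _ => ?_
  rw [star_smul, star_mul, star_mul, q_star h g, Complex.star_def, Complex.conj_ofReal, mul_assoc]

/-- The main computation: `φ(w_ν⋆ w_ν')` is `φ(H_{j+1} H'_{j+1}) / 2` up to a small error. -/
theorem cross (hφ : IsPosTrace φ) (h : UnitBlock φ q v η c) {ν ν' : Fin n → ℝ}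
    (hν : ∀ g, 0 ≤ ν g) (hν1 : ∑ g, ν g = 1) (hν' : ∀ g, 0 ≤ ν' g) {R j : ℕ} (hR : 1 ≤ R)
    (hj : 1 ≤ j) {κ' : ℝ} (hκ' : 0 ≤ κ')
    (hchain : ∀ g, sq φ (q g * cfc (rampK R j) (avgA ν q) * cfc (rampK R j) (avgA ν' q) *
      (avgZ ν' q v - avgA ν' q * v g)) ≤ κ' * η * (φ 1).re) :
    ‖φ (star (pieceW R j ν q v) * pieceW R j ν' q v) -
      φ (cfc (rampH R (j + 1)) (avgA ν q) * cfc (rampH R (j + 1)) (avgA ν' q)) / 2‖ ≤
      R * √κ' * (η * (φ 1).re) := by
  have ha := IsSelfAdjoint.of_nonneg (avgA_nonneg hν h.q_nonneg)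
  have ha' := IsSelfAdjoint.of_nonneg (avgA_nonneg hν' h.q_nonneg)
  rw [← kak R j hR hj ha, ← kak R j hR hj ha']
  have hR0 : (0 : ℝ) ≤ R := Nat.cast_nonneg _
  have hN : 0 ≤ η * (φ 1).re := mul_nonneg h.η_pos.le (PosTr.one_nonneg hφ)
  have hk := norm_k_le R j hR (avgA ν q)
  have hk' := norm_k_le R j hR (avgA ν' q)
  have mk : ∀ g, cfc (rampK R j) (avgA ν q) ∈ PosTr.commAlg φ hφ (v g) := fun g =>
    cfc_mem_commAlg hφ _ _ (avgA_mem hφ h ν g)
  have mk' : ∀ g, cfc (rampK R j) (avgA ν' q) ∈ PosTr.commAlg φ hφ (v g) := fun g =>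
    cfc_mem_commAlg hφ _ _ (avgA_mem hφ h ν' g)
  have ma' : ∀ g, avgA ν' q ∈ PosTr.commAlg φ hφ (v g) := avgA_mem hφ h ν'
  unfold pieceW
  set k := cfc (rampK R j) (avgA ν q) with hkdef
  set k' := cfc (rampK R j) (avgA ν' q) with hk'def
  set Z' := avgZ ν' q v with hZ'
  have ksa : star k = k := k_star R j _
  -- the error elements
  set X : Fin n → K := fun g => q g * k * k' * (Z' - avgA ν' q * v g) with hX
  have e1 : φ (star (k * avgZ ν q v * k) * (k' * Z' * k')) =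
      ∑ g, (ν g : ℂ) * (φ (k * q g * star (v g) * X g * k') +
        φ (k * q g * star (v g) * (q g * k * k' * avgA ν' q) * v g * k')) := by
    rw [star_mul, star_mul, ksa, star_avgZ h]
    have : k * ((∑ g, (ν g : ℂ) • (q g * star (v g) * q g)) * k) * (k' * Z' * k') =
        ∑ g, (ν g : ℂ) • (k * q g * star (v g) * X g * k' +
          k * q g * star (v g) * (q g * k * k' * avgA ν' q) * v g * k') := by
      rw [Finset.sum_mul, Finset.mul_sum, Finset.sum_mul]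
      refine Finset.sum_congr rfl fun g _ => ?_
      rw [smul_mul_assoc, mul_smul_comm, smul_mul_assoc]
      congr 1
      rw [hX]
      noncomm_ring
    rw [this, map_sum]
    refine Finset.sum_congr rfl fun g _ => ?_
    rw [map_smul, smul_eq_mul, map_add]
  have e2 : ∀ g, φ (k * q g * star (v g) * (q g * k * k' * avgA ν' q) * v g * k') =
      φ (k * q g * (q g * k * k' * avgA ν' q) * k') / 2 := fun g =>
    half3 hφ h g (mul_mem (mk g) (q_mem hφ h g g))
      (mul_mem (mul_mem (mul_mem (q_mem hφ h g g) (mk g)) (mk' g)) (ma' g)) (mk' g)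
  have e3 : φ (k * avgA ν q * k * (k' * avgA ν' q * k')) / 2 =
      ∑ g, (ν g : ℂ) * (φ (k * q g * (q g * k * k' * avgA ν' q) * k') / 2) := by
    have : k * avgA ν q * k * (k' * avgA ν' q * k') =
        ∑ g, (ν g : ℂ) • (k * q g * (q g * k * k' * avgA ν' q) * k') := by
      conv_lhs => rw [avgA.eq_def ν q]
      rw [Finset.mul_sum, Finset.sum_mul, Finset.sum_mul]
      refine Finset.sum_congr rfl fun g _ => ?_
      rw [mul_smul_comm, smul_mul_assoc, smul_mul_assoc]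
      congr 1
      noncomm_ring
    rw [this, map_sum, Finset.sum_div]
    refine Finset.sum_congr rfl fun g _ => ?_
    rw [map_smul, smul_eq_mul]
    ring
  have e4 : φ (star (k * avgZ ν q v * k) * (k' * Z' * k')) -
      φ (k * avgA ν q * k * (k' * avgA ν' q * k')) / 2 =
      ∑ g, (ν g : ℂ) * φ (k * q g * star (v g) * X g * k') := by
    rw [e1, e3, ← Finset.sum_sub_distrib]
    refine Finset.sum_congr rfl fun g _ => ?_
    rw [e2 g]
    ring
  rw [e4]
  refine (norm_sum_le _ _).trans ?_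
  have e5 : R * √κ' * (η * (φ 1).re) = ∑ g, ν g * (R * √κ' * (η * (φ 1).re)) := by
    rw [← Finset.sum_mul, hν1, one_mul]
  rw [e5]
  refine Finset.sum_le_sum fun g _ => ?_
  rw [norm_mul, Complex.norm_real, Real.norm_of_nonneg (hν g)]
  refine mul_le_mul_of_nonneg_left ?_ (hν g)
  have e6 : φ (k * q g * star (v g) * X g * k') = φ (k' * k * q g * star (v g) * X g) := by
    rw [hφ.trace]
    simp only [mul_assoc]
  rw [e6]
  refine (PosTr.norm_apply_mul_le hφ _ _).trans ?_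
  have f1 : PosTr.n2 φ (k' * k * q g * star (v g)) ≤ R * √(η * (φ 1).re) := by
    have g1 := PosTr.n2_mul_right_le hφ (k' * k * q g) (star (v g))
    have g2 := PosTr.n2_mul_left_le hφ (k' * k) (q g)
    have g3 : PosTr.n2 φ (q g) = √(η * (φ 1).re) := by rw [PosTr.n2, sq_q hφ h g]
    have g4 : ‖star (v g)‖ ≤ 1 := by rw [norm_star]; exact h.v_norm g
    have g5 : ‖k' * k‖ ≤ R := by
      refine (norm_mul_le _ _).trans ?_
      calc ‖k'‖ * ‖k‖ ≤ √R * √R := mul_le_mul hk' hk (norm_nonneg _) (Real.sqrt_nonneg _)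
        _ = R := Real.mul_self_sqrt hR0
    calc PosTr.n2 φ (k' * k * q g * star (v g)) ≤ ‖star (v g)‖ * PosTr.n2 φ (k' * k * q g) := g1
      _ ≤ 1 * PosTr.n2 φ (k' * k * q g) :=
          mul_le_mul_of_nonneg_right g4 (PosTr.n2_nonneg _ _)
      _ = PosTr.n2 φ (k' * k * q g) := one_mul _
      _ ≤ ‖k' * k‖ * PosTr.n2 φ (q g) := g2
      _ ≤ R * PosTr.n2 φ (q g) := mul_le_mul_of_nonneg_right g5 (PosTr.n2_nonneg _ _)
      _ = R * √(η * (φ 1).re) := by rw [g3]
  have f2 : PosTr.n2 φ (X g) ≤ √κ' * √(η * (φ 1).re) := by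
    rw [PosTr.n2, ← Real.sqrt_mul hκ']
    refine Real.sqrt_le_sqrt ?_
    have := hchain g
    rw [mul_assoc κ'] at this
    exact this
  calc PosTr.n2 φ (k' * k * q g * star (v g)) * PosTr.n2 φ (X g)
      ≤ (R * √(η * (φ 1).re)) * (√κ' * √(η * (φ 1).re)) :=
        mul_le_mul f1 f2 (PosTr.n2_nonneg _ _) (by positivity)
    _ = R * √κ' * (√(η * (φ 1).re) * √(η * (φ 1).re)) := by ring
    _ = R * √κ' * (η * (φ 1).re) := by rw [Real.mul_self_sqrt hN]

/-- `w²` is small. -/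
theorem sq_ww (hφ : IsPosTrace φ) (h : UnitBlock φ q v η c) {ν : Fin n → ℝ}
    (hν : ∀ g, 0 ≤ ν g) (hν1 : ∑ g, ν g = 1) {R j : ℕ} (hR : 1 ≤ R) {κ' : ℝ} (hκ' : 0 ≤ κ')
    (hchain : ∀ g, sq φ (q g * cfc (rampK R j) (avgA ν q) * cfc (rampK R j) (avgA ν q) *
      (avgZ ν q v - avgA ν q * v g)) ≤ κ' * η * (φ 1).re) :
    sq φ (pieceW R j ν q v * pieceW R j ν q v) ≤ R ^ 2 * κ' * (η * (φ 1).re) := by
  have hR0 : (0 : ℝ) ≤ R := Nat.cast_nonneg _
  have hN : 0 ≤ η * (φ 1).re := mul_nonneg h.η_pos.le (PosTr.one_nonneg hφ)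
  have hk := norm_k_le R j hR (avgA ν q)
  have mk : ∀ g, cfc (rampK R j) (avgA ν q) ∈ PosTr.commAlg φ hφ (v g) := fun g =>
    cfc_mem_commAlg hφ _ _ (avgA_mem hφ h ν g)
  have ma : ∀ g, avgA ν q ∈ PosTr.commAlg φ hφ (v g) := avgA_mem hφ h ν
  unfold pieceW
  set k := cfc (rampK R j) (avgA ν q) with hkdef
  set Z := avgZ ν q v with hZ
  set X : Fin n → K := fun g => q g * k * k * (Z - avgA ν q * v g) with hX
  have e1 : k * Z * k * (k * Z * k) = ∑ g, (ν g : ℂ) • (k * q g * v g * X g * k) +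
      ∑ g, (ν g : ℂ) • (k * q g * v g * (q g * k * k * avgA ν q) * v g * k) := by
    have e0 : k * Z * k * (k * Z * k) = (k * ∑ g, (ν g : ℂ) • (q g * v g * q g)) * k * (k * Z * k) := by
      rfl
    rw [e0, Finset.mul_sum, Finset.sum_mul, Finset.sum_mul, ← Finset.sum_add_distrib]
    refine Finset.sum_congr rfl fun g _ => ?_
    rw [mul_smul_comm, smul_mul_assoc, smul_mul_assoc, ← smul_add]
    congr 1
    rw [hX]
    noncomm_ring
  have e2 : IsNull φ (∑ g, (ν g : ℂ) • (k * q g * v g * (q g * k * k * avgA ν q) * v g * k)) := by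
    have : ∀ g, IsNull φ (k * q g * v g * (q g * k * k * avgA ν q) * v g * k) := by
      intro g
      have m : q g * k * k * avgA ν q ∈ PosTr.commAlg φ hφ (v g) :=
        mul_mem (mul_mem (mul_mem (q_mem hφ h g g) (mk g)) (mk g)) (ma g)
      have e : k * q g * v g * (q g * k * k * avgA ν q) * v g * k =
          k * q g * (v g * (q g * k * k * avgA ν q) - (q g * k * k * avgA ν q) * v g) * v g * k +
          k * q g * (q g * k * k * avgA ν q) * (v g * v g) * k := by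
        noncomm_ring
      rw [e]
      have m1 := PosTr.null_neg hφ m.1
      rw [neg_sub] at m1
      exact PosTr.null_add hφ
        (PosTr.null_mul_right hφ _ (PosTr.null_mul_right hφ _ (PosTr.null_mul_left hφ _ m1)))
        (PosTr.null_mul_right hφ _ (PosTr.null_mul_left hφ _ (h.v_sq g)))
    classical
    have gen : ∀ s : Finset (Fin n),
        IsNull φ (∑ g ∈ s, (ν g : ℂ) • (k * q g * v g * (q g * k * k * avgA ν q) * v g * k)) := by
      intro s
      induction s using Finset.induction_on with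
      | empty => rw [Finset.sum_empty]; exact PosTr.isNull_zero φ
      | insert i s hi ih =>
        rw [Finset.sum_insert hi]
        exact PosTr.null_add hφ (PosTr.null_smul hφ _ (this i)) ih
    exact gen _
  have e3 : PosTr.n2 φ (k * Z * k * (k * Z * k)) =
      PosTr.n2 φ (∑ g, (ν g : ℂ) • (k * q g * v g * X g * k)) := by
    refine PosTr.n2_eq_of_null hφ ?_
    rw [e1, add_sub_cancel_left]
    exact e2
  have e4 : PosTr.n2 φ (k * Z * k * (k * Z * k)) ≤ R * (√κ' * √(η * (φ 1).re)) := by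
    rw [e3]
    refine (PosTr.n2_sum_le hφ _ _).trans ?_
    have e5 : R * (√κ' * √(η * (φ 1).re)) = ∑ g, ν g * (R * (√κ' * √(η * (φ 1).re))) := by
      rw [← Finset.sum_mul, hν1, one_mul]
    rw [e5]
    refine Finset.sum_le_sum fun g _ => ?_
    rw [PosTr.n2_smul, Complex.norm_real, Real.norm_of_nonneg (hν g)]
    refine mul_le_mul_of_nonneg_left ?_ (hν g)
    have f2 : PosTr.n2 φ (X g) ≤ √κ' * √(η * (φ 1).re) := by
      rw [PosTr.n2, ← Real.sqrt_mul hκ']
      refine Real.sqrt_le_sqrt ?_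
      have := hchain g
      rw [mul_assoc κ'] at this
      exact this
    have g1 := PosTr.n2_mul_right_le hφ (k * q g * v g * X g) k
    have g2 := PosTr.n2_mul_left_le hφ (k * q g * v g) (X g)
    have g5 : ‖k * q g * v g‖ ≤ √R := by
      refine (norm_mul_le _ _).trans ?_
      have g6 : ‖k * q g‖ ≤ √R := by
        refine (norm_mul_le _ _).trans ?_
        calc ‖k‖ * ‖q g‖ ≤ √R * 1 := mul_le_mul hk (h.q_norm g) (norm_nonneg _)
              (Real.sqrt_nonneg _)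
          _ = √R := mul_one _
      calc ‖k * q g‖ * ‖v g‖ ≤ √R * 1 := mul_le_mul g6 (h.v_norm g) (norm_nonneg _)
              (Real.sqrt_nonneg _)
          _ = √R := mul_one _
    calc PosTr.n2 φ (k * q g * v g * X g * k) ≤ ‖k‖ * PosTr.n2 φ (k * q g * v g * X g) := g1
      _ ≤ √R * PosTr.n2 φ (k * q g * v g * X g) :=
          mul_le_mul_of_nonneg_right hk (PosTr.n2_nonneg _ _)
      _ ≤ √R * (‖k * q g * v g‖ * PosTr.n2 φ (X g)) :=
          mul_le_mul_of_nonneg_left g2 (Real.sqrt_nonneg _)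
      _ ≤ √R * (√R * PosTr.n2 φ (X g)) := by
          refine mul_le_mul_of_nonneg_left ?_ (Real.sqrt_nonneg _)
          exact mul_le_mul_of_nonneg_right g5 (PosTr.n2_nonneg _ _)
      _ = R * PosTr.n2 φ (X g) := by rw [← mul_assoc, Real.mul_self_sqrt hR0]
      _ ≤ R * (√κ' * √(η * (φ 1).re)) := mul_le_mul_of_nonneg_left f2 hR0
  rw [PosTr.n2_le_iff hφ (by positivity)] at e4
  refine e4.trans (le_of_eq ?_)
  rw [mul_pow, mul_pow, Real.sq_sqrt hκ', Real.sq_sqrt hN]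
  ring

end Cross

section Main

variable {K : Type*} [CStarAlgebra K] [PartialOrder K] [StarOrderedRing K]
  {φ : K →ₗ[ℂ] ℂ} {n : ℕ} {q v : Fin n → K} {η c : ℝ}

theorem sq_w_eq (w : K) : sq φ w = (φ (star w * w)).re := rfl

theorem re_tt (hφ : IsPosTrace φ) (w : K) :
    (φ (w * star w + star w * w)).re = 2 * sq φ w := by
  rw [map_add, Complex.add_re, hφ.trace w (star w), sq_w_eq]
  ring

theorem sq_tt (hφ : IsPosTrace φ) {w : K} (hw : ‖w‖ ≤ 1) :
    sq φ (w * star w + star w * w) ≤ 2 * sq φ w + 2 * sq φ (w * w) := by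
  have e1 : sq φ (w * star w + star w * w) =
      2 * sq φ (star w * w) + 2 * sq φ (w * w) := by
    unfold sq
    have e : star (w * star w + star w * w) * (w * star w + star w * w) =
        w * (star w * w * star w) + w * (star w * star w * w) + star w * w * w * star w +
          star w * w * (star w * w) := by
      rw [star_add, star_mul, star_mul, star_star]
      noncomm_ring
    rw [e, map_add, map_add, map_add, hφ.trace w (star w * w * star w),
      hφ.trace w (star w * star w * w), hφ.trace (star w * w * w) (star w)]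
    simp only [star_mul, star_star, Complex.add_re, mul_assoc]
    ring
  have e2 : sq φ (star w * w) ≤ sq φ w := by
    refine (PosTr.sq_mul_left_le hφ _ _).trans ?_
    rw [norm_star]
    have := PosTr.sq_nonneg hφ w
    have h1 : ‖w‖ ^ 2 ≤ 1 := pow_le_one₀ (norm_nonneg _) hw
    nlinarith
  linarith

theorem cross_re (hφ : IsPosTrace φ) (h : UnitBlock φ q v η c) {ν ν' : Fin n → ℝ}
    (hν : ∀ g, 0 ≤ ν g) (hν1 : ∑ g, ν g = 1) (hν' : ∀ g, 0 ≤ ν' g) {R j : ℕ} (hR : 1 ≤ R)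
    (hj : 1 ≤ j) {κ' : ℝ} (hκ' : 0 ≤ κ')
    (hchain : ∀ g, sq φ (q g * cfc (rampK R j) (avgA ν q) * cfc (rampK R j) (avgA ν' q) *
      (avgZ ν' q v - avgA ν' q * v g)) ≤ κ' * η * (φ 1).re) :
    |(φ (star (pieceW R j ν q v) * pieceW R j ν' q v)).re -
      (φ (cfc (rampH R (j + 1)) (avgA ν q) * cfc (rampH R (j + 1)) (avgA ν' q))).re / 2| ≤
      R * √κ' * (η * (φ 1).re) := by
  have h1 := cross hφ h hν hν1 hν' hR hj hκ' hchain
  have h2 := (Complex.abs_re_le_norm _).trans h1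
  rw [Complex.sub_re] at h2
  have e : (φ (cfc (rampH R (j + 1)) (avgA ν q) * cfc (rampH R (j + 1)) (avgA ν' q)) / 2).re =
      (φ (cfc (rampH R (j + 1)) (avgA ν q) * cfc (rampH R (j + 1)) (avgA ν' q))).re / 2 := by
    rw [show (2 : ℂ) = ((2 : ℝ) : ℂ) by norm_num, Complex.div_ofReal_re]
  rwa [e] at h2

theorem H_last (R : ℕ) {a : K} (ha : 0 ≤ a) (ha1 : ‖a‖ ≤ 1) : cfc (rampH R (R + 1)) a = 0 := by
  have : cfc (rampH R (R + 1)) a = cfc (fun _ : ℝ => (0 : ℝ)) a := by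
    refine cfc_congr fun x hx => ?_
    have h1 := Connes.spectrum_subset_unit ha ha1 hx
    have hR0 : (0 : ℝ) ≤ R := Nat.cast_nonneg _
    rw [Connes.rampH_eq]
    exact Connes.cl_of_nonpos (by nlinarith [h1.2])
  rw [this, cfc_const_zero ℝ a]

/-- shift of the difference sum -/
theorem sum_shift_sq (hφ : IsPosTrace φ) (R : ℕ) {a b : K} (ha : 0 ≤ a) (ha1 : ‖a‖ ≤ 1)
    (hb : 0 ≤ b) (hb1 : ‖b‖ ≤ 1) :
    ∑ j ∈ Finset.Icc 1 R, sq φ (cfc (rampH R (j + 1)) b - cfc (rampH R (j + 1)) a) ≤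
      ∑ j ∈ Finset.Icc 1 R, sq φ (cfc (rampH R j) b - cfc (rampH R j) a) := by
  rw [Connes.sum_Icc_rampH R (fun j => sq φ (cfc (rampH R (j + 1)) b - cfc (rampH R (j + 1)) a)),
    Connes.sum_Icc_rampH R (fun j => sq φ (cfc (rampH R j) b - cfc (rampH R j) a))]
  have h2 := Finset.sum_range_succ
    (fun j : ℕ => sq φ (cfc (rampH R (j + 1)) b - cfc (rampH R (j + 1)) a)) R
  have h3 := Finset.sum_range_succ'
    (fun j : ℕ => sq φ (cfc (rampH R (j + 1)) b - cfc (rampH R (j + 1)) a)) R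
  simp only [H_last R ha ha1, H_last R hb hb1, sub_self] at h2
  have h4 : sq φ (0 : K) = 0 := by
    unfold sq
    rw [mul_zero, map_zero, Complex.zero_re]
  rw [h4, add_zero] at h2
  have h5 := PosTr.sq_nonneg hφ (cfc (rampH R (0 + 1)) b - cfc (rampH R (0 + 1)) a)
  linarith

/-- the average distance of the ramps -/
theorem avg_dist (hφ : IsPosTrace φ) (h : UnitBlock φ q v η c) {ν ν' : Fin n → ℝ}
    (hν : ∀ g, 0 ≤ ν g) (hν1 : ∑ g, ν g = 1) (hν' : ∀ g, 0 ≤ ν' g) (hν'1 : ∑ g, ν' g = 1)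
    {R : ℕ} (hR : 1 ≤ R) {θ ε₁ : ℝ} (hθ : 0 < θ) (hd : ∑ g, |ν' g - ν g| ≤ ε₁) :
    (1 / R : ℝ) * ∑ j ∈ Finset.Icc 1 R,
      sq φ (cfc (rampH R j) (avgA ν' q) - cfc (rampH R j) (avgA ν q)) ≤
      (4 * (n / R) + 2 * θ + ε₁ / θ) * (η * (φ 1).re) := by
  have ha := avgA_nonneg hν h.q_nonneg
  have ha' := avgA_nonneg hν' h.q_nonneg
  have ha1 := norm_avgA_le hν hν1 h.q_norm
  have ha'1 := norm_avgA_le hν' hν'1 h.q_norm
  have hN : 0 ≤ η * (φ 1).re := mul_nonneg h.η_pos.le (PosTr.one_nonneg hφ)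
  have h1 := connes_trick φ hφ R hR θ hθ (avgA ν' q) (avgA ν q) ha' ha'1 ha ha1
  have h2 := small_part φ hφ h hν' hν'1 R hR
  rw [Fintype.card_fin, mul_assoc] at h2
  -- the square roots
  have h3 : sq φ (cfc Real.sqrt (avgA ν' q) + cfc Real.sqrt (avgA ν q)) ≤
      4 * (η * (φ 1).re) := by
    have e : ∀ {a : K}, 0 ≤ a → sq φ (cfc Real.sqrt a) = (φ a).re := by
      intro a ha
      unfold sq
      rw [PStormerAux.sqrt_eq a ha,
        (IsSelfAdjoint.of_nonneg (CFC.sqrt_nonneg a)).star_eq, CFC.sqrt_mul_sqrt_self a ha]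
    have := PosTr.sq_add_le hφ (cfc Real.sqrt (avgA ν' q)) (cfc Real.sqrt (avgA ν q))
    rw [e ha, e ha', re_tr_avgA hφ h hν1, re_tr_avgA hφ h hν'1] at this
    linarith
  have h4 : sq φ (cfc Real.sqrt (avgA ν' q) - cfc Real.sqrt (avgA ν q)) ≤
      2 * ε₁ * (η * (φ 1).re) := by
    set μ : Fin n → ℝ := fun g => min (ν' g) (ν g) with hμ
    have m0 : ∀ g, 0 ≤ μ g := fun g => le_min (hν' g) (hν g)
    have hdiff : ∀ {ρ : Fin n → ℝ}, (∀ g, μ g ≤ ρ g) →
        avgA μ q ≤ avgA ρ q ∧ (φ (avgA ρ q - avgA μ q)).re =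
          (∑ g, (ρ g - μ g)) * (η * (φ 1).re) := by
      intro ρ hρ
      have e1 : avgA ρ q - avgA μ q = avgA (fun g => ρ g - μ g) q := by
        unfold avgA
        rw [← Finset.sum_sub_distrib]
        refine Finset.sum_congr rfl fun g _ => ?_
        rw [Complex.ofReal_sub, sub_smul]
      refine ⟨sub_nonneg.1 ?_, ?_⟩
      · rw [e1]
        exact avgA_nonneg (fun g => sub_nonneg.2 (hρ g)) h.q_nonneg
      · rw [e1]
        unfold avgA
        rw [map_sum]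
        simp only [map_smul, tr_qq hφ h, smul_eq_mul]
        rw [← Finset.sum_mul, ← Complex.ofReal_sum, Complex.re_ofReal_mul, PosTr.apply_one hφ,
          ← Complex.ofReal_mul, Complex.ofReal_re, Complex.ofReal_re]
    obtain ⟨d1, d2⟩ := hdiff (ρ := ν') fun g => min_le_left _ _
    obtain ⟨d3, d4⟩ := hdiff (ρ := ν) fun g => min_le_right _ _
    have d5 := powers_stormer φ hφ (avgA ν' q) (avgA ν q) (avgA μ q)
      (avgA_nonneg m0 h.q_nonneg) d1 d3
    rw [d2, d4] at d5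
    refine d5.trans ?_
    have d6 : ∑ g, (ν' g - μ g) + ∑ g, (ν g - μ g) = ∑ g, |ν' g - ν g| := by
      rw [← Finset.sum_add_distrib]
      refine Finset.sum_congr rfl fun g _ => ?_
      simp only [hμ]
      rcases le_total (ν' g) (ν g) with h' | h'
      · rw [min_eq_left h', abs_of_nonpos (by linarith)]
        ring
      · rw [min_eq_right h', abs_of_nonneg (by linarith)]
        ring
    calc 2 * ((∑ g, (ν' g - μ g)) * (η * (φ 1).re)) + 2 * ((∑ g, (ν g - μ g)) * (η * (φ 1).re))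
        = 2 * (∑ g, (ν' g - μ g) + ∑ g, (ν g - μ g)) * (η * (φ 1).re) := by ring
      _ ≤ 2 * ε₁ * (η * (φ 1).re) := by
          rw [d6]
          exact mul_le_mul_of_nonneg_right (by linarith) hN
  refine h1.trans ?_
  have h5 : θ / 2 * sq φ (cfc Real.sqrt (avgA ν' q) + cfc Real.sqrt (avgA ν q)) ≤
      2 * θ * (η * (φ 1).re) := by
    have := mul_le_mul_of_nonneg_left h3 (by positivity : 0 ≤ θ / 2)
    linarith
  have h6 : 1 / (2 * θ) * sq φ (cfc Real.sqrt (avgA ν' q) - cfc Real.sqrt (avgA ν q)) ≤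
      ε₁ / θ * (η * (φ 1).re) := by
    have := mul_le_mul_of_nonneg_left h4 (by positivity : 0 ≤ 1 / (2 * θ))
    refine this.trans (le_of_eq ?_)
    field_simp
  linarith

end Main

end PieceEst

open PieceEst

theorem piece_estimate (κ : ℝ) (hκ : 0 < κ) : ∃ ε₁ > 0, ∀ n : ℕ, ∃ r : ℕ, ∃ c₀ > 0,
    ∀ (K : Type u) [CStarAlgebra K] [PartialOrder K] [StarOrderedRing K]
      (φ : K →ₗ[ℂ] ℂ) (_ : IsPosTrace φ) (q v : Fin n → K) (η c : ℝ) (_ : UnitBlock φ q v η c)
      (_ : c ≤ c₀) (ν ν' : Fin n → ℝ) (_ : ∀ g, 0 ≤ ν g) (_ : ∑ g, ν g = 1)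
      (_ : ∀ g, 0 ≤ ν' g) (_ : ∑ g, ν' g = 1) (_ : ∑ g, |ν' g - ν g| ≤ ε₁) (R : ℕ)
      (_ : R = 2 ^ r),
      (1 / R : ℝ) * ∑ j ∈ Finset.Icc 1 R, (φ (pieceH R j ν q)).re = η * (φ 1).re ∧
      (1 - κ) * η * (φ 1).re ≤ (1 / R : ℝ) * ∑ j ∈ Finset.Icc 1 R,
        (φ (pieceW R j ν q v * star (pieceW R j ν q v) +
          star (pieceW R j ν q v) * pieceW R j ν q v)).re ∧
      (1 / R : ℝ) * ∑ j ∈ Finset.Icc 1 R,
        sq φ (pieceW R j ν q v * star (pieceW R j ν q v) +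
          star (pieceW R j ν q v) * pieceW R j ν q v) ≤ (1 + κ) * η * (φ 1).re ∧
      (1 / R : ℝ) * ∑ j ∈ Finset.Icc 1 R, sq φ (pieceW R j ν q v * pieceW R j ν q v) ≤
        κ * η * (φ 1).re ∧
      (1 / R : ℝ) * ∑ j ∈ Finset.Icc 1 R,
        (φ (pieceH R j ν q - pieceH R j ν q * pieceH R j ν q)).re ≤ κ * η * (φ 1).re ∧
      (1 / R : ℝ) * ∑ j ∈ Finset.Icc 1 R, sq φ (pieceW R j ν' q v - pieceW R j ν q v) ≤
        κ * η * (φ 1).re ∧
      (1 / R : ℝ) * ∑ j ∈ Finset.Icc 1 R, sq φ (pieceH R j ν' q - pieceH R j ν q) ≤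
        κ * η * (φ 1).re := by
  set κ₀ : ℝ := min κ 1 with hκ₀
  have k0 : 0 < κ₀ := lt_min hκ one_pos
  have k1 : κ₀ ≤ 1 := min_le_right _ _
  have kκ : κ₀ ≤ κ := min_le_left _ _
  refine ⟨κ₀ ^ 2 / 32, by positivity, fun n => ?_⟩
  obtain ⟨r, hr⟩ : ∃ r : ℕ, 16 * n / κ₀ < 2 ^ r := pow_unbounded_of_one_lt _ one_lt_two
  refine ⟨r, ?_⟩
  set S : ℕ := 2 ^ r with hS
  have hS1 : 1 ≤ S := Nat.one_le_two_pow
  have hS0 : (0 : ℝ) < S := by exact_mod_cast hS1
  set κ' : ℝ := (κ₀ / (8 * S)) ^ 2 with hκ'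
  have hκ'0 : 0 < κ' := by positivity
  have hsq : √κ' = κ₀ / (8 * S) := Real.sqrt_sq (by positivity)
  have hE : (S : ℝ) * √κ' = κ₀ / 8 := by
    rw [hsq]
    field_simp
  have hE2 : (S : ℝ) ^ 2 * κ' = κ₀ ^ 2 / 64 := by
    rw [hκ']
    field_simp
    norm_num
  have hch := fun j : ℕ => chain_lemma.{u} n (rampK S j) (rampK S j) (continuous_rampK S j hS1)
    (continuous_rampK S j hS1) κ' hκ'0
  choose cc cc0 hcc using hch
  have hne : (Finset.Icc 1 S).Nonempty := ⟨1, Finset.mem_Icc.2 ⟨le_rfl, hS1⟩⟩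
  refine ⟨(Finset.Icc 1 S).inf' hne cc, (Finset.lt_inf'_iff hne).2 fun j _ => cc0 j, ?_⟩
  intro K _ _ _ φ hφ q v η c h hc ν ν' hν hν1 hν' hν'1 hd R hR
  have hcj : ∀ j ∈ Finset.Icc 1 S, c ≤ cc j := fun j hj => hc.trans (Finset.inf'_le _ hj)
  subst hR
  have hN : 0 ≤ η * (φ 1).re := mul_nonneg h.η_pos.le (PosTr.one_nonneg hφ)
  have ha := avgA_nonneg hν h.q_nonneg
  have ha' := avgA_nonneg hν' h.q_nonneg
  have ha1 := norm_avgA_le hν hν1 h.q_norm
  have ha'1 := norm_avgA_le hν' hν'1 h.q_norm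
  have hnS : (n : ℝ) / S ≤ κ₀ / 16 := by
    rw [div_le_div_iff₀ hS0 (by norm_num)]
    have h1 : 16 * n / κ₀ < (S : ℝ) := by rw [hS]; push_cast; exact hr
    rw [div_lt_iff₀ k0] at h1
    linarith
  have hn0 : (0 : ℝ) ≤ n / S := by positivity
  set N : ℝ := η * (φ 1).re with hNdef
  -- small part
  have hsp := small_part φ hφ h hν hν1 S hS1
  rw [Fintype.card_fin, mul_assoc, ← hNdef] at hsp
  have hspN : (n : ℝ) / S * N ≤ κ₀ / 16 * N := mul_le_mul_of_nonneg_right hnS hN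
  set Sm : ℝ := (φ (cfc (fun x : ℝ => x / (1 + S * x)) (avgA ν q))).re with hSm
  -- the four sums
  have hA : ∀ j ∈ Finset.Icc 1 S, |(φ (star (pieceW S j ν q v) * pieceW S j ν q v)).re -
      (φ (cfc (rampH S (j + 1)) (avgA ν q) * cfc (rampH S (j + 1)) (avgA ν q))).re / 2| ≤
      κ₀ / 8 * N := fun j hj => by
    have := cross_re hφ h hν hν1 hν hS1 (Finset.mem_Icc.1 hj).1 hκ'0.le
      fun g => (hcc j K φ hφ q v η c h (hcj j hj) ν ν hν hν1 hν hν1 g).1
    rwa [hE] at this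
  have hA' : ∀ j ∈ Finset.Icc 1 S, |(φ (star (pieceW S j ν' q v) * pieceW S j ν' q v)).re -
      (φ (cfc (rampH S (j + 1)) (avgA ν' q) * cfc (rampH S (j + 1)) (avgA ν' q))).re / 2| ≤
      κ₀ / 8 * N := fun j hj => by
    have := cross_re hφ h hν' hν'1 hν' hS1 (Finset.mem_Icc.1 hj).1 hκ'0.le
      fun g => (hcc j K φ hφ q v η c h (hcj j hj) ν' ν' hν' hν'1 hν' hν'1 g).1
    rwa [hE] at this
  have hA'' : ∀ j ∈ Finset.Icc 1 S, |(φ (star (pieceW S j ν' q v) * pieceW S j ν q v)).re -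
      (φ (cfc (rampH S (j + 1)) (avgA ν' q) * cfc (rampH S (j + 1)) (avgA ν q))).re / 2| ≤
      κ₀ / 8 * N := fun j hj => by
    have := cross_re hφ h hν' hν'1 hν hS1 (Finset.mem_Icc.1 hj).1 hκ'0.le
      fun g => (hcc j K φ hφ q v η c h (hcj j hj) ν' ν hν' hν'1 hν hν1 g).1
    rwa [hE] at this
  have hW : ∀ j ∈ Finset.Icc 1 S, sq φ (pieceW S j ν q v * pieceW S j ν q v) ≤ κ₀ ^ 2 / 64 * N :=
    fun j hj => by
    have := sq_ww hφ h hν hν1 hS1 hκ'0.le
      fun g => (hcc j K φ hφ q v η c h (hcj j hj) ν ν hν hν1 hν hν1 g).1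
    rwa [hE2] at this
  have avg_const : ∀ x : ℝ, (1 / S : ℝ) * ∑ _j ∈ Finset.Icc 1 S, x = x := by
    intro x
    rw [Finset.sum_const, Nat.card_Icc, Nat.add_sub_cancel, nsmul_eq_mul]
    field_simp
  have avg_le : ∀ {f g : ℕ → ℝ}, (∀ j ∈ Finset.Icc 1 S, f j ≤ g j) →
      (1 / S : ℝ) * ∑ j ∈ Finset.Icc 1 S, f j ≤ (1 / S : ℝ) * ∑ j ∈ Finset.Icc 1 S, g j :=
    fun hfg => mul_le_mul_of_nonneg_left (Finset.sum_le_sum hfg) (by positivity)
  have hge := PieceScal.sum_HH_ge hφ S ha ha1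
  have hle := PieceScal.sum_HH_le hφ S ha ha1
  rw [re_tr_avgA hφ h hν1, ← hNdef] at hge hle
  rw [← hSm] at hge
  set HH : ℕ → ℝ := fun j =>
    (φ (cfc (rampH S (j + 1)) (avgA ν q) * cfc (rampH S (j + 1)) (avgA ν q))).re with hHH
  have hge' : N - 4 * Sm ≤ (1 / S : ℝ) * ∑ j ∈ Finset.Icc 1 S, HH j := by
    have := mul_le_mul_of_nonneg_left hge (by positivity : (0 : ℝ) ≤ 1 / S)
    refine le_trans (le_of_eq ?_) this
    field_simp
  have hle' : (1 / S : ℝ) * ∑ j ∈ Finset.Icc 1 S, HH j ≤ N := by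
    have := mul_le_mul_of_nonneg_left hle (by positivity : (0 : ℝ) ≤ 1 / S)
    refine this.trans (le_of_eq ?_)
    field_simp
  have hκN : κ₀ * N ≤ κ * N := mul_le_mul_of_nonneg_right kκ hN
  have hκ0N : 0 ≤ κ₀ * N := mul_nonneg k0.le hN
  have hκ2N : κ₀ ^ 2 * N ≤ κ₀ * N := by
    refine mul_le_mul_of_nonneg_right ?_ hN
    nlinarith
  have hdist := avg_dist hφ h hν hν1 hν' hν'1 hS1 (θ := κ₀ / 8) (by positivity) hd
  rw [← hNdef] at hdist
  have hD : (4 * ((n : ℝ) / S) + 2 * (κ₀ / 8) + κ₀ ^ 2 / 32 / (κ₀ / 8)) * N ≤ 3 / 4 * κ₀ * N := by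
    refine mul_le_mul_of_nonneg_right ?_ hN
    have : κ₀ ^ 2 / 32 / (κ₀ / 8) = κ₀ / 4 := by
      field_simp
      norm_num
    rw [this]
    linarith
  refine ⟨?_, ?_, ?_, ?_, ?_, ?_, ?_⟩
  · unfold pieceH
    rw [PieceScal.avg_H hφ S hS1 ha ha1, re_tr_avgA hφ h hν1]
  · have h1 : (1 / S : ℝ) * ∑ j ∈ Finset.Icc 1 S, (HH j - κ₀ / 4 * N) ≤
        (1 / S : ℝ) * ∑ j ∈ Finset.Icc 1 S, (φ (pieceW S j ν q v * star (pieceW S j ν q v) +
          star (pieceW S j ν q v) * pieceW S j ν q v)).re := by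
      refine avg_le fun j hj => ?_
      rw [re_tt hφ, sq_w_eq]
      have := (abs_le.1 (hA j hj)).1
      simp only [hHH]
      linarith
    rw [Finset.sum_sub_distrib, mul_sub, avg_const] at h1
    have e : (1 - κ) * η * (φ 1).re = N - κ * N := by rw [hNdef]; ring
    rw [e]
    linarith
  · have h1 : (1 / S : ℝ) * ∑ j ∈ Finset.Icc 1 S,
        sq φ (pieceW S j ν q v * star (pieceW S j ν q v) +
          star (pieceW S j ν q v) * pieceW S j ν q v) ≤
        (1 / S : ℝ) * ∑ j ∈ Finset.Icc 1 S, (HH j + (κ₀ / 4 * N + κ₀ ^ 2 / 32 * N)) := by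
      refine avg_le fun j hj => ?_
      have g1 := sq_tt hφ (norm_pieceW_le S j hS1 (Finset.mem_Icc.1 hj).1 hν h.q_nonneg h.v_norm
        (q := q) (v := v))
      have g2 := (abs_le.1 (hA j hj)).2
      have g3 := hW j hj
      rw [← sq_w_eq] at g2
      simp only [hHH]
      linarith
    rw [Finset.sum_add_distrib, mul_add, avg_const] at h1
    have e : (1 + κ) * η * (φ 1).re = N + κ * N := by rw [hNdef]; ring
    rw [e]
    linarith
  · have h1 : (1 / S : ℝ) * ∑ j ∈ Finset.Icc 1 S, sq φ (pieceW S j ν q v * pieceW S j ν q v) ≤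
        (1 / S : ℝ) * ∑ j ∈ Finset.Icc 1 S, κ₀ ^ 2 / 64 * N := avg_le fun j hj => hW j hj
    rw [avg_const] at h1
    rw [mul_assoc, ← hNdef]
    linarith
  · have h1 := PieceScal.sum_H_sub_le hφ S ha ha1
    rw [← hSm] at h1
    have h2 := mul_le_mul_of_nonneg_left h1 (by positivity : (0 : ℝ) ≤ 1 / S)
    have e : (1 / S : ℝ) * (2 * S * Sm) = 2 * Sm := by field_simp
    rw [e] at h2
    unfold pieceH
    rw [mul_assoc κ, ← hNdef]
    linarith
  · have h1 : (1 / S : ℝ) * ∑ j ∈ Finset.Icc 1 S, sq φ (pieceW S j ν' q v - pieceW S j ν q v) ≤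
        (1 / S : ℝ) * ∑ j ∈ Finset.Icc 1 S,
          (1 / 2 * sq φ (cfc (rampH S (j + 1)) (avgA ν' q) - cfc (rampH S (j + 1)) (avgA ν q)) +
            κ₀ / 2 * N) := by
      refine avg_le fun j hj => ?_
      rw [PosTr.sq_sub hφ, PosTr.sq_sub hφ, sq_w_eq, sq_w_eq (pieceW S j ν q v)]
      have g1 := (abs_le.1 (hA j hj)).2
      have g2 := (abs_le.1 (hA' j hj)).2
      have g3 := (abs_le.1 (hA'' j hj)).1
      have s1 : ∀ b : K, star (cfc (rampH S (j + 1)) b) = cfc (rampH S (j + 1)) b := fun b =>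
        (cfc_predicate (R := ℝ) (rampH S (j + 1)) b : IsSelfAdjoint _).star_eq
      unfold sq
      simp only [s1]
      linarith
    rw [Finset.sum_add_distrib, mul_add, avg_const, ← Finset.mul_sum] at h1
    have h2 := mul_le_mul_of_nonneg_left (sum_shift_sq hφ S ha ha1 ha' ha'1)
      (by positivity : (0 : ℝ) ≤ 1 / S)
    rw [mul_assoc κ, ← hNdef]
    linarith
  · unfold pieceH
    rw [mul_assoc κ, ← hNdef]
    linarith

end Vale.Agent.P095
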