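import Vale.Agent.P095.PieceAux
import Vale.Agent.P095.Key
import Vale.Agent.P095.Piece

/-!
# P095: one piece (row C4)
-/

open Filter Topology TopologicalSpace
open scoped BoundedContinuousFunction ComplexOrder

namespace Vale.Agent.P095

open Vale.Agent.P101

universe u v w

namespace PieceAux

section Lin

variable {B : Type u} [CStarAlgebra B]

/-- Two functionals which agree on the positive elements of `S` agree on `S`. -/
theorem eq_of_eq_on_pos {S : StarSubalgebra ℂ B} {f g : B →ₗ[ℂ] ℂ}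
    (h : ∀ y ∈ S, f (star y * y) = g (star y * y)) {b : B} (hb : b ∈ S) : f b = g b := by
  have hY : ∀ d : ℂ, f (star (1 + d • b) * (1 + d • b)) = g (star (1 + d • b) * (1 + d • b)) :=
    fun d => h _ (AddMemClass.add_mem (one_mem S) (SMulMemClass.smul_mem d hb))
  have e : ∀ d : ℂ, star (1 + d • b) * (1 + d • b) =
      1 + d • b + (star d) • star b + (star d * d) • (star b * b) := by
    intro d
    rw [star_add, star_one, star_smul, add_mul, mul_add, mul_add, one_mul, one_mul, mul_one,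
      smul_mul_smul_comm]
    abel
  simp only [e, map_add, map_smul, smul_eq_mul] at hY
  have h1 := hY 1
  have h2 := hY (-1)
  have h3 := hY Complex.I
  have h4 := hY (-Complex.I)
  simp only [star_one, star_neg, Complex.star_def, Complex.conj_I, one_mul, neg_mul, mul_neg,
    neg_neg, Complex.I_mul_I] at h1 h2 h3 h4
  have hI := Complex.I_mul_I
  linear_combination (1 / 4 : ℂ) * h1 - (1 / 4 : ℂ) * h2 - (1 / 4 : ℂ) * Complex.I * h3 +
    (1 / 4 : ℂ) * Complex.I * h4 +
    (1 / 2 : ℂ) * (f b - g b - f (star b) + g (star b)) * hI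

end Lin

section Index

variable {G : Type*} [Group G]

omit [Group G] in
theorem sum_index {M : Type*} [AddCommMonoid M] {n : ℕ} {F' : Finset G} (e : Fin n ≃ F')
    {F : Finset G} (hF : F ⊆ F') {a : G → M} (ha : ∀ g, g ∉ F → a g = 0) :
    ∑ i, a (e i) = ∑ g ∈ F, a g := by
  rw [Equiv.sum_comp e fun g : F' => a g, Finset.sum_coe_sort F' a]
  exact (Finset.sum_subset hF fun g _ hg => ha g hg).symm

theorem sum_index_shift {M : Type*} [AddCommMonoid M] [DecidableEq G] {n : ℕ} {F' : Finset G}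
    (e : Fin n ≃ F') {F : Finset G} {k : G} (hF : F.image (fun g => k * g) ⊆ F') {a : G → M}
    (ha : ∀ g, g ∉ F → a g = 0) :
    ∑ i, a (k⁻¹ * e i) = ∑ g ∈ F, a g := by
  rw [Equiv.sum_comp e fun g : F' => a (k⁻¹ * g), Finset.sum_coe_sort F' fun g => a (k⁻¹ * g),
    ← Finset.sum_subset hF]
  · rw [Finset.sum_image]
    · exact Finset.sum_congr rfl fun g _ => by rw [inv_mul_cancel_left]
    · intro g _ h _ hgh
      exact mul_left_cancel hgh
  · intro g _ hg
    refine ha _ fun hk => hg (Finset.mem_image.2 ⟨_, hk, mul_inv_cancel_left k g⟩)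

theorem sum_Icc_one (R : ℕ) (f : ℕ → ℝ) : ∑ j ∈ Finset.Icc 1 R, f j = ∑ k : Fin R, f (k + 1) := by
  rw [Fin.sum_univ_eq_sum_range (fun k => f (k + 1)) R, ← Finset.Ico_succ_right_eq_Icc,
    Finset.sum_Ico_eq_sum_range]
  refine Finset.sum_congr (by simp) fun i _ => ?_
  rw [add_comm]

end Index

section Units

variable {G : Type*} [Group G] {B : Type u} [CStarAlgebra B] {β : G →* (B ≃⋆ₐ[ℂ] B)}
  {T : Set (B →ₗ[ℂ] ℂ)} {J : Set B} (sys : TracialSystem β T J)

include sys

/-- Elements which commute with `v` modulo `J` are orthogonal to `v`. -/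
theorem map_mul_unit {τ : B →ₗ[ℂ] ℂ} (hτ : τ ∈ T) {v c : B} (hvv : v * v ∈ J)
    (hv : 1 - star v * v - v * star v ∈ J) (hc : c ∈ commAlg sys v) : τ (c * v) = 0 := by
  have htr := (sys.trace τ hτ).trace
  have h1 : v - v * star v * v ∈ J := by
    have e : v - v * star v * v = v * (1 - star v * v - v * star v) + v * v * star v := by
      noncomm_ring
    rw [e]
    exact add_mem sys (mul_left_mem sys hv _) (mul_right_mem sys hvv _)
  rw [map_congr sys hτ h1]
  have e1 : c * (v * star v * v) = c * v * star v * v := by noncomm_ring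
  rw [e1, htr]
  have h2 : v * (c * v * star v) - c * (v * v) * star v ∈ J := by
    have e : v * (c * v * star v) - c * (v * v) * star v = -((c * v - v * c) * (v * star v)) := by
      noncomm_ring
    rw [e]
    exact neg_mem sys (mul_right_mem sys hc.1 _)
  have h3 : c * (v * v) * star v ∈ J := mul_right_mem sys (mul_left_mem sys hvv _) _
  have h4 : v * (c * v * star v) ∈ J := by
    have := add_mem sys h2 h3
    rwa [sub_add_cancel] at this
  exact map_null sys hτ h4

theorem map_star_mul_eq_zero {τ : B →ₗ[ℂ] ℂ} (hτ : τ ∈ T) {b w : B} (h : τ (star b * w) = 0) :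
    τ (b * star w) = 0 := by
  have e : b * star w = star (w * star b) := by rw [star_mul, star_star]
  rw [e, map_star_of_nonneg (sys.trace τ hτ).nonneg, (sys.trace τ hτ).trace, h, star_zero]

/-- The pieces are orthogonal to `S`. -/
theorem map_mul_pieceW {ι : Type*} [Fintype ι] {τ : B →ₗ[ℂ] ℂ} (hτ : τ ∈ T)
    {q v : ι → B} (hqsa : ∀ i, IsSelfAdjoint (q i)) (hvv : ∀ i, v i * v i ∈ J)
    (hv : ∀ i, 1 - star (v i) * v i - v i * star (v i) ∈ J)
    (hqv : ∀ i j, q i * v j - v j * q i ∈ J) {b : B} (hb : ∀ i, b * v i = v i * b)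
    (hb' : ∀ i, b * star (v i) = star (v i) * b) (R j : ℕ) (ν : ι → ℝ) :
    τ (b * pieceW R j ν q v) = 0 := by
  have hq : ∀ i j, q i ∈ commAlg sys (v j) := by
    intro i j
    refine ⟨hqv i j, ?_⟩
    have := neg_mem sys (star_mem sys (hqv i j))
    rw [star_sub, star_mul, star_mul, (hqsa i).star_eq, neg_sub] at this
    exact this
  have hbm : ∀ j, b ∈ commAlg sys (v j) := by
    intro j
    refine ⟨?_, ?_⟩
    · rw [hb j, sub_self]
      exact zero_mem sys
    · rw [hb' j, sub_self]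
      exact zero_mem sys
  have hk : ∀ j', cfc (rampK R j) (avgA ν q) ∈ commAlg sys (v j') := fun j' =>
    cfc_mem' (isClosed_commAlg sys _) _ (avgA_mem ν fun i => hq i j')
  rw [pieceW, avgZ]
  have e : b * (cfc (rampK R j) (avgA ν q) * (∑ g, (ν g : ℂ) • (q g * v g * q g)) *
      cfc (rampK R j) (avgA ν q)) = ∑ g, (ν g : ℂ) • (b * cfc (rampK R j) (avgA ν q) * q g *
        v g * (q g * cfc (rampK R j) (avgA ν q))) := by
    rw [Finset.mul_sum, Finset.sum_mul, Finset.mul_sum]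
    refine Finset.sum_congr rfl fun g _ => ?_
    rw [mul_smul_comm, smul_mul_assoc, mul_smul_comm]
    congr 1
    noncomm_ring
  rw [e, map_sum]
  refine Finset.sum_eq_zero fun g _ => ?_
  rw [map_smul, (sys.trace τ hτ).trace, ← mul_assoc, ← mul_assoc]
  rw [map_mul_unit sys hτ (hvv g) (hv g), smul_zero]
  exact mul_mem (mul_mem (mul_mem (hq g g) (hk g)) (mul_mem (hbm g) (hk g))) (hq g g)

end Units

section Assembly

variable {G : Type*} [Group G] {B : Type u} [CStarAlgebra B] {β : G →* (B ≃⋆ₐ[ℂ] B)}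
  {T : Set (B →ₗ[ℂ] ℂ)} {J : Set B}

theorem re_tr_lam (sys : TracialSystem β T J) {S : StarSubalgebra ℂ B} {m : ℕ} {R : Fin m → B}
    (h : Lab T J S R) {τ : B →ₗ[ℂ] ℂ} (hτ : τ ∈ T) {b : B} (hb : b ∈ S) {x : Fin m → B}
    (hx : ∀ k, x k ∈ S) {z : B} (hz : z - lam R x ∈ J) :
    (τ (b * z)).re = (1 / m : ℝ) * ∑ k, (τ (b * x k)).re := by
  rw [map_congr sys hτ hz, tr_lam h hτ hb hx, Complex.div_natCast_re, Complex.re_sum, one_div,
    inv_mul_eq_div]

/-- Properties of one piece made of labels `R`, `R'` and elements `h`, `w`. -/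
theorem piece_props {S S' : StarSubalgebra ℂ B} (hSS : S ≤ S')
    (hinv : ∀ g, ∀ x ∈ S, β g x ∈ S)
    {m : ℕ} {R R' : Fin m → B} (hR : Lab T J S' R) (hR' : Lab T J S' R')
    (hRn : ∀ k, ‖R k‖ ≤ 1)
    (hRpos : ∀ k, ∃ y, R k = star y * y) (hR'n : ∀ k, ‖R' k‖ ≤ 1)
    (hRR : ∀ k, R k * R' k = R' k ∧ R' k * R k = R' k)
    {h w : Fin m → B} (hh : ∀ k, h k ∈ S') (hw : ∀ k, w k ∈ S')
    (hhS : ∀ k, ∀ x ∈ S, Commute (h k) x) (hwS : ∀ k, ∀ x ∈ S, Commute (w k) x)
    (hhn : ∀ k, ‖h k‖ ≤ 1) (hwn : ∀ k, ‖w k‖ ≤ 1) (hhpos : ∀ k, ∃ z, IsSelfAdjoint z ∧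
      z ∈ S' ∧ h k = z * z) (hhw : ∀ k, h k * w k = w k ∧ w k * h k = w k) :
    (∃ y, lam R h = star y * y) ∧ ‖lam R h‖ ≤ 1 ∧ ‖lam R' w‖ ≤ 1 ∧
      lam R h * lam R' w = lam R' w ∧ lam R' w * lam R h = lam R' w ∧
      (∀ x ∈ S, ∀ g, Commute (β g (lam R h)) x ∧ Commute (β g (lam R' w)) x) := by
  have hRR' : ∀ k k', k ≠ k' → R k * R' k' = 0 ∧ R' k' * R k = 0 := by
    intro k k' hkk
    constructor
    · rw [← (hRR k').1, ← mul_assoc, hR.orth k k' hkk, zero_mul]
    · rw [← (hRR k').2, mul_assoc, hR.orth k' k (Ne.symm hkk), mul_zero]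
  have hhsa : ∀ k, IsSelfAdjoint (h k) := by
    intro k
    obtain ⟨z, hz, _, e⟩ := hhpos k
    rw [e]
    nth_rw 1 [← hz.star_eq]
    exact IsSelfAdjoint.star_mul_self z
  refine ⟨?_, ?_, ?_, ?_, ?_, ?_⟩
  · let _ := CStarAlgebra.spectralOrder B
    have _ := CStarAlgebra.spectralOrderedRing B
    rw [← CStarAlgebra.nonneg_iff_eq_star_mul_self]
    refine Finset.sum_nonneg fun k _ => ?_
    obtain ⟨y, hy⟩ := hRpos k
    obtain ⟨z, hz, hzS, e⟩ := hhpos k
    have e2 : R k * h k = star (y * z) * (y * z) := by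
      rw [star_mul, hz.star_eq, mul_assoc, ← mul_assoc (star y), ← hy, ← mul_assoc,
        (hR.comm z hzS k).eq, mul_assoc, ← e]
    rw [e2]
    exact star_mul_self_nonneg _
  · refine norm_sum_selfAdjoint_le_one _ (fun k => ?_) (fun k => ?_) fun k k' hkk => ?_
    · rw [IsSelfAdjoint, star_mul, (hhsa k).star_eq, (hR.sa k).star_eq]
      exact (hR.comm _ (hh k) k).eq
    · exact (norm_mul_le _ _).trans (mul_le_one₀ (hRn k) (norm_nonneg _) (hhn k))
    · rw [mul_assoc, ← mul_assoc (h k), (hR.comm _ (hh k) k').eq, mul_assoc (R k'), ← mul_assoc,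
        hR.orth k k' hkk, zero_mul]
  · refine norm_sum_le_one _ (fun k => ?_) (fun k k' hkk => ?_) fun k k' hkk => ?_
    · exact (norm_mul_le _ _).trans (mul_le_one₀ (hR'n k) (norm_nonneg _) (hwn k))
    · rw [star_mul, (hR'.sa k).star_eq, mul_assoc, ← mul_assoc (R' k), hR'.orth k k' hkk, zero_mul,
        mul_zero]
    · rw [← (hR'.comm _ (hw k) k).eq, ← (hR'.comm _ (hw k') k').eq, star_mul,
        (hR'.sa k').star_eq, mul_assoc, ← mul_assoc (R' k), hR'.orth k k' hkk, zero_mul, mul_zero]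
  · rw [lam, lam, Finset.sum_mul]
    refine Finset.sum_congr rfl fun k _ => ?_
    rw [Finset.mul_sum, Finset.sum_eq_single k]
    · rw [mul_assoc, ← mul_assoc (h k), (hR'.comm _ (hh k) k).eq, mul_assoc (R' k), ← mul_assoc,
        (hRR k).1, (hhw k).1]
    · intro j _ hj
      rw [mul_assoc, ← mul_assoc (h k), (hR'.comm _ (hh k) j).eq, mul_assoc (R' j), ← mul_assoc,
        (hRR' k j (Ne.symm hj)).1, zero_mul]
    · intro hk
      exact absurd (Finset.mem_univ k) hk
  · rw [lam, lam, Finset.sum_mul]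
    refine Finset.sum_congr rfl fun k _ => ?_
    rw [Finset.mul_sum, Finset.sum_eq_single k]
    · rw [mul_assoc, ← mul_assoc (w k), (hR.comm _ (hw k) k).eq, mul_assoc (R k), ← mul_assoc,
        (hRR k).2, (hhw k).2]
    · intro j _ hj
      rw [mul_assoc, ← mul_assoc (w k), (hR.comm _ (hw k) j).eq, mul_assoc (R j), ← mul_assoc,
        (hRR' j k hj).2, zero_mul]
    · intro hk
      exact absurd (Finset.mem_univ k) hk
  · intro x hx g
    have hx' : β g⁻¹ x ∈ S := hinv _ x hx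
    have hgx : β g (β g⁻¹ x) = x := by
      have : (β g * β g⁻¹) x = x := by rw [← map_mul, mul_inv_cancel, map_one]; rfl
      exact this
    have h1 : Commute (lam R h) (β g⁻¹ x) := by
      refine Commute.sum_left _ _ _ fun k _ => ?_
      exact (hR.comm _ (hSS hx') k).symm.mul_left (hhS k _ hx')
    have h2 : Commute (lam R' w) (β g⁻¹ x) := by
      refine Commute.sum_left _ _ _ fun k _ => ?_
      exact (hR'.comm _ (hSS hx') k).symm.mul_left (hwS k _ hx')
    have h3 := h1.map (β g)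
    have h4 := h2.map (β g)
    rw [hgx] at h3 h4
    exact ⟨h3, h4⟩

end Assembly

end PieceAux

section Final

open PieceAux

variable {G : Type*} [Group G] {B : Type u} [CStarAlgebra B] {β : G →* (B ≃⋆ₐ[ℂ] B)}
  {T : Set (B →ₗ[ℂ] ℂ)} {J : Set B}

/-- One piece, independent of `S`, with relative errors `κ` and weight `η` not depending on
`S`. -/
theorem exists_piece [Countable G] (sys : TracialSystem β T J) (hs : HasFixedSigns β T J)
    (hseed : HasSeed J) (hG : ReiterAmenable G) (K : Finset G) (κ : ℝ) (hκ : 0 < κ) :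
    ∃ η : ℝ, 0 < η ∧ η ≤ 1 ∧ ∀ S : StarSubalgebra ℂ B, IsClosed (S : Set B) →
      IsSeparable (S : Set B) → (∀ g, ∀ x ∈ S, β g x ∈ S) →
      ∃ P w : B, (∃ y, P = star y * y) ∧ ‖P‖ ≤ 1 ∧ ‖w‖ ≤ 1 ∧ P * w = w ∧ w * P = w ∧
        (∀ x ∈ S, ∀ g, Commute (β g P) x ∧ Commute (β g w) x) ∧
        ∀ τ ∈ T, ∀ b ∈ S, τ (b * w) = 0 ∧ τ (b * star w) = 0 ∧ τ (b * P) = η * τ b ∧
          ((∃ y ∈ S, b = star y * y) →
            (1 - κ) * η * (τ b).re ≤ (τ (b * (w * star w + star w * w))).re ∧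
            (τ (b * ((w * star w + star w * w) * (w * star w + star w * w)))).re ≤
              (1 + κ) * η * (τ b).re ∧
            (τ (b * (star (w * w) * (w * w)))).re ≤ κ * η * (τ b).re ∧
            (τ (b * (P - P * P))).re ≤ κ * η * (τ b).re ∧
            ∀ k ∈ K, (τ (b * (star (β k w - w) * (β k w - w)))).re ≤ κ * η * (τ b).re ∧
              (τ (b * ((β k P - P) * (β k P - P)))).re ≤ κ * η * (τ b).re) := by
  classical
  obtain ⟨ε₁, hε₁, hpe⟩ := piece_estimate.{u} κ hκ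
  obtain ⟨F, ν, hν0, hνF, hν1, hνK⟩ := hG K ε₁ hε₁
  let F' : Finset G := F ∪ K.biUnion fun k => F.image fun g => k * g
  have hFF' : F ⊆ F' := Finset.subset_union_left
  have hkF' : ∀ k ∈ K, F.image (fun g => k * g) ⊆ F' := fun k hk =>
    (Finset.subset_biUnion_of_mem (fun k => F.image fun g => k * g) hk).trans
      Finset.subset_union_right
  let n := F'.card
  let e : Fin n ≃ F' := F'.equivFin.symm
  obtain ⟨r, c₀, hc₀, hest⟩ := hpe n
  obtain ⟨l, hl⟩ : ∃ l : ℕ, (100 : ℝ) / 2 ^ l ≤ c₀ := by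
    obtain ⟨l, hl⟩ := exists_nat_gt (100 / c₀)
    refine ⟨l, ?_⟩
    rw [div_le_iff₀ (by positivity)]
    rw [div_lt_iff₀ hc₀] at hl
    have h2 : (l : ℝ) ≤ 2 ^ l := by exact_mod_cast (Nat.lt_two_pow_self).le
    nlinarith
  have hη0 : (0 : ℝ) < (2 : ℝ)⁻¹ ^ (2 ^ l - 1) := by positivity
  have hη1 : (2 : ℝ)⁻¹ ^ (2 ^ l - 1) ≤ 1 := pow_le_one₀ (by norm_num) (by norm_num)
  refine ⟨(2 : ℝ)⁻¹ ^ (2 ^ l - 1), hη0, hη1, ?_⟩
  set η : ℝ := (2 : ℝ)⁻¹ ^ (2 ^ l - 1) with hη
  intro S hS hsep hinv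
  obtain ⟨q, v, ⟨y0, hy0⟩, hq1, hv1, hcomm, hqq, hvv, hvJ, hqv, htr⟩ :=
    exists_unitBlock sys hs hseed S hS hsep l
  let Q : Fin n → B := fun i => β (e i) q
  let V : Fin n → B := fun i => β (e i) v
  have hQpos : ∀ i, ∃ y, Q i = star y * y := fun i =>
    ⟨β (e i) y0, by simp only [Q]; rw [hy0, map_mul, map_star]⟩
  have hQsa : ∀ i, IsSelfAdjoint (Q i) := by
    intro i
    obtain ⟨y, hy⟩ := hQpos i
    rw [hy]
    exact IsSelfAdjoint.star_mul_self y
  have hQn : ∀ i, ‖Q i‖ ≤ 1 := fun i => (norm_act β _ q).le.trans hq1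
  have hVn : ∀ i, ‖V i‖ ≤ 1 := fun i => (norm_act β _ v).le.trans hv1
  have hQS : ∀ i, Q i ∈ rc S := fun i => mem_rc.2 fun x hx => (hcomm x hx _).1
  have hVS : ∀ i, V i ∈ rc S := fun i => mem_rc.2 fun x hx => (hcomm x hx _).2
  have hQQ : ∀ i, Q i * Q i - Q i ∈ J := by
    intro i
    have := act_mem sys hqq (e i)
    rwa [map_sub, map_mul] at this
  have hVV : ∀ i, V i * V i ∈ J := by
    intro i
    have := act_mem sys hvv (e i)
    rwa [map_mul] at this
  have hVJ : ∀ i, 1 - star (V i) * V i - V i * star (V i) ∈ J := by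
    intro i
    have := act_mem sys hvJ (e i)
    rwa [map_sub, map_sub, map_one, map_mul, map_mul, map_star] at this
  have hQV : ∀ i j, Q i * V j - V j * Q i ∈ J := fun i j => hqv _ _
  have hqtr : ∀ τ ∈ T, ∀ b ∈ S, ∀ g, τ (b * β g q) = η * τ b := by
    intro τ hτ b hb g
    have h1 : ∀ τ ∈ T, ∀ b ∈ S, τ (b * q) = η * τ b := by
      intro τ hτ b hb
      have h2 := eq_of_eq_on_pos (f := τ ∘ₗ LinearMap.mulRight ℂ q)
        (g := ((η : ℝ) : ℂ) • τ) (S := S) (fun y hy => ?_) hb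
      · exact h2
      · have h3 := (htr τ hτ (star y * y) (mul_mem (StarMemClass.star_mem hy) hy) ⟨y, hy, rfl⟩).1
        rw [LinearMap.comp_apply, LinearMap.mulRight_apply, h3, LinearMap.smul_apply, smul_eq_mul,
          hη]
        push_cast
        rfl
    have h4 := h1 _ (sys.inv τ hτ g) _ (hinv g⁻¹ b hb)
    have h5 : β g (β g⁻¹ b) = b := by
      have : (β g * β g⁻¹) b = b := by rw [← map_mul, mul_inv_cancel, map_one]; rfl
      exact this
    have h6 : τ (β g (β g⁻¹ b * q)) = η * τ (β g (β g⁻¹ b)) := h4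
    rwa [map_mul, h5] at h6
  -- the probability vectors
  let μ : Fin n → ℝ := fun i => ν (e i)
  let μ' : G → Fin n → ℝ := fun k i => ν (k⁻¹ * e i)
  have hμ0 : ∀ i, 0 ≤ μ i := fun i => hν0 _
  have hμ'0 : ∀ k i, 0 ≤ μ' k i := fun k i => hν0 _
  have hμ1 : ∑ i, μ i = 1 := (sum_index e hFF' hνF).trans hν1
  have hμ'1 : ∀ k ∈ K, ∑ i, μ' k i = 1 := fun k hk =>
    (sum_index_shift e (hkF' k hk) hνF).trans hν1
  have hμμ' : ∀ k ∈ K, ∑ i, |μ' k i - μ i| ≤ ε₁ := by
    intro k hk
    have h1 := hνK k hk F'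
    rw [← Finset.sum_coe_sort F' (fun g => |ν (k⁻¹ * g) - ν g|), ← Equiv.sum_comp e] at h1
    exact h1
  -- the labels
  let S' : StarSubalgebra ℂ B := cgen ((S : Set B) ∪ (Set.range Q ∪ Set.range V))
  have hS' : IsClosed (S' : Set B) := isClosed_cgen _
  have hS'sep : IsSeparable (S' : Set B) := isSeparable_cgen
    (hsep.union ((Set.countable_range Q).isSeparable.union (Set.countable_range V).isSeparable))
  have hSS' : S ≤ S' := fun x hx => subset_cgen _ (Or.inl hx)
  have hQS' : ∀ i, Q i ∈ S' := fun i => subset_cgen _ (Or.inr (Or.inl ⟨i, rfl⟩))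
  have hVS' : ∀ i, V i ∈ S' := fun i => subset_cgen _ (Or.inr (Or.inr ⟨i, rfl⟩))
  obtain ⟨R, R', ρ, hfix, -, hR1, hR2, -, hR3, hR4, -, hR5, -, hR6, -, -, hR7⟩ :=
    exists_labels sys hs S' hS' hS'sep r 0
  have hcast : ((2 ^ r : ℕ) : ℂ) = 2 ^ r := by push_cast; rfl
  have htrR : ∀ τ ∈ T, ∀ b ∈ S', ∀ k, τ (b * R k) = τ b / ((2 ^ r : ℕ) : ℂ) := by
    intro τ hτ b hb k
    have := hR7 τ hτ b hb k (fun _ => true)
    rw [List.ofFn_zero, List.prod_nil, mul_one, pow_zero, mul_one] at this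
    rw [this, hcast]
  have hLR : PieceAux.Lab T J S' R :=
    { sa := fun k => (hR1 k).1
      orth := hR3
      idem := hR5
      comm := fun x hx k => ((hR6 x hx).1 k).1
      tr := htrR }
  have hLR' : PieceAux.Lab T J S' R' :=
    { sa := fun k => by
        obtain ⟨⟨y, hy, -⟩, -⟩ := hR2 k
        rw [hy]
        exact IsSelfAdjoint.star_mul_self y
      orth := fun k k' hkk => by
        rw [← (hR2 k).2.2, mul_assoc, ← (hR2 k').2.1, ← mul_assoc (R k), hR3 k k' hkk, zero_mul,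
          mul_zero]
      idem := fun k => by
        have h1 : R' k - R k ∈ J := by
          have := neg_mem sys (hR4 k)
          rwa [neg_sub] at this
        have h2 := add_mem sys (add_mem sys (mul_sub_mul_mem sys h1 h1) (hR5 k)) (hR4 k)
        have e1 : R' k * R' k - R k * R k + (R k * R k - R k) + (R k - R' k) =
            R' k * R' k - R' k := by abel
        rwa [e1] at h2
      comm := fun x hx k => ((hR6 x hx).1 k).2
      tr := fun τ hτ b hb k => by
        rw [← htrR τ hτ b hb k]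
        exact (map_congr sys hτ (hR4 k) b).symm }
  have hR'n : ∀ k, ‖R' k‖ ≤ 1 := by
    intro k
    obtain ⟨⟨y, hy, hy1⟩, -⟩ := hR2 k
    rw [hy, CStarRing.norm_star_mul_self]
    exact mul_le_one₀ hy1 (norm_nonneg _) hy1
  -- the elements
  have hN : 1 ≤ 2 ^ r := Nat.one_le_two_pow
  let h : (Fin n → ℝ) → Fin (2 ^ r) → B := fun μ k => pieceH (2 ^ r) (k + 1) μ Q
  let w : (Fin n → ℝ) → Fin (2 ^ r) → B := fun μ k => pieceW (2 ^ r) (k + 1) μ Q V
  have hhS' : ∀ μ k, h μ k ∈ S' := fun μ k => pieceH_mem hS' _ _ _ hQS'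
  have hwS' : ∀ μ k, w μ k ∈ S' := fun μ k => pieceW_mem hS' _ _ _ hQS' hVS'
  have hhS : ∀ μ k, h μ k ∈ rc S := fun μ k => pieceH_mem (isClosed_rc S) _ _ _ hQS
  have hwS : ∀ μ k, w μ k ∈ rc S := fun μ k => pieceW_mem (isClosed_rc S) _ _ _ hQS hVS
  have hhsa : ∀ μ k, IsSelfAdjoint (h μ k) := fun μ k => IsSelfAdjoint.cfc
  have hhn : ∀ μ k, ‖h μ k‖ ≤ 1 := by
    intro μ k
    refine norm_cfc_le zero_le_one fun x _ => ?_
    rw [Real.norm_of_nonneg (rampH_nonneg _ _ _)]
    exact rampH_le_one _ _ _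
  have hhpos : ∀ μ k, ∃ z, IsSelfAdjoint z ∧ z ∈ S' ∧ h μ k = z * z := by
    intro μ k
    refine ⟨cfc (fun x => √(rampH (2 ^ r) (k + 1) x)) (avgA μ Q), IsSelfAdjoint.cfc,
      cfc_mem' hS' _ (avgA_mem _ hQS'), ?_⟩
    have hcont : Continuous fun x => √(rampH (2 ^ r) ((k : ℕ) + 1) x) :=
      Real.continuous_sqrt.comp (PieceAux.continuous_rampH _ _)
    rw [← cfc_mul _ _ _ hcont.continuousOn hcont.continuousOn]
    refine cfc_congr fun x _ => ?_
    exact (Real.mul_self_sqrt (rampH_nonneg _ _ _)).symm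
  have hord : (∀ k, ‖w μ k‖ ≤ 1) ∧ ∀ k, h μ k * w μ k = w μ k ∧ w μ k * h μ k = w μ k := by
    let _ := CStarAlgebra.spectralOrder B
    have _ := CStarAlgebra.spectralOrderedRing B
    have hQ0 : ∀ i, 0 ≤ Q i := by
      intro i
      obtain ⟨y, hy⟩ := hQpos i
      rw [hy]
      exact star_mul_self_nonneg y
    exact ⟨fun k => norm_pieceW_le _ _ hN (Nat.succ_pos _) hμ0 hQ0 hVn, fun k =>
      pieceH_mul_pieceW _ _ hN (Nat.succ_pos _) hμ0 hQ0⟩
  obtain ⟨hp1, hp2, hp3, hp4, hp5, hp6⟩ := piece_props hSS' hinv hLR hLR' (fun k => (hR1 k).2.1)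
    (fun k => by
      obtain ⟨y, hy, -⟩ := (hR1 k).2.2
      exact ⟨y, hy⟩) hR'n (fun k => (hR2 k).2) (hhS' μ) (hwS' μ)
    (fun k => mem_rc.1 (hhS μ k)) (fun k => mem_rc.1 (hwS μ k)) (hhn μ) hord.1 (hhpos μ) hord.2
  refine ⟨lam R (h μ), lam R' (w μ), hp1, hp2, hp3, hp4, hp5, hp6, ?_⟩
  -- the action on the elements
  have hββ : ∀ k g x, β k (β g x) = β (k * g) x := fun k g x => by rw [map_mul]; rfl
  have hA : ∀ k ∈ K, avgA μ (fun i => β k (Q i)) = avgA (μ' k) Q := by
    intro k hk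
    have ha : ∀ g, g ∉ F → ((ν g : ℝ) : ℂ) • (β (k * g) q * β (k * g) q) = 0 := fun g hg => by
      rw [hνF g hg, Complex.ofReal_zero, zero_smul]
    have h1 := sum_index e hFF' ha
    have h2 := sum_index_shift e (hkF' k hk) ha
    rw [← h2] at h1
    simp only [mul_inv_cancel_left] at h1
    simp only [avgA, μ, μ', Q, hββ]
    exact h1
  have hZ : ∀ k ∈ K, avgZ μ (fun i => β k (Q i)) (fun i => β k (V i)) = avgZ (μ' k) Q V := by
    intro k hk
    have ha : ∀ g, g ∉ F →
        ((ν g : ℝ) : ℂ) • (β (k * g) q * β (k * g) v * β (k * g) q) = 0 := fun g hg => by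
      rw [hνF g hg, Complex.ofReal_zero, zero_smul]
    have h1 := sum_index e hFF' ha
    have h2 := sum_index_shift e (hkF' k hk) ha
    rw [← h2] at h1
    simp only [mul_inv_cancel_left] at h1
    simp only [avgZ, μ, μ', Q, V, hββ]
    exact h1
  have hβh : ∀ k ∈ K, ∀ j, β k (h μ j) = h (μ' k) j := by
    intro k hk j
    have h1 := map_pieceH (β k : B →⋆ₐ[ℂ] B) (continuous_act β k) (2 ^ r) (j + 1) μ hQsa
    refine h1.trans ?_
    have h2 := hA k hk
    simp only [h, pieceH]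
    exact congrArg _ h2
  have hβw : ∀ k ∈ K, ∀ j, β k (w μ j) = w (μ' k) j := by
    intro k hk j
    have h1 := map_pieceW (β k : B →⋆ₐ[ℂ] B) (continuous_act β k) (2 ^ r) (j + 1) hN μ hQsa V
    refine h1.trans ?_
    have h2 := hA k hk
    have h3 := hZ k hk
    simp only [w, pieceW]
    have h2' : avgA μ (fun g => (β k : B →⋆ₐ[ℂ] B) (Q g)) = avgA (μ' k) Q := h2
    have h3' : avgZ μ (fun g => (β k : B →⋆ₐ[ℂ] B) (Q g)) (fun g => (β k : B →⋆ₐ[ℂ] B) (V g)) =
      avgZ (μ' k) Q V := h3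
    rw [h2', h3']
  have hlamβ : ∀ (k : G) (X Y : Fin (2 ^ r) → B), (∀ j, β k (X j) = X j) →
      β k (lam X Y) = lam X fun j => β k (Y j) := by
    intro k X Y hX
    simp only [lam, map_sum, map_mul, hX]
  -- orthogonality
  have hbw : ∀ τ ∈ T, ∀ b ∈ S, τ (b * lam R' (w μ)) = 0 := by
    intro τ hτ b hb
    rw [tr_lam hLR' hτ (hSS' hb) (hwS' μ)]
    have : ∀ k, τ (b * w μ k) = 0 := fun k =>
      map_mul_pieceW sys hτ hQsa hVV hVJ hQV (fun i => ((mem_rc.1 (hVS i) b hb).symm).eq)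
        (fun i => (mem_rc.1 (StarMemClass.star_mem (hVS i)) b hb).symm.eq) _ _ _
    rw [Finset.sum_eq_zero fun k _ => this k, zero_div]
  -- the estimates for positive elements
  have hpos : ∀ τ ∈ T, ∀ y ∈ S, ∃ (φ : rc S →ₗ[ℂ] ℂ) (_ : PartialOrder (rc S))
      (_ : StarOrderedRing (rc S)) (qK vK : Fin n → rc S), IsPosTrace φ ∧
      UnitBlock φ qK vK η (100 / 2 ^ l) ∧ (∀ x, φ x = τ (star y * y * x)) ∧
      (∀ μ j, ((pieceH (2 ^ r) j μ qK : rc S) : B) = pieceH (2 ^ r) j μ Q) ∧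
      (∀ μ j, ((pieceW (2 ^ r) j μ qK vK : rc S) : B) = pieceW (2 ^ r) j μ Q V) ∧
      ∀ i, 0 ≤ qK i := by
    intro τ hτ y hy
    have hb : star y * y ∈ S := mul_mem (StarMemClass.star_mem hy) hy
    let _ := CStarAlgebra.spectralOrder (rc S)
    have _ := CStarAlgebra.spectralOrderedRing (rc S)
    let qK : Fin n → rc S := fun i => ⟨Q i, hQS i⟩
    let vK : Fin n → rc S := fun i => ⟨V i, hVS i⟩
    have hnull : ∀ x : rc S, (x : B) ∈ J → IsNull (fb S τ (star y * y)) x := fun x hx => by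
      rw [IsNull, fb_apply]
      exact map_mul_null sys hτ (mul_left_mem sys hx _) _
    have hqK : ∀ i, IsSelfAdjoint (qK i) := fun i => Subtype.ext (hQsa i)
    have hest1 := (htr τ hτ (star y * y) hb ⟨y, hy, rfl⟩).2
    refine ⟨fb S τ (star y * y), inferInstance, inferInstance, qK, vK,
      isPosTrace_fb (sys.trace τ hτ) hy, ?_, fun x => rfl, ?_, ?_, fun i =>
        nonneg_rc (hQS i) (hQpos i)⟩
    · exact
        { η_pos := hη0
          η_le := hη1
          q_nonneg := fun i => nonneg_rc (hQS i) (hQpos i)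
          q_norm := hQn
          v_norm := hVn
          proj := fun i => hnull _ (hQQ i)
          comm := fun i j => hnull _ (hQV i j)
          v_sq := fun i => hnull _ (hVV i)
          v_one := fun i => hnull _ (hVJ i)
          q_tr := fun i => by
            rw [fb_apply, fb_apply]
            show τ (star y * y * β (e i) q) = η * τ (star y * y * 1)
            rw [hqtr τ hτ _ hb, mul_one]
          key := fun i j => by
            have := (hest1 (e i) (e j)).1
            rw [sq, fb_apply, fb_apply]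
            show _ ≤ 100 / 2 ^ l * η * (τ (star y * y * 1)).re
            rw [mul_one]
            exact this
          key' := fun i j => by
            have := (hest1 (e i) (e j)).2
            rw [map_star, map_star] at this
            rw [sq, fb_apply, fb_apply]
            show _ ≤ 100 / 2 ^ l * η * (τ (star y * y * 1)).re
            rw [mul_one]
            exact this }
    · intro μ j
      exact map_pieceH (StarSubalgebra.subtype (rc S)) continuous_subtype_val _ _ _ hqK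
    · intro μ j
      exact map_pieceW (StarSubalgebra.subtype (rc S)) continuous_subtype_val _ _ hN _ hqK _
  -- the estimates, in terms of `h` and `w`
  have hmain : ∀ τ ∈ T, ∀ y ∈ S,
      (1 / ((2 ^ r : ℕ) : ℝ)) * ∑ k, (τ (star y * y * h μ k)).re = η * (τ (star y * y)).re ∧
      (∀ k, (τ (star y * y * h μ k)).im = 0) ∧
      (1 - κ) * η * (τ (star y * y)).re ≤ (1 / ((2 ^ r : ℕ) : ℝ)) * ∑ k,
        (τ (star y * y * (w μ k * star (w μ k) + star (w μ k) * w μ k))).re ∧
      (1 / ((2 ^ r : ℕ) : ℝ)) * ∑ k, (τ (star y * y *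
        (star (w μ k * star (w μ k) + star (w μ k) * w μ k) *
          (w μ k * star (w μ k) + star (w μ k) * w μ k)))).re ≤
        (1 + κ) * η * (τ (star y * y)).re ∧
      (1 / ((2 ^ r : ℕ) : ℝ)) * ∑ k, (τ (star y * y *
        (star (w μ k * w μ k) * (w μ k * w μ k)))).re ≤ κ * η * (τ (star y * y)).re ∧
      (1 / ((2 ^ r : ℕ) : ℝ)) * ∑ k, (τ (star y * y * (h μ k - h μ k * h μ k))).re ≤
        κ * η * (τ (star y * y)).re ∧
      ∀ g ∈ K, (1 / ((2 ^ r : ℕ) : ℝ)) * ∑ k, (τ (star y * y *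
        (star (w (μ' g) k - w μ k) * (w (μ' g) k - w μ k)))).re ≤
          κ * η * (τ (star y * y)).re ∧
        (1 / ((2 ^ r : ℕ) : ℝ)) * ∑ k, (τ (star y * y *
        (star (h (μ' g) k - h μ k) * (h (μ' g) k - h μ k)))).re ≤
          κ * η * (τ (star y * y)).re := by
    intro τ hτ y hy
    obtain ⟨φ, i1, i2, qK, vK, hφ, hUB, hφx, hH, hW, hq0⟩ := hpos τ hτ y hy
    have est : ∀ μ'' : Fin n → ℝ, _ := fun μ'' h1 h2 h3 => hest (rc S) φ hφ qK vK η (100 / 2 ^ l)
      hUB hl μ μ'' hμ0 hμ1 h1 h2 h3 (2 ^ r) rfl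
    have est0 := est μ hμ0 hμ1 (by simp [hε₁.le])
    simp only [sum_Icc_one, hφx, sq, MulMemClass.coe_mul, AddMemClass.coe_add,
      StarMemClass.coe_star, AddSubgroupClass.coe_sub, OneMemClass.coe_one, mul_one, hH, hW]
      at est0
    obtain ⟨e1, e2, e3, e4, e5, -, -⟩ := est0
    refine ⟨e1, ?_, e2, e3, e4, e5, ?_⟩
    · intro k
      have h0 : (0 : rc S) ≤ pieceH (2 ^ r) (k + 1) μ qK :=
        cfc_nonneg fun x _ => rampH_nonneg _ _ _
      obtain ⟨z, hz⟩ := CStarAlgebra.nonneg_iff_eq_star_mul_self.1 h0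
      have h1 := hφ.nonneg z
      rw [← hz, hφx, hH] at h1
      exact (Complex.nonneg_iff.1 h1).2.symm
    · intro g hg
      have est1 := est (μ' g) (hμ'0 g) (hμ'1 g hg) (hμμ' g hg)
      simp only [sum_Icc_one, hφx, sq, MulMemClass.coe_mul, AddMemClass.coe_add,
        StarMemClass.coe_star, AddSubgroupClass.coe_sub, OneMemClass.coe_one, mul_one, hH, hW]
        at est1
      obtain ⟨-, -, -, -, -, e6, e7⟩ := est1
      exact ⟨e6, e7⟩
  intro τ hτ b hb
  refine ⟨hbw τ hτ b hb,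
    map_star_mul_eq_zero sys hτ (hbw τ hτ _ (StarMemClass.star_mem hb)), ?_, ?_⟩
  · have h2 := eq_of_eq_on_pos (f := τ ∘ₗ LinearMap.mulRight ℂ (lam R (h μ)))
      (g := ((η : ℝ) : ℂ) • τ) (S := S) (fun y hy => ?_) hb
    · exact h2
    · rw [LinearMap.comp_apply, LinearMap.mulRight_apply, LinearMap.smul_apply, smul_eq_mul,
        tr_lam hLR hτ (hSS' (mul_mem (StarMemClass.star_mem hy) hy)) (hhS' μ)]
      obtain ⟨e1, e2, -⟩ := hmain τ hτ y hy
      have h3 : ∀ k, τ (star y * y * h μ k) = (((τ (star y * y * h μ k)).re : ℝ) : ℂ) := fun k =>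
        Complex.ext rfl (by rw [e2 k, Complex.ofReal_im])
      have h4 : τ (star y * y) = (((τ (star y * y)).re : ℝ) : ℂ) :=
        Complex.ext rfl (by
          rw [Complex.ofReal_im]
          exact (Complex.nonneg_iff.1 ((sys.trace τ hτ).nonneg y)).2.symm)
      rw [h4, Finset.sum_congr rfl fun k _ => h3 k, ← Complex.ofReal_sum, ← Complex.ofReal_natCast,
        ← Complex.ofReal_div, ← Complex.ofReal_mul, ← e1, one_div, inv_mul_eq_div]
  · rintro ⟨y, hy, rfl⟩
    have hb' : star y * y ∈ S' := hSS' hb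
    obtain ⟨-, -, e2, e3, e4, e5, e67⟩ := hmain τ hτ y hy
    have hws : ∀ k, star (w μ k) ∈ S' := fun k => StarMemClass.star_mem (hwS' μ k)
    have ht : lam R' (w μ) * star (lam R' (w μ)) + star (lam R' (w μ)) * lam R' (w μ) -
        lam R' (fun k => w μ k * star (w μ k) + star (w μ k) * w μ k) ∈ J := by
      have a1 := lam_mul sys hLR' (hwS' μ) (fun k => star (w μ k))
      have a2 := lam_mul sys hLR' hws (w μ)
      have a3 := add_mem sys a1 a2
      rw [lam_star hLR' (hwS' μ), lam_add]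
      rwa [add_sub_add_comm]
    have htS : ∀ k, w μ k * star (w μ k) + star (w μ k) * w μ k ∈ S' := fun k =>
      AddMemClass.add_mem (mul_mem (hwS' μ k) (hws k)) (mul_mem (hws k) (hwS' μ k))
    have trans : ∀ {x y z : B}, x - y ∈ J → y - z ∈ J → x - z ∈ J := by
      intro x y z h1 h2
      have := add_mem sys h1 h2
      rwa [sub_add_sub_cancel] at this
    have ht2 := trans (mul_sub_mul_mem sys ht ht) (lam_mul sys hLR' htS _)
    have hww := lam_mul sys hLR' (hwS' μ) (w μ)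
    have hwwS : ∀ k, w μ k * w μ k ∈ S' := fun k => mul_mem (hwS' μ k) (hwS' μ k)
    have hww' : star (lam R' (w μ) * lam R' (w μ)) - lam R' (fun k => star (w μ k * w μ k)) ∈ J := by
      have := star_mem sys hww
      rwa [star_sub, lam_star hLR' hwwS] at this
    have hww2 := trans (mul_sub_mul_mem sys hww' hww)
      (lam_mul sys hLR' (fun k => StarMemClass.star_mem (hwwS k)) _)
    refine ⟨?_, ?_, ?_, ?_, ?_⟩
    · rw [re_tr_lam sys hLR' hτ hb' htS ht]
      exact e2
    · rw [re_tr_lam sys hLR' hτ hb' (fun k => mul_mem (htS k) (htS k)) ht2]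
      refine le_trans (le_of_eq ?_) e3
      congr 2
      funext k
      have : star (w μ k * star (w μ k) + star (w μ k) * w μ k) =
          w μ k * star (w μ k) + star (w μ k) * w μ k := by
        rw [star_add, star_mul, star_mul, star_star]
      rw [this]
    · rw [re_tr_lam sys hLR' hτ hb' (fun k => mul_mem (StarMemClass.star_mem (hwwS k)) (hwwS k))
        hww2]
      exact e4
    · have hP : lam R (h μ) - lam R (h μ) * lam R (h μ) -
          lam R (fun k => h μ k - h μ k * h μ k) ∈ J := by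
        have := neg_mem sys (lam_mul sys hLR (hhS' μ) (h μ))
        rw [lam_sub]
        have e0 : lam R (h μ) - lam R (h μ) * lam R (h μ) -
            (lam R (fun k => h μ k) - lam R (fun k => h μ k * h μ k)) =
            -(lam R (h μ) * lam R (h μ) - lam R (fun k => h μ k * h μ k)) := by
          show lam R (h μ) - lam R (h μ) * lam R (h μ) -
            (lam R (h μ) - lam R (fun k => h μ k * h μ k)) = _
          abel
        rw [e0]
        exact this
      rw [re_tr_lam sys hLR hτ hb' (fun k => sub_mem (hhS' μ k) (mul_mem (hhS' μ k) (hhS' μ k))) hP]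
      exact e5
    · intro g hg
      obtain ⟨e6, e7⟩ := e67 g hg
      constructor
      · have hd : β g (lam R' (w μ)) - lam R' (w μ) = lam R' fun k => w (μ' g) k - w μ k := by
          rw [hlamβ g R' (w μ) fun j => (hfix j g).2, lam_sub]
          congr 2
          funext j
          exact hβw g hg j
        have hdS : ∀ k, w (μ' g) k - w μ k ∈ S' := fun k => sub_mem (hwS' _ k) (hwS' _ k)
        rw [hd, lam_star hLR' hdS, re_tr_lam sys hLR' hτ hb'
          (fun k => mul_mem (StarMemClass.star_mem (hdS k)) (hdS k))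
          (lam_mul sys hLR' (fun k => StarMemClass.star_mem (hdS k)) _)]
        exact e6
      · have hd : β g (lam R (h μ)) - lam R (h μ) = lam R fun k => h (μ' g) k - h μ k := by
          rw [hlamβ g R (h μ) fun j => (hfix j g).1, lam_sub]
          congr 2
          funext j
          exact hβh g hg j
        have hdS : ∀ k, h (μ' g) k - h μ k ∈ S' := fun k => sub_mem (hhS' _ k) (hhS' _ k)
        rw [hd, re_tr_lam sys hLR hτ hb' (fun k => mul_mem (hdS k) (hdS k))
          (lam_mul sys hLR hdS _)]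
        refine le_trans (le_of_eq ?_) e7
        congr 2
        funext k
        rw [star_sub, (hhsa _ k).star_eq, (hhsa _ k).star_eq]

end Final

end Vale.Agent.P095
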