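import Vale.Agent.P095.ExhaustAux
import Vale.Agent.P095.GoodPiece

/-!
# P095: fixed approximate matrix units by exhaustion
-/

open Filter Topology TopologicalSpace
open scoped BoundedContinuousFunction ComplexOrder

namespace Vale.Agent.P095

open Vale.Agent.P101

universe u v w

section Sys

variable {G : Type*} [Group G] {B : Type u} [CStarAlgebra B] {β : G →* (B ≃⋆ₐ[ℂ] B)}
  {T : Set (B →ₗ[ℂ] ℂ)} {J : Set B}

theorem exists_unit_approx [Countable G] (sys : TracialSystem β T J)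
    (hs : HasFixedSigns β T J) (hseed : HasSeed J) (hG : ReiterAmenable G) (K : Finset G)
    (ε : ℝ) (hε : 0 < ε) :
    ∃ w : B, ‖w‖ ≤ 1 ∧ ∀ τ ∈ T, sq τ (w * w) ≤ ε ∧
      sq τ (1 - (w * star w + star w * w)) ≤ ε ∧ ∀ k ∈ K, sq τ (β k w - w) ≤ ε :=
  Exh.unit_approx_of_pieces sys.trace sys.inv
    (fun κ hκ => exists_piece sys hs hseed hG K κ hκ) ε hε

theorem exists_unit_approx' [Countable G] (sys : TracialSystem β T J)
    (hs : HasFixedSigns β T J) (hseed : HasSeed J) (hG : ReiterAmenable G) (K : Finset G)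
    (ε : ℝ) (hε : 0 < ε) :
    ∃ w : B, ‖w‖ ≤ 1 ∧ (∀ k ∈ K, ‖β k w - w‖ ≤ ε) ∧ ∀ τ ∈ T, sq τ (w * w) ≤ ε ∧
      sq τ (1 - (w * star w + star w * w)) ≤ ε :=
  Exh.unit_approx_of_reiter hG sys.trace
    (fun K ε hε => exists_unit_approx sys hs hseed hG K ε hε) K ε hε

end Sys

end Vale.Agent.P095
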