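import Vale.Agent.P095.SeedSeq

/-!
# P095: exhaustion by pieces (abstract part)
-/

open Filter Topology TopologicalSpace
open scoped ComplexOrder

namespace Vale.Agent.P095

open Vale.Agent.P101

universe u v w

set_option linter.unusedSectionVars false

namespace Exh

section Pos

variable {K : Type*} [CStarAlgebra K] [PartialOrder K] [StarOrderedRing K] {τ : K →ₗ[ℂ] ℂ}

theorem isPosTrace_of_isTrace {τ : K →ₗ[ℂ] ℂ} (h : IsTrace τ) : IsPosTrace τ := ⟨h.nonneg, h.trace⟩

theorem tr_nonneg (h : IsPosTrace τ) {a : K} (ha : 0 ≤ a) : 0 ≤ (τ a).re := by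
  obtain ⟨y, rfl⟩ := CStarAlgebra.nonneg_iff_eq_star_mul_self.1 ha
  exact (Complex.nonneg_iff.1 (h.nonneg y)).1

theorem tr_mono (h : IsPosTrace τ) {a b : K} (hab : a ≤ b) : (τ a).re ≤ (τ b).re := by
  have := tr_nonneg h (sub_nonneg.2 hab)
  rw [map_sub, Complex.sub_re] at this
  linarith

theorem tr_mul_nonneg (h : IsPosTrace τ) {a b : K} (ha : 0 ≤ a) (hb : 0 ≤ b) :
    0 ≤ (τ (a * b)).re := by
  obtain ⟨y, rfl⟩ := CStarAlgebra.nonneg_iff_eq_star_mul_self.1 ha
  rw [mul_assoc, h.trace]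
  refine tr_nonneg h ?_
  rw [mul_assoc]
  have := star_right_conjugate_nonneg hb y
  rwa [mul_assoc] at this

theorem sq_nonneg' (h : IsPosTrace τ) (x : K) : 0 ≤ sq τ x := (Complex.nonneg_iff.1 (h.nonneg x)).1

theorem tr_star_re (h : IsPosTrace τ) (x : K) : (τ (star x)).re = (τ x).re := by
  rw [map_star_of_nonneg h.nonneg, Complex.star_def, Complex.conj_re]

/-- `sq (x + y) ≤ 2 sq x + 2 sq y`. -/
theorem sq_add_le (h : IsPosTrace τ) (x y : K) : sq τ (x + y) ≤ 2 * sq τ x + 2 * sq τ y := by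
  have h1 := sq_nonneg' h (x - y)
  have e : star (x + y) * (x + y) + star (x - y) * (x - y) =
      (star x * x + star x * x) + (star y * y + star y * y) := by
    rw [star_add, star_sub]
    noncomm_ring
  have h2 := congrArg (fun z => (τ z).re) e
  simp only [map_add, Complex.add_re] at h2
  unfold sq at *
  linarith

end Pos

section Local

variable {K : Type*} [CStarAlgebra K] [PartialOrder K] [StarOrderedRing K] {τ : K →ₗ[ℂ] ℂ}

/-- A state `(u, W)` and a piece `(P, w)` commuting with it. -/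
structure Loc (u W P w : K) : Prop where
  u_nonneg : 0 ≤ u
  u_le : u ≤ 1
  uW : u * W = 0
  Wu : W * u = 0
  W_norm : ‖W‖ ≤ 1
  P_nonneg : 0 ≤ P
  P_le : P ≤ 1
  w_norm : ‖w‖ ≤ 1
  Pw : P * w = w
  wP : w * P = w
  Pu : P * u = u * P
  PW : P * W = W * P
  wu : w * u = u * w
  wW : w * W = W * w
  wWs : w * star W = star W * w

variable {u W P w : K}

namespace Loc

theorem star_u (h : Loc u W P w) : star u = u := (IsSelfAdjoint.of_nonneg h.u_nonneg).star_eq

theorem star_P (h : Loc u W P w) : star P = P := (IsSelfAdjoint.of_nonneg h.P_nonneg).star_eq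

theorem uWs (h : Loc u W P w) : u * star W = 0 := by
  have := congrArg star h.Wu
  rwa [star_mul, h.star_u, star_zero] at this

theorem Wsu (h : Loc u W P w) : star W * u = 0 := by
  have := congrArg star h.uW
  rwa [star_mul, h.star_u, star_zero] at this

theorem PWs (h : Loc u W P w) : P * star W = star W * P := by
  have := congrArg star h.PW
  rw [star_mul, star_mul, h.star_P] at this
  exact this.symm

theorem wsu (h : Loc u W P w) : star w * u = u * star w := by
  have := congrArg star h.wu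
  rw [star_mul, star_mul, h.star_u] at this
  exact this.symm

theorem wsW (h : Loc u W P w) : star w * W = W * star w := by
  have := congrArg star h.wWs
  rw [star_mul, star_mul, star_star] at this
  exact this.symm

theorem wsWs (h : Loc u W P w) : star w * star W = star W * star w := by
  have := congrArg star h.wW
  rw [star_mul, star_mul] at this
  exact this.symm

theorem Pws (h : Loc u W P w) : P * star w = star w := by
  have := congrArg star h.wP
  rwa [star_mul, h.star_P] at this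

theorem wsP (h : Loc u W P w) : star w * P = star w := by
  have := congrArg star h.Pw
  rwa [star_mul, h.star_P] at this

theorem u_nonneg' (h : Loc u W P w) : 0 ≤ u * (1 - P) := by
  refine Commute.mul_nonneg h.u_nonneg (sub_nonneg.2 h.P_le) ?_
  exact (Commute.one_right u).sub_right h.Pu.symm

theorem u_le' (h : Loc u W P w) : u * (1 - P) ≤ 1 := by
  have h1 : 0 ≤ u * P := Commute.mul_nonneg h.u_nonneg h.P_nonneg h.Pu.symm
  have h2 : 1 - u * (1 - P) = (1 - u) + u * P := by noncomm_ring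
  rw [← sub_nonneg, h2]
  exact add_nonneg (sub_nonneg.2 h.u_le) h1

theorem uW' (h : Loc u W P w) : u * (1 - P) * (W + u * w) = 0 := by
  have h1 : u * (1 - P) * (W + u * w) = u * W - u * (P * W) + u * (u * w) - u * (P * u) * w := by
    noncomm_ring
  rw [h1, h.PW, h.Pu, ← mul_assoc u W P, h.uW, zero_mul, sub_zero, zero_add]
  have h2 : u * (u * w) - u * (u * P) * w = u * (u * (w - P * w)) := by noncomm_ring
  rw [h2, h.Pw, sub_self, mul_zero, mul_zero]

theorem Wu' (h : Loc u W P w) : (W + u * w) * (u * (1 - P)) = 0 := by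
  have h1 : (W + u * w) * (u * (1 - P)) = W * u * (1 - P) + u * (w * u) * (1 - P) := by
    noncomm_ring
  rw [h1, h.Wu, zero_mul, zero_add, h.wu]
  have h2 : u * (u * w) * (1 - P) = u * (u * (w - w * P)) := by noncomm_ring
  rw [h2, h.wP, sub_self, mul_zero, mul_zero]

theorem norm_W' (h : Loc u W P w) : ‖W + u * w‖ ≤ 1 := by
  set a := star W * W with ha
  set b := u * u * (star w * w) with hb
  have e1 : star (W + u * w) * (W + u * w) = a + b := by
    rw [star_add, star_mul, h.star_u]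
    have : (star W + star w * u) * (W + u * w) =
        star W * W + (star W * u) * w + star w * (u * W) + star w * u * (u * w) := by noncomm_ring
    rw [this, h.Wsu, h.uW, zero_mul, mul_zero, add_zero, add_zero, h.wsu]
    have h2 : u * star w * (u * w) = u * (star w * u) * w := by noncomm_ring
    rw [h2, h.wsu, ha, hb]
    noncomm_ring
  have hab : a * b = 0 := by
    rw [ha, hb]
    have : star W * W * (u * u * (star w * w)) = star W * ((W * u) * (u * (star w * w))) := by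
      noncomm_ring
    rw [this, h.Wu, zero_mul, mul_zero]
  have ha0 : 0 ≤ a := star_mul_self_nonneg W
  have hww : 0 ≤ star w * w := star_mul_self_nonneg w
  have huu : 0 ≤ u * u := by
    have := star_mul_self_nonneg u
    rwa [h.star_u] at this
  have hcomm : Commute (u * u) (star w * w) := by
    have c1 : Commute u (star w) := h.wsu.symm
    have c2 : Commute u w := h.wu.symm
    exact ((c1.mul_right c2).mul_left (c1.mul_right c2))
  have hb0 : 0 ≤ b := Commute.mul_nonneg huu hww hcomm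
  have ha1 : a ≤ 1 := by
    rw [← CStarAlgebra.norm_le_one_iff_of_nonneg a ha0, ha, CStarRing.norm_star_mul_self]
    exact mul_le_one₀ h.W_norm (norm_nonneg _) h.W_norm
  have hu1 : ‖u‖ ≤ 1 := (CStarAlgebra.norm_le_one_iff_of_nonneg u h.u_nonneg).2 h.u_le
  have hb1 : b ≤ 1 := by
    rw [← CStarAlgebra.norm_le_one_iff_of_nonneg b hb0, hb]
    refine (norm_mul_le _ _).trans ?_
    rw [CStarRing.norm_star_mul_self]
    refine mul_le_one₀ ((norm_mul_le _ _).trans (mul_le_one₀ hu1 (norm_nonneg _) hu1))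
      (by positivity) (mul_le_one₀ h.w_norm (norm_nonneg _) h.w_norm)
  have hba : b * a = 0 := by
    have := congrArg star hab
    rwa [star_mul, (IsSelfAdjoint.of_nonneg ha0).star_eq, (IsSelfAdjoint.of_nonneg hb0).star_eq,
      star_zero] at this
  have hs : a + b ≤ 1 := by
    have h1 : 0 ≤ (1 - a) * (1 - b) := by
      refine Commute.mul_nonneg (sub_nonneg.2 ha1) (sub_nonneg.2 hb1) ?_
      have : Commute a b := by
        show a * b = b * a
        rw [hab, hba]
      exact ((Commute.one_left _).sub_left ((Commute.one_right a).sub_right this))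
    have h2 : (1 - a) * (1 - b) = 1 - (a + b) + a * b := by noncomm_ring
    rw [h2, hab, add_zero, sub_nonneg] at h1
    exact h1
  have hn : ‖W + u * w‖ * ‖W + u * w‖ ≤ 1 := by
    rw [← CStarRing.norm_star_mul_self, e1]
    exact (CStarAlgebra.norm_le_one_iff_of_nonneg _ (add_nonneg ha0 hb0)).2 hs
  nlinarith [norm_nonneg (W + u * w)]

theorem sq_eq (h : Loc u W P w) : (W + u * w) * (W + u * w) = W * W + u * u * (w * w) := by
  have h1 : (W + u * w) * (W + u * w) =
      W * W + (W * u) * w + u * (w * W) + u * (w * u) * w := by noncomm_ring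
  rw [h1, h.Wu, zero_mul, add_zero, h.wW, h.wu]
  have h2 : W * W + u * (W * w) + u * (u * w) * w = W * W + (u * W) * w + u * u * (w * w) := by
    noncomm_ring
  rw [h2, h.uW, zero_mul, add_zero]

theorem star_sq_mul (h : Loc u W P w) :
    star ((W + u * w) * (W + u * w)) * ((W + u * w) * (W + u * w)) =
      star (W * W) * (W * W) + u * u * (u * u) * (star (w * w) * (w * w)) := by
  rw [h.sq_eq]
  have hXu : star (W * W) * u = 0 := by rw [star_mul, mul_assoc, h.Wsu, mul_zero]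
  have huX : u * (W * W) = 0 := by rw [← mul_assoc, h.uW, zero_mul]
  have hZu : star (w * w) * u = u * star (w * w) := by
    rw [star_mul, mul_assoc, h.wsu, ← mul_assoc, h.wsu, mul_assoc]
  have hsu := h.star_u
  generalize W * W = X at *
  generalize w * w = Z at *
  have e1 : star (X + u * u * Z) = star X + star Z * u * u := by
    rw [star_add, star_mul, star_mul, hsu, mul_assoc]
  rw [e1]
  have e2 : (star X + star Z * u * u) * (X + u * u * Z) =
      star X * X + (star X * u) * (u * Z) + star Z * u * (u * X) + star Z * u * u * u * u * Z := by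
    noncomm_ring
  rw [e2, hXu, huX, zero_mul, mul_zero, add_zero, add_zero]
  have e3 : star Z * u * u * u * u = u * u * (u * u) * star Z := by
    have c : Commute (star Z) u := hZu
    have c2 : Commute (star Z) (u * u * (u * u)) := (c.mul_right c).mul_right (c.mul_right c)
    have := c2.eq
    rw [← this]
    noncomm_ring
  rw [e3, mul_assoc (u * u * (u * u))]

/-- `T' = T + u² t`. -/
theorem T_eq (h : Loc u W P w) :
    (W + u * w) * star (W + u * w) + star (W + u * w) * (W + u * w) =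
      (W * star W + star W * W) + u * u * (w * star w + star w * w) := by
  have e1 : star (W + u * w) = star W + star w * u := by rw [star_add, star_mul, h.star_u]
  rw [e1]
  have e2 : (W + u * w) * (star W + star w * u) =
      W * star W + W * (star w * u) + u * (w * star W) + u * w * (star w * u) := by noncomm_ring
  have e3 : (star W + star w * u) * (W + u * w) =
      star W * W + (star W * u) * w + star w * (u * W) + (star w * u) * (u * w) := by noncomm_ring
  have e4 : W * (star w * u) = 0 := by rw [h.wsu, ← mul_assoc, h.Wu, zero_mul]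
  have e5 : u * (w * star W) = 0 := by rw [h.wWs, ← mul_assoc, h.uWs, zero_mul]
  have e6 : u * w * (star w * u) = u * u * (w * star w) := by
    rw [h.wsu, mul_assoc, ← mul_assoc w, h.wu]
    noncomm_ring
  have e7 : (star w * u) * (u * w) = u * u * (star w * w) := by
    rw [h.wsu, mul_assoc, ← mul_assoc (star w), h.wsu]
    noncomm_ring
  rw [e2, e3, e4, e5, e6, e7, h.Wsu, h.uW]
  noncomm_ring

/-- the step for `N = sq (1 - T)`. -/
theorem N_step (h : Loc u W P w) :
    sq τ (1 - ((W + u * w) * star (W + u * w) + star (W + u * w) * (W + u * w))) =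
      sq τ (1 - (W * star W + star W * W)) - 2 * (τ (u * u * (w * star w + star w * w))).re +
        (τ (u * u * (u * u) * ((w * star w + star w * w) * (w * star w + star w * w)))).re := by
  rw [h.T_eq]
  set t := w * star w + star w * w with ht
  have hst : star t = t := by
    rw [ht]
    simp only [star_add, star_mul, star_star]
  have htu : t * u = u * t := by
    rw [ht, add_mul, mul_add, mul_assoc, h.wsu, ← mul_assoc, h.wu, mul_assoc (star w), h.wu,
      ← mul_assoc (star w), h.wsu, mul_assoc, mul_assoc]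
  have hTu : (W * star W + star W * W) * u = 0 := by
    rw [add_mul, mul_assoc, h.Wsu, mul_zero, mul_assoc, h.Wu, mul_zero, add_zero]
  have huT : u * (W * star W + star W * W) = 0 := by
    rw [mul_add, ← mul_assoc, h.uW, zero_mul, ← mul_assoc, h.uWs, zero_mul, add_zero]
  have hsT : star (W * star W + star W * W) = W * star W + star W * W := by
    simp only [star_add, star_mul, star_star]
  set Q := W * star W + star W * W
  have e0 : star (u * u * t) = u * u * t := by
    rw [star_mul, star_mul, h.star_u, hst, ← mul_assoc, htu, mul_assoc, htu, mul_assoc]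
  have e1 : star (1 - (Q + u * u * t)) = 1 - (Q + u * u * t) := by
    rw [star_sub, star_one, star_add, hsT, e0]
  have e2 : star (1 - Q) = 1 - Q := by rw [star_sub, star_one, hsT]
  unfold sq
  rw [e1, e2]
  have e3 : (1 - (Q + u * u * t)) * (1 - (Q + u * u * t)) =
      (1 - Q) * (1 - Q) - u * u * t - u * u * t + (Q * u) * (u * t) + u * (u * t) * Q +
        u * u * t * (u * u * t) := by noncomm_ring
  have e4 : u * (u * t) * Q = 0 := by
    rw [← htu, mul_assoc, mul_assoc, huT, mul_zero, mul_zero]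
  have e5 : u * u * t * (u * u * t) = u * u * (u * u) * (t * t) := by
    have : u * u * t * (u * u * t) = u * u * (t * u) * (u * t) := by noncomm_ring
    rw [this, htu]
    have : u * u * (u * t) * (u * t) = u * u * u * (t * u) * t := by noncomm_ring
    rw [this, htu]
    noncomm_ring
  rw [e3, hTu, zero_mul, e4, e5, add_zero, add_zero]
  simp only [map_add, map_sub, Complex.add_re, Complex.sub_re]
  ring

/-- the step for `M = sq u`. -/
theorem M_step (h : Loc u W P w) :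
    sq τ (u * (1 - P)) = sq τ u - (τ (u * u * P)).re - (τ (u * u * (P - P * P))).re := by
  unfold sq
  have e1 : star (u * (1 - P)) = (1 - P) * u := by
    rw [star_mul, star_sub, star_one, h.star_P, h.star_u]
  have e2 : (1 - P) * u = u * (1 - P) := by
    rw [sub_mul, mul_sub, one_mul, mul_one, h.Pu]
  rw [e1, h.star_u]
  have e3 : (1 - P) * u * (u * (1 - P)) = u * u - u * u * P - u * u * (P - P * P) := by
    rw [e2]
    have : u * (1 - P) * (u * (1 - P)) = u * ((1 - P) * u) * (1 - P) := by noncomm_ring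
    rw [this, e2]
    noncomm_ring
  rw [e3]
  simp only [map_sub, Complex.sub_re]

theorem P_sub_sq_nonneg {P : K} (h0 : 0 ≤ P) (h1 : P ≤ 1) : 0 ≤ P - P * P := by
  have : P - P * P = P * (1 - P) := by noncomm_ring
  rw [this]
  exact Commute.mul_nonneg h0 (sub_nonneg.2 h1) ((Commute.one_right P).sub_right (Commute.refl P))

theorem star_mul_self_le (h : Loc u W P w) : star w * w ≤ P := by
  have h1 : star w * w = star P * (star w * w) * P := by
    rw [h.star_P, ← mul_assoc, h.Pws, mul_assoc, h.wP]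
  have h2 : star w * w ≤ 1 := by
    rw [← CStarAlgebra.norm_le_one_iff_of_nonneg _ (star_mul_self_nonneg w),
      CStarRing.norm_star_mul_self]
    exact mul_le_one₀ h.w_norm (norm_nonneg _) h.w_norm
  have h3 : star P * (star w * w) * P ≤ star P * 1 * P := star_left_conjugate_le_conjugate h2 P
  rw [h1]
  refine h3.trans ?_
  rw [mul_one, h.star_P, ← sub_nonneg]
  exact P_sub_sq_nonneg h.P_nonneg h.P_le

end Loc

/-- The step for `e = sq (u₂ - u)`. -/
theorem e_step (h : IsPosTrace τ) {u u₂ P P₂ : K} (hu : star u = u) (hu₂ : star u₂ = u₂)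
    (hP0 : 0 ≤ P) (hP1 : P ≤ 1) (hP0₂ : 0 ≤ P₂) (hP1₂ : P₂ ≤ 1)
    (c1 : P * u = u * P) (c2 : P * u₂ = u₂ * P) (c3 : P₂ * u = u * P₂) (c4 : P₂ * u₂ = u₂ * P₂)
    (η r : ℝ)
    (t1 : τ (u * u * P) = η * τ (u * u)) (t2 : τ (u₂ * u₂ * P₂) = η * τ (u₂ * u₂))
    (t3 : τ (u₂ * u * P) = η * τ (u₂ * u)) (t4 : τ (u₂ * u * P₂) = η * τ (u₂ * u))
    (q1 : (τ (u * u * (P₂ - P₂ * P₂))).re ≤ r) (q2 : (τ (u₂ * u₂ * (P - P * P))).re ≤ r)
    (x1 : (τ (u * u * ((P₂ - P) * (P₂ - P)))).re ≤ r)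
    (x2 : (τ (u₂ * u₂ * ((P₂ - P) * (P₂ - P)))).re ≤ r) :
    sq τ (u₂ * (1 - P₂) - u * (1 - P)) ≤ (1 - η) * sq τ (u₂ - u) + 2 * r := by
  have hsP : star P = P := (IsSelfAdjoint.of_nonneg hP0).star_eq
  have hsP₂ : star P₂ = P₂ := (IsSelfAdjoint.of_nonneg hP0₂).star_eq
  have hQ0 : 0 ≤ P - P * P := Loc.P_sub_sq_nonneg hP0 hP1
  have hQ0₂ : 0 ≤ P₂ - P₂ * P₂ := Loc.P_sub_sq_nonneg hP0₂ hP1₂
  have huu : 0 ≤ u * u := by
    have := star_mul_self_nonneg u
    rwa [hu] at this
  have huu₂ : 0 ≤ u₂ * u₂ := by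
    have := star_mul_self_nonneg u₂
    rwa [hu₂] at this
  -- positivity
  have n1 : 0 ≤ (τ (u * u * (P - P * P))).re := tr_mul_nonneg h huu hQ0
  have n2 : 0 ≤ (τ (u₂ * u₂ * (P₂ - P₂ * P₂))).re := tr_mul_nonneg h huu₂ hQ0₂
  -- `Re τ(u₂ u Y) ≤ ½ (τ(u₂² Y) + τ(u² Y))`
  have key : ∀ Y : K, 0 ≤ Y → Y * u = u * Y → Y * u₂ = u₂ * Y →
      2 * (τ (u₂ * u * Y)).re ≤ (τ (u₂ * u₂ * Y)).re + (τ (u * u * Y)).re := by
    intro Y hY hYu hYu₂
    have hsY : star Y = Y := (IsSelfAdjoint.of_nonneg hY).star_eq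
    have hD : 0 ≤ (u₂ - u) * (u₂ - u) := by
      have := star_mul_self_nonneg (u₂ - u)
      rwa [star_sub, hu, hu₂] at this
    have h1 := tr_mul_nonneg h hD hY
    have h2 : (u₂ - u) * (u₂ - u) * Y = u₂ * u₂ * Y + u * u * Y - u₂ * u * Y - u * u₂ * Y := by
      noncomm_ring
    have h3 : (τ (u * u₂ * Y)).re = (τ (u₂ * u * Y)).re := by
      rw [← tr_star_re h (u * u₂ * Y)]
      congr 2
      rw [star_mul, star_mul, hu, hu₂, hsY, ← mul_assoc, hYu₂, mul_assoc, hYu, mul_assoc]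
    rw [h2] at h1
    simp only [map_add, map_sub, Complex.add_re, Complex.sub_re] at h1
    linarith
  have k1 := key (P - P * P) hQ0 (by rw [sub_mul, mul_sub, mul_assoc, c1, ← mul_assoc, c1,
    mul_assoc]) (by rw [sub_mul, mul_sub, mul_assoc, c2, ← mul_assoc, c2, mul_assoc])
  have k2 := key (P₂ - P₂ * P₂) hQ0₂ (by rw [sub_mul, mul_sub, mul_assoc, c3, ← mul_assoc, c3,
    mul_assoc]) (by rw [sub_mul, mul_sub, mul_assoc, c4, ← mul_assoc, c4, mul_assoc])
  have hX0 : 0 ≤ (P₂ - P) * (P₂ - P) := by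
    have := star_mul_self_nonneg (P₂ - P)
    rwa [star_sub, hsP, hsP₂] at this
  have c5 : (P₂ - P) * u = u * (P₂ - P) := by rw [sub_mul, mul_sub, c1, c3]
  have c6 : (P₂ - P) * u₂ = u₂ * (P₂ - P) := by rw [sub_mul, mul_sub, c2, c4]
  have k3 := key ((P₂ - P) * (P₂ - P)) hX0 (by rw [mul_assoc, c5, ← mul_assoc, c5, mul_assoc])
    (by rw [mul_assoc, c6, ← mul_assoc, c6, mul_assoc])
  -- the main identity
  have e1 : star (u₂ * (1 - P₂) - u * (1 - P)) = u₂ * (1 - P₂) - u * (1 - P) := by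
    simp only [star_sub, star_mul, hu, hu₂, hsP, hsP₂, mul_sub, mul_one, c1, c4]
  have e2 : (u₂ * (1 - P₂) - u * (1 - P)) * (u₂ * (1 - P₂) - u * (1 - P)) =
      u₂ * u₂ - u₂ * u₂ * P₂ - u₂ * u₂ * (P₂ - P₂ * P₂) + (u * u - u * u * P - u * u * (P - P * P))
        - (u₂ * u - u₂ * u * P₂ - u₂ * u * P + u₂ * u * (P₂ * P))
        - (u * u₂ - u * u₂ * P - u * u₂ * P₂ + u * u₂ * (P * P₂)) := by
    have a1 : (u₂ * (1 - P₂) - u * (1 - P)) * (u₂ * (1 - P₂) - u * (1 - P)) =
      u₂ * (u₂ - P₂ * u₂) * (1 - P₂) + u * (u - P * u) * (1 - P)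
       - u₂ * (u - P₂ * u) * (1 - P) - u * (u₂ - P * u₂) * (1 - P₂) := by noncomm_ring
    rw [a1, c1, c2, c3, c4]
    noncomm_ring
  have f1 : (τ (u * u₂)).re = (τ (u₂ * u)).re := by rw [h.trace]
  have f2 : (τ (u * u₂ * P)).re = (τ (u₂ * u * P)).re := by
    rw [← tr_star_re h (u * u₂ * P)]
    congr 2
    rw [star_mul, star_mul, hu, hu₂, hsP, ← mul_assoc, c2, mul_assoc, c1, mul_assoc]
  have f3 : (τ (u * u₂ * P₂)).re = (τ (u₂ * u * P₂)).re := by
    rw [← tr_star_re h (u * u₂ * P₂)]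
    congr 2
    rw [star_mul, star_mul, hu, hu₂, hsP₂, ← mul_assoc, c4, mul_assoc, c3, mul_assoc]
  have f4 : (τ (u * u₂ * (P * P₂))).re = (τ (u₂ * u * (P₂ * P))).re := by
    rw [← tr_star_re h (u * u₂ * (P * P₂))]
    congr 2
    rw [star_mul, star_mul, star_mul, hu, hu₂, hsP, hsP₂]
    have : P₂ * P * (u₂ * u) = P₂ * (P * u₂) * u := by noncomm_ring
    rw [this, c2]
    have : P₂ * (u₂ * P) * u = (P₂ * u₂) * (P * u) := by noncomm_ring
    rw [this, c4, c1]
    have : u₂ * P₂ * (u * P) = u₂ * (P₂ * u) * P := by noncomm_ring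
    rw [this, c3]
    noncomm_ring
  have f5 : (τ (u₂ * u * (P * P₂))).re = (τ (u₂ * u * (P₂ * P))).re := by
    have : u₂ * u * (P * P₂) = (u₂ * u * P) * P₂ := by noncomm_ring
    rw [this, h.trace]
    have : P₂ * (u₂ * u * P) = (P₂ * u₂) * u * P := by noncomm_ring
    rw [this, c4]
    have : u₂ * P₂ * u * P = u₂ * (P₂ * u) * P := by noncomm_ring
    rw [this, c3]
    congr 2
    noncomm_ring
  have f6 : (τ (u₂ * u * ((P₂ - P) * (P₂ - P)))).re =
      (τ (u₂ * u * P₂)).re - (τ (u₂ * u * (P₂ - P₂ * P₂))).re +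
        ((τ (u₂ * u * P)).re - (τ (u₂ * u * (P - P * P))).re) -
        2 * (τ (u₂ * u * (P₂ * P))).re := by
    have : u₂ * u * ((P₂ - P) * (P₂ - P)) = u₂ * u * P₂ - u₂ * u * (P₂ - P₂ * P₂) +
        (u₂ * u * P - u₂ * u * (P - P * P)) - u₂ * u * (P₂ * P) - u₂ * u * (P * P₂) := by
      noncomm_ring
    rw [this]
    simp only [map_add, map_sub, Complex.add_re, Complex.sub_re]
    rw [f5]
    ring
  have g1 : (τ (u * u * P)).re = η * (τ (u * u)).re := by rw [t1, Complex.re_ofReal_mul]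
  have g2 : (τ (u₂ * u₂ * P₂)).re = η * (τ (u₂ * u₂)).re := by rw [t2, Complex.re_ofReal_mul]
  have g3 : (τ (u₂ * u * P)).re = η * (τ (u₂ * u)).re := by rw [t3, Complex.re_ofReal_mul]
  have g4 : (τ (u₂ * u * P₂)).re = η * (τ (u₂ * u)).re := by rw [t4, Complex.re_ofReal_mul]
  have e3 : sq τ (u₂ - u) = (τ (u₂ * u₂)).re + (τ (u * u)).re - 2 * (τ (u₂ * u)).re := by
    unfold sq
    have : star (u₂ - u) * (u₂ - u) = u₂ * u₂ + u * u - u₂ * u - u * u₂ := by
      rw [star_sub, hu, hu₂]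
      noncomm_ring
    rw [this]
    simp only [map_add, map_sub, Complex.add_re, Complex.sub_re]
    rw [f1]
    ring
  rw [e3]
  unfold sq
  rw [e1, e2]
  simp only [map_add, map_sub, Complex.add_re, Complex.sub_re]
  rw [f1, f2, f3, f4]
  linarith

/-- The step for `E = sq (W₂ - W)`. -/
theorem E_step (h : IsPosTrace τ) {u u₂ W W₂ P w w₂ : K} (hu : star u = u) (hu₂ : star u₂ = u₂)
    (hww : star w * w ≤ P) (hWu : star W * u = 0) (hWu₂ : star W₂ * u₂ = 0)
    (cu : w * u = u * w) (cu₂ : w * u₂ = u₂ * w) (cw : w₂ * u₂ = u₂ * w₂)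
    (z1 : τ (star W₂ * u * w) = 0) (z2 : τ (star W * u₂ * w₂) = 0) (η r : ℝ)
    (t1 : τ ((u₂ - u) * (u₂ - u) * P) = η * τ ((u₂ - u) * (u₂ - u)))
    (x1 : (τ (u₂ * u₂ * (star (w₂ - w) * (w₂ - w)))).re ≤ r) :
    sq τ ((W₂ + u₂ * w₂) - (W + u * w)) ≤ sq τ (W₂ - W) + 2 * r + 2 * η * sq τ (u₂ - u) := by
  have e0 : (W₂ + u₂ * w₂) - (W + u * w) = (W₂ - W) + (u₂ * w₂ - u * w) := by abel
  have e1 : star (W₂ - W) * (u₂ * w₂ - u * w) = -(star W₂ * u * w) - star W * u₂ * w₂ := by
    rw [star_sub]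
    have : (star W₂ - star W) * (u₂ * w₂ - u * w) = (star W₂ * u₂) * w₂ - star W₂ * u * w
      - star W * u₂ * w₂ + (star W * u) * w := by noncomm_ring
    rw [this, hWu, hWu₂, zero_mul, zero_mul]
    abel
  have e2 : τ (star (W₂ - W) * (u₂ * w₂ - u * w)) = 0 := by
    rw [e1, map_sub, map_neg, z1, z2]
    simp
  have e3 : sq τ ((W₂ - W) + (u₂ * w₂ - u * w)) = sq τ (W₂ - W) + sq τ (u₂ * w₂ - u * w) := by
    unfold sq
    have : star ((W₂ - W) + (u₂ * w₂ - u * w)) * ((W₂ - W) + (u₂ * w₂ - u * w)) =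
      star (W₂ - W) * (W₂ - W) + star (u₂ * w₂ - u * w) * (u₂ * w₂ - u * w) +
        star (W₂ - W) * (u₂ * w₂ - u * w) + star (star (W₂ - W) * (u₂ * w₂ - u * w)) := by
      rw [star_mul, star_star, star_add]
      noncomm_ring
    rw [this]
    simp only [map_add, Complex.add_re]
    rw [tr_star_re h, e2]
    simp
  have e4 : u₂ * w₂ - u * w = u₂ * (w₂ - w) + (u₂ - u) * w := by noncomm_ring
  have e5 := sq_add_le h (u₂ * (w₂ - w)) ((u₂ - u) * w)
  have e6 : sq τ (u₂ * (w₂ - w)) ≤ r := by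
    refine le_of_eq_of_le ?_ x1
    unfold sq
    congr 2
    have c1 : (w₂ - w) * u₂ = u₂ * (w₂ - w) := by rw [sub_mul, mul_sub, cw, cu₂]
    have c2 : star (w₂ - w) * u₂ = u₂ * star (w₂ - w) := by
      have := congrArg star c1
      rw [star_mul, star_mul, hu₂] at this
      exact this.symm
    rw [star_mul, hu₂, c2, mul_assoc, ← mul_assoc _ u₂, c2]
    noncomm_ring
  have hD : star (u₂ - u) = u₂ - u := by rw [star_sub, hu, hu₂]
  have e7 : sq τ ((u₂ - u) * w) ≤ η * sq τ (u₂ - u) := by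
    have c1 : w * (u₂ - u) = (u₂ - u) * w := by rw [sub_mul, mul_sub, cu, cu₂]
    have c2 : star w * (u₂ - u) = (u₂ - u) * star w := by
      have := congrArg star c1
      rw [star_mul, star_mul, hD] at this
      exact this.symm
    have e8 : star ((u₂ - u) * w) * ((u₂ - u) * w) = (u₂ - u) * (u₂ - u) * (star w * w) := by
      rw [star_mul, hD, c2]
      have : (u₂ - u) * star w * ((u₂ - u) * w) = (u₂ - u) * (star w * (u₂ - u)) * w := by
        simp only [mul_assoc]
      rw [this, c2]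
      simp only [mul_assoc]
    have hDD : 0 ≤ (u₂ - u) * (u₂ - u) := by
      have := star_mul_self_nonneg (u₂ - u)
      rwa [hD] at this
    have e9 := tr_mul_nonneg h hDD (sub_nonneg.2 hww)
    rw [mul_sub, map_sub, Complex.sub_re, t1, Complex.re_ofReal_mul] at e9
    unfold sq
    rw [e8, hD]
    linarith
  rw [e0, e3, e4]
  linarith

end Local

section Sys

variable {G : Type*} [Group G] {B : Type u} [CStarAlgebra B]

/-- For every `S` there is a piece: the conclusion of `exists_piece`. -/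
def Pieces (β : G →* (B ≃⋆ₐ[ℂ] B)) (T : Set (B →ₗ[ℂ] ℂ)) (K : Finset G) (κ η : ℝ) : Prop :=
  ∀ S : StarSubalgebra ℂ B, IsClosed (S : Set B) →
      IsSeparable (S : Set B) → (∀ g, ∀ x ∈ S, β g x ∈ S) →
      ∃ P w : B, (∃ y, P = star y * y) ∧ ‖P‖ ≤ 1 ∧ ‖w‖ ≤ 1 ∧ P * w = w ∧ w * P = w ∧
        (∀ x ∈ S, ∀ g, Commute (β g P) x ∧ Commute (β g w) x) ∧
        ∀ τ ∈ T, ∀ b ∈ S, τ (b * w) = 0 ∧ τ (b * star w) = 0 ∧ τ (b * P) = η * τ b ∧
          ((∃ y ∈ S, b = star y * y) →
            (1 - κ) * η * (τ b).re ≤ (τ (b * (w * star w + star w * w))).re ∧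
            (τ (b * ((w * star w + star w * w) * (w * star w + star w * w)))).re ≤
              (1 + κ) * η * (τ b).re ∧
            (τ (b * (star (w * w) * (w * w)))).re ≤ κ * η * (τ b).re ∧
            (τ (b * (P - P * P))).re ≤ κ * η * (τ b).re ∧
            ∀ k ∈ K, (τ (b * (star (β k w - w) * (β k w - w)))).re ≤ κ * η * (τ b).re ∧
              (τ (b * ((β k P - P) * (β k P - P)))).re ≤ κ * η * (τ b).re)

variable {β : G →* (B ≃⋆ₐ[ℂ] B)} {T : Set (B →ₗ[ℂ] ℂ)} {K : Finset G} {κ η : ℝ}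

section Ordered

variable [PartialOrder B] [StarOrderedRing B]

/-- A stage of the exhaustion. -/
structure Stage (β : G →* (B ≃⋆ₐ[ℂ] B)) (T : Set (B →ₗ[ℂ] ℂ)) (K : Finset G) (κ : ℝ)
    (S : StarSubalgebra ℂ B) (u W : B) (m : ℝ) : Prop where
  closed : IsClosed (S : Set B)
  sep : IsSeparable (S : Set B)
  inv : ∀ g, ∀ x ∈ S, β g x ∈ S
  u_mem : u ∈ S
  W_mem : W ∈ S
  u_nonneg : 0 ≤ u
  u_le : u ≤ 1
  uW : u * W = 0
  Wu : W * u = 0
  W_norm : ‖W‖ ≤ 1
  tr_u : ∀ τ ∈ T, τ u = (m : ℂ)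
  est_A : ∀ τ ∈ T, sq τ (W * W) + κ * m ≤ κ
  est_N : ∀ τ ∈ T, (1 + κ) * sq τ (1 - (W * star W + star W * W)) ≤
    4 * κ + (1 - 3 * κ) * sq τ u
  est_E : ∀ τ ∈ T, ∀ k ∈ K, sq τ (β k W - W) + 2 * sq τ (β k u - u) + 6 * κ * m ≤ 6 * κ

theorem Stage.init (hT : ∀ τ ∈ T, IsTrace τ) : Stage β T K κ (cgen (∅ : Set B)) 1 0 1 where
  closed := isClosed_cgen _
  sep := isSeparable_cgen Set.countable_empty.isSeparable
  inv := fun g => cgen_invariant β (fun _ _ h => h.elim) g
  u_mem := one_mem _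
  W_mem := zero_mem _
  u_nonneg := zero_le_one
  u_le := le_rfl
  uW := mul_zero _
  Wu := zero_mul _
  W_norm := by simp
  tr_u := fun τ hτ => by rw [(hT τ hτ).map_one]; simp
  est_A := fun τ hτ => by
    simp [sq]
  est_N := fun τ hτ => by
    have h1 : sq τ (1 : B) = 1 := by
      unfold sq
      rw [star_one, one_mul, (hT τ hτ).map_one]
      simp
    rw [mul_zero, star_zero, zero_mul, add_zero, sub_zero, h1]
    linarith
  est_E := fun τ hτ k hk => by
    simp [sq]

theorem mul_self_le_self {u : B} (h0 : 0 ≤ u) (h1 : u ≤ 1) : u * u ≤ u := by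
  rw [← sub_nonneg]
  exact Loc.P_sub_sq_nonneg h0 h1

theorem act_inv (β : G →* (B ≃⋆ₐ[ℂ] B)) (g : G) (b : B) : β g (β g⁻¹ b) = b := by
  rw [← StarAlgEquiv.mul_apply, ← map_mul, mul_inv_cancel, map_one]
  rfl

/-- The step of the exhaustion. -/
theorem Stage.step [Countable G] (hT : ∀ τ ∈ T, IsTrace τ)
    (hinv : ∀ τ ∈ T, ∀ g, τ ∘ₗ (β g : B →⋆ₐ[ℂ] B).toAlgHom.toLinearMap ∈ T)
    (hp : Pieces β T K κ η) (hκ : 0 ≤ κ) (hκ3 : 3 * κ ≤ 1) (hη : 0 ≤ η)
    {S : StarSubalgebra ℂ B} {u W : B} {m : ℝ} (h : Stage β T K κ S u W m) :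
    ∃ (S' : StarSubalgebra ℂ B) (u' W' : B), Stage β T K κ S' u' W' ((1 - η) * m) := by
  obtain ⟨P, w, ⟨y, hPy⟩, hP1, hw1, hPw, hwP, hcomm, htr⟩ := hp S h.closed h.sep h.inv
  have hP0 : 0 ≤ P := by
    rw [hPy]
    exact star_mul_self_nonneg y
  have hPle : P ≤ 1 := (CStarAlgebra.norm_le_one_iff_of_nonneg P hP0).1 hP1
  have hcP : ∀ x ∈ S, ∀ g, β g P * x = x * β g P := fun x hx g => (hcomm x hx g).1.eq
  have hcw : ∀ x ∈ S, ∀ g, β g w * x = x * β g w := fun x hx g => (hcomm x hx g).2.eq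
  have hβ1 : ∀ x, β 1 x = x := fun x => by
    rw [map_one]
    rfl
  have hcP1 : ∀ x ∈ S, P * x = x * P := fun x hx => by
    have := hcP x hx 1
    rwa [hβ1] at this
  have hcw1 : ∀ x ∈ S, w * x = x * w := fun x hx => by
    have := hcw x hx 1
    rwa [hβ1] at this
  have hloc : Loc u W P w :=
    { u_nonneg := h.u_nonneg, u_le := h.u_le, uW := h.uW, Wu := h.Wu, W_norm := h.W_norm
      P_nonneg := hP0, P_le := hPle, w_norm := hw1, Pw := hPw, wP := hwP
      Pu := hcP1 u h.u_mem, PW := hcP1 W h.W_mem, wu := hcw1 u h.u_mem, wW := hcw1 W h.W_mem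
      wWs := hcw1 _ (star_mem h.W_mem) }
  have hsu : star u = u := hloc.star_u
  -- the traces moved by the action
  have htrP : ∀ τ ∈ T, ∀ b ∈ S, ∀ g, τ (b * β g P) = η * τ b := by
    intro τ hτ b hb g
    have h1 := (htr _ (hinv τ hτ g) (β g⁻¹ b) (h.inv g⁻¹ b hb)).2.2.1
    have h2 : ∀ x, (τ ∘ₗ (β g : B →⋆ₐ[ℂ] B).toAlgHom.toLinearMap) x = τ (β g x) := fun _ => rfl
    rw [h2, h2, map_mul, act_inv] at h1
    exact h1
  have htrw : ∀ τ ∈ T, ∀ b ∈ S, ∀ g, τ (b * β g w) = 0 := by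
    intro τ hτ b hb g
    have h1 := (htr _ (hinv τ hτ g) (β g⁻¹ b) (h.inv g⁻¹ b hb)).1
    have h2 : ∀ x, (τ ∘ₗ (β g : B →⋆ₐ[ℂ] B).toAlgHom.toLinearMap) x = τ (β g x) := fun _ => rfl
    rw [h2, map_mul, act_inv] at h1
    exact h1
  have htrQ : ∀ τ ∈ T, ∀ z ∈ S, ∀ g, (τ (star z * z * (β g P - β g P * β g P))).re ≤
      κ * η * (τ (star z * z)).re := by
    intro τ hτ z hz g
    have hz' : β g⁻¹ z ∈ S := h.inv g⁻¹ z hz
    have h1 := ((htr _ (hinv τ hτ g) (star (β g⁻¹ z) * β g⁻¹ z)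
      (mul_mem (star_mem hz') hz')).2.2.2 ⟨_, hz', rfl⟩).2.2.2.1
    have h2 : ∀ x, (τ ∘ₗ (β g : B →⋆ₐ[ℂ] B).toAlgHom.toLinearMap) x = τ (β g x) := fun _ => rfl
    have h3 : β g (star (β g⁻¹ z) * β g⁻¹ z) = star z * z := by
      rw [map_mul, map_star, act_inv]
    rw [h2, h2, map_mul (β g), h3, map_sub (β g), map_mul (β g) P P] at h1
    exact h1
  have htru : ∀ τ ∈ T, ∀ g, (τ (β g u * β g u)).re ≤ m := by
    intro τ hτ g
    have h1 := tr_mono (isPosTrace_of_isTrace (hT _ (hinv τ hτ g)))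
      (mul_self_le_self h.u_nonneg h.u_le)
    have h2 : ∀ x, (τ ∘ₗ (β g : B →⋆ₐ[ℂ] B).toAlgHom.toLinearMap) x = τ (β g x) := fun _ => rfl
    rw [h.tr_u _ (hinv τ hτ g), h2, map_mul] at h1
    simpa using h1
  have hPβ : ∀ g, 0 ≤ β g P ∧ β g P ≤ 1 := by
    intro g
    have h0 : 0 ≤ β g P := by
      rw [hPy, map_mul, map_star]
      exact star_mul_self_nonneg _
    refine ⟨h0, (CStarAlgebra.norm_le_one_iff_of_nonneg _ h0).1 ?_⟩
    rw [norm_act]
    exact hP1
  have huu : u * u ∈ S := mul_mem h.u_mem h.u_mem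
  have hκη : 0 ≤ κ * η := mul_nonneg hκ hη
  set X : Set B := (S : Set B) ∪ (Set.range fun g => β g P) ∪ (Set.range fun g => β g w) with hX
  have hSX : ∀ x ∈ S, x ∈ cgen X := fun x hx => subset_cgen X (Or.inl (Or.inl hx))
  have hPX : P ∈ cgen X := subset_cgen X (Or.inl (Or.inr ⟨1, hβ1 P⟩))
  have hwX : w ∈ cgen X := subset_cgen X (Or.inr ⟨1, hβ1 w⟩)
  refine ⟨cgen X, u * (1 - P), W + u * w, ?_⟩
  refine
    { closed := isClosed_cgen _
      sep := isSeparable_cgen ((h.sep.union (Set.countable_range _).isSeparable).union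
        (Set.countable_range _).isSeparable)
      inv := ?_
      u_mem := mul_mem (hSX u h.u_mem) (sub_mem (one_mem _) hPX)
      W_mem := add_mem (hSX W h.W_mem) (mul_mem (hSX u h.u_mem) hwX)
      u_nonneg := hloc.u_nonneg'
      u_le := hloc.u_le'
      uW := hloc.uW'
      Wu := hloc.Wu'
      W_norm := hloc.norm_W'
      tr_u := ?_
      est_A := ?_
      est_N := ?_
      est_E := ?_ }
  · refine fun g => cgen_invariant β ?_ g
    rintro g x ((hx | ⟨g', rfl⟩) | ⟨g', rfl⟩)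
    · exact Or.inl (Or.inl (h.inv g x hx))
    · exact Or.inl (Or.inr ⟨g * g', by
        show β (g * g') P = β g (β g' P)
        rw [map_mul, StarAlgEquiv.mul_apply]⟩)
    · exact Or.inr ⟨g * g', by
        show β (g * g') w = β g (β g' w)
        rw [map_mul, StarAlgEquiv.mul_apply]⟩
  · intro τ hτ
    have h1 := htrP τ hτ u h.u_mem 1
    rw [hβ1, h.tr_u τ hτ] at h1
    rw [mul_sub, mul_one, map_sub, h.tr_u τ hτ, h1]
    push_cast
    ring
  · intro τ hτ
    have h1 := h.est_A τ hτ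
    have h2 : sq τ ((W + u * w) * (W + u * w)) = sq τ (W * W) +
        (τ (u * u * (u * u) * (star (w * w) * (w * w)))).re := by
      unfold sq
      rw [hloc.star_sq_mul, map_add, Complex.add_re]
    have hb : star (u * u) * (u * u) = u * u * (u * u) := by rw [star_mul, hsu]
    have h3 := ((htr τ hτ (u * u * (u * u)) (mul_mem huu huu)).2.2.2 ⟨u * u, huu, hb.symm⟩).2.2.1
    have h4 : (τ (u * u * (u * u))).re ≤ m := by
      have hP := isPosTrace_of_isTrace (hT τ hτ)
      have a1 : 0 ≤ u * u := by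
        have := star_mul_self_nonneg u
        rwa [hsu] at this
      have a2 : u * u ≤ u := mul_self_le_self h.u_nonneg h.u_le
      have a3 := tr_mono hP ((mul_self_le_self a1 (a2.trans h.u_le)).trans a2)
      rw [h.tr_u τ hτ] at a3
      simpa using a3
    rw [h2]
    nlinarith [mul_le_mul_of_nonneg_left h4 hκη]
  · intro τ hτ
    have h1 := h.est_N τ hτ
    have hP := isPosTrace_of_isTrace (hT τ hτ)
    have hb : star u * u = u * u := by rw [hsu]
    have hb2 : star (u * u) * (u * u) = u * u * (u * u) := by rw [star_mul, hsu]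
    have h2 := hloc.N_step (τ := τ)
    have h3 := hloc.M_step (τ := τ)
    have h4 := (htr τ hτ (u * u) huu).2.2.2 ⟨u, h.u_mem, hb.symm⟩
    have h5 := ((htr τ hτ (u * u * (u * u)) (mul_mem huu huu)).2.2.2 ⟨u * u, huu, hb2.symm⟩).2.1
    have h6 : (τ (u * u * P)).re = η * (τ (u * u)).re := by
      rw [(htr τ hτ (u * u) huu).2.2.1, Complex.re_ofReal_mul]
    have h7 : sq τ u = (τ (u * u)).re := by
      unfold sq
      rw [hsu]
    have h8 : (τ (u * u * (u * u))).re ≤ (τ (u * u)).re := by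
      have a1 : 0 ≤ u * u := by
        have := star_mul_self_nonneg u
        rwa [hsu] at this
      exact tr_mono hP (mul_self_le_self a1 ((mul_self_le_self h.u_nonneg h.u_le).trans h.u_le))
    have h9 := h4.1
    have h10 := h4.2.2.2.1
    rw [h2, h3, h6, h7]
    rw [h7] at h1
    set M := (τ (u * u)).re with hM
    have hη1 : (1 + κ) * η * (τ (u * u * (u * u))).re ≤ (1 + κ) * η * M :=
      mul_le_mul_of_nonneg_left h8 (by positivity)
    set N := sq τ (1 - (W * star W + star W * W)) with hN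
    have s1 : N - 2 * (τ (u * u * (w * star w + star w * w))).re +
        (τ (u * u * (u * u) * ((w * star w + star w * w) * (w * star w + star w * w)))).re ≤
        N - (1 - 3 * κ) * η * M := by linarith
    have s2 : (1 - (1 + κ) * η) * M ≤ M - η * M - (τ (u * u * (P - P * P))).re := by linarith
    have s3 : (1 + κ) * (N - 2 * (τ (u * u * (w * star w + star w * w))).re +
        (τ (u * u * (u * u) * ((w * star w + star w * w) * (w * star w + star w * w)))).re) ≤
        (1 + κ) * (N - (1 - 3 * κ) * η * M) := mul_le_mul_of_nonneg_left s1 (by linarith)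
    have s4 : (1 - 3 * κ) * ((1 - (1 + κ) * η) * M) ≤
        (1 - 3 * κ) * (M - η * M - (τ (u * u * (P - P * P))).re) :=
      mul_le_mul_of_nonneg_left s2 (by linarith)
    linarith
  · intro τ hτ k hk
    have h1 := h.est_E τ hτ k hk
    have hP := isPosTrace_of_isTrace (hT τ hτ)
    have hsu₂ : star (β k u) = β k u := by rw [← map_star, hsu]
    have hu₂ : β k u ∈ S := h.inv k u h.u_mem
    have hW₂ : β k W ∈ S := h.inv k W h.W_mem
    have hmu : (τ (u * u)).re ≤ m := by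
      have := htru τ hτ 1
      rwa [hβ1] at this
    have hmu₂ := htru τ hτ k
    have q1 : (τ (u * u * (β k P - β k P * β k P))).re ≤ κ * η * m := by
      have := htrQ τ hτ u h.u_mem k
      rw [hsu] at this
      exact this.trans (mul_le_mul_of_nonneg_left hmu hκη)
    have q2 : (τ (β k u * β k u * (P - P * P))).re ≤ κ * η * m := by
      have := htrQ τ hτ (β k u) hu₂ 1
      rw [hsu₂, hβ1] at this
      exact this.trans (mul_le_mul_of_nonneg_left hmu₂ hκη)
    have x1 : (τ (u * u * ((β k P - P) * (β k P - P)))).re ≤ κ * η * m := by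
      have := (((htr τ hτ (star u * u) (by rwa [hsu])).2.2.2 ⟨u, h.u_mem, rfl⟩).2.2.2.2 k hk).2
      rw [hsu] at this
      exact this.trans (mul_le_mul_of_nonneg_left hmu hκη)
    have hmem2 : star (β k u) * β k u ∈ S := mul_mem (star_mem hu₂) hu₂
    have x2 := (((htr τ hτ _ hmem2).2.2.2 ⟨β k u, hu₂, rfl⟩).2.2.2.2 k hk).2
    have x3 := (((htr τ hτ _ hmem2).2.2.2 ⟨β k u, hu₂, rfl⟩).2.2.2.2 k hk).1
    rw [hsu₂] at x2 x3
    have x2' := x2.trans (mul_le_mul_of_nonneg_left hmu₂ hκη)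
    have x3' := x3.trans (mul_le_mul_of_nonneg_left hmu₂ hκη)
    have s1 := e_step hP hsu hsu₂ hP0 hPle (hPβ k).1 (hPβ k).2 (hcP1 u h.u_mem)
      (hcP1 _ hu₂) (hcP u h.u_mem k) (hcP _ hu₂ k) η (κ * η * m)
      (htr τ hτ (u * u) huu).2.2.1 (htrP τ hτ _ (mul_mem hu₂ hu₂) k)
      (htr τ hτ _ (mul_mem hu₂ h.u_mem)).2.2.1 (htrP τ hτ _ (mul_mem hu₂ h.u_mem) k) q1 q2 x1 x2'
    have hWu₂ : star (β k W) * β k u = 0 := by
      rw [← map_star, ← map_mul, hloc.Wsu, map_zero]
    have hD : β k u - u ∈ S := sub_mem hu₂ h.u_mem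
    have s2 := E_step hP hsu hsu₂ hloc.star_mul_self_le hloc.Wsu hWu₂ (hcw1 u h.u_mem)
      (hcw1 _ hu₂) (hcw _ hu₂ k)
      (htr τ hτ _ (mul_mem (star_mem hW₂) h.u_mem)).1
      (htrw τ hτ _ (mul_mem (star_mem h.W_mem) hu₂) k) η (κ * η * m)
      (htr τ hτ _ (mul_mem hD hD)).2.2.1 x3'
    have e1 : β k (W + u * w) = β k W + β k u * β k w := by rw [map_add, map_mul]
    have e2 : β k (u * (1 - P)) = β k u * (1 - β k P) := by rw [map_mul, map_sub, map_one]
    rw [e1, e2]
    linarith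

theorem exists_stage [Countable G] (hT : ∀ τ ∈ T, IsTrace τ)
    (hinv : ∀ τ ∈ T, ∀ g, τ ∘ₗ (β g : B →⋆ₐ[ℂ] B).toAlgHom.toLinearMap ∈ T)
    (hp : Pieces β T K κ η) (hκ : 0 ≤ κ) (hκ3 : 3 * κ ≤ 1) (hη : 0 ≤ η) (n : ℕ) :
    ∃ (S : StarSubalgebra ℂ B) (u W : B), Stage β T K κ S u W ((1 - η) ^ n) := by
  induction n with
  | zero =>
    exact ⟨cgen (∅ : Set B), 1, 0, by rw [pow_zero]; exact Stage.init hT⟩
  | succ n ih =>
    obtain ⟨S, u, W, h⟩ := ih
    obtain ⟨S', u', W', h'⟩ := h.step hT hinv hp hκ hκ3 hη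
    exact ⟨S', u', W', by rwa [pow_succ, mul_comm]⟩

end Ordered

theorem unit_approx_of_pieces [Countable G] (hT : ∀ τ ∈ T, IsTrace τ)
    (hinv : ∀ τ ∈ T, ∀ g, τ ∘ₗ (β g : B →⋆ₐ[ℂ] B).toAlgHom.toLinearMap ∈ T)
    (hp : ∀ κ : ℝ, 0 < κ → ∃ η : ℝ, 0 < η ∧ η ≤ 1 ∧ Pieces β T K κ η) (ε : ℝ) (hε : 0 < ε) :
    ∃ w : B, ‖w‖ ≤ 1 ∧ ∀ τ ∈ T, sq τ (w * w) ≤ ε ∧
      sq τ (1 - (w * star w + star w * w)) ≤ ε ∧ ∀ k ∈ K, sq τ (β k w - w) ≤ ε := by
  let _ : PartialOrder B := CStarAlgebra.spectralOrder B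
  have : StarOrderedRing B := CStarAlgebra.spectralOrderedRing B
  set κ := min (ε / 8) (1 / 4) with hκ
  have hκ0 : 0 < κ := lt_min (by positivity) (by norm_num)
  have hκ1 : κ ≤ ε / 8 := min_le_left _ _
  have hκ4 : κ ≤ 1 / 4 := min_le_right _ _
  obtain ⟨η, hη0, hη1, hpη⟩ := hp κ hκ0
  obtain ⟨n, hn⟩ : ∃ n : ℕ, (1 - η) ^ n < ε / 2 :=
    exists_pow_lt_of_lt_one (by positivity) (by linarith)
  obtain ⟨S, u, W, h⟩ := exists_stage hT hinv hpη hκ0.le (by linarith) hη0.le n
  refine ⟨W, h.W_norm, fun τ hτ => ?_⟩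
  have hP := isPosTrace_of_isTrace (hT τ hτ)
  have hm : (0 : ℝ) ≤ (1 - η) ^ n := pow_nonneg (by linarith) n
  have hκm : 0 ≤ κ * (1 - η) ^ n := mul_nonneg hκ0.le hm
  refine ⟨?_, ?_, ?_⟩
  · have := h.est_A τ hτ
    linarith
  · have h1 := h.est_N τ hτ
    have h2 : sq τ u ≤ (1 - η) ^ n := by
      have a := tr_mono hP (mul_self_le_self h.u_nonneg h.u_le)
      rw [h.tr_u τ hτ, Complex.ofReal_re] at a
      unfold sq
      rwa [(IsSelfAdjoint.of_nonneg h.u_nonneg).star_eq]
    have h3 : 0 ≤ sq τ (1 - (W * star W + star W * W)) := sq_nonneg' hP _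
    have h4 : 0 ≤ sq τ u := sq_nonneg' hP _
    nlinarith [mul_nonneg hκ0.le h3, mul_nonneg hκ0.le h4]
  · intro k hk
    have h1 := h.est_E τ hτ k hk
    have h3 : 0 ≤ sq τ (β k u - u) := sq_nonneg' hP _
    nlinarith

end Sys

section Average

variable {K : Type*} [CStarAlgebra K] [PartialOrder K] [StarOrderedRing K] {τ : K →ₗ[ℂ] ℂ}

theorem sq_star (h : IsPosTrace τ) (x : K) : sq τ (star x) = sq τ x := by
  unfold sq
  rw [star_star, h.trace]

theorem sq_mul_left (h : IsPosTrace τ) {a : K} (ha : ‖a‖ ≤ 1) (x : K) :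
    sq τ (a * x) ≤ sq τ x := by
  have h1 : star a * a ≤ 1 := by
    rw [← CStarAlgebra.norm_le_one_iff_of_nonneg _ (star_mul_self_nonneg a),
      CStarRing.norm_star_mul_self]
    exact mul_le_one₀ ha (norm_nonneg _) ha
  have h2 := star_left_conjugate_le_conjugate h1 x
  have h3 := tr_mono h h2
  unfold sq
  rw [star_mul]
  rw [mul_one] at h3
  have h4 : star x * star a * (a * x) = star x * (star a * a) * x := by noncomm_ring
  rwa [h4]

theorem sq_mul_right (h : IsPosTrace τ) {a : K} (ha : ‖a‖ ≤ 1) (x : K) :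
    sq τ (x * a) ≤ sq τ x := by
  rw [← sq_star h (x * a), star_mul, ← sq_star h x]
  exact sq_mul_left h (by rwa [norm_star]) _

theorem sq_neg (x : K) : sq τ (-x) = sq τ x := by
  unfold sq
  rw [star_neg, neg_mul_neg]

/-- Jensen's inequality for the squared `2`-norm. -/
theorem sq_sum_le (h : IsPosTrace τ) {ι : Type*} (F : Finset ι) (ν : ι → ℝ) (hν : ∀ i, 0 ≤ ν i)
    (hν1 : ∑ i ∈ F, ν i = 1) (x : ι → K) {c : ℝ} (hx : ∀ i ∈ F, sq τ (x i) ≤ c) :
    sq τ (∑ i ∈ F, (ν i : ℂ) • x i) ≤ c := by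
  set y := ∑ i ∈ F, (ν i : ℂ) • x i with hy
  have e1 : ∑ i ∈ F, (ν i : ℂ) • (star (x i - y) * (x i - y)) =
      ∑ i ∈ F, (ν i : ℂ) • (star (x i) * x i) - star y * y := by
    have a1 : ∀ i, (ν i : ℂ) • (star (x i - y) * (x i - y)) =
        (ν i : ℂ) • (star (x i) * x i) - star ((ν i : ℂ) • x i) * y - star y * ((ν i : ℂ) • x i) +
          (ν i : ℂ) • (star y * y) := by
      intro i
      rw [star_smul, star_sub, sub_mul, mul_sub, mul_sub, smul_mul_assoc, mul_smul_comm]
      have : star (ν i : ℂ) = (ν i : ℂ) := Complex.conj_ofReal _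
      rw [this, smul_sub, smul_sub, smul_sub]
      abel
    have a2 : ∑ i ∈ F, (ν i : ℂ) = 1 := by
      rw [← Complex.ofReal_sum, hν1, Complex.ofReal_one]
    rw [Finset.sum_congr rfl fun i _ => a1 i, Finset.sum_add_distrib, Finset.sum_sub_distrib,
      Finset.sum_sub_distrib, ← Finset.sum_mul, ← star_sum, ← hy, ← Finset.mul_sum, ← hy,
      ← Finset.sum_smul, a2, one_smul]
    abel
  have e2 : (τ (∑ i ∈ F, (ν i : ℂ) • (star (x i - y) * (x i - y)))).re =
      ∑ i ∈ F, ν i * sq τ (x i - y) := by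
    rw [map_sum, Complex.re_sum]
    refine Finset.sum_congr rfl fun i _ => ?_
    rw [map_smul, smul_eq_mul, Complex.re_ofReal_mul]
    rfl
  have e3 : (τ (∑ i ∈ F, (ν i : ℂ) • (star (x i) * x i) - star y * y)).re =
      ∑ i ∈ F, ν i * sq τ (x i) - sq τ y := by
    rw [map_sub, map_sum, Complex.sub_re, Complex.re_sum]
    congr 1
    refine Finset.sum_congr rfl fun i _ => ?_
    rw [map_smul, smul_eq_mul, Complex.re_ofReal_mul]
    rfl
  rw [e1, e3] at e2
  have h1 : 0 ≤ ∑ i ∈ F, ν i * sq τ (x i - y) :=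
    Finset.sum_nonneg fun i _ => mul_nonneg (hν i) (sq_nonneg' h _)
  have h2 : ∑ i ∈ F, ν i * sq τ (x i) ≤ ∑ i ∈ F, ν i * c :=
    Finset.sum_le_sum fun i hi => mul_le_mul_of_nonneg_left (hx i hi) (hν i)
  rw [← Finset.sum_mul, hν1, one_mul] at h2
  linarith

/-- Transfer of the estimates to a nearby element. -/
theorem transfer (h : IsPosTrace τ) {w w' : K} (hw : ‖w‖ ≤ 1) (hw' : ‖w'‖ ≤ 1) {δ : ℝ}
    (hd : sq τ (w' - w) ≤ δ) (h1 : sq τ (w * w) ≤ δ)
    (h2 : sq τ (1 - (w * star w + star w * w)) ≤ δ) :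
    sq τ (w' * w') ≤ 10 * δ ∧ sq τ (1 - (w' * star w' + star w' * w')) ≤ 34 * δ := by
  have hws : ‖star w‖ ≤ 1 := by rwa [norm_star]
  have hws' : ‖star w'‖ ≤ 1 := by rwa [norm_star]
  have hds : sq τ (star (w' - w)) ≤ δ := by rwa [sq_star h]
  constructor
  · have e : w' * w' = w * w + (w' * (w' - w) + (w' - w) * w) := by noncomm_ring
    have a1 := sq_add_le h (w * w) (w' * (w' - w) + (w' - w) * w)
    have a2 := sq_add_le h (w' * (w' - w)) ((w' - w) * w)
    have a3 := sq_mul_left h hw' (w' - w)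
    have a4 := sq_mul_right h hw (w' - w)
    rw [← e] at a1
    linarith
  · have e : 1 - (w' * star w' + star w' * w') = (1 - (w * star w + star w * w)) +
        -((w' * star (w' - w) + (w' - w) * star w) + (star w' * (w' - w) + star (w' - w) * w)) := by
      rw [star_sub]
      noncomm_ring
    have a1 := sq_add_le h (1 - (w * star w + star w * w))
      (-((w' * star (w' - w) + (w' - w) * star w) + (star w' * (w' - w) + star (w' - w) * w)))
    have a2 := sq_add_le h (w' * star (w' - w) + (w' - w) * star w)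
      (star w' * (w' - w) + star (w' - w) * w)
    have a3 := sq_add_le h (w' * star (w' - w)) ((w' - w) * star w)
    have a4 := sq_add_le h (star w' * (w' - w)) (star (w' - w) * w)
    have b1 := sq_mul_left h hw' (star (w' - w))
    have b2 := sq_mul_right h hws (w' - w)
    have b3 := sq_mul_left h hws' (w' - w)
    have b4 := sq_mul_right h hw (star (w' - w))
    rw [← e, sq_neg] at a1
    linarith

end Average

section Sys

variable {G : Type*} [Group G] {B : Type u} [CStarAlgebra B] {β : G →* (B ≃⋆ₐ[ℂ] B)}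
  {T : Set (B →ₗ[ℂ] ℂ)}

/-- Averaging over a Reiter measure. -/
theorem unit_approx_of_reiter (hG : ReiterAmenable G) (hT : ∀ τ ∈ T, IsTrace τ)
    (h : ∀ (K : Finset G) (ε : ℝ), 0 < ε → ∃ w : B, ‖w‖ ≤ 1 ∧ ∀ τ ∈ T, sq τ (w * w) ≤ ε ∧
      sq τ (1 - (w * star w + star w * w)) ≤ ε ∧ ∀ k ∈ K, sq τ (β k w - w) ≤ ε)
    (K : Finset G) (ε : ℝ) (hε : 0 < ε) :
    ∃ w : B, ‖w‖ ≤ 1 ∧ (∀ k ∈ K, ‖β k w - w‖ ≤ ε) ∧ ∀ τ ∈ T, sq τ (w * w) ≤ ε ∧
      sq τ (1 - (w * star w + star w * w)) ≤ ε := by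
  classical
  let _ : PartialOrder B := CStarAlgebra.spectralOrder B
  have : StarOrderedRing B := CStarAlgebra.spectralOrderedRing B
  obtain ⟨F, ν, hν0, hνF, hν1, hν⟩ := hG K ε hε
  obtain ⟨w, hw, hwT⟩ := h F (ε / 34) (by positivity)
  have hnorm : ∀ g, ‖(ν g : ℂ) • β g w‖ ≤ ν g := by
    intro g
    rw [norm_smul, Complex.norm_real, Real.norm_eq_abs, abs_of_nonneg (hν0 g), norm_act]
    exact mul_le_of_le_one_right (hν0 g) hw
  set w' := ∑ g ∈ F, (ν g : ℂ) • β g w with hw'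
  have hw'1 : ‖w'‖ ≤ 1 := by
    rw [hw', ← hν1]
    exact norm_sum_le_of_le _ fun g _ => hnorm g
  refine ⟨w', hw'1, ?_, ?_⟩
  · intro k hk
    set F' := F ∪ F.image (fun g => k * g) with hF'
    have e1 : w' = ∑ g ∈ F', (ν g : ℂ) • β g w := by
      rw [hw']
      refine Finset.sum_subset Finset.subset_union_left fun g _ hg => ?_
      rw [hνF g hg, Complex.ofReal_zero, zero_smul]
    have e2 : β k w' = ∑ g ∈ F', (ν (k⁻¹ * g) : ℂ) • β g w := by
      have a1 : β k w' = ∑ g ∈ F.image (fun g => k * g), (ν (k⁻¹ * g) : ℂ) • β g w := by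
        rw [Finset.sum_image (fun a _ b _ hab => mul_left_cancel hab), hw', map_sum]
        refine Finset.sum_congr rfl fun g _ => ?_
        rw [map_smul, inv_mul_cancel_left, map_mul, StarAlgEquiv.mul_apply]
      rw [a1]
      refine Finset.sum_subset Finset.subset_union_right fun g _ hg => ?_
      have : k⁻¹ * g ∉ F := by
        intro h2
        exact hg (Finset.mem_image.2 ⟨_, h2, by rw [mul_inv_cancel_left]⟩)
      rw [hνF _ this, Complex.ofReal_zero, zero_smul]
    have e3 : β k w' - w' = ∑ g ∈ F', ((ν (k⁻¹ * g) - ν g : ℝ) : ℂ) • β g w := by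
      rw [e2]
      conv_lhs => rw [e1]
      rw [← Finset.sum_sub_distrib]
      refine Finset.sum_congr rfl fun g _ => ?_
      rw [Complex.ofReal_sub, sub_smul]
    rw [e3]
    refine (norm_sum_le_of_le _ fun g _ => ?_).trans (hν k hk F')
    rw [norm_smul, Complex.norm_real, Real.norm_eq_abs, norm_act]
    exact mul_le_of_le_one_right (abs_nonneg _) hw
  · intro τ hτ
    have hP := isPosTrace_of_isTrace (hT τ hτ)
    obtain ⟨h1, h2, h3⟩ := hwT τ hτ
    have e1 : w' - w = ∑ g ∈ F, (ν g : ℂ) • (β g w - w) := by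
      have a2 : ∑ i ∈ F, (ν i : ℂ) = 1 := by
        rw [← Complex.ofReal_sum, hν1, Complex.ofReal_one]
      simp only [smul_sub]
      rw [Finset.sum_sub_distrib, ← Finset.sum_smul, a2, one_smul]
    have h4 : sq τ (w' - w) ≤ ε / 34 := by
      rw [e1]
      exact sq_sum_le hP F ν hν0 hν1 _ h3
    obtain ⟨h5, h6⟩ := transfer hP hw hw'1 h4 h1 h2
    constructor
    · linarith
    · linarith

end Sys

end Exh

end Vale.Agent.P095
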