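import Vale.Agent.P095.Act

/-!
# P095: commuting copies in the fixed point algebra
-/

open Filter Topology
open scoped BoundedContinuousFunction

namespace Vale.Agent.P095

open Vale.Agent.P101

/-- The fixed point algebra of an algebra with equivariant commuting copies has commuting
copies. -/
theorem hasCommutingCopies_fixedAlg {G : Type*} [Group G] {B : Type*} [CStarAlgebra B]
    {β : G →* (B ≃⋆ₐ[ℂ] B)} {J : Set B} (h : HasEqCopies β J) :
    HasCommutingCopies (fixedAlg β) := by
  intro S hS hsep
  have himg : ((S.map (fixedAlg β).subtype : StarSubalgebra ℂ B) : Set B)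
      = Subtype.val '' (S : Set (fixedAlg β)) := by
    ext x
    simp
  have hmem : ∀ x : S, ((x : fixedAlg β) : B) ∈ S.map (fixedAlg β).subtype := fun x => by
    rw [← SetLike.mem_coe, himg]
    exact ⟨x, x.2, rfl⟩
  have hfix : ∀ x ∈ S.map (fixedAlg β).subtype, ∀ g, β g x = x := by
    intro x hx g
    rw [← SetLike.mem_coe, himg] at hx
    obtain ⟨y, -, rfl⟩ := hx
    exact y.2 g
  obtain ⟨Φ, h1, h2, -⟩ := h (S.map (fixedAlg β).subtype) (by
      rw [himg]
      exact (isClosed_fixedAlg β).isClosedEmbedding_subtypeVal.isClosedMap _ hS) (by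
      rw [himg]
      exact hsep.image continuous_subtype_val) (by
      intro g x hx
      rw [hfix x hx g]
      exact hx)
  let incl : S →⋆ₐ[ℂ] (S.map (fixedAlg β).subtype : StarSubalgebra ℂ B) :=
    { toFun := fun x => ⟨((x : fixedAlg β) : B), hmem x⟩
      map_one' := rfl
      map_mul' := fun _ _ => rfl
      map_zero' := rfl
      map_add' := fun _ _ => rfl
      commutes' := fun _ => rfl
      map_star' := fun _ => rfl }
  have hΦfix : ∀ x : S, Φ (incl x) ∈ fixedAlg β := by
    intro x g
    exact (h2 g (incl x) (incl x) (hfix _ (hmem x) g).symm).symm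
  let Ψ : S →⋆ₐ[ℂ] fixedAlg β :=
    { toFun := fun x => ⟨Φ (incl x), hΦfix x⟩
      map_one' := Subtype.ext (by
        show Φ (incl 1) = 1
        rw [map_one, map_one])
      map_mul' := fun x y => Subtype.ext (by
        show Φ (incl (x * y)) = Φ (incl x) * Φ (incl y)
        rw [map_mul, map_mul])
      map_zero' := Subtype.ext (by
        show Φ (incl 0) = 0
        rw [map_zero, map_zero])
      map_add' := fun x y => Subtype.ext (by
        show Φ (incl (x + y)) = Φ (incl x) + Φ (incl y)
        rw [map_add, map_add])
      commutes' := fun c => Subtype.ext (by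
        show Φ (incl (algebraMap ℂ S c)) = algebraMap ℂ B c
        rw [AlgHomClass.commutes, AlgHomClass.commutes])
      map_star' := fun x => Subtype.ext (by
        show Φ (incl (star x)) = star (Φ (incl x))
        rw [map_star, map_star]) }
  refine ⟨Ψ, fun x y => ?_⟩
  have h3 := h1 (incl x) (incl y)
  rw [commute_iff_eq] at h3 ⊢
  exact Subtype.ext h3

end Vale.Agent.P095
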