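import Vale.Agent.P095.FixState

/-!
# P095: extreme extensions of a character and commuting copies
-/

open Filter Topology

open scoped ComplexOrder

namespace Vale.Agent.P095

open Vale.Agent.P101

namespace FixMean

open FixState

theorem exists_lim (U : Ultrafilter ℕ) (x : ℕ → ℂ) (M : ℝ) (h : ∀ n, ‖x n‖ ≤ M) :
    ∃ L, Tendsto x U (𝓝 L) := by
  obtain ⟨L, -, hL⟩ := (isCompact_closedBall (0 : ℂ) M).ultrafilter_le_nhds' (U.map x) (by
    rw [Ultrafilter.mem_map]
    exact Filter.univ_mem' fun n => by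
      rw [Set.mem_preimage, mem_closedBall_zero_iff]
      exact h n)
  exact ⟨L, hL⟩

/-- Zero power sums. -/
theorem power_sums {T : Type*} [Fintype T] (l : T → ℂ) (h : ∀ k : ℕ, 0 < k → ∑ t, l t ^ k = 0) :
    ∀ t, l t = 0 := by
  classical
  intro t₀
  by_contra hne
  set μ := l t₀ with hμ
  set S : Finset ℂ := (Finset.univ.image l).erase μ with hS
  let p : Polynomial ℂ := Polynomial.X * ∏ ν ∈ S, (Polynomial.X - Polynomial.C ν)
  have hp0 : ∑ t, p.eval (l t) = 0 := by
    have h1 : ∀ t, p.eval (l t) = ∑ i ∈ Finset.range (p.natDegree + 1), p.coeff i * l t ^ i :=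
      fun t => Polynomial.eval_eq_sum_range _
    simp only [h1]
    rw [Finset.sum_comm]
    refine Finset.sum_eq_zero fun i _ => ?_
    rw [← Finset.mul_sum]
    rcases Nat.eq_zero_or_pos i with hi | hi
    · have : p.coeff i = 0 := by
        rw [hi]
        simp [p]
      rw [this, zero_mul]
    · rw [h i hi, mul_zero]
  have hpt : ∀ t, p.eval (l t) = if l t = μ then p.eval μ else 0 := by
    intro t
    split_ifs with ht
    · rw [ht]
    · simp only [p]
      rw [Polynomial.eval_mul, Polynomial.eval_prod]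
      have : ∏ ν ∈ S, Polynomial.eval (l t) (Polynomial.X - Polynomial.C ν) = 0 := by
        apply Finset.prod_eq_zero (i := l t)
        · rw [hS, Finset.mem_erase]
          exact ⟨ht, Finset.mem_image_of_mem _ (Finset.mem_univ _)⟩
        · simp
      rw [this, mul_zero]
  have hpμ : p.eval μ ≠ 0 := by
    simp only [p]
    rw [Polynomial.eval_mul, Polynomial.eval_prod, Polynomial.eval_X]
    refine mul_ne_zero hne (Finset.prod_ne_zero_iff.2 fun ν hν => ?_)
    rw [Polynomial.eval_sub, Polynomial.eval_X, Polynomial.eval_C]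
    rw [hS, Finset.mem_erase] at hν
    exact sub_ne_zero.2 fun h => hν.1 h.symm
  simp only [hpt] at hp0
  rw [← Finset.sum_filter, Finset.sum_const, nsmul_eq_mul, mul_eq_zero] at hp0
  rcases hp0 with h1 | h1
  · rw [Nat.cast_eq_zero, Finset.card_eq_zero] at h1
    have : t₀ ∈ Finset.univ.filter fun t => l t = μ := by simp [hμ]
    rw [h1] at this
    exact absurd this (Finset.notMem_empty _)
  · exact hpμ h1

variable {D C : Type*} [CStarAlgebra D] [CStarAlgebra C] {G : Type*} [Group G]

/-- Pairwise commuting, asymptotically central equivariant copies. -/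
structure CopySys (β : G →* (D ≃⋆ₐ[ℂ] D)) (θ : ℕ → (C →⋆ₐ[ℂ] D)) (γ : G → C → C) : Prop where
  equiv : ∀ g c j, θ j (γ g c) = β g (θ j c)
  comm : ∀ i j, i ≠ j → ∀ x y, Commute (θ i x) (θ j y)
  asym : ∀ c d, Tendsto (fun j => ‖θ j c * d - d * θ j c‖) atTop (𝓝 0)

/-- The factorisation given by extremality. -/
theorem exists_mean {β : G →* (D ≃⋆ₐ[ℂ] D)} {χ : fixedAlg β →⋆ₐ[ℂ] ℂ}
    {θ : ℕ → (C →⋆ₐ[ℂ] D)} {γ : G → C → C} (hθ : CopySys β θ γ) (U : Ultrafilter ℕ)
    (hU : (U : Filter ℕ) ≤ atTop) {φ : D → ℂ} (hφ : φ ∈ exts β χ)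
    (hext : ∀ f₁ ∈ exts β χ, ∀ f₂ ∈ exts β χ, ∀ s t : ℝ, 0 < s → 0 < t → s + t = 1 →
      (∀ x, φ x = s * f₁ x + t * f₂ x) → ∀ x, f₁ x = φ x) :
    ∃ ψ : C → ℂ, ∀ c (b : D), Tendsto (fun j => φ (b * θ j c)) U (𝓝 (φ b * ψ c)) := by
  have hst := hφ.1
  have hbd : ∀ c (b : D) j, ‖φ (b * θ j c)‖ ≤ ‖b‖ * ‖c‖ := fun c b j =>
    (hst.norm_le _).trans ((norm_mul_le _ _).trans
      (mul_le_mul_of_nonneg_left (NonUnitalStarAlgHom.norm_apply_le (θ j) c) (norm_nonneg _)))
  have hlim : ∀ c (b : D), ∃ L, Tendsto (fun j => φ (b * θ j c)) U (𝓝 L) := fun c b =>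
    exists_lim U _ _ (hbd c b)
  choose Λ hΛ using hlim
  have huniq : ∀ c b L, Tendsto (fun j => φ (b * θ j c)) U (𝓝 L) → Λ c b = L := fun c b L h =>
    tendsto_nhds_unique (hΛ c b) h
  have hΛadd : ∀ c b b', Λ c (b + b') = Λ c b + Λ c b' := fun c b b' => huniq _ _ _ (by
    have := (hΛ c b).add (hΛ c b')
    refine this.congr fun j => ?_
    rw [← hst.map_add, add_mul])
  have hΛsmul : ∀ c (z : ℂ) b, Λ c (z • b) = z * Λ c b := fun c z b => huniq _ _ _ (by
    have := (hΛ c b).const_mul z
    refine this.congr fun j => ?_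
    rw [← hst.map_smul, smul_mul_assoc])
  have hΛadd' : ∀ c c' b, Λ (c + c') b = Λ c b + Λ c' b := fun c c' b => huniq _ _ _ (by
    have := (hΛ c b).add (hΛ c' b)
    refine this.congr fun j => ?_
    rw [← hst.map_add, ← mul_add, map_add])
  have hΛsmul' : ∀ (z : ℂ) c b, Λ (z • c) b = z * Λ c b := fun z c b => huniq _ _ _ (by
    have := (hΛ c b).const_mul z
    refine this.congr fun j => ?_
    rw [← hst.map_smul, map_smul, mul_smul_comm])
  have hΛone : ∀ b, Λ 1 b = φ b := fun b => huniq _ _ _ (by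
    simp only [map_one, mul_one]
    exact tendsto_const_nhds)
  have hΛbd : ∀ c b, ‖Λ c b‖ ≤ ‖b‖ * ‖c‖ := fun c b =>
    le_of_tendsto (hΛ c b).norm (Eventually.of_forall fun j => hbd c b j)
  have hΛpos : ∀ e x, 0 ≤ Λ (star e * e) (star x * x) := by
    intro e x
    have h1 : Tendsto (fun j => φ (star x * (x * θ j (star e * e) - θ j (star e * e) * x))) U
        (𝓝 0) := by
      rw [tendsto_zero_iff_norm_tendsto_zero]
      have h2 := ((hθ.asym (star e * e) x).mono_left hU).const_mul ‖star x‖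
      rw [mul_zero] at h2
      refine squeeze_zero (fun _ => norm_nonneg _) (fun j => ?_) h2
      refine (hst.norm_le _).trans ((norm_mul_le _ _).trans ?_)
      rw [norm_sub_rev]
    have h2 := (hΛ (star e * e) (star x * x)).sub h1
    rw [sub_zero] at h2
    refine ge_of_tendsto' h2 fun j => ?_
    have e1 : star x * x * θ j (star e * e) -
        star x * (x * θ j (star e * e) - θ j (star e * e) * x) =
        star (θ j e * x) * (θ j e * x) := by
      rw [map_mul, map_star, star_mul]
      noncomm_ring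
    rw [← hst.map_sub, e1]
    exact hst.nonneg _
  have key : ∀ h : C, IsSelfAdjoint h → ∀ x, Λ h x = φ x * Λ h 1 := by
    intro h hh
    let _ := CStarAlgebra.spectralOrder C
    have _ := CStarAlgebra.spectralOrderedRing C
    set M : ℝ := ‖h‖ + 1 with hM
    have hMpos : 0 < M := by positivity
    have hle : h ≤ algebraMap ℝ C ‖h‖ := hh.le_algebraMap_norm_self
    have hge : - algebraMap ℝ C ‖h‖ ≤ h := hh.neg_algebraMap_norm_le_self
    have hone : (0 : C) ≤ 1 := zero_le_one' C
    have hMe : ((M : ℝ) : ℂ) • (1 : C) = algebraMap ℝ C ‖h‖ + 1 := by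
      rw [Complex.coe_smul, hM, add_smul, one_smul, Algebra.algebraMap_eq_smul_one]
    have hP : 0 ≤ ((M : ℝ) : ℂ) • (1 : C) + h := by
      rw [hMe]
      have : 0 ≤ (h - (- algebraMap ℝ C ‖h‖)) + 1 := add_nonneg (sub_nonneg.2 hge) hone
      have e : (h - (- algebraMap ℝ C ‖h‖)) + 1 = algebraMap ℝ C ‖h‖ + 1 + h := by abel
      rwa [e] at this
    have hQ : 0 ≤ ((M : ℝ) : ℂ) • (1 : C) - h := by
      rw [hMe]
      have : 0 ≤ (algebraMap ℝ C ‖h‖ - h) + 1 := add_nonneg (sub_nonneg.2 hle) hone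
      have e : (algebraMap ℝ C ‖h‖ - h) + 1 = algebraMap ℝ C ‖h‖ + 1 - h := by abel
      rwa [e] at this
    obtain ⟨e, he⟩ := CStarAlgebra.nonneg_iff_eq_star_mul_self.1 hP
    obtain ⟨f, hf⟩ := CStarAlgebra.nonneg_iff_eq_star_mul_self.1 hQ
    have hΛP : ∀ x, Λ (((M : ℝ) : ℂ) • (1 : C) + h) x = M * φ x + Λ h x := fun x => by
      rw [hΛadd', hΛsmul', hΛone]
    have hΛQ : ∀ x, Λ (((M : ℝ) : ℂ) • (1 : C) - h) x = M * φ x - Λ h x := fun x => by
      rw [sub_eq_add_neg, ← neg_one_smul ℂ h, hΛadd', hΛsmul', hΛsmul', hΛone]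
      ring
    have hPpos : ∀ x, 0 ≤ M * φ (star x * x) + Λ h (star x * x) := fun x => by
      rw [← hΛP, he]
      exact hΛpos _ _
    have hQpos : ∀ x, 0 ≤ M * φ (star x * x) - Λ h (star x * x) := fun x => by
      rw [← hΛQ, hf]
      exact hΛpos _ _
    -- the two normalisations
    have htP := hPpos 1
    have htQ := hQpos 1
    rw [star_one, one_mul, hst.map_one, mul_one] at htP htQ
    have hbd1 : ‖Λ h 1‖ ≤ ‖h‖ := by
      rcases subsingleton_or_nontrivial D with hD | hD
      · have : φ (1 : D) = 0 := by rw [Subsingleton.elim (1 : D) 0, hst.map_zero]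
        rw [hst.map_one] at this
        exact absurd this one_ne_zero
      · have := hΛbd h 1
        rwa [norm_one, one_mul] at this
    have hre : |(Λ h 1).re| ≤ ‖h‖ := (Complex.abs_re_le_norm _).trans hbd1
    have him : (Λ h 1).im = 0 := by
      have := (Complex.le_def.1 htP).2
      simpa using this.symm
    set r : ℝ := (Λ h 1).re with hr
    have hval : Λ h 1 = (r : ℂ) := Complex.ext rfl (by rw [Complex.ofReal_im, him])
    have hrP : 1 ≤ M + r := by
      have := (abs_le.1 hre).1
      rw [hM]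
      linarith
    have hrQ : 1 ≤ M - r := by
      have := (abs_le.1 hre).2
      rw [hM]
      linarith
    have hcP : ((M : ℂ) + (r : ℂ)) ≠ 0 := by
      have : ((M + r : ℝ) : ℂ) ≠ 0 := Complex.ofReal_ne_zero.2 (by linarith)
      rwa [Complex.ofReal_add] at this
    have hcQ : ((M : ℂ) - (r : ℂ)) ≠ 0 := by
      have : ((M - r : ℝ) : ℂ) ≠ 0 := Complex.ofReal_ne_zero.2 (by linarith)
      rwa [Complex.ofReal_sub] at this
    -- general construction
    have build : ∀ (σ : ℂ), (σ = 1 ∨ σ = -1) →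
        (∀ x, 0 ≤ M * φ (star x * x) + σ * Λ h (star x * x)) → ∀ q : ℝ, 1 ≤ q →
        (M : ℂ) + σ * r = (q : ℂ) →
        (fun x => ((q : ℝ) : ℂ)⁻¹ * (M * φ x + σ * Λ h x)) ∈ exts β χ := by
      intro σ hσ hpos q hq hqe
      have hq0 : (q : ℂ) ≠ 0 := Complex.ofReal_ne_zero.2 (by linarith)
      have hqinv : (0 : ℂ) ≤ (q : ℂ)⁻¹ := by
        rw [← Complex.ofReal_inv]
        exact_mod_cast (by positivity : (0 : ℝ) ≤ q⁻¹)
      have hst1 : IsSt (fun x => ((q : ℝ) : ℂ)⁻¹ * (M * φ x + σ * Λ h x)) := by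
        refine ⟨?_, ?_, ?_, ?_⟩
        · intro x y
          simp only [hst.map_add, hΛadd]
          ring
        · intro c x
          simp only [hst.map_smul, hΛsmul]
          ring
        · simp only [hst.map_one, hval, mul_one]
          rw [hqe, inv_mul_cancel₀ hq0]
        · intro x
          exact mul_nonneg hqinv (hpos x)
      refine ⟨hst1, fun x => ?_⟩
      set F : D → ℂ := fun x => ((q : ℝ) : ℂ)⁻¹ * (M * φ x + σ * Λ h x) with hF
      set y : fixedAlg β := x - algebraMap ℂ _ (χ x) with hy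
      have hχy : χ y = 0 := by
        rw [hy, map_sub, AlgHomClass.commutes]
        exact sub_self _
      have hφy : φ (star (y : D) * y) = 0 := by
        have := hφ.2 (star y * y)
        rw [map_mul, hχy, mul_zero] at this
        exact this
      have h1 := hst1.sq_le (y : D)
      have h2 : (F (star (y : D) * y)).re ≤ 0 := by
        have h3 := (Complex.le_def.1 (hPpos (y : D))).1
        have h4 := (Complex.le_def.1 (hQpos (y : D))).1
        rw [hφy, mul_zero, zero_add, Complex.zero_re] at h3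
        rw [hφy, mul_zero, zero_sub, Complex.zero_re, Complex.neg_re] at h4
        have h5 : (Λ h (star (y : D) * y)).re = 0 := by linarith
        have h6 : F (star (y : D) * y) =
            ((q⁻¹ : ℝ) : ℂ) * (σ * Λ h (star (y : D) * y)) := by
          rw [hF]
          simp only
          rw [hφy, mul_zero, zero_add, Complex.ofReal_inv]
        rw [h6, Complex.re_ofReal_mul]
        rcases hσ with rfl | rfl
        · rw [one_mul, h5, mul_zero]
        · rw [neg_one_mul, Complex.neg_re, h5, neg_zero, mul_zero]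
      have h7 : F y = 0 := by
        have : ‖F y‖ ^ 2 ≤ 0 := h1.trans h2
        have h8 : ‖F y‖ = 0 := by nlinarith [norm_nonneg (F y)]
        exact norm_eq_zero.1 h8
      have h8 : F y = F x - χ x := by
        have e1 : (y : D) = (x : D) - algebraMap ℂ D (χ x) := rfl
        rw [e1, hst1.map_sub, hst1.map_algebraMap]
      rw [h8] at h7
      exact sub_eq_zero.1 h7
    have hm1 := build 1 (Or.inl rfl) (fun x => by simpa using hPpos x) (M + r) hrP (by
      push_cast; ring)
    have hm2 := build (-1) (Or.inr rfl) (fun x => by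
      have := hQpos x
      rwa [neg_one_mul, ← sub_eq_add_neg]) (M - r) hrQ (by push_cast; ring)
    have h2M : (0 : ℝ) < 2 * M := by positivity
    have hMc : ((M : ℝ) : ℂ) ≠ 0 := Complex.ofReal_ne_zero.2 hMpos.ne'
    have hfin := hext _ hm1 _ hm2 ((M + r) / (2 * M)) ((M - r) / (2 * M))
      (div_pos (by linarith) h2M) (div_pos (by linarith) h2M) (by field_simp; ring) (by
        intro x
        push_cast
        field_simp
        ring)
    intro x
    have h9 := hfin x
    simp only [one_mul] at h9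
    push_cast at h9
    rw [inv_mul_eq_iff_eq_mul₀ hcP] at h9
    rw [hval]
    linear_combination h9
  refine ⟨fun c => Λ c 1, fun c b => ?_⟩
  have hc := realPart_add_I_smul_imaginaryPart c
  have h1 := key _ (realPart c).2 b
  have h2 := key _ (imaginaryPart c).2 b
  have h3 : Λ c b = φ b * Λ c 1 := by
    rw [← hc, hΛadd', hΛadd', hΛsmul', hΛsmul', h1, h2]
    ring
  rw [← h3]
  exact hΛ c b

end FixMean

end Vale.Agent.P095
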