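import Vale.Agent.P095.FixMean

/-!
# P095: iterated means and the multiplicative functional
-/

open Filter Topology

open scoped ComplexOrder

namespace Vale.Agent.P095

open Vale.Agent.P101

namespace FixMean

open FixState

variable {D C : Type*} [CStarAlgebra D] [CStarAlgebra C] {G : Type*} [Group G]

/-- `w` has iterated mean `l`. -/
def Mean (φ : D → ℂ) (U : Ultrafilter ℕ) (w : ℕ → ℕ → D) (l : ℂ) : Prop :=
  ∀ d : D, ∀ ε : ℝ, 0 < ε → ∀ᶠ a in (U : Filter ℕ), ∀ᶠ b in (U : Filter ℕ),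
    ‖φ (d * w a b) - φ d * l‖ < ε

theorem mean_of_tendsto {φ : D → ℂ} {U : Ultrafilter ℕ} {w : ℕ → ℕ → D} {l : ℂ}
    (L : D → ℕ → ℂ) (h1 : ∀ d a, Tendsto (fun b => φ (d * w a b)) U (𝓝 (L d a)))
    (h2 : ∀ d, Tendsto (L d) U (𝓝 (φ d * l))) : Mean φ U w l := by
  intro d ε hε
  have h3 := (tendsto_iff_norm_sub_tendsto_zero.1 (h2 d)).eventually
    (gt_mem_nhds (by positivity : (0 : ℝ) < ε / 2))
  filter_upwards [h3] with a ha
  have h4 := (tendsto_iff_norm_sub_tendsto_zero.1 (h1 d a)).eventually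
    (gt_mem_nhds (by positivity : (0 : ℝ) < ε / 2))
  filter_upwards [h4] with b hb
  calc ‖φ (d * w a b) - φ d * l‖ = ‖(φ (d * w a b) - L d a) + (L d a - φ d * l)‖ := by
        congr 1; ring
    _ ≤ ‖φ (d * w a b) - L d a‖ + ‖L d a - φ d * l‖ := norm_add_le _ _
    _ < ε / 2 + ε / 2 := add_lt_add hb ha
    _ = ε := by ring

theorem mean_diff {θ : ℕ → (C →⋆ₐ[ℂ] D)} {U : Ultrafilter ℕ} {φ : D → ℂ} (hst : IsSt φ)
    {ψ : C → ℂ} (hψ : ∀ c (b : D), Tendsto (fun j => φ (b * θ j c)) U (𝓝 (φ b * ψ c))) (x : C) :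
    Mean φ U (fun a b => θ a x - θ b x) 0 := by
  refine mean_of_tendsto (fun d a => φ (d * θ a x) - φ d * ψ x) (fun d a => ?_) (fun d => ?_)
  · have := (hψ x d).const_sub (φ (d * θ a x))
    refine this.congr fun b => ?_
    rw [mul_sub, hst.map_sub]
  · have := (hψ x d).sub_const (φ d * ψ x)
    rwa [sub_self, ← mul_zero (φ d)] at this

theorem mean_cov {β : G →* (D ≃⋆ₐ[ℂ] D)} {θ : ℕ → (C →⋆ₐ[ℂ] D)} {γ : G → C → C}
    (hθ : CopySys β θ γ) {U : Ultrafilter ℕ} (hU : (U : Filter ℕ) ≤ atTop) {φ : D → ℂ}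
    (hst : IsSt φ) {ψ : C → ℂ}
    (hψ : ∀ c (b : D), Tendsto (fun j => φ (b * θ j c)) U (𝓝 (φ b * ψ c))) (x y : C) :
    Mean φ U (fun a b => star (θ a x - θ b x) * (θ a y - θ b y))
      (2 * (ψ (star x * y) - ψ (star x) * ψ y)) := by
  refine mean_of_tendsto (fun d a => φ (d * θ a (star x * y)) - φ (d * θ a (star x)) * ψ y -
    φ (d * θ a y) * ψ (star x) + φ d * ψ (star x * y)) (fun d a => ?_) (fun d => ?_)
  · have h1 := hψ y (d * θ a (star x))
    have h2 := hψ (star x) (d * θ a y)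
    have h3 := hψ (star x * y) d
    have h4 := (((h1.const_sub (φ (d * θ a (star x * y)))).sub h2).add h3)
    refine h4.congr' ?_
    have h5 : ∀ᶠ b in (U : Filter ℕ), b ≠ a :=
      hU ((eventually_gt_atTop a).mono fun b hb => (ne_of_gt hb))
    filter_upwards [h5] with b hb
    rw [← hst.map_sub, ← hst.map_sub, ← hst.map_add]
    congr 1
    have h6 : θ b (star x) * θ a y = θ a y * θ b (star x) := (hθ.comm b a hb _ _).eq
    have e : star (θ a x - θ b x) * (θ a y - θ b y) = θ a (star x * y) -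
        θ a (star x) * θ b y - θ a y * θ b (star x) + θ b (star x * y) := by
      rw [star_sub, ← map_star, ← map_star, sub_mul, mul_sub, mul_sub, h6, map_mul, map_mul]
      abel
    rw [e]
    noncomm_ring
  · have h1 := hψ (star x * y) d
    have h2 := (hψ (star x) d).mul_const (ψ y)
    have h3 := (hψ y d).mul_const (ψ (star x))
    have h4 := ((h1.sub h2).sub h3).add_const (φ d * ψ (star x * y))
    have e : φ d * ψ (star x * y) - φ d * ψ (star x) * ψ y - φ d * ψ y * ψ (star x) +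
        φ d * ψ (star x * y) = φ d * (2 * (ψ (star x * y) - ψ (star x) * ψ y)) := by ring
    rwa [e] at h4

/-- All the indices of `p 0, …, p (k-1)` are different. -/
def Good (p : ℕ → ℕ × ℕ) (k : ℕ) : Prop :=
  ∀ i < k, ∀ j < k, i ≠ j → (p i).1 ≠ (p j).1 ∧ (p i).1 ≠ (p j).2 ∧ (p i).2 ≠ (p j).1 ∧
    (p i).2 ≠ (p j).2

/-- The product of the first `k` factors. -/
def pr (w : ℕ → ℕ → D) (p : ℕ → ℕ × ℕ) (k : ℕ) : D :=
  ((List.range k).map fun i => w (p i).1 (p i).2).prod

theorem pr_zero (w : ℕ → ℕ → D) (p : ℕ → ℕ × ℕ) : pr w p 0 = 1 := rfl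

theorem pr_succ (w : ℕ → ℕ → D) (p : ℕ → ℕ × ℕ) (k : ℕ) :
    pr w p (k + 1) = pr w p k * w (p k).1 (p k).2 := by
  rw [pr, pr, List.range_succ, List.map_append, List.prod_append]
  simp

theorem pr_congr (w : ℕ → ℕ → D) {p q : ℕ → ℕ × ℕ} {k : ℕ} (h : ∀ i < k, p i = q i) :
    pr w p k = pr w q k := by
  rw [pr, pr]
  congr 1
  refine List.map_congr_left fun i hi => ?_
  rw [h i (List.mem_range.1 hi)]

theorem exists_select {U : Ultrafilter ℕ} (hU : (U : Filter ℕ) ≤ atTop) {φ : D → ℂ}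
    (hst : IsSt φ) {T : Type*} [Finite T] (w : T → ℕ → ℕ → D) (l : T → ℂ)
    (h : ∀ t, Mean φ U (w t) (l t)) (k : ℕ) : ∀ ε : ℝ, 0 < ε → ∃ p : ℕ → ℕ × ℕ, Good p k ∧
      ∀ t, ‖φ (pr (w t) p k) - l t ^ k‖ < ε := by
  classical
  have _ := Fintype.ofFinite T
  induction k with
  | zero =>
    intro ε hε
    refine ⟨fun _ => (0, 0), fun i hi => absurd hi (Nat.not_lt_zero _), fun t => ?_⟩
    rw [pr_zero, hst.map_one, pow_zero, sub_self, norm_zero]
    exact hε
  | succ k ih =>
    intro ε hε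
    set R : ℝ := 1 + ∑ t, ‖l t‖ with hR
    have hRpos : 0 < R := by positivity
    have hlR : ∀ t, ‖l t‖ ≤ R := fun t => by
      have := Finset.single_le_sum (f := fun t => ‖l t‖) (fun _ _ => norm_nonneg _)
        (Finset.mem_univ t)
      rw [hR]
      linarith
    obtain ⟨p, hp, hpt⟩ := ih (ε / (2 * R)) (by positivity)
    obtain ⟨N, hN⟩ : ∃ N, ∀ i < k, (p i).1 < N ∧ (p i).2 < N := by
      refine ⟨(∑ i ∈ Finset.range k, ((p i).1 + (p i).2)) + 1, fun i hi => ?_⟩
      have : (p i).1 + (p i).2 ≤ ∑ i ∈ Finset.range k, ((p i).1 + (p i).2) :=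
        Finset.single_le_sum (f := fun i => (p i).1 + (p i).2) (fun _ _ => Nat.zero_le _)
          (Finset.mem_range.2 hi)
      constructor <;> omega
    have hall : ∀ᶠ a in (U : Filter ℕ), ∀ᶠ b in (U : Filter ℕ), ∀ t,
        ‖φ (pr (w t) p k * w t a b) - φ (pr (w t) p k) * l t‖ < ε / 2 := by
      have h1 : ∀ᶠ a in (U : Filter ℕ), ∀ t, ∀ᶠ b in (U : Filter ℕ),
          ‖φ (pr (w t) p k * w t a b) - φ (pr (w t) p k) * l t‖ < ε / 2 := by
        rw [Filter.eventually_all]
        exact fun t => h t _ _ (by positivity)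
      filter_upwards [h1] with a ha
      rw [Filter.eventually_all]
      exact ha
    have hN' : ∀ᶠ a in (U : Filter ℕ), N ≤ a := hU (eventually_ge_atTop N)
    obtain ⟨a, ha, haN⟩ := (hall.and hN').exists
    obtain ⟨b, hb, hbN⟩ := (ha.and hN').exists
    have hupd : ∀ i < k, Function.update p k (a, b) i = p i := fun i hi =>
      Function.update_of_ne (ne_of_lt hi) _ _
    have hupk : Function.update p k (a, b) k = (a, b) := Function.update_self _ _ _
    refine ⟨Function.update p k (a, b), ?_, fun t => ?_⟩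
    · intro i hi j hj hij
      rcases Nat.lt_succ_iff_lt_or_eq.1 hi with hi | rfl
      · rcases Nat.lt_succ_iff_lt_or_eq.1 hj with hj | rfl
        · rw [hupd i hi, hupd j hj]
          exact hp i hi j hj hij
        · rw [hupd i hi, hupk]
          have := hN i hi
          refine ⟨?_, ?_, ?_, ?_⟩ <;> simp only [ne_eq] <;> omega
      · rcases Nat.lt_succ_iff_lt_or_eq.1 hj with hj | rfl
        · rw [hupd j hj, hupk]
          have := hN j hj
          refine ⟨?_, ?_, ?_, ?_⟩ <;> simp only [ne_eq] <;> omega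
        · exact absurd rfl hij
    · rw [pr_succ, pr_congr (w t) hupd, hupk]
      have h1 := hb t
      have h2 := hpt t
      have e : φ (pr (w t) p k * w t a b) - l t ^ (k + 1) =
          (φ (pr (w t) p k * w t a b) - φ (pr (w t) p k) * l t) +
          (φ (pr (w t) p k) - l t ^ k) * l t := by ring
      show ‖φ (pr (w t) p k * w t a b) - l t ^ (k + 1)‖ < ε
      rw [e]
      refine (norm_add_le _ _).trans_lt ?_
      rw [norm_mul]
      have h3 : ‖φ (pr (w t) p k) - l t ^ k‖ * ‖l t‖ ≤ (ε / (2 * R)) * R :=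
        mul_le_mul h2.le (hlR t) (norm_nonneg _) (by positivity)
      have h4 : (ε / (2 * R)) * R = ε / 2 := by field_simp
      linarith

/-- Reordering of a product of commuting blocks. -/
theorem star_pr_mul_pr (v v' : ℕ → ℕ → D) (p : ℕ → ℕ × ℕ) (k : ℕ)
    (h : ∀ i < k, ∀ j < k, i ≠ j → Commute (v (p i).1 (p i).2) (v (p j).1 (p j).2) ∧
      Commute (v (p i).1 (p i).2) (v' (p j).1 (p j).2) ∧
      Commute (star (v (p i).1 (p i).2)) (v' (p j).1 (p j).2)) :
    star (pr v p k) * pr v' p k = pr (fun a b => star (v a b) * v' a b) p k := by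
  induction k with
  | zero => rw [pr_zero, pr_zero, pr_zero, star_one, one_mul]
  | succ k ih =>
    rw [pr_succ, pr_succ, pr_succ, ← ih (fun i hi j hj => h i (by omega) j (by omega)), star_mul]
    have hc1 : Commute (star (v (p k).1 (p k).2)) (star (pr v p k)) := by
      rw [commute_star_star]
      rw [pr]
      refine Commute.list_prod_right _ _ fun y hy => ?_
      obtain ⟨i, hi, rfl⟩ := List.mem_map.1 hy
      have hi' := List.mem_range.1 hi
      exact (h k (Nat.lt_succ_self k) i (by omega) (by omega)).1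
    have hc2 : Commute (star (v (p k).1 (p k).2)) (pr v' p k) := by
      rw [pr]
      refine Commute.list_prod_right _ _ fun y hy => ?_
      obtain ⟨i, hi, rfl⟩ := List.mem_map.1 hy
      have hi' := List.mem_range.1 hi
      exact (h k (Nat.lt_succ_self k) i (by omega) (by omega)).2.2
    show star (v (p k).1 (p k).2) * star (pr v p k) * (pr v' p k * v' (p k).1 (p k).2) =
      star (pr v p k) * pr v' p k * (star (v (p k).1 (p k).2) * v' (p k).1 (p k).2)
    calc _ = (star (v (p k).1 (p k).2) * star (pr v p k)) * pr v' p k * v' (p k).1 (p k).2 := by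
          noncomm_ring
      _ = (star (pr v p k) * (star (v (p k).1 (p k).2) * pr v' p k)) * v' (p k).1 (p k).2 := by
          rw [hc1.eq]; noncomm_ring
      _ = _ := by rw [hc2.eq]; noncomm_ring

theorem map_pr (f : D ≃⋆ₐ[ℂ] D) (w : ℕ → ℕ → D) (p : ℕ → ℕ × ℕ) (k : ℕ) :
    f (pr w p k) = pr (fun a b => f (w a b)) p k := by
  induction k with
  | zero => rw [pr_zero, pr_zero, map_one]
  | succ k ih => rw [pr_succ, pr_succ, map_mul, ih]

/-- Zero variance. -/
theorem variance_eq_zero [Finite G] {β : G →* (D ≃⋆ₐ[ℂ] D)} {χ : fixedAlg β →⋆ₐ[ℂ] ℂ}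
    {θ : ℕ → (C →⋆ₐ[ℂ] D)} {γ : G → C → C} (hθ : CopySys β θ γ) (hγ1 : ∀ x, γ 1 x = x)
    {U : Ultrafilter ℕ}
    (hU : (U : Filter ℕ) ≤ atTop) {φ : D → ℂ} (hφ : φ ∈ exts β χ) {ψ : C → ℂ}
    (hψ : ∀ c (b : D), Tendsto (fun j => φ (b * θ j c)) U (𝓝 (φ b * ψ c))) (x : C) :
    ψ (star x * x) = ψ (star x) * ψ x := by
  classical
  have _ := Fintype.ofFinite G
  have hst := hφ.1
  let v : G → ℕ → ℕ → D := fun g a b => β g (θ a x - θ b x)
  have hv : ∀ g a b, v g a b = θ a (γ g x) - θ b (γ g x) := fun g a b => by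
    show β g (θ a x - θ b x) = _
    rw [map_sub, hθ.equiv, hθ.equiv]
  let w : G ⊕ (G × G) → ℕ → ℕ → D := fun t => Sum.elim v
    (fun q a b => star (v q.1 a b) * v q.2 a b) t
  let l : G ⊕ (G × G) → ℂ := fun t => Sum.elim (fun _ => (0 : ℂ))
    (fun q => 2 * (ψ (star (γ q.1 x) * γ q.2 x) - ψ (star (γ q.1 x)) * ψ (γ q.2 x))) t
  have hmean : ∀ t, Mean φ U (w t) (l t) := by
    rintro (g | ⟨g, h⟩)
    · have h1 := mean_diff (θ := θ) hst hψ (γ g x)
      have e : w (Sum.inl g) = fun a b => θ a (γ g x) - θ b (γ g x) := by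
        funext a b
        exact hv g a b
      rw [e]
      exact h1
    · have h1 := mean_cov hθ hU hst hψ (γ g x) (γ h x)
      have e : w (Sum.inr (g, h)) = fun a b =>
          star (θ a (γ g x) - θ b (γ g x)) * (θ a (γ h x) - θ b (γ h x)) := by
        funext a b
        show star (v g a b) * v h a b = _
        rw [hv, hv]
      rw [e]
      exact h1
  have hcomm : ∀ (p : ℕ → ℕ × ℕ) (k : ℕ), Good p k → ∀ i < k, ∀ j < k, i ≠ j →
      ∀ y z : C, Commute (θ (p i).1 y - θ (p i).2 y) (θ (p j).1 z - θ (p j).2 z) := by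
    intro p k hp i hi j hj hij y z
    obtain ⟨a1, a2, a3, a4⟩ := hp i hi j hj hij
    exact ((hθ.comm _ _ a1 _ _).sub_left (hθ.comm _ _ a3 _ _)).sub_right
      ((hθ.comm _ _ a2 _ _).sub_left (hθ.comm _ _ a4 _ _))
  have hpow : ∀ k : ℕ, 0 < k → ∑ q : G × G, (l (Sum.inr q)) ^ k = 0 := by
    intro k hk
    have hbound : ∀ ε : ℝ, 0 < ε → ‖∑ q : G × G, (l (Sum.inr q)) ^ k‖ ≤
        (Fintype.card G * ε) ^ 2 + Fintype.card (G × G) * ε := by
      intro ε hε
      obtain ⟨p, hp, hpt⟩ := exists_select hU hst w l hmean k ε hε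
      -- the fixed element
      set z : D := ∑ g, pr (v g) p k with hz
      have hzfix : z ∈ fixedAlg β := by
        intro h
        rw [hz, map_sum]
        refine Fintype.sum_equiv (Equiv.mulLeft h) _ _ fun g => ?_
        rw [map_pr]
        congr 1
        funext a b
        show β h (β g (θ a x - θ b x)) = β (h * g) (θ a x - θ b x)
        rw [map_mul]
        rfl
      have h1 : ‖φ z‖ ≤ Fintype.card G * ε := by
        rw [hz, hst.map_sum]
        refine (norm_sum_le _ _).trans ?_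
        have : ∀ g ∈ Finset.univ, ‖φ (pr (v g) p k)‖ ≤ ε := by
          intro g _
          have := hpt (Sum.inl g)
          have e : l (Sum.inl g) ^ k = 0 := zero_pow hk.ne'
          rw [e, sub_zero] at this
          exact this.le
        refine (Finset.sum_le_sum this).trans ?_
        rw [Finset.sum_const, Finset.card_univ, nsmul_eq_mul]
      have h2 : φ (star z * z) = star (φ z) * φ z := by
        have e1 := hφ.2 (star (⟨z, hzfix⟩ : fixedAlg β) * ⟨z, hzfix⟩)
        have e2 := hφ.2 (⟨z, hzfix⟩ : fixedAlg β)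
        rw [map_mul, map_star, ← e2] at e1
        exact e1
      have h3 : star z * z = ∑ q : G × G, pr (w (Sum.inr q)) p k := by
        rw [hz, star_sum, Finset.sum_mul, Fintype.sum_prod_type]
        refine Finset.sum_congr rfl fun g _ => ?_
        rw [Finset.mul_sum]
        refine Finset.sum_congr rfl fun h _ => ?_
        have := star_pr_mul_pr (v g) (v h) p k (fun i hi j hj hij => ?_)
        · exact this
        · rw [hv, hv, hv]
          refine ⟨hcomm p k hp i hi j hj hij _ _, hcomm p k hp i hi j hj hij _ _, ?_⟩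
          rw [star_sub, ← map_star, ← map_star]
          exact hcomm p k hp i hi j hj hij _ _
      have h4 : ‖φ (star z * z) - ∑ q : G × G, (l (Sum.inr q)) ^ k‖ ≤
          Fintype.card (G × G) * ε := by
        rw [h3, hst.map_sum, ← Finset.sum_sub_distrib]
        refine (norm_sum_le _ _).trans ?_
        refine (Finset.sum_le_sum fun q _ => (hpt (Sum.inr q)).le).trans ?_
        rw [Finset.sum_const, Finset.card_univ, nsmul_eq_mul]
      have h5 : ‖φ (star z * z)‖ ≤ (Fintype.card G * ε) ^ 2 := by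
        rw [h2, norm_mul, norm_star, ← sq]
        exact pow_le_pow_left₀ (norm_nonneg _) h1 2
      calc ‖∑ q : G × G, (l (Sum.inr q)) ^ k‖
          = ‖φ (star z * z) - (φ (star z * z) - ∑ q : G × G, (l (Sum.inr q)) ^ k)‖ := by
            congr 1; ring
        _ ≤ ‖φ (star z * z)‖ + ‖φ (star z * z) - ∑ q : G × G, (l (Sum.inr q)) ^ k‖ :=
            norm_sub_le _ _
        _ ≤ _ := add_le_add h5 h4
    have hlim : Tendsto (fun ε : ℝ => (Fintype.card G * ε) ^ 2 + Fintype.card (G × G) * ε)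
        (𝓝[>] 0) (𝓝 0) := by
      have : Tendsto (fun ε : ℝ => (Fintype.card G * ε) ^ 2 + Fintype.card (G × G) * ε)
          (𝓝 0) (𝓝 ((Fintype.card G * (0 : ℝ)) ^ 2 + Fintype.card (G × G) * (0 : ℝ))) := by
        apply Continuous.tendsto
        fun_prop
      have e : (Fintype.card G * (0 : ℝ)) ^ 2 + Fintype.card (G × G) * (0 : ℝ) = 0 := by simp
      rw [e] at this
      exact this.mono_left nhdsWithin_le_nhds
    have hle : ‖∑ q : G × G, (l (Sum.inr q)) ^ k‖ ≤ 0 := by
      refine ge_of_tendsto hlim ?_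
      filter_upwards [self_mem_nhdsWithin] with ε hε
      exact hbound ε hε
    exact norm_le_zero_iff.1 hle
  have hzero := power_sums (fun q : G × G => l (Sum.inr q)) hpow (1, 1)
  have e1 : l (Sum.inr (1, 1)) = 2 * (ψ (star (γ 1 x) * γ 1 x) - ψ (star (γ 1 x)) * ψ (γ 1 x)) :=
    rfl
  rw [e1, hγ1] at hzero
  have h2 : ψ (star x * x) - ψ (star x) * ψ x = 0 := by
    rcases mul_eq_zero.1 hzero with h | h
    · exact absurd h two_ne_zero
    · exact h
  exact sub_eq_zero.1 h2

end FixMean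

end Vale.Agent.P095
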