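import Vale.Agent.P095.Act

/-!
# P095: states extending a character of the fixed point algebra
-/

open Filter Topology

open scoped ComplexOrder

namespace Vale.Agent.P095

open Vale.Agent.P101

namespace FixState

variable {D : Type*} [CStarAlgebra D]

/-- A state, as a function. -/
structure IsSt (f : D → ℂ) : Prop where
  map_add : ∀ x y, f (x + y) = f x + f y
  map_smul : ∀ (c : ℂ) x, f (c • x) = c * f x
  map_one : f 1 = 1
  nonneg : ∀ x, 0 ≤ f (star x * x)

theorem IsSt.map_zero {f : D → ℂ} (h : IsSt f) : f 0 = 0 := by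
  have := h.map_smul 0 (0 : D)
  rwa [zero_smul, zero_mul] at this

theorem IsSt.map_neg {f : D → ℂ} (h : IsSt f) (x : D) : f (-x) = - f x := by
  have := h.map_smul (-1) x
  rwa [neg_one_smul, neg_one_mul] at this

theorem IsSt.map_sub {f : D → ℂ} (h : IsSt f) (x y : D) : f (x - y) = f x - f y := by
  rw [sub_eq_add_neg, h.map_add, h.map_neg, sub_eq_add_neg]

theorem IsSt.map_sum {f : D → ℂ} (h : IsSt f) {ι : Type*} (s : Finset ι) (g : ι → D) :
    f (∑ i ∈ s, g i) = ∑ i ∈ s, f (g i) := by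
  classical
  induction s using Finset.induction_on with
  | empty => simp [h.map_zero]
  | insert a s ha ih => rw [Finset.sum_insert ha, Finset.sum_insert ha, h.map_add, ih]

theorem IsSt.map_algebraMap {f : D → ℂ} (h : IsSt f) (c : ℂ) : f (algebraMap ℂ D c) = c := by
  rw [Algebra.algebraMap_eq_smul_one, h.map_smul, h.map_one, mul_one]

theorem IsSt.map_star {f : D → ℂ} (h : IsSt f) (x : D) : f (star x) = star (f x) := by
  have im0 : ∀ y, (f (star y * y)).im = 0 := fun y => ((Complex.le_def.1 (h.nonneg y)).2).symm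
  have h1 := im0 (x + 1)
  have h2 := im0 (x + Complex.I • 1)
  have h0 := im0 x
  have e1 : star (x + 1) * (x + 1) = star x * x + star x + x + 1 := by
    rw [star_add, star_one]
    noncomm_ring
  have e2 : star (x + Complex.I • (1 : D)) * (x + Complex.I • 1) =
      star x * x + Complex.I • star x - Complex.I • x + 1 := by
    rw [star_add, star_smul, star_one, add_mul, mul_add, mul_add, mul_smul_comm, mul_one,
      smul_mul_assoc, one_mul, smul_mul_assoc, one_mul, smul_smul]
    have : (star Complex.I * Complex.I : ℂ) = 1 := by simp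
    rw [this, one_smul]
    have h3 : (star Complex.I : ℂ) = - Complex.I := by simp
    rw [h3, neg_smul]
    abel
  rw [e1, h.map_add, h.map_add, h.map_add, h.map_one] at h1
  rw [e2, h.map_add, h.map_sub, h.map_add, h.map_smul, h.map_smul, h.map_one] at h2
  simp only [Complex.add_im, Complex.sub_im, Complex.mul_im, Complex.I_re, Complex.I_im,
    Complex.one_im, zero_mul, one_mul, zero_add, add_zero] at h1 h2
  apply Complex.ext
  · rw [Complex.star_def, Complex.conj_re]
    linarith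
  · rw [Complex.star_def, Complex.conj_im]
    linarith

theorem IsSt.sq_le {f : D → ℂ} (h : IsSt f) (x : D) : ‖f x‖ ^ 2 ≤ (f (star x * x)).re := by
  have h1 := (Complex.le_def.1 (h.nonneg (x - algebraMap ℂ D (f x)))).1
  have e1 : star (x - algebraMap ℂ D (f x)) * (x - algebraMap ℂ D (f x)) =
      star x * x - (f x) • star x - (star (f x)) • x + (star (f x) * f x) • 1 := by
    rw [star_sub, ← algebraMap_star_comm, Algebra.algebraMap_eq_smul_one,
      Algebra.algebraMap_eq_smul_one, sub_mul, mul_sub, mul_sub, mul_smul_comm, mul_one,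
      smul_mul_assoc, one_mul, smul_mul_assoc, one_mul, smul_smul]
    abel
  rw [e1, h.map_add, h.map_sub, h.map_sub, h.map_smul, h.map_smul, h.map_smul, h.map_one,
    h.map_star, mul_one] at h1
  have e2 : f x * star (f x) = ((‖f x‖ ^ 2 : ℝ) : ℂ) := by
    rw [Complex.star_def, Complex.mul_conj, Complex.normSq_eq_norm_sq]
  have e3 : star (f x) * f x = ((‖f x‖ ^ 2 : ℝ) : ℂ) := by rw [mul_comm, e2]
  rw [e3, e2] at h1
  simp only [Complex.add_re, Complex.sub_re, Complex.ofReal_re, Complex.zero_re] at h1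
  linarith

theorem IsSt.re_le {f : D → ℂ} (h : IsSt f) (x : D) : (f (star x * x)).re ≤ ‖x‖ ^ 2 := by
  let _ := CStarAlgebra.spectralOrder D
  have _ := CStarAlgebra.spectralOrderedRing D
  have h1 : star x * x ≤ algebraMap ℝ D (‖x‖ ^ 2) := by
    have h2 : star x * x ≤ algebraMap ℝ D ‖star x * x‖ :=
      IsSelfAdjoint.le_algebraMap_norm_self (IsSelfAdjoint.star_mul_self x)
    rwa [CStarRing.norm_star_mul_self, ← sq] at h2
  obtain ⟨w, hw⟩ := CStarAlgebra.nonneg_iff_eq_star_mul_self.1 (sub_nonneg.2 h1)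
  have h3 := (Complex.le_def.1 (h.nonneg w)).1
  rw [← hw, h.map_sub] at h3
  have e : algebraMap ℝ D (‖x‖ ^ 2) = algebraMap ℂ D ((‖x‖ ^ 2 : ℝ) : ℂ) :=
    IsScalarTower.algebraMap_apply ℝ ℂ D _
  rw [e, h.map_algebraMap, Complex.sub_re, Complex.ofReal_re, Complex.zero_re] at h3
  linarith

theorem IsSt.norm_le {f : D → ℂ} (h : IsSt f) (x : D) : ‖f x‖ ≤ ‖x‖ := by
  have h1 := (h.sq_le x).trans (h.re_le x)
  exact (sq_le_sq₀ (norm_nonneg _) (norm_nonneg _)).1 h1

variable {G : Type*} [Group G]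

/-- The states extending a character of the fixed point algebra. -/
def exts (β : G →* (D ≃⋆ₐ[ℂ] D)) (χ : fixedAlg β →⋆ₐ[ℂ] ℂ) : Set (D → ℂ) :=
  {f | IsSt f ∧ ∀ x : fixedAlg β, f x = χ x}

theorem isCompact_exts (β : G →* (D ≃⋆ₐ[ℂ] D)) (χ : fixedAlg β →⋆ₐ[ℂ] ℂ) :
    IsCompact (exts β χ) := by
  have h1 : IsCompact (Set.pi Set.univ fun x : D => Metric.closedBall (0 : ℂ) ‖x‖) :=
    isCompact_univ_pi fun x => isCompact_closedBall _ _
  refine h1.of_isClosed_subset ?_ ?_
  · have e : exts β χ = (⋂ (x : D) (y : D), {f | f (x + y) = f x + f y}) ∩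
        (⋂ (c : ℂ) (x : D), {f | f (c • x) = c * f x}) ∩ {f | f 1 = 1} ∩
        (⋂ (x : D), {f | 0 ≤ f (star x * x)}) ∩ (⋂ x : fixedAlg β, {f | f x = χ x}) := by
      ext f
      simp only [exts, Set.mem_setOf_eq, Set.mem_inter_iff, Set.mem_iInter]
      constructor
      · rintro ⟨h, h'⟩
        exact ⟨⟨⟨⟨h.map_add, h.map_smul⟩, h.map_one⟩, h.nonneg⟩, h'⟩
      · rintro ⟨⟨⟨⟨a, b⟩, c⟩, d⟩, h'⟩
        exact ⟨⟨a, b, c, d⟩, h'⟩
    rw [e]
    refine ((((isClosed_iInter fun x => isClosed_iInter fun y => ?_).inter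
      (isClosed_iInter fun c => isClosed_iInter fun x => ?_)).inter ?_).inter
      (isClosed_iInter fun x => ?_)).inter (isClosed_iInter fun x => ?_)
    · exact isClosed_eq (continuous_apply _) (by fun_prop)
    · exact isClosed_eq (continuous_apply _) (by fun_prop)
    · exact isClosed_eq (continuous_apply _) continuous_const
    · exact isClosed_le continuous_const (continuous_apply _)
    · exact isClosed_eq (continuous_apply _) continuous_const
  · intro f hf x _
    rw [mem_closedBall_zero_iff]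
    exact hf.1.norm_le x

/-- A character is nonnegative on the positive fixed elements. -/
theorem character_nonneg [Finite G] (β : G →* (D ≃⋆ₐ[ℂ] D)) (χ : fixedAlg β →⋆ₐ[ℂ] ℂ)
    (a : fixedAlg β) [PartialOrder D] [StarOrderedRing D] (ha : 0 ≤ (a : D)) : 0 ≤ χ a := by
  have hsa : IsSelfAdjoint (a : D) := IsSelfAdjoint.of_nonneg ha
  have hsa' : star a = a := Subtype.ext hsa.star_eq
  have hre : star (χ a) = χ a := by rw [← map_star, hsa']
  have him : (χ a).im = 0 := by
    have := congrArg Complex.im hre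
    rw [Complex.star_def, Complex.conj_im] at this
    linarith
  have hval : χ a = (((χ a).re : ℝ) : ℂ) := Complex.ext rfl (by rw [Complex.ofReal_im, him])
  have hspec : (χ a).re ∈ spectrum ℝ (a : D) := by
    rw [spectrum.mem_iff]
    intro hu
    obtain ⟨u, hu⟩ := hu
    -- the inverse is fixed
    have hfix : ((u : Dˣ) : D) ∈ fixedAlg β := by
      rw [hu]
      refine sub_mem ?_ a.2
      have e : algebraMap ℝ D (χ a).re = algebraMap ℂ D (((χ a).re : ℝ) : ℂ) :=
        IsScalarTower.algebraMap_apply ℝ ℂ D _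
      rw [e]
      exact (fixedAlg β).algebraMap_mem _
    have hinv : ((u⁻¹ : Dˣ) : D) ∈ fixedAlg β := by
      intro g
      have h1 : β g ((u : Dˣ) : D) = u := hfix g
      have h2 : β g ((u⁻¹ : Dˣ) : D) * u = 1 := by
        rw [← h1, ← map_mul, Units.inv_mul, map_one]
      calc β g ((u⁻¹ : Dˣ) : D) = β g ((u⁻¹ : Dˣ) : D) * (u * ((u⁻¹ : Dˣ) : D)) := by
            rw [Units.mul_inv, mul_one]
        _ = ((u⁻¹ : Dˣ) : D) := by rw [← mul_assoc, h2, one_mul]
    have h3 : (⟨u, hfix⟩ : fixedAlg β) * ⟨((u⁻¹ : Dˣ) : D), hinv⟩ = 1 :=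
      Subtype.ext (Units.mul_inv u)
    have h4 : (⟨u, hfix⟩ : fixedAlg β) = algebraMap ℂ (fixedAlg β) (χ a) - a := by
      apply Subtype.ext
      show ((u : Dˣ) : D) = algebraMap ℂ D (χ a) - (a : D)
      rw [hu, hval, Algebra.algebraMap_eq_smul_one, Algebra.algebraMap_eq_smul_one]
      simp
    have h5 : χ (⟨u, hfix⟩ : fixedAlg β) = 0 := by
      rw [h4, map_sub, AlgHomClass.commutes]
      exact sub_self _
    have h6 := congrArg χ h3
    rw [map_mul, h5, zero_mul, map_one] at h6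
    exact zero_ne_one h6
  have := spectrum_nonneg_of_nonneg ha hspec
  rw [hval]
  exact_mod_cast this

theorem nonempty_exts [Finite G] (β : G →* (D ≃⋆ₐ[ℂ] D)) (χ : fixedAlg β →⋆ₐ[ℂ] ℂ) :
    (exts β χ).Nonempty := by
  classical
  have _ := Fintype.ofFinite G
  have hmem : ∀ x : D, ((Fintype.card G : ℂ)⁻¹ • ∑ g, β g x) ∈ fixedAlg β := by
    intro x h
    rw [map_smul, map_sum]
    congr 1
    have : ∀ g, β h (β g x) = β (h * g) x := fun g => by rw [map_mul]; rfl
    simp only [this]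
    exact Fintype.sum_equiv (Equiv.mulLeft h) _ _ fun g => rfl
  have hcard : (Fintype.card G : ℂ) ≠ 0 := Nat.cast_ne_zero.2 Fintype.card_ne_zero
  have hid : ∀ x : fixedAlg β, (⟨_, hmem x⟩ : fixedAlg β) = x := by
    intro x
    apply Subtype.ext
    show (Fintype.card G : ℂ)⁻¹ • ∑ g, β g (x : D) = x
    have : ∀ g, β g (x : D) = x := x.2
    simp only [this]
    rw [Finset.sum_const, Finset.card_univ, ← Nat.cast_smul_eq_nsmul ℂ, smul_smul,
      inv_mul_cancel₀ hcard, one_smul]
  refine ⟨fun x => χ ⟨_, hmem x⟩, ⟨⟨?_, ?_, ?_, ?_⟩, ?_⟩⟩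
  · intro x y
    show χ _ = χ _ + χ _
    rw [← map_add]
    congr 1
    apply Subtype.ext
    show (Fintype.card G : ℂ)⁻¹ • ∑ g, β g (x + y) =
      (Fintype.card G : ℂ)⁻¹ • ∑ g, β g x + (Fintype.card G : ℂ)⁻¹ • ∑ g, β g y
    rw [← smul_add, ← Finset.sum_add_distrib]
    simp only [map_add]
  · intro c x
    show χ _ = c * χ _
    rw [← smul_eq_mul, ← map_smul]
    congr 1
    apply Subtype.ext
    show (Fintype.card G : ℂ)⁻¹ • ∑ g, β g (c • x) = c • ((Fintype.card G : ℂ)⁻¹ • ∑ g, β g x)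
    simp only [map_smul]
    rw [← Finset.smul_sum, smul_comm]
  · have h1 := hid 1
    show χ _ = 1
    rw [← map_one χ]
    congr 1
  · intro x
    let _ := CStarAlgebra.spectralOrder D
    have _ := CStarAlgebra.spectralOrderedRing D
    apply character_nonneg β χ
    show 0 ≤ (Fintype.card G : ℂ)⁻¹ • ∑ g, β g (star x * x)
    have h1 : 0 ≤ ∑ g, β g (star x * x) := Finset.sum_nonneg fun g _ => by
      rw [map_mul, map_star]
      exact star_mul_self_nonneg _
    have h2 : (0 : ℝ) ≤ (Fintype.card G : ℝ)⁻¹ := by positivity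
    have h3 : (Fintype.card G : ℂ)⁻¹ • ∑ g, β g (star x * x) =
        (Fintype.card G : ℝ)⁻¹ • ∑ g, β g (star x * x) := by
      rw [← Complex.coe_smul]
      congr 1
      push_cast
      rfl
    rw [h3]
    exact smul_nonneg h2 h1
  · intro x
    show χ _ = χ x
    rw [hid]

/-- An extreme point of the set of extensions. -/
theorem exists_extreme [Finite G] (β : G →* (D ≃⋆ₐ[ℂ] D)) (χ : fixedAlg β →⋆ₐ[ℂ] ℂ) :
    ∃ φ ∈ exts β χ, ∀ f₁ ∈ exts β χ, ∀ f₂ ∈ exts β χ, ∀ s t : ℝ, 0 < s → 0 < t → s + t = 1 →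
      (∀ x, φ x = s * f₁ x + t * f₂ x) → ∀ x, f₁ x = φ x := by
  obtain ⟨φ, hφ⟩ := (isCompact_exts β χ).extremePoints_nonempty (nonempty_exts β χ)
  rw [mem_extremePoints_iff_left] at hφ
  refine ⟨φ, hφ.1, fun f₁ h₁ f₂ h₂ s t hs ht hst h x => ?_⟩
  refine congrFun (hφ.2 f₁ h₁ f₂ h₂ ⟨s, t, hs, ht, hst, ?_⟩) x
  funext y
  rw [h y]
  simp

end FixState

end Vale.Agent.P095
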