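import Vale.Agent.P095.FixedSignsAux
import Vale.Agent.P095.Diffusion

/-!
# P095: fixed signs in the central sequence algebra
-/

open Filter Topology TopologicalSpace
open scoped BoundedContinuousFunction ComplexOrder

namespace Vale.Agent.P095

open Vale.Agent.P101

universe u v w

theorem hasFixedSigns_centralSeq {G : Type*} [Group G] [Countable G] {A : Type u}
    [CStarAlgebra A] [SeparableSpace A] {ω : Ultrafilter ℕ} (hω : (ω : Filter ℕ) ≤ cofinite)
    (hG : ReiterAmenable G) (hseed : HasSeed (nullSet ω A)) (α : G →* (A ≃⋆ₐ[ℂ] A)) :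
    HasFixedSigns (centralAct ω α) (limTraces ω A) (nullSet ω A) :=
  hasFixedSigns_of_approx hω α fun S hS hsep K ε hε =>
    exists_sign_approx' (tracialSystem_centralSeq hω α) hG hseed S hS hsep K ε hε

end Vale.Agent.P095
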