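import Vale.Agent.P095.LimTrace

/-!
# P095: the ε-test for fixed signs
-/

open Filter Topology TopologicalSpace
open scoped BoundedContinuousFunction ComplexOrder

namespace Vale.Agent.P095

open Vale.Agent.P101

universe u v w

section AbsSup

variable {A : Type u} [CStarAlgebra A]

/-- The supremum of the absolute values over all tracial states. -/
noncomputable def absSup (a : A) : ℝ :=
  ⨆ τ : {τ : A →ₗ[ℂ] ℂ // IsTrace τ}, ‖τ.1 a‖

theorem bddAbove_absSup (a : A) :
    BddAbove (Set.range fun τ : {τ : A →ₗ[ℂ] ℂ // IsTrace τ} => ‖τ.1 a‖) :=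
  ⟨‖a‖, by rintro _ ⟨τ, rfl⟩; exact IsTrace.norm_le τ.2 a⟩

theorem absSup_nonneg (a : A) : 0 ≤ absSup a := Real.iSup_nonneg fun _ => norm_nonneg _

theorem le_absSup (a : A) {τ : A →ₗ[ℂ] ℂ} (h : IsTrace τ) : ‖τ a‖ ≤ absSup a :=
  le_ciSup (bddAbove_absSup a) ⟨τ, h⟩

theorem absSup_le_of {a : A} {c : ℝ} (hc : 0 ≤ c) (h : ∀ τ : A →ₗ[ℂ] ℂ, IsTrace τ → ‖τ a‖ ≤ c) :
    absSup a ≤ c :=
  Real.iSup_le (fun τ => h τ.1 τ.2) hc

/-- A bound for all limit traces is a bound for `absSup` along `ω`. -/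
theorem eventually_absSup_lt {ω : Ultrafilter ℕ} {x : centralSeq ω A} {y : ℕ →ᵇ A}
    (hy : Ultra.mk ω y = x) {c ε : ℝ} (hc : 0 ≤ c) (hε : c < ε)
    (h : ∀ τ ∈ limTraces ω A, ‖τ x‖ ≤ c) : ∀ᶠ n in (ω : Filter ℕ), absSup (y n) < ε := by
  filter_upwards [eventually_of_limTraces x y hy c ((ε - c) / 2) (by linarith) h] with n hn
  refine (absSup_le_of (c := c + (ε - c) / 2) (by linarith) hn).trans_lt ?_
  linarith

theorem tendsto_zero_of_absSup {y : ℕ → A} {w : Filter ℕ}
    (h : Tendsto (fun n => absSup (y n)) w (𝓝 0)) (σ : ℕ → (A →ₗ[ℂ] ℂ)) (hσ : ∀ n, IsTrace (σ n)) :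
    Tendsto (fun n => σ n (y n)) w (𝓝 0) := by
  rw [tendsto_zero_iff_norm_tendsto_zero]
  exact squeeze_zero (fun _ => norm_nonneg _) (fun n => le_absSup _ (hσ n)) h

/-- If `absSup` tends to zero, the limit traces vanish. -/
theorem limTrace_eq_zero {ω : Ultrafilter ℕ} {x : centralSeq ω A} {y : ℕ →ᵇ A}
    (hy : Ultra.mk ω y = x) (h : Tendsto (fun n => absSup (y n)) ω (𝓝 0)) :
    ∀ τ ∈ limTraces ω A, τ x = 0 := by
  rintro τ ⟨σ, hσ, hlim⟩
  exact tendsto_nhds_unique (hlim y x hy) (tendsto_zero_of_absSup h σ hσ)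

theorem continuous_of_isTrace {τ : A →ₗ[ℂ] ℂ} (h : IsTrace τ) : Continuous τ :=
  AddMonoidHomClass.continuous_of_bound τ 1 fun x => by
    rw [one_mul]
    exact IsTrace.norm_le h x

/-- Selfadjoint contractions of the ultrapower have selfadjoint contractive lifts. -/
theorem exists_rep_selfAdjoint {ω : Ultrafilter ℕ} {x : Ultra ω A} (hx : IsSelfAdjoint x)
    (hx1 : ‖x‖ ≤ 1) :
    ∃ y : ℕ →ᵇ A, Ultra.mk ω y = x ∧ ∀ n, IsSelfAdjoint (y n) ∧ ‖y n‖ ≤ 1 := by
  obtain ⟨z, hz, hz1⟩ := Ultra.exists_rep x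
  refine ⟨(1 / 2 : ℂ) • (z + star z), ?_, fun n => ⟨?_, ?_⟩⟩
  · rw [map_smul, map_add, map_star, hz, hx.star_eq, ← two_smul ℂ x, smul_smul]
    norm_num
  · show IsSelfAdjoint ((1 / 2 : ℂ) • (z n + star (z n)))
    rw [isSelfAdjoint_iff, star_smul, star_add, star_star, add_comm (star (z n))]
    congr 1
    simp
  · show ‖(1 / 2 : ℂ) • (z n + star (z n))‖ ≤ 1
    rw [norm_smul]
    have h1 := norm_add_le (z n) (star (z n))
    rw [norm_star] at h1
    have h2 := (hz1 n).trans hx1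
    have h3 : ‖(1 / 2 : ℂ)‖ = 1 / 2 := by norm_num
    rw [h3]
    linarith

end AbsSup

/-- The index set of the conditions. -/
abbrev SignIdx (G : Type*) := ℕ ⊕ (ℕ ⊕ (G ⊕ (ℕ ⊕ Unit)))

/-- The conditions of the ε-test. -/
noncomputable def signCond {G : Type*} [Group G] {A : Type u} [CStarAlgebra A]
    (α : G →* (A ≃⋆ₐ[ℂ] A)) (a : ℕ → A) (y : ℕ → (ℕ →ᵇ A)) :
    SignIdx G → (n : ℕ) → {x : A // IsSelfAdjoint x ∧ ‖x‖ ≤ 1} → ℝ
  | Sum.inl i, n, x => ‖(x : A) * y i n - y i n * x‖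
  | Sum.inr (Sum.inl j), _, x => ‖a j * x - x * a j‖
  | Sum.inr (Sum.inr (Sum.inl g)), _, x => ‖α g x - x‖
  | Sum.inr (Sum.inr (Sum.inr (Sum.inl i))), n, x => absSup (y i n * x)
  | Sum.inr (Sum.inr (Sum.inr (Sum.inr _))), _, x => absSup (star (1 - x * x : A) * (1 - x * x))

theorem signCond_nonneg {G : Type*} [Group G] {A : Type u} [CStarAlgebra A]
    (α : G →* (A ≃⋆ₐ[ℂ] A)) (a : ℕ → A) (y : ℕ → (ℕ →ᵇ A)) (k : SignIdx G) (n : ℕ)
    (x : {x : A // IsSelfAdjoint x ∧ ‖x‖ ≤ 1}) : 0 ≤ signCond α a y k n x := by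
  rcases k with i | j | g | i | _
  · exact norm_nonneg _
  · exact norm_nonneg _
  · exact norm_nonneg _
  · exact absSup_nonneg _
  · exact absSup_nonneg _

theorem isSeparable_of_dense_central {A : Type u} [CStarAlgebra A] {ω : Ultrafilter ℕ} {a : ℕ → A}
    (ha : DenseRange a) {y : ℕ →ᵇ A} (h : ∀ j, Tendsto (fun n => ‖a j * y n - y n * a j‖) ω (𝓝 0)) :
    Ultra.mk ω y ∈ centralSeq ω A := by
  rw [mem_centralSeq_iff]
  have hcl : IsClosed {b : A | Commute (Ultra.diag ω b) (Ultra.mk ω y)} := by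
    have hc : Continuous (Ultra.diag ω : A → Ultra ω A) :=
      AddMonoidHomClass.continuous_of_bound (Ultra.diag ω) 1
        (fun b => by rw [one_mul, Ultra.norm_diag])
    exact isClosed_eq (hc.mul continuous_const) (continuous_const.mul hc)
  intro b
  have h1 : closure (Set.range a) ⊆ {b : A | Commute (Ultra.diag ω b) (Ultra.mk ω y)} := by
    apply closure_minimal _ hcl
    rintro _ ⟨j, rfl⟩
    show Ultra.diag ω (a j) * Ultra.mk ω y = Ultra.mk ω y * Ultra.diag ω (a j)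
    rw [Ultra.diag_apply, ← map_mul, ← map_mul, Ultra.mk_eq_mk_iff]
    exact h j
  exact h1 (ha b)

/-- The ε-test for fixed signs. -/
theorem hasFixedSigns_of_approx {G : Type*} [Group G] [Countable G] {A : Type u}
    [CStarAlgebra A] [SeparableSpace A] {ω : Ultrafilter ℕ} (hω : (ω : Filter ℕ) ≤ cofinite)
    (α : G →* (A ≃⋆ₐ[ℂ] A))
    (h : ∀ S : StarSubalgebra ℂ (centralSeq ω A), IsClosed (S : Set (centralSeq ω A)) →
      IsSeparable (S : Set (centralSeq ω A)) → ∀ (K : Finset G) (ε : ℝ), 0 < ε →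
      ∃ s : centralSeq ω A, IsSelfAdjoint s ∧ ‖s‖ ≤ 1 ∧ (∀ x ∈ S, Commute s x) ∧
        (∀ k ∈ K, ‖centralAct ω α k s - s‖ ≤ ε) ∧
        ∀ τ ∈ limTraces ω A, sq τ (1 - s * s) ≤ ε ∧ ∀ b ∈ S, τ (b * s) = 0) :
    HasFixedSigns (centralAct ω α) (limTraces ω A) (nullSet ω A) := by
  classical
  intro S hS hsep
  have : SeparableSpace S := hsep.separableSpace
  obtain ⟨d, hd⟩ := TopologicalSpace.exists_dense_seq S
  obtain ⟨a, ha⟩ := TopologicalSpace.exists_dense_seq A
  have hlift : ∀ i, ∃ y : ℕ →ᵇ A, Ultra.mk ω y = ((d i : centralSeq ω A) : Ultra ω A) := fun i => by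
    obtain ⟨y, hy, -⟩ := Ultra.exists_rep ((d i : centralSeq ω A) : Ultra ω A)
    exact ⟨y, hy⟩
  choose y hy using hlift
  have hne : Nonempty {x : A // IsSelfAdjoint x ∧ ‖x‖ ≤ 1} :=
    ⟨⟨0, IsSelfAdjoint.zero A, by rw [norm_zero]; exact zero_le_one⟩⟩
  obtain ⟨x, hx⟩ := eps_test_countable (X := fun _ => {x : A // IsSelfAdjoint x ∧ ‖x‖ ≤ 1})
    (ω : Filter ℕ) hω (signCond α a y) (signCond_nonneg α a y) (by
    intro F ε hε
    let K : Finset G := F.biUnion fun k => match k with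
      | Sum.inr (Sum.inr (Sum.inl g)) => {g}
      | _ => ∅
    obtain ⟨s, hsa, hs1, hsS, hsK, hsT⟩ := h S hS hsep K (ε / 2) (by positivity)
    obtain ⟨z, hz, hz'⟩ := exists_rep_selfAdjoint (x := (s : Ultra ω A))
      (by rw [isSelfAdjoint_iff]; exact congrArg Subtype.val hsa.star_eq) hs1
    refine ⟨fun n => ⟨z n, hz' n⟩, ?_⟩
    rintro (i | j | g | i | _) hk
    · -- commutation with `y i`
      have h1 : Ultra.mk ω (z * y i) = Ultra.mk ω (y i * z) := by
        rw [map_mul, map_mul, hy, hz]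
        exact congrArg Subtype.val (hsS (d i) (d i).2).eq
      rw [Ultra.mk_eq_mk_iff] at h1
      exact h1.eventually (gt_mem_nhds hε)
    · have h1 : Ultra.mk ω z ∈ centralSeq ω A := by
        rw [hz]
        exact s.2
      exact (mk_mem_centralSeq_iff.1 h1 (a j)).eventually (gt_mem_nhds hε)
    · have hgK : g ∈ K := by
        simp only [K, Finset.mem_biUnion]
        exact ⟨_, hk, by simp⟩
      have h1 := hsK g hgK
      have h2 : ‖centralAct ω α g s - s‖ = ‖Ultra.mk ω (seqMap (α g : A →⋆ₐ[ℂ] A) z - z)‖ := by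
        rw [map_sub, ← ultraAct_mk, hz, ← coe_centralAct]
        rfl
      rw [h2] at h1
      have h3 := Ultra.tendsto_norm_mk (ω := ω) (seqMap (α g : A →⋆ₐ[ℂ] A) z - z)
      exact h3.eventually (gt_mem_nhds (h1.trans_lt (by linarith)))
    · have h1 : Ultra.mk ω (y i * z) = (((d i : centralSeq ω A) * s : centralSeq ω A) :
          Ultra ω A) := by
        rw [map_mul, hy, hz]
        rfl
      exact eventually_absSup_lt h1 le_rfl hε fun τ hτ => by
        rw [(hsT τ hτ).2 _ (d i).2, norm_zero]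
    · have h1 : Ultra.mk ω (star (1 - z * z) * (1 - z * z)) =
          ((star (1 - s * s) * (1 - s * s) : centralSeq ω A) : Ultra ω A) := by
        rw [map_mul, map_star, map_sub, map_mul, map_one, hz]
        rfl
      refine eventually_absSup_lt h1 (c := ε / 2) (by positivity) (by linarith) fun τ hτ => ?_
      have h2 := (hsT τ hτ).1
      have h3 := Complex.nonneg_iff.1 ((isTrace_of_mem_limTraces hτ).nonneg (1 - s * s))
      have h4 : τ (star (1 - s * s) * (1 - s * s)) =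
          (((τ (star (1 - s * s) * (1 - s * s))).re : ℝ) : ℂ) :=
        Complex.ext rfl (by
          rw [Complex.ofReal_im]
          exact h3.2.symm)
      rw [h4, Complex.norm_real, Real.norm_eq_abs, abs_of_nonneg h3.1]
      exact h2)
  -- the limit element
  let z : ℕ →ᵇ A := BoundedContinuousFunction.ofNormedAddCommGroupDiscrete (fun n => (x n : A)) 1
    (fun n => (x n).2.2)
  have hzn : ∀ n, z n = x n := fun n => rfl
  have hzc : Ultra.mk ω z ∈ centralSeq ω A :=
    isSeparable_of_dense_central ha fun j => hx (Sum.inr (Sum.inl j))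
  let s : centralSeq ω A := ⟨Ultra.mk ω z, hzc⟩
  have hsval : ((s : centralSeq ω A) : Ultra ω A) = Ultra.mk ω z := rfl
  refine ⟨s, ?_, ?_, ?_, ?_, ?_, ?_⟩
  · rw [isSelfAdjoint_iff]
    apply Subtype.ext
    show star (Ultra.mk ω z) = Ultra.mk ω z
    rw [← map_star]
    congr 1
    ext n
    exact (x n).2.1.star_eq
  · exact Ultra.norm_mk_le_of_eventually (Eventually.of_forall fun n => (x n).2.2)
  · intro g
    apply Subtype.ext
    rw [coe_centralAct, hsval, ultraAct_mk, Ultra.mk_eq_mk_iff]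
    exact hx (Sum.inr (Sum.inr (Sum.inl g)))
  · intro b hb
    have hcl : IsClosed {b : S | Commute s (b : centralSeq ω A)} :=
      isClosed_eq (by fun_prop) (by fun_prop)
    have h1 : closure (Set.range d) ⊆ {b : S | Commute s (b : centralSeq ω A)} := by
      apply closure_minimal _ hcl
      rintro _ ⟨i, rfl⟩
      show s * (d i : centralSeq ω A) = (d i : centralSeq ω A) * s
      apply Subtype.ext
      show Ultra.mk ω z * ((d i : centralSeq ω A) : Ultra ω A) =
        ((d i : centralSeq ω A) : Ultra ω A) * Ultra.mk ω z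
      rw [← hy, ← map_mul, ← map_mul, Ultra.mk_eq_mk_iff]
      exact hx (Sum.inl i)
    exact h1 (hd ⟨b, hb⟩)
  · rw [mem_nullSet_iff_limTraces]
    refine limTrace_eq_zero (y := star (1 - z * z) * (1 - z * z)) ?_
      (hx (Sum.inr (Sum.inr (Sum.inr (Sum.inr ())))))
    rw [map_mul, map_star, map_sub, map_mul, map_one]
    rfl
  · intro τ hτ b hb
    have hτ' := isTrace_of_mem_limTraces hτ
    have hcont : Continuous τ := continuous_of_isTrace hτ'
    have hcl : IsClosed {b : S | τ ((b : centralSeq ω A) * s) = 0} :=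
      isClosed_eq (hcont.comp (by fun_prop)) continuous_const
    have h1 : closure (Set.range d) ⊆ {b : S | τ ((b : centralSeq ω A) * s) = 0} := by
      apply closure_minimal _ hcl
      rintro _ ⟨i, rfl⟩
      refine limTrace_eq_zero (y := y i * z) ?_ (hx (Sum.inr (Sum.inr (Sum.inr (Sum.inl i))))) τ hτ
      rw [map_mul, hy]
      rfl
    exact h1 (hd ⟨b, hb⟩)

end Vale.Agent.P095
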