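import Vale.Agent.P095.TDefs
import Vale.Agent.P095.EqCC
import Vale.Agent.P095.SeedSeq

/-!
# P095: limit traces on the central sequence algebra
-/

open Filter Topology TopologicalSpace
open scoped BoundedContinuousFunction ComplexOrder

namespace Vale.Agent.P095

open Vale.Agent.P101

universe u v w

/-- The limit traces on `F_ω(A)`. -/
def limTraces (ω : Ultrafilter ℕ) (A : Type u) [CStarAlgebra A] :
    Set (centralSeq ω A →ₗ[ℂ] ℂ) :=
  {τ | ∃ σ : ℕ → (A →ₗ[ℂ] ℂ), (∀ n, IsTrace (σ n)) ∧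
    ∀ (y : ℕ →ᵇ A) (x : centralSeq ω A), Ultra.mk ω y = x →
      Tendsto (fun n => σ n (y n)) (ω : Filter ℕ) (𝓝 (τ x))}

section Norm

variable {A : Type u} [CStarAlgebra A]

/-- The variance inequality for tracial states. -/
theorem IsTrace.norm_sq_le_re {τ : A →ₗ[ℂ] ℂ} (h : IsTrace τ) (a : A) :
    ‖τ a‖ ^ 2 ≤ (τ (star a * a)).re := by
  set c := τ a with hc
  have h1 := IsTrace.re_nonneg h (a - algebraMap ℂ A c)
  have e : star (a - algebraMap ℂ A c) * (a - algebraMap ℂ A c) =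
      star a * a - c • star a - star c • a + (star c * c) • (1 : A) := by
    rw [Algebra.algebraMap_eq_smul_one, star_sub, star_smul, star_one, sub_mul, mul_sub, mul_sub,
      mul_smul_comm, mul_one, smul_mul_assoc, one_mul, smul_mul_smul_comm, one_mul]
    abel
  rw [e, map_add, map_sub, map_sub, map_smul, map_smul, map_smul, map_star_of_nonneg h.nonneg,
    h.map_one, ← hc, smul_eq_mul, smul_eq_mul, smul_eq_mul, mul_one] at h1
  have e2 : c * star c = ((‖c‖ ^ 2 : ℝ) : ℂ) := by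
    rw [Complex.star_def, Complex.mul_conj, Complex.normSq_eq_norm_sq]
  have e3 : star c * c = ((‖c‖ ^ 2 : ℝ) : ℂ) := by rw [mul_comm, e2]
  rw [e2, e3, Complex.add_re, Complex.sub_re, Complex.sub_re, Complex.ofReal_re] at h1
  linarith

theorem IsTrace.norm_le {τ : A →ₗ[ℂ] ℂ} (h : IsTrace τ) (a : A) : ‖τ a‖ ≤ ‖a‖ := by
  have h1 := (IsTrace.norm_sq_le_re h a).trans (IsTrace.re_le h a)
  exact le_of_sq_le_sq h1 (norm_nonneg _)

/-- The trace `τ ∘ α`. -/
theorem IsTrace.comp {τ : A →ₗ[ℂ] ℂ} (h : IsTrace τ) (φ : A →⋆ₐ[ℂ] A) :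
    IsTrace (τ ∘ₗ φ.toAlgHom.toLinearMap) where
  map_one := by
    show τ (φ 1) = 1
    rw [_root_.map_one, h.map_one]
  nonneg x := by
    show 0 ≤ τ (φ (star x * x))
    rw [map_mul φ, map_star φ]
    exact h.nonneg _
  trace x y := by
    show τ (φ (x * y)) = τ (φ (y * x))
    rw [map_mul φ, map_mul φ]
    exact h.trace _ _

end Norm

section Lim

variable {A : Type u} [CStarAlgebra A] {ω : Ultrafilter ℕ}

theorem exists_tendsto_trace (σ : ℕ → (A →ₗ[ℂ] ℂ)) (hσ : ∀ n, IsTrace (σ n)) (y : ℕ →ᵇ A) :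
    ∃ c, Tendsto (fun n => σ n (y n)) (ω : Filter ℕ) (𝓝 c) := by
  have hK : IsCompact (Metric.closedBall (0 : ℂ) ‖y‖) := isCompact_closedBall _ _
  obtain ⟨c, -, hc⟩ := hK.ultrafilter_le_nhds (ω.map fun n => σ n (y n)) (by
    rw [le_principal_iff]
    refine mem_map.2 (Eventually.of_forall fun n => ?_)
    rw [mem_closedBall_zero_iff]
    exact (IsTrace.norm_le (hσ n) _).trans (y.norm_coe_le_norm n))
  exact ⟨c, hc⟩

theorem tendsto_trace_of_mk_eq (σ : ℕ → (A →ₗ[ℂ] ℂ)) (hσ : ∀ n, IsTrace (σ n)) {y z : ℕ →ᵇ A}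
    (h : Ultra.mk ω y = Ultra.mk ω z) {c : ℂ}
    (hy : Tendsto (fun n => σ n (y n)) (ω : Filter ℕ) (𝓝 c)) :
    Tendsto (fun n => σ n (z n)) (ω : Filter ℕ) (𝓝 c) := by
  rw [Ultra.mk_eq_mk_iff] at h
  have h1 : Tendsto (fun n => σ n (y n - z n)) (ω : Filter ℕ) (𝓝 0) := by
    rw [tendsto_zero_iff_norm_tendsto_zero]
    exact squeeze_zero (fun _ => norm_nonneg _) (fun n => IsTrace.norm_le (hσ n) _) h
  have h2 := hy.sub h1
  rw [sub_zero] at h2
  refine h2.congr fun n => ?_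
  rw [map_sub]
  ring

variable (ω) in
/-- Every sequence of traces defines a limit trace. -/
theorem exists_limTrace (σ : ℕ → (A →ₗ[ℂ] ℂ)) (hσ : ∀ n, IsTrace (σ n)) :
    ∃ τ : centralSeq ω A →ₗ[ℂ] ℂ, ∀ (y : ℕ →ᵇ A) (x : centralSeq ω A), Ultra.mk ω y = x →
      Tendsto (fun n => σ n (y n)) (ω : Filter ℕ) (𝓝 (τ x)) := by
  classical
  have hrep : ∀ x : centralSeq ω A, ∃ y : ℕ →ᵇ A, Ultra.mk ω y = x := fun x => by
    obtain ⟨y, hy, -⟩ := Ultra.exists_rep (x : Ultra ω A)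
    exact ⟨y, hy⟩
  choose r hr using hrep
  choose L hL using exists_tendsto_trace (ω := ω) σ hσ
  have key : ∀ (y : ℕ →ᵇ A) (x : centralSeq ω A), Ultra.mk ω y = x →
      Tendsto (fun n => σ n (y n)) (ω : Filter ℕ) (𝓝 (L (r x))) := fun y x hx =>
    tendsto_trace_of_mk_eq σ hσ ((hr x).trans hx.symm) (hL (r x))
  refine ⟨{ toFun := fun x => L (r x), map_add' := ?_, map_smul' := ?_ }, key⟩
  · intro x x'
    have h1 := key (r x + r x') (x + x') (by rw [map_add, hr, hr]; rfl)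
    have h2 := (hL (r x)).add (hL (r x'))
    refine tendsto_nhds_unique h1 (h2.congr fun n => ?_)
    rw [BoundedContinuousFunction.add_apply, map_add]
  · intro c x
    have h1 := key (c • r x) (c • x) (by rw [map_smul, hr]; rfl)
    have h2 := (hL (r x)).const_smul c
    refine tendsto_nhds_unique h1 (h2.congr fun n => ?_)
    rw [BoundedContinuousFunction.smul_apply, map_smul]

/-- Uniformity, abstract form: if traces with a property exist along `ω`, there is a limit trace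
which is a limit of such traces. -/
theorem exists_limTrace_of_not_eventually {P : ℕ → (A →ₗ[ℂ] ℂ) → Prop}
    (h : ¬ ∀ᶠ n in (ω : Filter ℕ), ∀ τ : A →ₗ[ℂ] ℂ, IsTrace τ → P n τ) :
    ∃ (σ : ℕ → (A →ₗ[ℂ] ℂ)) (τ : centralSeq ω A →ₗ[ℂ] ℂ), τ ∈ limTraces ω A ∧
      (∀ n, IsTrace (σ n)) ∧ (∀ᶠ n in (ω : Filter ℕ), ¬ P n (σ n)) ∧
      ∀ (y : ℕ →ᵇ A) (x : centralSeq ω A), Ultra.mk ω y = x →
        Tendsto (fun n => σ n (y n)) (ω : Filter ℕ) (𝓝 (τ x)) := by
  classical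
  rw [← Ultrafilter.eventually_not] at h
  obtain ⟨n₀, hn₀⟩ := h.exists
  push Not at hn₀
  obtain ⟨τ₀, hτ₀, -⟩ := hn₀
  let σ : ℕ → (A →ₗ[ℂ] ℂ) := fun n =>
    if h : ∃ τ : A →ₗ[ℂ] ℂ, IsTrace τ ∧ ¬ P n τ then h.choose else τ₀
  have hσ : ∀ n, IsTrace (σ n) := by
    intro n
    by_cases h : ∃ τ : A →ₗ[ℂ] ℂ, IsTrace τ ∧ ¬ P n τ
    · simp only [σ, dif_pos h]
      exact h.choose_spec.1
    · simp only [σ, dif_neg h]
      exact hτ₀
  obtain ⟨τ, hτ⟩ := exists_limTrace ω σ hσ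
  refine ⟨σ, τ, ⟨σ, hσ, hτ⟩, hσ, ?_, hτ⟩
  filter_upwards [h] with n hn
  have h1 : ∃ τ : A →ₗ[ℂ] ℂ, IsTrace τ ∧ ¬ P n τ := by
    push Not at hn
    exact hn
  simp only [σ, dif_pos h1]
  exact h1.choose_spec.2

theorem isTrace_of_mem_limTraces {τ : centralSeq ω A →ₗ[ℂ] ℂ} (hτ : τ ∈ limTraces ω A) :
    IsTrace τ := by
  obtain ⟨σ, hσ, hlim⟩ := hτ
  have hrep : ∀ x : centralSeq ω A, ∃ y : ℕ →ᵇ A, Ultra.mk ω y = x := fun x => by
    obtain ⟨y, hy, -⟩ := Ultra.exists_rep (x : Ultra ω A)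
    exact ⟨y, hy⟩
  refine ⟨?_, ?_, ?_⟩
  · have h1 := hlim 1 1 (by rw [_root_.map_one]; rfl)
    refine tendsto_nhds_unique h1 (tendsto_const_nhds.congr fun n => ?_)
    exact ((hσ n).map_one).symm
  · intro x
    obtain ⟨y, hy⟩ := hrep x
    have h1 := hlim (star y * y) (star x * x) (by rw [map_mul, map_star, hy]; rfl)
    exact ge_of_tendsto h1 (Eventually.of_forall fun n => (hσ n).nonneg (y n))
  · intro x x'
    obtain ⟨y, hy⟩ := hrep x
    obtain ⟨y', hy'⟩ := hrep x'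
    have h1 := hlim (y * y') (x * x') (by rw [map_mul, hy, hy']; rfl)
    have h2 := hlim (y' * y) (x' * x) (by rw [map_mul, hy, hy']; rfl)
    exact tendsto_nhds_unique h1 (h2.congr fun n => ((hσ n).trace (y n) (y' n)).symm)

theorem mem_nullSet_iff_limTraces (x : centralSeq ω A) :
    x ∈ nullSet ω A ↔ ∀ τ ∈ limTraces ω A, τ (star x * x) = 0 := by
  constructor
  · rintro ⟨y, hy, hy'⟩ τ ⟨σ, hσ, hlim⟩
    have h1 := hlim (star y * y) (star x * x) (by rw [map_mul, map_star, hy]; rfl)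
    refine tendsto_nhds_unique h1 ?_
    rw [Metric.tendsto_nhds]
    intro ε hε
    filter_upwards [hy' ε hε] with n hn
    have h2 := Complex.nonneg_iff.1 ((hσ n).nonneg (y n))
    have h3 : σ n ((star y * y) n) = (((σ n (star (y n) * y n)).re : ℝ) : ℂ) :=
      Complex.ext rfl (by
        rw [Complex.ofReal_im]
        exact h2.2.symm)
    rw [dist_zero_right, h3, Complex.norm_real, Real.norm_eq_abs, abs_of_nonneg h2.1]
    exact hn _ (hσ n)
  · intro h
    obtain ⟨y, hy, -⟩ := Ultra.exists_rep (x : Ultra ω A)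
    refine ⟨y, hy, fun ε hε => ?_⟩
    by_contra hcon
    obtain ⟨σ, τ, hτ, hσ, hP, hlim⟩ := exists_limTrace_of_not_eventually hcon
    have h1 := hlim (star y * y) (star x * x) (by rw [map_mul, map_star, hy]; rfl)
    rw [h τ hτ] at h1
    have h2 : Tendsto (fun n => (σ n ((star y * y) n)).re) (ω : Filter ℕ) (𝓝 (0 : ℂ).re) :=
      (Complex.continuous_re.tendsto _).comp h1
    have h3 := ge_of_tendsto h2 (hP.mono fun n hn => not_lt.1 hn)
    rw [Complex.zero_re] at h3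
    linarith

end Lim

theorem tracialSystem_centralSeq {G : Type*} [Group G] [Countable G] {A : Type u}
    [CStarAlgebra A] [SeparableSpace A] {ω : Ultrafilter ℕ} (hω : (ω : Filter ℕ) ≤ cofinite)
    (α : G →* (A ≃⋆ₐ[ℂ] A)) :
    TracialSystem (centralAct ω α) (limTraces ω A) (nullSet ω A) where
  trace := fun τ hτ => isTrace_of_mem_limTraces hτ
  inv := by
    rintro τ ⟨σ, hσ, hlim⟩ g
    refine ⟨fun n => σ n ∘ₗ (α g : A →⋆ₐ[ℂ] A).toAlgHom.toLinearMap,
      fun n => IsTrace.comp (hσ n) _, fun y x hx => ?_⟩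
    exact hlim (seqMap (α g : A →⋆ₐ[ℂ] A) y) (centralAct ω α g x) (by
      rw [coe_centralAct, ← hx, ultraAct_mk])
  copies := hasEqCopies_centralSeq hω α
  null := mem_nullSet_iff_limTraces

/-- Uniformity: a bound for all limit traces is a bound along `ω` for all traces. -/
theorem eventually_of_limTraces {A : Type u} [CStarAlgebra A] {ω : Ultrafilter ℕ}
    (x : centralSeq ω A) (y : ℕ →ᵇ A) (hy : Ultra.mk ω y = x) (c ε : ℝ) (hε : 0 < ε)
    (h : ∀ τ ∈ limTraces ω A, ‖τ x‖ ≤ c) :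
    ∀ᶠ n in (ω : Filter ℕ), ∀ τ : A →ₗ[ℂ] ℂ, IsTrace τ → ‖τ (y n)‖ ≤ c + ε := by
  by_contra hcon
  obtain ⟨σ, τ, hτ, hσ, hP, hlim⟩ := exists_limTrace_of_not_eventually hcon
  have h1 := (hlim y x hy).norm
  have h2 := ge_of_tendsto h1 (hP.mono fun n hn => (not_le.1 hn).le)
  linarith [h τ hτ]

end Vale.Agent.P095
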