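import Vale.Agent.P095.EpsCentral
import Vale.Agent.P095.Exhaust
import Vale.Agent.P095.FixedSigns
import Vale.Agent.P095.LimTrace

/-!
# P095 (D4): exactly fixed matrix units in `F_ω(A)`
-/

open Filter Topology TopologicalSpace
open scoped BoundedContinuousFunction ComplexOrder

namespace Vale.Agent.P095

open Vale.Agent.P101

universe u

section Aux

variable {A : Type u} [CStarAlgebra A] {ω : Ultrafilter ℕ}

theorem norm_eq_re_of_nonneg {z : ℂ} (h : 0 ≤ z) : ‖z‖ = z.re := by
  have h1 := Complex.nonneg_iff.1 h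
  have h2 : z = (z.re : ℂ) := Complex.ext rfl h1.2.symm
  rw [h2, Complex.norm_real, Real.norm_of_nonneg h1.1, Complex.ofReal_re]

/-- A bound on `sq τ x` for all limit traces gives a bound on `trSup` of a representing
sequence. -/
theorem eventually_trSup_lt (x : centralSeq ω A) (y : ℕ →ᵇ A) (hy : Ultra.mk ω y = x) {c ε : ℝ}
    (hc : 0 ≤ c) (hcε : c < ε) (h : ∀ τ ∈ limTraces ω A, sq τ x ≤ c)
    (hT : ∀ τ ∈ limTraces ω A, IsTrace τ) :
    ∀ᶠ n in (ω : Filter ℕ), trSup (y n) < ε := by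
  have h1 := eventually_of_limTraces (star x * x) (star y * y) (by
    rw [map_mul, map_star, hy]; rfl) c ((ε - c) / 2) (by linarith) (fun τ hτ => by
      rw [norm_eq_re_of_nonneg ((hT τ hτ).nonneg x)]
      exact h τ hτ)
  filter_upwards [h1] with n hn
  refine (trSup_le_iff (c := c + (ε - c) / 2) (by linarith) fun τ hτ => ?_).trans_lt (by linarith)
  exact (Complex.re_le_norm _).trans (hn τ hτ)

/-- Norm estimates for the action pass to representing sequences. -/
theorem eventually_norm_act_lt {G : Type*} [Group G] (α : G →* (A ≃⋆ₐ[ℂ] A)) (g : G)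
    (x : centralSeq ω A) (y : ℕ →ᵇ A) (hy : Ultra.mk ω y = x) {ε : ℝ}
    (h : ‖centralAct ω α g x - x‖ < ε) :
    ∀ᶠ n in (ω : Filter ℕ), ‖α g (y n) - y n‖ < ε := by
  have h1 : Ultra.mk ω (seqMap (α g : A →⋆ₐ[ℂ] A) y - y) =
      ((centralAct ω α g x - x : centralSeq ω A) : Ultra ω A) := by
    rw [map_sub, ← ultraAct_mk, hy]
    rfl
  have h2 := Ultra.tendsto_norm_mk (ω := ω) (seqMap (α g : A →⋆ₐ[ℂ] A) y - y)
  rw [h1] at h2
  exact h2.eventually (gt_mem_nhds h)

theorem centralAct_eq_of_tendsto {G : Type*} [Group G] (α : G →* (A ≃⋆ₐ[ℂ] A)) (g : G)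
    (x : centralSeq ω A) (y : ℕ →ᵇ A) (hy : Ultra.mk ω y = x)
    (h : Tendsto (fun n => ‖α g (y n) - y n‖) ω (𝓝 0)) : centralAct ω α g x = x := by
  apply Subtype.ext
  rw [coe_centralAct, ← hy, ultraAct_mk, Ultra.mk_eq_mk_iff]
  exact h

end Aux

section Aux2

variable {A : Type u} [CStarAlgebra A] {ω : Ultrafilter ℕ}

theorem mk_mul_self (w : centralSeq ω A) (y : ℕ →ᵇ A) (hy : Ultra.mk ω y = w) :
    Ultra.mk ω (y * y) = ((w * w : centralSeq ω A) : Ultra ω A) := by
  rw [map_mul, hy]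
  rfl

theorem mk_defect (w : centralSeq ω A) (y : ℕ →ᵇ A) (hy : Ultra.mk ω y = w) :
    Ultra.mk ω (1 - (y * star y + star y * y)) =
      ((1 - (w * star w + star w * w) : centralSeq ω A) : Ultra ω A) := by
  rw [map_sub, map_add, map_mul, map_mul, map_star, map_one, hy]
  rfl

theorem eventually_mul_self (w : centralSeq ω A) (y : ℕ →ᵇ A) (hy : Ultra.mk ω y = w) {c ε : ℝ}
    (hc : 0 ≤ c) (hcε : c < ε) (h : ∀ τ ∈ limTraces ω A, sq τ (w * w) ≤ c)
    (hT : ∀ τ ∈ limTraces ω A, IsTrace τ) :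
    ∀ᶠ n in (ω : Filter ℕ), trSup (y n * y n) < ε :=
  eventually_trSup_lt (w * w) (y * y) (mk_mul_self w y hy) hc hcε h hT

theorem eventually_defect (w : centralSeq ω A) (y : ℕ →ᵇ A) (hy : Ultra.mk ω y = w) {c ε : ℝ}
    (hc : 0 ≤ c) (hcε : c < ε)
    (h : ∀ τ ∈ limTraces ω A, sq τ (1 - (w * star w + star w * w)) ≤ c)
    (hT : ∀ τ ∈ limTraces ω A, IsTrace τ) :
    ∀ᶠ n in (ω : Filter ℕ), trSup (1 - (y n * star (y n) + star (y n) * y n)) < ε :=
  eventually_trSup_lt (1 - (w * star w + star w * w)) (1 - (y * star y + star y * y))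
    (mk_defect w y hy) hc hcε h hT

theorem mul_self_mem (w : centralSeq ω A) (y : ℕ →ᵇ A) (hy : Ultra.mk ω y = w)
    (h : Tendsto (fun n => trSup (y n * y n)) ω (𝓝 0)) : w * w ∈ nullSet ω A :=
  (mem_nullSet_iff (mk_mul_self w y hy)).2 h

theorem defect_mem (w : centralSeq ω A) (y : ℕ →ᵇ A) (hy : Ultra.mk ω y = w)
    (h : Tendsto (fun n => trSup (1 - (y n * star (y n) + star (y n) * y n))) ω (𝓝 0)) :
    1 - star w * w - w * star w ∈ nullSet ω A := by
  have e : 1 - star w * w - w * star w = 1 - (w * star w + star w * w) := by abel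
  rw [e]
  exact (mem_nullSet_iff (mk_defect w y hy)).2 h

end Aux2

theorem hasFixedUnits_centralSeq {G : Type*} [Group G] [Countable G] {A : Type u}
    [CStarAlgebra A] [SeparableSpace A] {ω : Ultrafilter ℕ} (hω : (ω : Filter ℕ) ≤ cofinite)
    (hG : ReiterAmenable G) (hseed : HasSeed (nullSet ω A)) (α : G →* (A ≃⋆ₐ[ℂ] A)) :
    HasFixedUnits (centralAct ω α) (nullSet ω A) := by
  classical
  have sys := tracialSystem_centralSeq hω α
  have hs := hasFixedSigns_centralSeq hω hG hseed α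
  let f : G ⊕ Bool → ℕ → A → ℝ := fun k _ x =>
    match k with
    | Sum.inl g => ‖α g x - x‖
    | Sum.inr false => trSup (x * x)
    | Sum.inr true => trSup (1 - (x * star x + star x * x))
  have hf : ∀ k n x, 0 ≤ f k n x := by
    rintro (g | (_ | _)) n x
    · exact norm_nonneg _
    · exact trSup_nonneg _
    · exact trSup_nonneg _
  obtain ⟨y, hy1, hyc, hy⟩ := exists_central_seq hω f hf (by
    intro F ε hε
    obtain ⟨w, hw1, hw2, hw3⟩ := exists_unit_approx' sys hs hseed hG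
      (F.preimage Sum.inl Sum.inl_injective.injOn) (ε / 2) (by positivity)
    obtain ⟨y, hy, hyn⟩ := Ultra.exists_rep (w : Ultra ω A)
    refine ⟨y, fun n => (hyn n).trans hw1, by rw [hy]; exact w.2, ?_⟩
    rintro (g | (_ | _)) hk
    · refine eventually_norm_act_lt α g w y hy ((hw2 g ?_).trans_lt (half_lt_self hε))
      simpa using hk
    · exact eventually_mul_self w y hy (by positivity) (half_lt_self hε)
        (fun τ hτ => (hw3 τ hτ).1) sys.trace
    · exact eventually_defect w y hy (by positivity) (half_lt_self hε)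
        (fun τ hτ => (hw3 τ hτ).2) sys.trace)
  refine ⟨⟨Ultra.mk ω y, hyc⟩, ?_, fun g => ?_, ?_, ?_⟩
  · exact Ultra.norm_mk_le_of_eventually (Eventually.of_forall hy1)
  · exact centralAct_eq_of_tendsto α g _ y rfl (hy (Sum.inl g))
  · exact mul_self_mem _ y rfl (hy (Sum.inr false))
  · exact defect_mem _ y rfl (hy (Sum.inr true))

end Vale.Agent.P095
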