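import Vale.Agent.P095.NDefs
import Vale.Agent.P095.SeedSeq

/-!
# P095: families of free equivariant copies
-/

open Filter Topology TopologicalSpace
open scoped BoundedContinuousFunction ComplexOrder

namespace Vale.Agent.P095

open Vale.Agent.P101

namespace FreeFam

variable {G : Type*} [Group G] {B : Type*} [CStarAlgebra B] {β : G →* (B ≃⋆ₐ[ℂ] B)}

/-- The chosen free copy. -/
noncomputable def copy (h : HasFreeCopies β) (S : SepAlg β) : S.alg →⋆ₐ[ℂ] B :=
  (h S.alg S.closed S.sep S.inv).choose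

theorem copy_spec (h : HasFreeCopies β) (S : SepAlg β) :
    (∀ x y : S.alg, Commute (copy h S x) (y : B)) ∧
      (∀ g (x y : S.alg), (y : B) = β g x → copy h S y = β g (copy h S x)) ∧
      ∀ x y : S.alg, ‖copy h S x * (y : B)‖ = ‖x‖ * ‖y‖ :=
  (h S.alg S.closed S.sep S.inv).choose_spec

/-- The algebra generated by `S` and its copy. -/
noncomputable def next (h : HasFreeCopies β) (S : SepAlg β) : SepAlg β where
  alg := cgen ((S.alg : Set B) ∪ Set.range (copy h S))
  closed := isClosed_cgen _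
  sep := by
    refine isSeparable_cgen (S.sep.union ?_)
    have : SeparableSpace S.alg := S.sep.separableSpace
    rw [← Set.image_univ]
    exact (IsSeparable.of_separableSpace Set.univ).image (continuous_of_isClosed S.closed _)
  inv := by
    refine fun g => cgen_invariant β ?_ g
    rintro g x (hx | ⟨y, rfl⟩)
    · exact Or.inl (S.inv g x hx)
    · exact Or.inr ⟨⟨β g y, S.inv g y y.2⟩, (copy_spec h S).2.1 g y _ rfl⟩

theorem le_next (h : HasFreeCopies β) (S : SepAlg β) : S.alg ≤ (next h S).alg :=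
  fun _ hx => subset_cgen _ (Or.inl hx)

theorem copy_mem_next (h : HasFreeCopies β) (S : SepAlg β) (x : S.alg) :
    copy h S x ∈ (next h S).alg := subset_cgen _ (Or.inr ⟨x, rfl⟩)

/-- The tower of algebras. -/
noncomputable def seq (h : HasFreeCopies β) (S : SepAlg β) : ℕ → SepAlg β
  | 0 => S
  | n + 1 => next h (seq h S n)

theorem seq_mono (h : HasFreeCopies β) (S : SepAlg β) : Monotone fun n => (seq h S n).alg :=
  monotone_nat_of_le_succ fun n => le_next h (seq h S n)

/-- Infinitely many free copies. -/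
theorem exists_seq (hf : HasFreeCopies β) (S : StarSubalgebra ℂ B)
    (hS : IsClosed (S : Set B)) (hsep : IsSeparable (S : Set B)) (hinv : ∀ g, ∀ x ∈ S, β g x ∈ S) :
    ∃ Φ : ℕ → (S →⋆ₐ[ℂ] B), (∀ m n, m ≠ n → ∀ x y, Commute (Φ m x) (Φ n y)) ∧
      (∀ n (x y : S), Commute (Φ n x) (y : B)) ∧
      (∀ n g (x y : S), (y : B) = β g x → Φ n y = β g (Φ n x)) ∧
      ∀ (m : ℕ) (x : Fin m → S) (y : S),
        ‖(List.ofFn fun i : Fin m => Φ i (x i)).prod * (y : B)‖ = (∏ i, ‖x i‖) * ‖y‖ := by
  let S₀ : SepAlg β := ⟨S, hS, hsep, hinv⟩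
  let R : ℕ → SepAlg β := seq hf S₀
  have hR : ∀ n, S ≤ (R n).alg := fun n => seq_mono hf S₀ (Nat.zero_le n)
  let Φ : ℕ → (S →⋆ₐ[ℂ] B) := fun n => (copy hf (R n)).comp (StarSubalgebra.inclusion (hR n))
  have hΦR : ∀ n x, Φ n x ∈ (R (n + 1)).alg := fun n x => copy_mem_next hf (R n) _
  have hlt : ∀ m n, m < n → ∀ x y, Commute (Φ n x) (Φ m y) := by
    intro m n hmn x y
    have h1 : Φ m y ∈ (R n).alg := seq_mono hf S₀ (Nat.succ_le_of_lt hmn) (hΦR m y)
    exact (copy_spec hf (R n)).1 (StarSubalgebra.inclusion (hR n) x) ⟨Φ m y, h1⟩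
  have hprod : ∀ (m : ℕ) (x : Fin m → S),
      (List.ofFn fun i : Fin m => Φ i (x i)).prod ∈ (R m).alg := by
    intro m
    induction m with
    | zero =>
      intro x
      rw [List.ofFn_zero, List.prod_nil]
      exact one_mem _
    | succ m ih =>
      intro x
      rw [List.ofFn_succ_last, List.prod_append, List.prod_singleton]
      refine mul_mem ?_ ?_
      · exact seq_mono hf S₀ (Nat.le_succ m) (ih fun i => x i.castSucc)
      · exact hΦR m _
  refine ⟨Φ, ?_, ?_, ?_, ?_⟩
  · intro m n hmn x y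
    rcases lt_or_gt_of_ne hmn with h1 | h1
    · exact (hlt m n h1 y x).symm
    · exact hlt n m h1 x y
  · intro n x y
    exact (copy_spec hf (R n)).1 (StarSubalgebra.inclusion (hR n) x)
      (StarSubalgebra.inclusion (hR n) y)
  · intro n g x y hxy
    exact (copy_spec hf (R n)).2.1 g (StarSubalgebra.inclusion (hR n) x)
      (StarSubalgebra.inclusion (hR n) y) hxy
  · intro m
    induction m with
    | zero =>
      intro x y
      rw [List.ofFn_zero, List.prod_nil, one_mul, Finset.univ_eq_empty, Finset.prod_empty, one_mul]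
      rfl
    | succ m ih =>
      intro x y
      have h1 : (List.ofFn fun i : Fin m => Φ i (x i.castSucc)).prod * (y : B) ∈ (R m).alg :=
        mul_mem (hprod m fun i => x i.castSucc) (hR m y.2)
      have h2 := (copy_spec hf (R m)).2.2 (StarSubalgebra.inclusion (hR m) (x (Fin.last m)))
        ⟨_, h1⟩
      have h3 := (copy_spec hf (R m)).1 (StarSubalgebra.inclusion (hR m) (x (Fin.last m)))
        ⟨_, hprod m fun i => x i.castSucc⟩
      have h4 : (List.ofFn fun i : Fin (m + 1) => Φ i (x i)).prod * (y : B) =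
          copy hf (R m) (StarSubalgebra.inclusion (hR m) (x (Fin.last m))) *
            ((List.ofFn fun i : Fin m => Φ i (x i.castSucc)).prod * (y : B)) := by
        have h3' : copy hf (R m) (StarSubalgebra.inclusion (hR m) (x (Fin.last m))) *
            (List.ofFn fun i : Fin m => Φ i (x i.castSucc)).prod =
            (List.ofFn fun i : Fin m => Φ i (x i.castSucc)).prod *
              copy hf (R m) (StarSubalgebra.inclusion (hR m) (x (Fin.last m))) := h3
        rw [List.ofFn_succ_last, List.prod_append, List.prod_singleton, ← mul_assoc, h3']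
        rfl
      rw [h4, h2, Fin.prod_univ_castSucc]
      have h5 : ‖(⟨_, h1⟩ : (R m).alg)‖ =
          ‖(List.ofFn fun i : Fin m => Φ i (x i.castSucc)).prod * (y : B)‖ := rfl
      have h6 : ‖StarSubalgebra.inclusion (hR m) (x (Fin.last m))‖ = ‖x (Fin.last m)‖ := rfl
      rw [h5, h6, ih (fun i => x i.castSucc) y]
      ring

end FreeFam

theorem exists_free_family {G : Type*} [Group G] [Countable G] {B : Type*} [CStarAlgebra B]
    {β : G →* (B ≃⋆ₐ[ℂ] B)} (hf : HasFreeCopies β) (S : StarSubalgebra ℂ B)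
    (hS : IsClosed (S : Set B)) (hS2 : IsSeparable (S : Set B)) (hS3 : ∀ g, ∀ x ∈ S, β g x ∈ S)
    (m : ℕ) :
    ∃ Φ : Fin m → (S →⋆ₐ[ℂ] B), (∀ i j, i ≠ j → ∀ x y : S, Commute (Φ i x) (Φ j y)) ∧
      (∀ i, ∀ x y : S, Commute (Φ i x) (y : B)) ∧
      (∀ i g (x y : S), (y : B) = β g x → Φ i y = β g (Φ i x)) ∧
      (∀ (x : Fin m → S) (y : S), ‖(List.ofFn fun i => Φ i (x i)).prod * (y : B)‖ =
        (∏ i, ‖x i‖) * ‖y‖) := by
  obtain ⟨Φ, h1, h2, h3, h4⟩ := FreeFam.exists_seq hf S hS hS2 hS3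
  exact ⟨fun i => Φ i, fun i j hij => h1 i j fun h => hij (Fin.ext h), fun i => h2 i,
    fun i => h3 i, fun x y => h4 m x y⟩

/-- every element lies in a closed separable invariant star subalgebra -/
theorem exists_invariant_subalgebra {G : Type*} [Group G] [Countable G] {B : Type*}
    [CStarAlgebra B] (β : G →* (B ≃⋆ₐ[ℂ] B)) (X : Set B) (hX : IsSeparable X) :
    ∃ S : StarSubalgebra ℂ B, IsClosed (S : Set B) ∧ IsSeparable (S : Set B) ∧
      (∀ g, ∀ x ∈ S, β g x ∈ S) ∧ X ⊆ S := by
  let Y : Set B := ⋃ g, β g '' X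
  have hY : IsSeparable Y := IsSeparable.iUnion fun g => hX.image (continuous_act β g)
  have hYinv : ∀ g, ∀ x ∈ Y, β g x ∈ Y := by
    intro g x hx
    obtain ⟨h, y, hy, rfl⟩ := Set.mem_iUnion.1 hx
    refine Set.mem_iUnion.2 ⟨g * h, y, hy, ?_⟩
    rw [map_mul]
    rfl
  refine ⟨cgen Y, isClosed_cgen Y, isSeparable_cgen hY, fun g => cgen_invariant β hYinv g, ?_⟩
  intro x hx
  refine subset_cgen Y (Set.mem_iUnion.2 ⟨1, x, hx, ?_⟩)
  rw [map_one]
  rfl

end Vale.Agent.P095
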