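import Vale.Agent.P095.Act
import Vale.Agent.P101.Statement

/-!
# P095: abstract tracial systems (definitions for target T3)
-/

open Filter Topology TopologicalSpace
open scoped BoundedContinuousFunction ComplexOrder

namespace Vale.Agent.P095

open Vale.Agent.P101

universe u v w

/-- A positive tracial functional. -/
structure IsPosTrace {K : Type*} [CStarAlgebra K] (φ : K →ₗ[ℂ] ℂ) : Prop where
  nonneg : ∀ x, 0 ≤ φ (star x * x)
  trace : ∀ x y, φ (x * y) = φ (y * x)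

/-- `x` is null for `φ`. -/
def IsNull {K : Type*} [CStarAlgebra K] (φ : K →ₗ[ℂ] ℂ) (x : K) : Prop := φ (star x * x) = 0

/-- The squared `2`-norm (a real number). -/
noncomputable def sq {K : Type*} [CStarAlgebra K] (φ : K →ₗ[ℂ] ℂ) (x : K) : ℝ :=
  (φ (star x * x)).re

/-- A tracial system: a `C⋆`-algebra `B` with an action `β` of `G`, a set `T` of tracial states,
invariant under `G`, with null ideal `J`, and equivariant commuting copies preserving `J`. -/
structure TracialSystem {G : Type*} [Group G] {B : Type*} [CStarAlgebra B]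
    (β : G →* (B ≃⋆ₐ[ℂ] B)) (T : Set (B →ₗ[ℂ] ℂ)) (J : Set B) : Prop where
  trace : ∀ τ ∈ T, IsTrace τ
  inv : ∀ τ ∈ T, ∀ g, τ ∘ₗ (β g : B →⋆ₐ[ℂ] B).toAlgHom.toLinearMap ∈ T
  copies : HasEqCopies β J
  null : ∀ x, x ∈ J ↔ ∀ τ ∈ T, τ (star x * x) = 0

/-- A seed: the image of the matrix unit `e₁₂` under a map of `M₂` which is unital modulo `J`. -/
def HasSeed {B : Type*} [CStarAlgebra B] (J : Set B) : Prop :=
  ∃ v : B, ‖v‖ ≤ 1 ∧ v * v = 0 ∧ 1 - star v * v - v * star v ∈ J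

/-- Amenability of a countable discrete group, in the form of Reiter's condition: probability
measures with finite support which are almost invariant in `ℓ¹`. -/
def ReiterAmenable (G : Type*) [Group G] : Prop :=
  ∀ (K : Finset G) (ε : ℝ), 0 < ε → ∃ (F : Finset G) (ν : G → ℝ),
    (∀ g, 0 ≤ ν g) ∧ (∀ g, g ∉ F → ν g = 0) ∧ ∑ g ∈ F, ν g = 1 ∧
    ∀ k ∈ K, ∀ F' : Finset G, ∑ g ∈ F', |ν (k⁻¹ * g) - ν g| ≤ ε

/-- Exactly fixed signs: for every separable closed `S` there is a fixed selfadjoint contraction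
commuting with `S`, with `1 - s²` null and orthogonal to `S` for all traces in `T`. -/
def HasFixedSigns {G : Type*} [Group G] {B : Type*} [CStarAlgebra B]
    (β : G →* (B ≃⋆ₐ[ℂ] B)) (T : Set (B →ₗ[ℂ] ℂ)) (J : Set B) : Prop :=
  ∀ S : StarSubalgebra ℂ B, IsClosed (S : Set B) → IsSeparable (S : Set B) →
    ∃ s : B, IsSelfAdjoint s ∧ ‖s‖ ≤ 1 ∧ (∀ g, β g s = s) ∧ (∀ x ∈ S, Commute s x) ∧
      1 - s * s ∈ J ∧ ∀ τ ∈ T, ∀ b ∈ S, τ (b * s) = 0

/-- Exactly fixed matrix units. -/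
def HasFixedUnits {G : Type*} [Group G] {B : Type*} [CStarAlgebra B]
    (β : G →* (B ≃⋆ₐ[ℂ] B)) (J : Set B) : Prop :=
  ∃ w : B, ‖w‖ ≤ 1 ∧ (∀ g, β g w = w) ∧ w * w ∈ J ∧ 1 - star w * w - w * star w ∈ J

end Vale.Agent.P095
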