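import Vale.Agent.P095.SeedSeq
import Vale.Agent.P095.TDefs

/-!
# P095: ordered products over sites, orthogonal sums, the null ideal
-/

open Filter Topology TopologicalSpace
open scoped BoundedContinuousFunction ComplexOrder

namespace Vale.Agent.P095

open Vale.Agent.P101

universe u v w

namespace KeyAux

section Prod

variable {M : Type*} [Monoid M]

/-- The ordered product. -/
def P {n : ℕ} (a : Fin n → M) : M := (List.ofFn a).prod

theorem P_zero (a : Fin 0 → M) : P a = 1 := by simp [P]

theorem P_succ {n : ℕ} (a : Fin (n + 1) → M) : P a = a 0 * P (fun j : Fin n => a j.succ) := by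
  unfold P
  rw [List.ofFn_succ, List.prod_cons]

theorem P_commute {n : ℕ} (a : Fin n → M) (y : M) (h : ∀ j, Commute y (a j)) :
    Commute y (P a) := by
  induction n with
  | zero => rw [P_zero]; exact Commute.one_right y
  | succ n ih =>
    rw [P_succ]
    exact (h 0).mul_right (ih _ fun j => h j.succ)

theorem P_mul {n : ℕ} (a b : Fin n → M) (h : ∀ i j, i ≠ j → Commute (a i) (b j)) :
    P a * P b = P (fun j => a j * b j) := by
  induction n with
  | zero => rw [P_zero, P_zero, P_zero, one_mul]
  | succ n ih =>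
    rw [P_succ a, P_succ b, P_succ (fun j => a j * b j),
      ← ih _ _ fun i j hij => h i.succ j.succ fun h => hij (Fin.succ_injective _ h)]
    have h1 : Commute (b 0) (P fun j : Fin n => a j.succ) :=
      P_commute _ _ fun j => (h j.succ 0 (Fin.succ_ne_zero j)).symm
    rw [mul_assoc, ← mul_assoc (P fun j : Fin n => a j.succ), ← h1.eq]
    simp only [mul_assoc]

omit [Monoid M] in
theorem update_succ {n : ℕ} (a : Fin (n + 1) → M) (k : Fin n) (y : M) :
    (fun j : Fin n => Function.update a k.succ y j.succ) =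
      Function.update (fun j : Fin n => a j.succ) k y := by
  funext j
  rcases eq_or_ne j k with rfl | hjk
  · rw [Function.update_self, Function.update_self]
  · rw [Function.update_of_ne hjk,
      Function.update_of_ne fun h => hjk (Fin.succ_injective _ h)]

omit [Monoid M] in
theorem update_zero {n : ℕ} (a : Fin (n + 1) → M) (y : M) :
    (fun j : Fin n => Function.update a 0 y j.succ) = fun j => a j.succ := by
  funext j
  rw [Function.update_of_ne (Fin.succ_ne_zero j)]

theorem P_update {n : ℕ} (a : Fin n → M) (k : Fin n) (y : M)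
    (h : ∀ j, j ≠ k → Commute y (a j)) :
    P (Function.update a k y) = y * P (Function.update a k 1) := by
  induction n with
  | zero => exact k.elim0
  | succ n ih =>
    rw [P_succ, P_succ (Function.update a k 1)]
    refine Fin.cases ?_ (fun k h => ?_) k h
    · intro h
      rw [update_zero, update_zero, Function.update_self, Function.update_self, one_mul]
    · rw [update_succ, update_succ, ih _ k fun j hj => h j.succ fun h => hj (Fin.succ_injective _ h)]
      rw [Function.update_of_ne (Fin.succ_ne_zero k).symm,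
        Function.update_of_ne (Fin.succ_ne_zero k).symm, ← mul_assoc, ← mul_assoc,
        (h 0 (Fin.succ_ne_zero k).symm).eq]

theorem P_map {M' F : Type*} [Monoid M'] [FunLike F M M'] [MonoidHomClass F M M'] (f : F) {n : ℕ}
    (a : Fin n → M) : f (P a) = P (fun j => f (a j)) := by
  unfold P
  rw [map_list_prod, List.map_ofFn]
  rfl

theorem P_induction {n : ℕ} (p : M → Prop) (h1 : p 1) (hm : ∀ x y, p x → p y → p (x * y))
    (a : Fin n → M) (h : ∀ j, p (a j)) : p (P a) := by
  induction n with
  | zero => rw [P_zero]; exact h1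
  | succ n ih =>
    rw [P_succ]
    exact hm _ _ (h 0) (ih _ fun j => h j.succ)

end Prod

section Order

variable {B : Type*} [CStarAlgebra B] [PartialOrder B] [StarOrderedRing B]

theorem P_nonneg {n : ℕ} (a : Fin n → B) (ha : ∀ j, 0 ≤ a j)
    (hc : ∀ i j, i ≠ j → Commute (a i) (a j)) : 0 ≤ P a := by
  induction n with
  | zero => rw [P_zero]; exact zero_le_one
  | succ n ih =>
    rw [P_succ]
    refine Commute.mul_nonneg (ha 0) (ih _ (fun j => ha j.succ)
      fun i j hij => hc _ _ fun h => hij (Fin.succ_injective _ h)) ?_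
    exact P_commute _ _ fun j => hc _ _ (Fin.succ_ne_zero j).symm

theorem mul_le_of_le_one {a b : B} (ha0 : a ≤ 1) (hb : 0 ≤ b) (h : Commute a b) : a * b ≤ b := by
  have h1 : 0 ≤ (1 - a) * b :=
    Commute.mul_nonneg (sub_nonneg.2 ha0) hb ((Commute.one_left b).sub_left h)
  rw [sub_mul, one_mul, sub_nonneg] at h1
  exact h1

theorem P_le_one {n : ℕ} (a : Fin n → B) (ha : ∀ j, 0 ≤ a j) (ha1 : ∀ j, a j ≤ 1)
    (hc : ∀ i j, i ≠ j → Commute (a i) (a j)) : P a ≤ 1 := by
  induction n with
  | zero => rw [P_zero]
  | succ n ih =>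
    rw [P_succ]
    have hc' : ∀ i j : Fin n, i ≠ j → Commute (a i.succ) (a j.succ) :=
      fun i j hij => hc _ _ fun h => hij (Fin.succ_injective _ h)
    exact (mul_le_of_le_one (ha1 0) (P_nonneg _ (fun j => ha j.succ) hc')
      (P_commute _ _ fun j => hc _ _ (Fin.succ_ne_zero j).symm)).trans
      (ih _ (fun j => ha j.succ) (fun j => ha1 j.succ) hc')

/-- The telescoping inequality. -/
theorem P_sum_update_le {n : ℕ} (t p : Fin n → B) (ht : ∀ j, 0 ≤ t j) (hp : ∀ j, t j ≤ p j)
    (h1 : ∀ i j, i ≠ j → Commute (t i) (t j)) (h2 : ∀ i j, i ≠ j → Commute (t i) (p j))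
    (h3 : ∀ i j, i ≠ j → Commute (p i) (p j)) :
    ∑ k, P (Function.update t k (p k - t k)) + P t ≤ P p := by
  induction n with
  | zero => simp [P_zero]
  | succ n ih =>
    have hs : ∀ {i j : Fin n}, i ≠ j → i.succ ≠ j.succ :=
      fun hij h => hij (Fin.succ_injective _ h)
    obtain ⟨t', ht'⟩ : ∃ t' : Fin n → B, t' = fun j => t j.succ := ⟨_, rfl⟩
    obtain ⟨p', hp'⟩ : ∃ p' : Fin n → B, p' = fun j => p j.succ := ⟨_, rfl⟩
    have h1' : ∀ i j, i ≠ j → Commute (t' i) (t' j) := fun i j hij => by
      rw [ht']; exact h1 _ _ (hs hij)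
    have h2' : ∀ i j, i ≠ j → Commute (t' i) (p' j) := fun i j hij => by
      rw [ht', hp']; exact h2 _ _ (hs hij)
    have h3' : ∀ i j, i ≠ j → Commute (p' i) (p' j) := fun i j hij => by
      rw [hp']; exact h3 _ _ (hs hij)
    have ht0 : ∀ j, 0 ≤ t' j := fun j => by rw [ht']; exact ht j.succ
    have hp0 : ∀ j, t' j ≤ p' j := fun j => by rw [ht', hp']; exact hp j.succ
    have e := ih t' p' ht0 hp0 h1' h2' h3'
    obtain ⟨X, hX⟩ : ∃ X, X = ∑ k, P (Function.update t' k (p' k - t' k)) := ⟨_, rfl⟩
    have hX0 : 0 ≤ X := by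
      rw [hX]
      refine Finset.sum_nonneg fun k _ => P_nonneg _ (fun j => ?_) fun i j hij => ?_
      · rcases eq_or_ne j k with rfl | hjk
        · rw [Function.update_self]; exact sub_nonneg.2 (hp0 j)
        · rw [Function.update_of_ne hjk]; exact ht0 j
      · rcases eq_or_ne i k with rfl | hik
        · rw [Function.update_self, Function.update_of_ne hij.symm]
          exact ((h2' j i hij.symm).symm.sub_left (h1' i j hij))
        · rcases eq_or_ne j k with rfl | hjk
          · rw [Function.update_self, Function.update_of_ne hik]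
            exact ((h2' i j hij).sub_right (h1' i j hij))
          · rw [Function.update_of_ne hik, Function.update_of_ne hjk]
            exact h1' i j hij
    have hcX : ∀ y : B, (∀ j, Commute y (t' j)) → (∀ j, Commute y (p' j)) → Commute y X := by
      intro y hy1 hy2
      rw [hX]
      refine Commute.sum_right _ _ _ fun k _ => P_commute _ _ fun j => ?_
      rcases eq_or_ne j k with rfl | hjk
      · rw [Function.update_self]; exact (hy2 j).sub_right (hy1 j)
      · rw [Function.update_of_ne hjk]; exact hy1 j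
    have c1 : ∀ j, Commute (t 0) (t' j) := fun j => by
      rw [ht']; exact h1 _ _ (Fin.succ_ne_zero j).symm
    have c2 : ∀ j, Commute (t 0) (p' j) := fun j => by
      rw [hp']; exact h2 _ _ (Fin.succ_ne_zero j).symm
    have c3 : ∀ j, Commute (p 0) (t' j) := fun j => by
      rw [ht']; exact (h2 _ _ (Fin.succ_ne_zero j)).symm
    have c4 : ∀ j, Commute (p 0) (p' j) := fun j => by
      rw [hp']; exact h3 _ _ (Fin.succ_ne_zero j).symm
    have f1 : P t = t 0 * P t' := by rw [P_succ, ht']
    have f2 : P p = p 0 * P p' := by rw [P_succ, hp']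
    have f3 : ∑ k, P (Function.update t k (p k - t k)) = (p 0 - t 0) * P t' + t 0 * X := by
      rw [Fin.sum_univ_succ]
      congr 1
      · rw [P_succ, update_zero, Function.update_self, ht']
      · rw [hX, Finset.mul_sum]
        refine Finset.sum_congr rfl fun k _ => ?_
        rw [P_succ, update_succ, Function.update_of_ne (Fin.succ_ne_zero k).symm, ht', hp']
    rw [f1, f2, f3]
    have g1 : 0 ≤ t 0 * (P p' - (X + P t')) := by
      rw [← hX] at e
      refine Commute.mul_nonneg (ht 0) (sub_nonneg.2 e) ?_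
      exact (P_commute _ _ c2).sub_right ((hcX _ c1 c2).add_right (P_commute _ _ c1))
    have g2 : 0 ≤ (p 0 - t 0) * (P p' - P t') := by
      have e' : P t' ≤ P p' := by
        rw [← hX] at e
        exact (le_add_of_nonneg_left hX0).trans e
      refine Commute.mul_nonneg (sub_nonneg.2 (hp 0)) (sub_nonneg.2 e') ?_
      exact ((P_commute _ _ c4).sub_right (P_commute _ _ c3)).sub_left
        ((P_commute _ _ c2).sub_right (P_commute _ _ c1))
    have g3 : p 0 * P p' - ((p 0 - t 0) * P t' + t 0 * X + t 0 * P t') =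
        t 0 * (P p' - (X + P t')) + (p 0 - t 0) * (P p' - P t') := by
      noncomm_ring
    rw [← sub_nonneg, g3]
    exact add_nonneg g1 g2

end Order

section Orth

variable {B : Type*} [CStarAlgebra B]

/-- The sum of orthogonal selfadjoint contractions is a contraction. -/
theorem norm_sum_le_one_of_orth {κ : Type*} [Fintype κ] (a : κ → B)
    (hsa : ∀ i, IsSelfAdjoint (a i)) (hn : ∀ i, ‖a i‖ ≤ 1)
    (ho : ∀ i j, i ≠ j → a i * a j = 0) : ‖∑ i, a i‖ ≤ 1 := by
  classical
  have hpow : ∀ m : ℕ, (∑ i, a i) ^ (m + 1) = ∑ i, a i ^ (m + 1) := by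
    intro m
    induction m with
    | zero => simp
    | succ m ih =>
      rw [pow_succ, ih, Finset.sum_mul]
      refine Finset.sum_congr rfl fun i _ => ?_
      rw [Finset.mul_sum, Finset.sum_eq_single i]
      · rw [← pow_succ]
      · intro j _ hj
        rw [pow_succ, mul_assoc, ho i j hj.symm, mul_zero]
      · intro h
        exact absurd (Finset.mem_univ _) h
  have hS : IsSelfAdjoint (∑ i, a i) := by
    rw [isSelfAdjoint_iff, star_sum]
    exact Finset.sum_congr rfl fun i _ => hsa i
  have hb : ∀ m : ℕ, ‖∑ i, a i‖ ^ (2 ^ m) ≤ Fintype.card κ := by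
    intro m
    have h1 : ‖(∑ i, a i) ^ (2 ^ m)‖ = ‖∑ i, a i‖ ^ (2 ^ m) := by
      have := hS.nnnorm_pow_two_pow m
      have h2 := congrArg (fun x : NNReal => (x : ℝ)) this
      simpa using h2
    rw [← h1]
    obtain ⟨r, hr⟩ : ∃ r, 2 ^ m = r + 1 := ⟨2 ^ m - 1, by have := Nat.one_le_two_pow (n := m); omega⟩
    rw [hr, hpow]
    calc ‖∑ i, a i ^ (r + 1)‖ ≤ ∑ i, ‖a i ^ (r + 1)‖ := norm_sum_le _ _
      _ ≤ ∑ _i : κ, (1 : ℝ) := Finset.sum_le_sum fun i _ => by
          refine (norm_pow_le' _ (Nat.succ_pos r)).trans ?_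
          exact pow_le_one₀ (norm_nonneg _) (hn i)
      _ = Fintype.card κ := by simp
  by_contra hcon
  push Not at hcon
  obtain ⟨m, hm⟩ := (tendsto_pow_atTop_atTop_of_one_lt hcon).eventually
    (eventually_gt_atTop (Fintype.card κ : ℝ)) |>.exists
  have h3 : ‖∑ i, a i‖ ^ m ≤ ‖∑ i, a i‖ ^ (2 ^ m) :=
    pow_le_pow_right₀ hcon.le (Nat.lt_two_pow_self).le
  linarith [hb m]

end Orth

section Null

variable {B : Type u} [CStarAlgebra B]

/-- The null ideal. -/
noncomputable def nullIdeal (T : Set (B →ₗ[ℂ] ℂ)) (htr : ∀ τ ∈ T, IsTrace τ) : Ideal B where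
  carrier := {x | ∀ τ ∈ T, τ (star x * x) = 0}
  zero_mem' := by
    intro τ _
    rw [mul_zero, map_zero]
  add_mem' := by
    intro x y hx hy τ hτ
    rw [mul_add, map_add, map_mul_eq_zero_of_null (htr τ hτ).nonneg (hx τ hτ),
      map_mul_eq_zero_of_null (htr τ hτ).nonneg (hy τ hτ), add_zero]
  smul_mem' := by
    intro c x hx τ hτ
    show τ (star (c * x) * (c * x)) = 0
    rw [← mul_assoc]
    exact map_mul_eq_zero_of_null (htr τ hτ).nonneg (hx τ hτ) _

theorem mem_nullIdeal {T : Set (B →ₗ[ℂ] ℂ)} {htr : ∀ τ ∈ T, IsTrace τ} {x : B} :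
    x ∈ nullIdeal T htr ↔ ∀ τ ∈ T, τ (star x * x) = 0 := Iff.rfl

instance isTwoSided_nullIdeal (T : Set (B →ₗ[ℂ] ℂ)) (htr : ∀ τ ∈ T, IsTrace τ) :
    (nullIdeal T htr).IsTwoSided where
  mul_mem_of_left := by
    intro x a hx τ hτ
    have e : star (x * a) * (x * a) = (star a * star x * x) * a := by
      rw [star_mul]
      simp only [mul_assoc]
    have e2 : a * (star a * star x * x) = (a * star a * star x) * x := by
      simp only [mul_assoc]
    rw [e, (htr τ hτ).trace, e2]
    exact map_mul_eq_zero_of_null (htr τ hτ).nonneg (hx τ hτ) _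

/-- Trace functionals do not see null elements. -/
theorem trace_congr {T : Set (B →ₗ[ℂ] ℂ)} {htr : ∀ τ ∈ T, IsTrace τ} {x y : B}
    (h : Ideal.Quotient.mk (nullIdeal T htr) x = Ideal.Quotient.mk (nullIdeal T htr) y)
    {τ : B →ₗ[ℂ] ℂ} (hτ : τ ∈ T) : τ x = τ y := by
  rw [Ideal.Quotient.eq] at h
  have h1 := map_mul_eq_zero_of_null (htr τ hτ).nonneg (h τ hτ) 1
  rw [one_mul, map_sub, sub_eq_zero] at h1
  exact h1

end Null

section Half

variable {B : Type u} [CStarAlgebra B] {T : Set (B →ₗ[ℂ] ℂ)} {htr : ∀ τ ∈ T, IsTrace τ}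

/-- Seeds. -/
structure IsSeed (T : Set (B →ₗ[ℂ] ℂ)) (htr : ∀ τ ∈ T, IsTrace τ) (s : B) : Prop where
  norm : ‖s‖ ≤ 1
  sq : s * s = 0
  null : 1 - star s * s - s * star s ∈ nullIdeal T htr

theorem IsSeed.star {s : B} (h : IsSeed T htr s) : IsSeed T htr (star s) where
  norm := by rw [norm_star]; exact h.norm
  sq := by rw [← star_mul, h.sq, star_zero]
  null := by
    have e : 1 - Star.star (Star.star s) * Star.star s - Star.star s * Star.star (Star.star s) =
        1 - Star.star s * s - s * Star.star s := by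
      rw [star_star]
      abel
    rw [e]
    exact h.null

theorem IsSeed.smul {s : B} (h : IsSeed T htr s) {μ : ℂ} (hμ : Star.star μ * μ = 1) :
    IsSeed T htr (μ • s) where
  norm := by
    have h1 : ‖μ‖ = 1 := by
      have h2 : ‖Star.star μ * μ‖ = ‖(1 : ℂ)‖ := by rw [hμ]
      rw [norm_mul, norm_star, norm_one] at h2
      have h3 : (‖μ‖ - 1) * (‖μ‖ + 1) = 0 := by linarith
      rcases mul_eq_zero.1 h3 with h4 | h4
      · linarith
      · have := norm_nonneg μ
        linarith
    rw [norm_smul, h1, one_mul]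
    exact h.norm
  sq := by rw [smul_mul_smul_comm, h.sq, smul_zero]
  null := by
    have e1 : Star.star (μ • s) * (μ • s) = Star.star s * s := by
      rw [star_smul, smul_mul_smul_comm, hμ, one_smul]
    have e2 : (μ • s) * Star.star (μ • s) = s * Star.star s := by
      rw [star_smul, smul_mul_smul_comm, mul_comm, hμ, one_smul]
    rw [e1, e2]
    exact h.null

/-- The projection `(1 + s + s⋆) / 2`. -/
noncomputable def half (s : B) : B := (1 / 2 : ℂ) • (1 + (s + star s))

theorem half_sa (s : B) : IsSelfAdjoint (half s) := by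
  rw [isSelfAdjoint_iff, half, star_smul, star_add, star_one, star_add, star_star]
  have : star (1 / 2 : ℂ) = 1 / 2 := by
    rw [Complex.star_def, map_div₀, map_one, Complex.conj_ofNat]
  rw [this, add_comm (star s)]

theorem half_mul_half {s : B} (hs : s * s = 0) :
    half s - half s * half s = (1 / 4 : ℂ) • (1 - star s * s - s * star s) := by
  have hs' : star s * star s = 0 := by rw [← star_mul, hs, star_zero]
  have e : (1 + (s + star s)) * (1 + (s + star s)) =
      1 + (s + star s) + (s + star s) + (star s * s + s * star s) := by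
    have : (1 + (s + star s)) * (1 + (s + star s)) =
      1 + (s + star s) + (s + star s) + (star s * s + s * star s + s * s + star s * star s) := by
      noncomm_ring
    rw [this, hs, hs', add_zero, add_zero]
  rw [half, smul_mul_smul_comm, e]
  module

theorem half_mk {s : B} (h : IsSeed T htr s) :
    Ideal.Quotient.mk (nullIdeal T htr) (half s * half s) =
      Ideal.Quotient.mk (nullIdeal T htr) (half s) := by
  symm
  rw [Ideal.Quotient.eq, half_mul_half h.sq]
  have := (nullIdeal T htr).mul_mem_left (algebraMap ℂ B (1 / 4)) h.null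
  rwa [← Algebra.smul_def] at this

theorem norm_add_star_le {s : B} (h : IsSeed T htr s) : ‖s + star s‖ ≤ 1 := by
  have hs' : star s * star s = 0 := by rw [← star_mul, h.sq, star_zero]
  have h1 : ‖s + star s‖ * ‖s + star s‖ = ‖s * star s + star s * s‖ := by
    rw [← CStarRing.norm_star_mul_self, star_add, star_star]
    congr 1
    have : (star s + s) * (s + star s) = s * star s + star s * s + s * s + star s * star s := by
      noncomm_ring
    rw [this, h.sq, hs', add_zero, add_zero]
  have h2 : ‖s * star s + star s * s‖ ≤ 1 := by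
    have h3 := norm_sum_le_one_of_orth (κ := Bool)
      (fun i => if i then s * star s else star s * s) (by
        intro i
        cases i
        · exact IsSelfAdjoint.star_mul_self s
        · exact IsSelfAdjoint.mul_star_self s) (by
        intro i
        have h4 : ‖s‖ * ‖s‖ ≤ 1 := mul_le_one₀ h.norm (norm_nonneg _) h.norm
        cases i
        · show ‖star s * s‖ ≤ 1
          rw [CStarRing.norm_star_mul_self]
          exact h4
        · show ‖s * star s‖ ≤ 1
          rw [CStarRing.norm_self_mul_star]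
          exact h4) (by
        intro i j hij
        cases i <;> cases j
        · exact absurd rfl hij
        · show star s * s * (s * star s) = 0
          rw [mul_assoc, ← mul_assoc s s, h.sq, zero_mul, mul_zero]
        · show s * star s * (star s * s) = 0
          rw [mul_assoc, ← mul_assoc (star s) (star s), hs', zero_mul, mul_zero]
        · exact absurd rfl hij)
    rw [Fintype.sum_bool] at h3
    simpa using h3
  nlinarith [norm_nonneg (s + star s)]

theorem trace_seed {s : B} (h : IsSeed T htr s) {τ : B →ₗ[ℂ] ℂ} (hτ : τ ∈ T) {y : B}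
    (h1 : Commute y s) : τ (y * s) = 0 := by
  have e : Ideal.Quotient.mk (nullIdeal T htr) (y * s) =
      Ideal.Quotient.mk (nullIdeal T htr) (y * s * star s * s) := by
    rw [Ideal.Quotient.eq]
    have e1 : y * s - y * s * star s * s =
        y * s * (1 - star s * s - s * star s) + y * (s * s) * star s := by
      noncomm_ring
    rw [e1, h.sq, mul_zero, zero_mul, add_zero]
    exact (nullIdeal T htr).mul_mem_left _ h.null
  rw [trace_congr e hτ, (htr τ hτ).trace]
  have e2 : s * (y * s * star s) = y * (s * s) * star s := by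
    rw [← mul_assoc, ← mul_assoc, ← h1.eq]
    simp only [mul_assoc]
  rw [e2, h.sq, mul_zero, zero_mul, map_zero]

theorem trace_half {s : B} (h : IsSeed T htr s) {τ : B →ₗ[ℂ] ℂ} (hτ : τ ∈ T) {y : B}
    (h1 : Commute y s) (h2 : Commute y (star s)) : τ (y * half s) = 2⁻¹ * τ y := by
  rw [half, mul_smul_comm, map_smul, mul_add, mul_one, mul_add, map_add, map_add,
    trace_seed h hτ h1, trace_seed h.star hτ h2, add_zero, add_zero, smul_eq_mul, one_div]

/-- The two projections at a site. -/
noncomputable def pp (ε : Bool) (s : B) : B := half ((if ε then (1 : ℂ) else Complex.I) • s)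

theorem phase (ε : Bool) :
    star (if ε then (1 : ℂ) else Complex.I) * (if ε then (1 : ℂ) else Complex.I) = 1 := by
  cases ε <;> simp

theorem IsSeed.phase {s : B} (h : IsSeed T htr s) (ε : Bool) :
    IsSeed T htr ((if ε then (1 : ℂ) else Complex.I) • s) := h.smul (KeyAux.phase ε)

theorem pp_sa (ε : Bool) (s : B) : IsSelfAdjoint (pp ε s) := half_sa _

theorem pp_mk {s : B} (h : IsSeed T htr s) (ε : Bool) :
    Ideal.Quotient.mk (nullIdeal T htr) (pp ε s * pp ε s) =
      Ideal.Quotient.mk (nullIdeal T htr) (pp ε s) := half_mk (h.phase ε)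

theorem trace_pp {s : B} (h : IsSeed T htr s) (ε : Bool) {τ : B →ₗ[ℂ] ℂ} (hτ : τ ∈ T) {y : B}
    (h1 : Commute y s) (h2 : Commute y (star s)) : τ (y * pp ε s) = 2⁻¹ * τ y := by
  refine trace_half (h.phase ε) hτ (h1.smul_right _) ?_
  rw [star_smul]
  exact h2.smul_right _

theorem pp_mem {S : StarSubalgebra ℂ B} {s : B} (hs : s ∈ S) (ε : Bool) : pp ε s ∈ S := by
  unfold pp half
  have h1 : (if ε then (1 : ℂ) else Complex.I) • s ∈ S := SMulMemClass.smul_mem _ hs
  exact SMulMemClass.smul_mem _ (add_mem (one_mem S) (add_mem h1 (star_mem h1)))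

theorem pp_true (s : B) : pp true s = (1 / 2 : ℂ) • (1 + (s + star s)) := by
  unfold pp half
  simp

theorem pp_false (s : B) :
    Complex.I • pp false s = (1 / 2 : ℂ) • (Complex.I • (1 : B) - s + star s) := by
  unfold pp half
  have h1 : star (Complex.I • s) = - (Complex.I • star s) := by
    rw [star_smul, Complex.star_def, Complex.conj_I, neg_smul]
  have h2 : Complex.I • (1 + (Complex.I • s + -(Complex.I • star s))) =
      Complex.I • (1 : B) - s + star s := by
    rw [smul_add, smul_add, smul_neg, smul_smul, smul_smul, Complex.I_mul_I, neg_smul, one_smul,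
      neg_smul, one_smul, neg_neg]
    abel
  simp only [Bool.false_eq_true, if_false]
  rw [h1, smul_comm, h2]

theorem sub_eq_pp (s t : B) :
    s - t = (pp true s - pp true t) - Complex.I • (pp false s - pp false t) := by
  rw [smul_sub, pp_true, pp_true, pp_false, pp_false]
  module

theorem star_sub_eq_pp (s t : B) :
    star s - star t = (pp true s - pp true t) + Complex.I • (pp false s - pp false t) := by
  rw [smul_sub, pp_true, pp_true, pp_false, pp_false]
  module

theorem trace_swap {τ : B →ₗ[ℂ] ℂ} (hτ : IsTrace τ) {y a : B} (b : B) (h : Commute y a) :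
    τ (y * (a * b)) = τ (y * (b * a)) := by
  rw [← mul_assoc, h.eq, mul_assoc, hτ.trace, mul_assoc]

theorem trace_sq_sub {s t : B} (hs : IsSeed T htr s) (ht : IsSeed T htr t) (ε : Bool)
    {τ : B →ₗ[ℂ] ℂ} (hτ : τ ∈ T) {y : B} (h1 : Commute y s) (h2 : Commute y (star s))
    (h3 : Commute y t) (h4 : Commute y (star t)) :
    τ (y * ((pp ε s - pp ε t) * (pp ε s - pp ε t))) =
      2 * τ (y * (pp ε t - pp ε t * pp ε s * pp ε t)) := by
  obtain ⟨p, hp⟩ : ∃ p, p = pp ε s := ⟨_, rfl⟩
  obtain ⟨q, hq⟩ : ∃ q, q = pp ε t := ⟨_, rfl⟩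
  have tp : τ (y * (p * p)) = 2⁻¹ * τ y := by
    rw [← trace_pp hs ε hτ h1 h2, hp]
    refine trace_congr (htr := htr) ?_ hτ
    rw [map_mul, pp_mk hs, ← map_mul]
  have tq : τ (y * (q * q)) = 2⁻¹ * τ y := by
    rw [← trace_pp ht ε hτ h3 h4, hq]
    refine trace_congr (htr := htr) ?_ hτ
    rw [map_mul, pp_mk ht, ← map_mul]
  have tq' : τ (y * q) = 2⁻¹ * τ y := by
    rw [hq]
    exact trace_pp ht ε hτ h3 h4
  have cq : Commute y q := by
    rw [hq]
    unfold pp half
    refine ((Commute.one_right y).add_right ((h3.smul_right _).add_right ?_)).smul_right _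
    rw [star_smul]
    exact h4.smul_right _
  have e1 : τ (y * (p * q)) = τ (y * (q * p)) := (trace_swap (htr τ hτ) p cq).symm
  have e2 : τ (y * (q * p * q)) = τ (y * (q * p)) := by
    have e3 : τ (y * (q * p * q)) = τ (y * (q * q * p)) := by
      rw [← trace_swap (htr τ hτ) (q * p) cq, mul_assoc q q p]
    rw [e3]
    refine trace_congr (htr := htr) ?_ hτ
    rw [map_mul, map_mul, hq, pp_mk ht, ← map_mul, ← map_mul]
  rw [← hp, ← hq]
  have e4 : y * ((p - q) * (p - q)) = y * (p * p) + y * (q * q) - y * (p * q) - y * (q * p) := by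
    noncomm_ring
  have e5 : y * (q - q * p * q) = y * q - y * (q * p * q) := by noncomm_ring
  rw [e4, e5, map_sub, map_sub, map_add, map_sub, tp, tq, tq', e1, e2]
  ring

theorem site {s t : B} (hs : IsSeed T htr s) (ht : IsSeed T htr t)
    {τ : B →ₗ[ℂ] ℂ} (hτ : τ ∈ T) {y : B} (h1 : Commute y s) (h2 : Commute y (star s))
    (h3 : Commute y t) (h4 : Commute y (star t)) :
    τ (y * (star (s - t) * (s - t))) =
        ∑ ε, 2 * τ (y * (pp ε t - pp ε t * pp ε s * pp ε t)) ∧
      τ (y * (star (star s - star t) * (star s - star t))) =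
        ∑ ε, 2 * τ (y * (pp ε t - pp ε t * pp ε s * pp ε t)) := by
  obtain ⟨A, hA⟩ : ∃ A, A = pp true s - pp true t := ⟨_, rfl⟩
  obtain ⟨C, hC⟩ : ∃ C, C = pp false s - pp false t := ⟨_, rfl⟩
  have e1 : s - t = A - Complex.I • C := by rw [hA, hC]; exact sub_eq_pp s t
  have e2 : star s - star t = A + Complex.I • C := by rw [hA, hC]; exact star_sub_eq_pp s t
  have e3 : star (s - t) = A + Complex.I • C := by rw [star_sub, e2]
  have e4 : star (star s - star t) = A - Complex.I • C := by rw [star_sub, star_star, star_star, e1]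
  have cA : Commute y A := by
    have hc : ∀ z, Commute y z → Commute y (star z) → Commute y (pp true z) := by
      intro z hz hz'
      rw [pp_true]
      exact ((Commute.one_right y).add_right (hz.add_right hz')).smul_right _
    rw [hA]
    exact (hc s h1 h2).sub_right (hc t h3 h4)
  have sw : τ (y * (A * C)) = τ (y * (C * A)) := trace_swap (htr τ hτ) C cA
  have hsA : τ (y * (A * A)) = 2 * τ (y * (pp true t - pp true t * pp true s * pp true t)) := by
    rw [hA]; exact trace_sq_sub hs ht true hτ h1 h2 h3 h4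
  have hsC : τ (y * (C * C)) =
      2 * τ (y * (pp false t - pp false t * pp false s * pp false t)) := by
    rw [hC]; exact trace_sq_sub hs ht false hτ h1 h2 h3 h4
  rw [Fintype.sum_bool, ← hsA, ← hsC, e4, e3, e1, e2]
  have f1 : y * ((A + Complex.I • C) * (A - Complex.I • C)) =
      y * (A * A) + y * (C * C) + Complex.I • (y * (C * A)) - Complex.I • (y * (A * C)) := by
    have : (A + Complex.I • C) * (A - Complex.I • C) =
        A * A + C * C + Complex.I • (C * A) - Complex.I • (A * C) := by
      rw [add_mul, mul_sub, mul_sub, smul_mul_smul_comm, Complex.I_mul_I, mul_smul_comm,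
        smul_mul_assoc, neg_smul, one_smul]
      abel
    rw [this]
    simp only [mul_add, mul_sub, mul_smul_comm]
  have f2 : y * ((A - Complex.I • C) * (A + Complex.I • C)) =
      y * (A * A) + y * (C * C) + Complex.I • (y * (A * C)) - Complex.I • (y * (C * A)) := by
    have : (A - Complex.I • C) * (A + Complex.I • C) =
        A * A + C * C + Complex.I • (A * C) - Complex.I • (C * A) := by
      rw [sub_mul, mul_add, mul_add, smul_mul_smul_comm, Complex.I_mul_I, mul_smul_comm,
        smul_mul_assoc, neg_smul, one_smul]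
      abel
    rw [this]
    simp only [mul_add, mul_sub, mul_smul_comm]
  rw [f1, f2]
  simp only [map_add, map_sub, map_smul, sw, add_sub_cancel_right]
  exact ⟨trivial, trivial⟩

end Half

end KeyAux

end Vale.Agent.P095
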