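import Vale.Agent.P095.KeyAux

/-!
# P095: the key estimate for the block of matrix units
-/

open Filter Topology TopologicalSpace
open scoped BoundedContinuousFunction ComplexOrder

namespace Vale.Agent.P095

open Vale.Agent.P101

universe u v w

namespace KeyAux

section Order

variable {B : Type u} [CStarAlgebra B] [PartialOrder B] [StarOrderedRing B]
  {T : Set (B →ₗ[ℂ] ℂ)} {htr : ∀ τ ∈ T, IsTrace τ}

theorem le_one_of_norm_le {a : B} (ha : IsSelfAdjoint a) (h : ‖a‖ ≤ 1) : a ≤ 1 := by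
  have h1 := (IsSelfAdjoint.le_algebraMap_norm_self ha).trans (algebraMap_mono B h)
  rwa [map_one] at h1

theorem half_smul_nonneg {a : B} (ha : 0 ≤ a) : 0 ≤ (1 / 2 : ℂ) • a := by
  have h1 : (1 / 2 : ℂ) • a = (1 / 2 : ℝ) • a := by
    rw [← Complex.coe_smul]
    congr 1
    push_cast
    rfl
  rw [h1]
  exact smul_nonneg (by norm_num) ha

theorem half_nonneg {s : B} (h : IsSeed T htr s) : 0 ≤ half s := by
  have h1 : -(s + star s) ≤ 1 := le_one_of_norm_le (by
    have := IsSelfAdjoint.add_star_self s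
    exact this.neg) (by rw [norm_neg]; exact norm_add_star_le h)
  refine half_smul_nonneg ?_
  have h2 := sub_nonneg.2 h1
  rwa [sub_neg_eq_add] at h2

theorem half_le_one {s : B} (h : IsSeed T htr s) : half s ≤ 1 := by
  have h1 : (s + star s) ≤ 1 := le_one_of_norm_le (IsSelfAdjoint.add_star_self s)
    (norm_add_star_le h)
  have h2 : 1 - half s = (1 / 2 : ℂ) • (1 - (s + star s)) := by
    unfold half
    module
  rw [← sub_nonneg, h2]
  exact half_smul_nonneg (sub_nonneg.2 h1)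

theorem pp_nonneg {s : B} (h : IsSeed T htr s) (ε : Bool) : 0 ≤ pp ε s := half_nonneg (h.phase ε)

theorem pp_le_one {s : B} (h : IsSeed T htr s) (ε : Bool) : pp ε s ≤ 1 := half_le_one (h.phase ε)

theorem conj_nonneg {p q : B} (hp : 0 ≤ p) (hq : 0 ≤ q) : 0 ≤ q * p * q :=
  (IsSelfAdjoint.of_nonneg hq).conjugate_nonneg hp

theorem conj_le {p q : B} (hp1 : p ≤ 1) (hq : 0 ≤ q) (hq1 : q ≤ 1) : q * p * q ≤ q := by
  have h1 : 0 ≤ q * (1 - q) :=
    Commute.mul_nonneg hq (sub_nonneg.2 hq1) ((Commute.one_right q).sub_right rfl)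
  have h2 : 0 ≤ q * (1 - p) * q := conj_nonneg (sub_nonneg.2 hp1) hq
  have h3 : q - q * p * q = q * (1 - q) + q * (1 - p) * q := by noncomm_ring
  rw [← sub_nonneg, h3]
  exact add_nonneg h1 h2

theorem trace_nonneg {τ : B →ₗ[ℂ] ℂ} (hτ : IsTrace τ) {a : B} (ha : 0 ≤ a) : 0 ≤ τ a := by
  obtain ⟨y, rfl⟩ := CStarAlgebra.nonneg_iff_eq_star_mul_self.1 ha
  exact hτ.nonneg y

end Order

section Cs

variable {B : Type u} [CStarAlgebra B] {T : Set (B →ₗ[ℂ] ℂ)} {htr : ∀ τ ∈ T, IsTrace τ}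

/-- Fixed independent labels (orthogonal projections modulo null elements). -/
structure Labels (T : Set (B →ₗ[ℂ] ℂ)) (htr : ∀ τ ∈ T, IsTrace τ) (S : StarSubalgebra ℂ B)
    {κ : Type} [Fintype κ] (R : κ → B) : Prop where
  sa : ∀ c, IsSelfAdjoint (R c)
  norm : ∀ c, ‖R c‖ ≤ 1
  pos : ∀ c, ∃ y, R c = star y * y
  orth : ∀ c d, c ≠ d → R c * R d = 0
  proj : ∀ c, R c * R c - R c ∈ nullIdeal T htr
  sum : 1 - ∑ c, R c ∈ nullIdeal T htr
  comm : ∀ x ∈ S, ∀ c, Commute x (R c)
  tr : ∀ τ ∈ T, ∀ b ∈ S, ∀ c, τ (b * R c) = τ b / Fintype.card κ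

variable {κ : Type} [Fintype κ] {S : StarSubalgebra ℂ B} {R : κ → B}

/-- The element which is `a c` on the label `c`. -/
noncomputable def cs (R a : κ → B) : B := ∑ c, R c * a c

theorem cs_mul (hR : Labels T htr S R) {a : κ → B} (ha : ∀ c, a c ∈ S) (b : κ → B) :
    cs R a * cs R b = ∑ c, (R c * R c) * (a c * b c) := by
  unfold cs
  rw [Finset.sum_mul]
  refine Finset.sum_congr rfl fun c _ => ?_
  rw [Finset.mul_sum, Finset.sum_eq_single c]
  · rw [mul_assoc, ← mul_assoc (a c), (hR.comm _ (ha c) c).eq]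
    simp only [mul_assoc]
  · intro d _ hd
    rw [mul_assoc, ← mul_assoc (a c), (hR.comm _ (ha c) d).eq, ← mul_assoc, ← mul_assoc,
      hR.orth c d hd.symm, zero_mul, zero_mul]
  · intro h
    exact absurd (Finset.mem_univ _) h

theorem mk_R (hR : Labels T htr S R) (c : κ) : Ideal.Quotient.mk (nullIdeal T htr) (R c * R c) =
    Ideal.Quotient.mk (nullIdeal T htr) (R c) := by
  rw [Ideal.Quotient.eq]
  exact hR.proj c

theorem mk_cs_mul (hR : Labels T htr S R) {a : κ → B} (ha : ∀ c, a c ∈ S) (b : κ → B) :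
    Ideal.Quotient.mk (nullIdeal T htr) (cs R a * cs R b) =
      Ideal.Quotient.mk (nullIdeal T htr) (cs R fun c => a c * b c) := by
  rw [cs_mul hR ha]
  unfold cs
  rw [map_sum, map_sum]
  refine Finset.sum_congr rfl fun c _ => ?_
  rw [map_mul, mk_R hR, ← map_mul]

theorem mk_cs_congr (a b : κ → B) (h : ∀ c, Ideal.Quotient.mk (nullIdeal T htr) (a c) =
    Ideal.Quotient.mk (nullIdeal T htr) (b c)) :
    Ideal.Quotient.mk (nullIdeal T htr) (cs R a) = Ideal.Quotient.mk (nullIdeal T htr) (cs R b) := by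
  unfold cs
  rw [map_sum, map_sum]
  refine Finset.sum_congr rfl fun c _ => ?_
  rw [map_mul, h, ← map_mul]

theorem star_cs (hR : Labels T htr S R) {a : κ → B} (ha : ∀ c, a c ∈ S) :
    star (cs R a) = cs R fun c => star (a c) := by
  unfold cs
  rw [star_sum]
  refine Finset.sum_congr rfl fun c _ => ?_
  rw [star_mul, (hR.sa c).star_eq]
  exact (hR.comm _ (star_mem (ha c)) c).eq

theorem trace_cs (hR : Labels T htr S R) {a : κ → B} (ha : ∀ c, a c ∈ S) {b : B} (hb : b ∈ S)
    {τ : B →ₗ[ℂ] ℂ} (hτ : τ ∈ T) :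
    τ (b * cs R a) = (∑ c, τ (b * a c)) / Fintype.card κ := by
  unfold cs
  rw [Finset.mul_sum, map_sum, Finset.sum_div]
  refine Finset.sum_congr rfl fun c _ => ?_
  rw [← hR.tr τ hτ _ (mul_mem hb (ha c)) c, mul_assoc, (hR.comm _ (ha c) c).eq]

theorem bool_sum {n : ℕ} (k : Fin n) (F : (Fin n → Bool) → ℂ) :
    ∑ e : Fin n → Bool, ∑ ε, F (Function.update e k ε) = 2 * ∑ e : Fin n → Bool, F e := by
  obtain ⟨fl, hfl⟩ : ∃ fl : (Fin n → Bool) → (Fin n → Bool),
      fl = fun e => Function.update e k (!(e k)) := ⟨_, rfl⟩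
  have hinv : Function.Involutive fl := by
    intro e
    rw [hfl]
    simp
  have h1 : ∀ e : Fin n → Bool, ∑ ε, F (Function.update e k ε) = F e + F (fl e) := by
    intro e
    rw [Fintype.sum_bool, hfl]
    show _ = F e + F (Function.update e k (!(e k)))
    rcases h : e k with _ | _
    · have h2 : Function.update e k false = e := by rw [← h, Function.update_eq_self]
      rw [h2, Bool.not_false, add_comm]
    · have h2 : Function.update e k true = e := by rw [← h, Function.update_eq_self]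
      rw [h2, Bool.not_true]
  rw [Finset.sum_congr rfl fun e _ => h1 e, Finset.sum_add_distrib, two_mul]
  congr 1
  exact Equiv.sum_comp (hinv.toPerm fl) F

end Cs

section Main

variable {B : Type u} [CStarAlgebra B] {T : Set (B →ₗ[ℂ] ℂ)} {htr : ∀ τ ∈ T, IsTrace τ} {n : ℕ}

/-- The product of the projections away from the site `c.1`. -/
noncomputable def Qf (s : Fin n → B) (c : Fin n × (Fin n → Bool)) : B :=
  P (Function.update (fun j => pp (c.2 j) (s j)) c.1 1)

noncomputable def tt (s t : Fin n → B) (e : Fin n → Bool) (j : Fin n) : B :=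
  pp (e j) (t j) * pp (e j) (s j) * pp (e j) (t j)

variable {W : Fin n → StarSubalgebra ℂ B}
  (hW : ∀ i j, i ≠ j → ∀ a ∈ W i, ∀ b ∈ W j, Commute a b)

theorem update_mem {a : Fin n → B} (ha : ∀ j, a j ∈ W j) {k : Fin n} {y : B} (hy : y ∈ W k) :
    ∀ j, Function.update a k y j ∈ W j := by
  intro j
  rcases eq_or_ne j k with rfl | hjk
  · rw [Function.update_self]; exact hy
  · rw [Function.update_of_ne hjk]; exact ha j

include hW in
theorem comm_update {a : Fin n → B} (ha : ∀ j, a j ∈ W j) {k : Fin n} {z : B} (hz : z ∈ W k) :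
    Commute z (P (Function.update a k 1)) := by
  refine P_commute _ _ fun j => ?_
  rcases eq_or_ne j k with rfl | hjk
  · rw [Function.update_self]; exact Commute.one_right z
  · rw [Function.update_of_ne hjk]; exact hW k j hjk.symm z hz _ (ha j)

include hW in
theorem mul_update {a b : Fin n → B} (ha : ∀ j, a j ∈ W j) (hb : ∀ j, b j ∈ W j) (k : Fin n) :
    P (Function.update a k 1) * P (Function.update b k 1) =
      P (Function.update (fun j => a j * b j) k 1) := by
  rw [P_mul _ _ fun i j hij => hW i j hij _ (update_mem ha (one_mem _) i) _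
    (update_mem hb (one_mem _) j)]
  congr 1
  funext j
  rcases eq_or_ne j k with rfl | hjk
  · simp only [Function.update_self, one_mul]
  · simp only [Function.update_of_ne hjk]

theorem mk_update_congr {a b : Fin n → B} (k : Fin n)
    (h : ∀ j, Ideal.Quotient.mk (nullIdeal T htr) (a j) =
      Ideal.Quotient.mk (nullIdeal T htr) (b j)) :
    Ideal.Quotient.mk (nullIdeal T htr) (P (Function.update a k 1)) =
      Ideal.Quotient.mk (nullIdeal T htr) (P (Function.update b k 1)) := by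
  rw [P_map, P_map]
  congr 1
  funext j
  rcases eq_or_ne j k with rfl | hjk
  · simp only [Function.update_self]
  · simp only [Function.update_of_ne hjk, h]

theorem tt_mem {s t : Fin n → B} (hs : ∀ j, s j ∈ W j) (ht : ∀ j, t j ∈ W j)
    (e : Fin n → Bool) (j : Fin n) : tt s t e j ∈ W j :=
  mul_mem (mul_mem (pp_mem (ht j) _) (pp_mem (hs j) _)) (pp_mem (ht j) _)

include hW in
theorem mk_QQ {s t : Fin n → B} (hs : ∀ j, IsSeed T htr (s j)) (hsW : ∀ j, s j ∈ W j)
    (htW : ∀ j, t j ∈ W j) (c : Fin n × (Fin n → Bool)) :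
    Ideal.Quotient.mk (nullIdeal T htr) (Qf t c * Qf s c * (Qf s c * Qf t c)) =
      Ideal.Quotient.mk (nullIdeal T htr) (P (Function.update (tt s t c.2) c.1 1)) := by
  have m1 : ∀ j, pp (c.2 j) (s j) ∈ W j := fun j => pp_mem (hsW j) _
  have m2 : ∀ j, pp (c.2 j) (t j) ∈ W j := fun j => pp_mem (htW j) _
  unfold Qf
  rw [mul_update hW m2 m1, mul_update hW m1 m2,
    mul_update hW (fun j => mul_mem (m2 j) (m1 j)) (fun j => mul_mem (m1 j) (m2 j))]
  refine mk_update_congr _ fun j => ?_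
  show _ = Ideal.Quotient.mk (nullIdeal T htr)
    (pp (c.2 j) (t j) * pp (c.2 j) (s j) * pp (c.2 j) (t j))
  have e1 : pp (c.2 j) (t j) * pp (c.2 j) (s j) * (pp (c.2 j) (s j) * pp (c.2 j) (t j)) =
      pp (c.2 j) (t j) * (pp (c.2 j) (s j) * pp (c.2 j) (s j)) * pp (c.2 j) (t j) := by
    simp only [mul_assoc]
  rw [e1, map_mul, map_mul, pp_mk (hs j), ← map_mul, ← map_mul]

theorem P_mem {S : StarSubalgebra ℂ B} {a : Fin n → B} (ha : ∀ j, a j ∈ S) : P a ∈ S :=
  P_induction (fun x => x ∈ S) (one_mem S) (fun _ _ h1 h2 => mul_mem h1 h2) a ha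

theorem P_update_mem {S : StarSubalgebra ℂ B} {a : Fin n → B} (ha : ∀ j, a j ∈ S) (k : Fin n)
    {y : B} (hy : y ∈ S) : P (Function.update a k y) ∈ S := by
  refine P_mem fun j => ?_
  rcases eq_or_ne j k with rfl | hjk
  · rw [Function.update_self]; exact hy
  · rw [Function.update_of_ne hjk]; exact ha j

theorem Qf_mem {S : StarSubalgebra ℂ B} {s : Fin n → B} (hs : ∀ j, s j ∈ S)
    (c : Fin n × (Fin n → Bool)) : Qf s c ∈ S :=
  P_update_mem (fun j => pp_mem (hs j) _) _ (one_mem S)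

include hW in
theorem Qf_sa {s : Fin n → B} (hs : ∀ j, IsSeed T htr (s j)) (hsW : ∀ j, s j ∈ W j)
    (c : Fin n × (Fin n → Bool)) : star (Qf s c) = Qf s c := by
  let _ := CStarAlgebra.spectralOrder B
  have _ := CStarAlgebra.spectralOrderedRing B
  have h : 0 ≤ Qf s c := by
    refine P_nonneg _ (fun j => ?_) fun i j hij => ?_
    · rcases eq_or_ne j c.1 with h | h
      · rw [h, Function.update_self]; exact zero_le_one
      · rw [Function.update_of_ne h]; exact pp_nonneg (hs j) _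
    · exact hW i j hij _ (update_mem (fun j => pp_mem (hsW j) _) (one_mem _) i) _
        (update_mem (fun j => pp_mem (hsW j) _) (one_mem _) j)
  exact (IsSelfAdjoint.of_nonneg h).star_eq

include hW in
theorem key_trace {S : StarSubalgebra ℂ B} {R : Fin n × (Fin n → Bool) → B}
    (hR : Labels T htr S R) {s t : Fin n → B} (hs : ∀ j, IsSeed T htr (s j))
    (ht : ∀ j, IsSeed T htr (t j)) (hsW : ∀ j, s j ∈ W j)
    (htW : ∀ j, t j ∈ W j) (hWS : ∀ j, W j ≤ S) {X : Fin n → B} (hX : ∀ k, X k ∈ W k)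
    {b : B} (hb : b ∈ S) {τ : B →ₗ[ℂ] ℂ} (hτ : τ ∈ T) :
    τ (b * (star (cs R (Qf s) * cs R (Qf t) * cs R fun c => X c.1) *
      (cs R (Qf s) * cs R (Qf t) * cs R fun c => X c.1))) =
    (∑ c : Fin n × (Fin n → Bool), τ (b * P (Function.update (tt s t c.2) c.1 1) *
      (star (X c.1) * X c.1))) / Fintype.card (Fin n × (Fin n → Bool)) := by
  have hsS : ∀ j, s j ∈ S := fun j => hWS j (hsW j)
  have htS : ∀ j, t j ∈ S := fun j => hWS j (htW j)
  have hXS : ∀ j, X j ∈ S := fun j => hWS j (hX j)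
  have hQs : ∀ c, Qf s c ∈ S := Qf_mem hsS
  have hQt : ∀ c, Qf t c ∈ S := Qf_mem htS
  have e1 : star (cs R (Qf s) * cs R (Qf t) * cs R fun c => X c.1) =
      (cs R fun c => star (X c.1)) * (cs R (Qf t) * cs R (Qf s)) := by
    rw [star_mul, star_mul, star_cs hR hQs, star_cs hR hQt, star_cs hR fun c => hXS c.1]
    simp only [Qf_sa hW hs hsW, Qf_sa hW ht htW]
  have e2 : Ideal.Quotient.mk (nullIdeal T htr)
      (star (cs R (Qf s) * cs R (Qf t) * cs R fun c => X c.1) *
        (cs R (Qf s) * cs R (Qf t) * cs R fun c => X c.1)) =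
      Ideal.Quotient.mk (nullIdeal T htr) (cs R fun c =>
        P (Function.update (tt s t c.2) c.1 1) * (star (X c.1) * X c.1)) := by
    have f1 := mk_cs_mul hR hQt (Qf s)
    have f2 := mk_cs_mul hR hQs (Qf t)
    have f3 := mk_cs_mul hR (a := fun c => star (X c.1)) (fun c => star_mem (hXS c.1))
      (fun c => Qf t c * Qf s c)
    have f4 := mk_cs_mul hR (a := fun c => Qf s c * Qf t c)
      (fun c => mul_mem (hQs c) (hQt c)) (fun c => X c.1)
    have f5 := mk_cs_mul hR (a := fun c => star (X c.1) * (Qf t c * Qf s c))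
      (fun c => mul_mem (star_mem (hXS c.1)) (mul_mem (hQt c) (hQs c)))
      (fun c => Qf s c * Qf t c * X c.1)
    have g1 : Ideal.Quotient.mk (nullIdeal T htr)
        ((cs R fun c => star (X c.1)) * (cs R (Qf t) * cs R (Qf s))) =
        Ideal.Quotient.mk (nullIdeal T htr)
          (cs R fun c => star (X c.1) * (Qf t c * Qf s c)) := by
      rw [map_mul, f1, ← map_mul, f3]
    have g2 : Ideal.Quotient.mk (nullIdeal T htr)
        (cs R (Qf s) * cs R (Qf t) * cs R fun c => X c.1) =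
        Ideal.Quotient.mk (nullIdeal T htr) (cs R fun c => Qf s c * Qf t c * X c.1) := by
      rw [map_mul, f2, ← map_mul, f4]
    rw [e1, map_mul, g1, g2, ← map_mul, f5]
    refine mk_cs_congr _ _ fun c => ?_
    have c1 : Commute (star (X c.1)) (Qf t c * Qf s c * (Qf s c * Qf t c)) := by
      have c2 : Commute (star (X c.1)) (Qf t c) :=
        comm_update hW (fun j => pp_mem (htW j) _) (star_mem (hX c.1))
      have c3 : Commute (star (X c.1)) (Qf s c) :=
        comm_update hW (fun j => pp_mem (hsW j) _) (star_mem (hX c.1))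
      exact (c2.mul_right c3).mul_right (c3.mul_right c2)
    have e3 : star (X c.1) * (Qf t c * Qf s c) * (Qf s c * Qf t c * X c.1) =
        Qf t c * Qf s c * (Qf s c * Qf t c) * (star (X c.1) * X c.1) := by
      calc star (X c.1) * (Qf t c * Qf s c) * (Qf s c * Qf t c * X c.1) =
          star (X c.1) * (Qf t c * Qf s c * (Qf s c * Qf t c)) * X c.1 := by
            simp only [mul_assoc]
        _ = _ := by
          rw [c1.eq]
          simp only [mul_assoc]
    rw [e3, map_mul, mk_QQ hW hs hsW htW, ← map_mul]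
  have e4 : τ (b * (star (cs R (Qf s) * cs R (Qf t) * cs R fun c => X c.1) *
      (cs R (Qf s) * cs R (Qf t) * cs R fun c => X c.1))) =
      τ (b * (cs R fun c => P (Function.update (tt s t c.2) c.1 1) *
        (star (X c.1) * X c.1))) := by
    refine trace_congr (htr := htr) ?_ hτ
    rw [map_mul, e2, ← map_mul]
  rw [e4, trace_cs hR (fun c => ?_) hb hτ]
  · simp only [mul_assoc]
  · exact mul_mem (P_update_mem (fun j => hWS j (tt_mem hsW htW _ j)) _ (one_mem S))
      (mul_mem (star_mem (hXS _)) (hXS _))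

/-- The error at one label. -/
noncomputable def err (τ : B →ₗ[ℂ] ℂ) (b : B) (s t : Fin n → B) (k : Fin n)
    (e : Fin n → Bool) : ℂ :=
  τ (b * P (Function.update (tt s t e) k (pp (e k) (t k) - tt s t e k)))

include hW in
theorem key_site {s t : Fin n → B} (hs : ∀ j, IsSeed T htr (s j))
    (ht : ∀ j, IsSeed T htr (t j)) (hsW : ∀ j, s j ∈ W j)
    (htW : ∀ j, t j ∈ W j) {b : B} (hbW : ∀ j, ∀ a ∈ W j, Commute b a)
    {τ : B →ₗ[ℂ] ℂ} (hτ : τ ∈ T) (c : Fin n × (Fin n → Bool)) {x : B}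
    (hx : x = s c.1 - t c.1 ∨ x = star (s c.1) - star (t c.1)) :
    τ (b * P (Function.update (tt s t c.2) c.1 1) * (star x * x)) =
      ∑ ε, 2 * err τ b s t c.1 (Function.update c.2 c.1 ε) := by
  obtain ⟨k, e⟩ := c
  simp only at hx ⊢
  obtain ⟨y, hy⟩ : ∃ y, y = b * P (Function.update (tt s t e) k 1) := ⟨_, rfl⟩
  have hyc : ∀ z ∈ W k, Commute y z := by
    intro z hz
    rw [hy]
    exact (hbW k z hz).mul_left (comm_update hW (tt_mem hsW htW e) hz).symm
  have h1 := site (hs k) (ht k) hτ (hyc _ (hsW k)) (hyc _ (star_mem (hsW k)))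
    (hyc _ (htW k)) (hyc _ (star_mem (htW k)))
  have h2 : τ (y * (star x * x)) =
      ∑ ε, 2 * τ (y * (pp ε (t k) - pp ε (t k) * pp ε (s k) * pp ε (t k))) := by
    rcases hx with rfl | rfl
    · exact h1.1
    · exact h1.2
  rw [← hy, h2]
  refine Finset.sum_congr rfl fun ε _ => ?_
  congr 1
  unfold err
  obtain ⟨z, hz⟩ : ∃ z, z = pp ε (t k) - pp ε (t k) * pp ε (s k) * pp ε (t k) := ⟨_, rfl⟩
  have hzW : z ∈ W k := by
    rw [hz]
    exact sub_mem (pp_mem (htW k) _)
      (mul_mem (mul_mem (pp_mem (htW k) _) (pp_mem (hsW k) _)) (pp_mem (htW k) _))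
  have h3 : Function.update (tt s t (Function.update e k ε)) k
      (pp (Function.update e k ε k) (t k) - tt s t (Function.update e k ε) k) =
      Function.update (tt s t e) k z := by
    funext j
    rcases eq_or_ne j k with rfl | hjk
    · rw [Function.update_self, Function.update_self, hz]
      unfold tt
      simp only [Function.update_self]
    · rw [Function.update_of_ne hjk, Function.update_of_ne hjk]
      unfold tt
      simp only [Function.update_of_ne hjk]
  rw [h3, ← hz, hy, mul_assoc, P_update _ k z fun j hj =>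
    hW k j hj.symm z hzW _ (tt_mem hsW htW e j)]
  rw [(comm_update hW (tt_mem hsW htW e) hzW).eq]

theorem trace_P {τ : B →ₗ[ℂ] ℂ} {n : ℕ} {W : Fin n → StarSubalgebra ℂ B}
    (hW : ∀ i j, i ≠ j → ∀ a ∈ W i, ∀ b ∈ W j, Commute a b) {a : Fin n → B}
    (ha : ∀ j, a j ∈ W j) (w : Fin n → ℂ)
    (h : ∀ j y, (∀ z ∈ W j, Commute y z) → τ (y * a j) = w j * τ y) (y : B)
    (hy : ∀ j, ∀ z ∈ W j, Commute y z) : τ (y * P a) = (∏ j, w j) * τ y := by
  induction n generalizing y with
  | zero => simp [P_zero]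
  | succ n ih =>
    have hs : ∀ {i j : Fin n}, i ≠ j → i.succ ≠ j.succ :=
      fun hij h => hij (Fin.succ_injective _ h)
    rw [P_succ, ← mul_assoc, Fin.prod_univ_succ,
      ih (W := fun j => W j.succ) (fun i j hij => hW _ _ (hs hij)) (fun j => ha j.succ)
        (fun j => w j.succ) (fun j => h j.succ) (y * a 0) (fun j z hz =>
          (hy _ z hz).mul_left (hW _ _ (Fin.succ_ne_zero j).symm _ (ha 0) z hz)),
      h 0 y (hy 0)]
    ring

include hW in
/-- The sum of the errors at the sites, for a fixed choice of the projections. -/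
theorem sum_err_le [PartialOrder B] [StarOrderedRing B] {s t : Fin n → B}
    (hs : ∀ j, IsSeed T htr (s j))
    (ht : ∀ j, IsSeed T htr (t j)) (hsW : ∀ j, s j ∈ W j)
    (htW : ∀ j, t j ∈ W j) {b : B} (hb : 0 ≤ b) (hbW : ∀ j, ∀ a ∈ W j, Commute b a)
    {τ : B →ₗ[ℂ] ℂ} (hτ : τ ∈ T) (e : Fin n → Bool) :
    (∑ k, err τ b s t k e).re ≤ (2 : ℝ)⁻¹ ^ n * (τ b).re := by
  have hpW : ∀ j, pp (e j) (t j) ∈ W j := fun j => pp_mem (htW j) _
  have httW := tt_mem hsW htW e
  have h0 : ∀ j, 0 ≤ tt s t e j := fun j => conj_nonneg (pp_nonneg (hs j) _) (pp_nonneg (ht j) _)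
  have h1 : ∀ j, tt s t e j ≤ pp (e j) (t j) := fun j =>
    conj_le (pp_le_one (hs j) _) (pp_nonneg (ht j) _) (pp_le_one (ht j) _)
  have h2 := P_sum_update_le (tt s t e) (fun j => pp (e j) (t j)) h0 h1
    (fun i j hij => hW i j hij _ (httW i) _ (httW j))
    (fun i j hij => hW i j hij _ (httW i) _ (hpW j))
    (fun i j hij => hW i j hij _ (hpW i) _ (hpW j))
  have hbP : ∀ a : Fin n → B, (∀ j, a j ∈ W j) → Commute b (P a) := fun a ha =>
    P_commute _ _ fun j => hbW j _ (ha j)
  have h3 : 0 ≤ b * (P (fun j => pp (e j) (t j)) -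
      (∑ k, P (Function.update (tt s t e) k (pp (e k) (t k) - tt s t e k)) +
        P (tt s t e))) := by
    refine Commute.mul_nonneg hb (sub_nonneg.2 h2) ?_
    refine (hbP _ hpW).sub_right ((Commute.sum_right _ _ _ fun k _ => hbP _ ?_).add_right
      (hbP _ httW))
    exact update_mem httW (sub_mem (hpW k) (httW k))
  have h4 : 0 ≤ b * P (tt s t e) :=
    Commute.mul_nonneg hb (P_nonneg _ h0 fun i j hij => hW i j hij _ (httW i) _ (httW j))
      (hbP _ httW)
  have h5 := (Complex.nonneg_iff.1 (trace_nonneg (htr τ hτ) h3)).1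
  have h6 := (Complex.nonneg_iff.1 (trace_nonneg (htr τ hτ) h4)).1
  have h7 : τ (b * P (fun j => pp (e j) (t j))) = (2 : ℂ)⁻¹ ^ n * τ b := by
    rw [trace_P hW hpW (fun _ => 2⁻¹) (fun j y hy => trace_pp (ht j) _ hτ (hy _ (htW j))
      (hy _ (star_mem (htW j)))) b hbW]
    simp
  have h8 : ((2 : ℂ)⁻¹ ^ n * τ b).re = (2 : ℝ)⁻¹ ^ n * (τ b).re := by
    have : (2 : ℂ)⁻¹ ^ n = (((2 : ℝ)⁻¹ ^ n : ℝ) : ℂ) := by push_cast; rfl
    rw [this, Complex.re_ofReal_mul]
  rw [mul_sub, mul_add, Finset.mul_sum, map_sub, map_add, map_sum, h7, Complex.sub_re,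
    Complex.add_re, h8] at h5
  have h9 : ∑ k, err τ b s t k e =
      ∑ k, τ (b * P (Function.update (tt s t e) k (pp (e k) (t k) - tt s t e k))) := rfl
  rw [h9]
  linarith

include hW in
/-- The key estimate. -/
theorem key_le {S : StarSubalgebra ℂ B} {R : Fin n × (Fin n → Bool) → B}
    (hR : Labels T htr S R) {s t : Fin n → B} (hs : ∀ j, IsSeed T htr (s j))
    (ht : ∀ j, IsSeed T htr (t j)) (hsW : ∀ j, s j ∈ W j)
    (htW : ∀ j, t j ∈ W j) (hWS : ∀ j, W j ≤ S) {X : Fin n → B}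
    (hX : (X = fun k => s k - t k) ∨ X = fun k => star (s k) - star (t k))
    {b : B} (hb : b ∈ S) (hb0 : ∃ y, b = star y * y) (hbW : ∀ j, ∀ a ∈ W j, Commute b a)
    {τ : B →ₗ[ℂ] ℂ} (hτ : τ ∈ T) :
    (τ (b * (star (cs R (Qf s) * cs R (Qf t) * cs R fun c => X c.1) *
      (cs R (Qf s) * cs R (Qf t) * cs R fun c => X c.1)))).re ≤
    4 / (n * 2 ^ n) * (τ b).re := by
  let _ := CStarAlgebra.spectralOrder B
  have _ := CStarAlgebra.spectralOrderedRing B
  have hb0' : 0 ≤ b := CStarAlgebra.nonneg_iff_eq_star_mul_self.2 hb0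
  have hXW : ∀ k, X k ∈ W k := by
    intro k
    rcases hX with rfl | rfl
    · exact sub_mem (hsW k) (htW k)
    · exact sub_mem (star_mem (hsW k)) (star_mem (htW k))
  rw [key_trace hW hR hs ht hsW htW hWS hXW hb hτ]
  have h1 : ∀ c : Fin n × (Fin n → Bool),
      τ (b * P (Function.update (tt s t c.2) c.1 1) * (star (X c.1) * X c.1)) =
      ∑ ε, 2 * err τ b s t c.1 (Function.update c.2 c.1 ε) := by
    intro c
    refine key_site hW hs ht hsW htW hbW hτ c ?_
    rcases hX with rfl | rfl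
    · exact Or.inl rfl
    · exact Or.inr rfl
  rw [Finset.sum_congr rfl fun c _ => h1 c, Fintype.sum_prod_type]
  have h2 : ∑ k : Fin n, ∑ e : Fin n → Bool, ∑ ε, 2 * err τ b s t k (Function.update e k ε) =
      4 * ∑ e : Fin n → Bool, ∑ k, err τ b s t k e := by
    rw [Finset.sum_comm (s := (Finset.univ : Finset (Fin n → Bool))), Finset.mul_sum]
    refine Finset.sum_congr rfl fun k _ => ?_
    have h3 := bool_sum k fun e => err τ b s t k e
    simp only [← Finset.mul_sum]
    rw [h3]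
    ring
  rw [h2]
  have hcard : (Fintype.card (Fin n × (Fin n → Bool)) : ℂ) = ((n * 2 ^ n : ℝ) : ℂ) := by
    simp
  rw [hcard]
  have h4 : (4 * ∑ e : Fin n → Bool, ∑ k, err τ b s t k e) / ((n * 2 ^ n : ℝ) : ℂ) =
      ((4 / (n * 2 ^ n) : ℝ) : ℂ) * ∑ e : Fin n → Bool, ∑ k, err τ b s t k e := by
    push_cast
    ring
  rw [h4, Complex.re_ofReal_mul]
  refine mul_le_mul_of_nonneg_left ?_ (by positivity)
  rw [Complex.re_sum]
  calc ∑ e : Fin n → Bool, (∑ k, err τ b s t k e).re ≤
      ∑ _e : Fin n → Bool, (2 : ℝ)⁻¹ ^ n * (τ b).re :=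
        Finset.sum_le_sum fun e _ => sum_err_le hW hs ht hsW htW hb0' hbW hτ e
    _ = (τ b).re := by
        rw [Finset.sum_const, Finset.card_univ]
        simp only [Fintype.card_pi, Fintype.card_bool, Finset.prod_const, Finset.card_univ,
          Fintype.card_fin, nsmul_eq_mul]
        push_cast
        rw [← mul_assoc, ← mul_pow]
        norm_num

end Main

end KeyAux

end Vale.Agent.P095
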