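import Vale.Agent.P095.LimTrace
import Vale.Agent.P095.TraceAux
import Vale.Agent.P101.Assembly

/-!
# P095: the central sequence algebra of a `Z`-stable algebra has a seed
-/

open Filter Topology TopologicalSpace
open scoped BoundedContinuousFunction ComplexOrder Kronecker

namespace Vale.Agent.P095

open Vale.Agent.P101

universe u v w

namespace Seed

section DimDrop

variable {p q : ℕ}

/-- `t ↦ f t • (x ⊗ 1)` for `f 1 = 0`. -/
noncomputable def lft (f : C(unitInterval, ℂ)) (hf : f 1 = 0) (x : Matrix (Fin p) (Fin p) ℂ) :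
    DimDrop p q :=
  ⟨⟨fun t => f t • (x ⊗ₖ (1 : Matrix (Fin q) (Fin q) ℂ)), f.continuous.smul continuous_const⟩,
    mem_dimDrop_iff.2 ⟨⟨f 0 • x, by
      show f 0 • (x ⊗ₖ (1 : Matrix (Fin q) (Fin q) ℂ)) = _
      rw [Matrix.smul_kronecker]⟩, ⟨0, by
      show f 1 • (x ⊗ₖ (1 : Matrix (Fin q) (Fin q) ℂ)) = _
      rw [hf, zero_smul, Matrix.kronecker_zero]⟩⟩⟩

/-- `t ↦ f t • (1 ⊗ x)` for `f 0 = 0`. -/
noncomputable def rgt (f : C(unitInterval, ℂ)) (hf : f 0 = 0) (x : Matrix (Fin q) (Fin q) ℂ) :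
    DimDrop p q :=
  ⟨⟨fun t => f t • ((1 : Matrix (Fin p) (Fin p) ℂ) ⊗ₖ x), f.continuous.smul continuous_const⟩,
    mem_dimDrop_iff.2 ⟨⟨0, by
      show f 0 • ((1 : Matrix (Fin p) (Fin p) ℂ) ⊗ₖ x) = _
      rw [hf, zero_smul, Matrix.zero_kronecker]⟩, ⟨f 1 • x, by
      show f 1 • ((1 : Matrix (Fin p) (Fin p) ℂ) ⊗ₖ x) = _
      rw [Matrix.kronecker_smul]⟩⟩⟩

/-- An abstract statement: a map `L` with the properties of `lft` at two functions is killed by
characters. -/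
theorem char_eq_zero {D : Type*} [Ring D] [Algebra ℂ D] (χ : D →ₐ[ℂ] ℂ) {n : ℕ}
    (L L' : Matrix (Fin n) (Fin n) ℂ →ₗ[ℂ] D) (h : ∀ x y, L x * L y = L' (x * y))
    (σ : Fin n → Fin n) (hσ : ∀ i, σ i ≠ i) : χ (L 1) = 0 := by
  have h1 : ∀ i j, i ≠ j → χ (L (Matrix.single i j 1)) = 0 := by
    intro i j hij
    have : χ (L (Matrix.single i j 1)) * χ (L (Matrix.single i j 1)) = 0 := by
      rw [← map_mul, h, Matrix.single_mul_single_of_ne _ _ _ _ hij.symm, map_zero, map_zero]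
    exact mul_self_eq_zero.1 this
  have h2 : χ (L 1) * χ (L 1) = 0 := by
    have e : (1 : Matrix (Fin n) (Fin n) ℂ) = ∑ i, Matrix.single i i 1 := by
      ext a b
      rw [Matrix.sum_apply]
      rw [Finset.sum_eq_single a]
      · rw [Matrix.one_apply, Matrix.single_apply]
        by_cases hab : a = b <;> simp [hab]
      · intro i _ hi
        rw [Matrix.single_apply_of_row_ne hi]
      · intro ha
        exact absurd (Finset.mem_univ a) ha
    rw [← map_mul, h, one_mul, e, map_sum, map_sum]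
    refine Finset.sum_eq_zero fun i _ => ?_
    have h3 : L' (Matrix.single i i 1) = L (Matrix.single i (σ i) 1) * L (Matrix.single (σ i) i 1) := by
      rw [h, Matrix.single_mul_single_same, mul_one]
    rw [h3, map_mul, h1 i (σ i) (hσ i).symm, zero_mul]
  exact mul_self_eq_zero.1 h2

/-- The functions `t` and `1 - t`. -/
noncomputable def f1 : C(unitInterval, ℂ) := ⟨fun t => ((t : ℝ) : ℂ), by fun_prop⟩

noncomputable def f0 : C(unitInterval, ℂ) := 1 - f1

theorem f1_zero : f1 0 = 0 := by simp [f1]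

theorem f0_one : f0 1 = 0 := by simp [f0, f1]

noncomputable def lftL (f : C(unitInterval, ℂ)) (hf : f 1 = 0) :
    Matrix (Fin p) (Fin p) ℂ →ₗ[ℂ] DimDrop p q where
  toFun := lft f hf
  map_add' x y := by
    apply Subtype.ext
    ext1 t
    show f t • ((x + y) ⊗ₖ (1 : Matrix (Fin q) (Fin q) ℂ)) = f t • (x ⊗ₖ 1) + f t • (y ⊗ₖ 1)
    rw [Matrix.add_kronecker, smul_add]
  map_smul' c x := by
    apply Subtype.ext
    ext1 t
    show f t • ((c • x) ⊗ₖ (1 : Matrix (Fin q) (Fin q) ℂ)) = c • (f t • (x ⊗ₖ 1))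
    rw [Matrix.smul_kronecker, smul_comm]

noncomputable def rgtL (f : C(unitInterval, ℂ)) (hf : f 0 = 0) :
    Matrix (Fin q) (Fin q) ℂ →ₗ[ℂ] DimDrop p q where
  toFun := rgt f hf
  map_add' x y := by
    apply Subtype.ext
    ext1 t
    show f t • ((1 : Matrix (Fin p) (Fin p) ℂ) ⊗ₖ (x + y)) = f t • (1 ⊗ₖ x) + f t • (1 ⊗ₖ y)
    rw [Matrix.kronecker_add, smul_add]
  map_smul' c x := by
    apply Subtype.ext
    ext1 t
    show f t • ((1 : Matrix (Fin p) (Fin p) ℂ) ⊗ₖ (c • x)) = c • (f t • (1 ⊗ₖ x))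
    rw [Matrix.kronecker_smul, smul_comm]

/-- Dimension drop algebras of sizes at least two have no characters. -/
theorem isEmpty_char_dimDrop : IsEmpty (DimDrop 2 3 →⋆ₐ[ℂ] ℂ) := by
  refine ⟨fun χ => ?_⟩
  have h0 : (χ : DimDrop 2 3 →ₐ[ℂ] ℂ) (lftL (p := 2) (q := 3) f0 f0_one 1) = 0 := by
    refine char_eq_zero (χ : DimDrop 2 3 →ₐ[ℂ] ℂ) (lftL f0 f0_one)
      (lftL (f0 * f0) (by rw [ContinuousMap.mul_apply, f0_one, zero_mul])) ?_ (fun i => i + 1) ?_
    · intro x y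
      apply Subtype.ext
      ext1 t
      show (f0 t • (x ⊗ₖ (1 : Matrix (Fin 3) (Fin 3) ℂ))) * (f0 t • (y ⊗ₖ 1)) =
        (f0 t * f0 t) • ((x * y) ⊗ₖ 1)
      rw [smul_mul_smul_comm, ← Matrix.mul_kronecker_mul, one_mul]
    · decide
  have h1 : (χ : DimDrop 2 3 →ₐ[ℂ] ℂ) (rgtL (p := 2) (q := 3) f1 f1_zero 1) = 0 := by
    refine char_eq_zero (χ : DimDrop 2 3 →ₐ[ℂ] ℂ) (rgtL f1 f1_zero)
      (rgtL (f1 * f1) (by rw [ContinuousMap.mul_apply, f1_zero, zero_mul])) ?_ (fun i => i + 1) ?_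
    · intro x y
      apply Subtype.ext
      ext1 t
      show (f1 t • ((1 : Matrix (Fin 2) (Fin 2) ℂ) ⊗ₖ x)) * (f1 t • (1 ⊗ₖ y)) =
        (f1 t * f1 t) • (1 ⊗ₖ (x * y))
      rw [smul_mul_smul_comm, ← Matrix.mul_kronecker_mul, one_mul]
    · decide
  have e : lftL (p := 2) (q := 3) f0 f0_one 1 + rgtL (p := 2) (q := 3) f1 f1_zero 1 = 1 := by
    apply Subtype.ext
    ext1 t
    show f0 t • ((1 : Matrix (Fin 2) (Fin 2) ℂ) ⊗ₖ (1 : Matrix (Fin 3) (Fin 3) ℂ)) +
      f1 t • ((1 : Matrix (Fin 2) (Fin 2) ℂ) ⊗ₖ (1 : Matrix (Fin 3) (Fin 3) ℂ)) = 1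
    rw [← add_smul, Matrix.one_kronecker_one]
    have : f0 t + f1 t = 1 := by simp [f0]
    rw [this, one_smul]
  have h2 : (χ : DimDrop 2 3 →ₐ[ℂ] ℂ) 1 = 0 := by
    rw [← e, map_add, h0, h1, add_zero]
  rw [map_one] at h2
  exact one_ne_zero h2

theorem isEmpty_char {B : Type*} [CStarAlgebra B] (φ : DimDrop 2 3 →⋆ₐ[ℂ] B) :
    IsEmpty (B →⋆ₐ[ℂ] ℂ) :=
  ⟨fun χ => isEmpty_char_dimDrop.false (χ.comp φ)⟩

end DimDrop

section OZ

variable {B : Type*} [CStarAlgebra B] [PartialOrder B] [StarOrderedRing B]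

theorem sum_ab {M : Type*} [AddCommMonoid M] {m : ℕ} (g : Fin (m + m) → M) :
    ∑ a, g a = ∑ i : Fin m, g (Fin.castAdd m i) + ∑ i : Fin m, g (Fin.natAdd m i) :=
  Fin.sum_univ_add g

variable {m : ℕ} {ψ : Fin (m + m) → Fin (m + m) → B}

/-- The element `∑ i, ψ i (i + m)`. -/
noncomputable def vv (ψ : Fin (m + m) → Fin (m + m) → B) : B :=
  ∑ i : Fin m, ψ (Fin.castAdd m i) (Fin.natAdd m i)

theorem ne_ab (i j : Fin m) : Fin.natAdd m i ≠ Fin.castAdd m j := by
  intro h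
  have := congrArg Fin.val h
  simp at this
  omega

omit [StarOrderedRing B] in
theorem vv_mul_vv (h : IsOZ ψ) : vv ψ * vv ψ = 0 := by
  rw [vv, Finset.sum_mul_sum]
  refine Finset.sum_eq_zero fun i _ => Finset.sum_eq_zero fun j _ => ?_
  rw [h.mul_apply, if_neg (ne_ab i j)]

omit [StarOrderedRing B] in
theorem star_vv (h : IsOZ ψ) : star (vv ψ) = ∑ i : Fin m, ψ (Fin.natAdd m i) (Fin.castAdd m i) := by
  rw [vv, star_sum]
  exact Finset.sum_congr rfl fun i _ => h.star_apply _ _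

theorem vv_sum (h : IsOZ ψ) :
    star (vv ψ) * vv ψ + vv ψ * star (vv ψ) = (∑ a, ψ a a) * ∑ a, ψ a a := by
  have h1 : star (vv ψ) * vv ψ = (∑ a, ψ a a) * ∑ i : Fin m, ψ (Fin.natAdd m i) (Fin.natAdd m i) := by
    rw [star_vv h, vv, Finset.sum_mul_sum, Finset.mul_sum]
    refine Finset.sum_congr rfl fun i _ => ?_
    rw [Finset.sum_eq_single i]
    · rw [h.mul_apply, if_pos rfl]
    · intro j _ hj
      rw [h.mul_apply, if_neg]
      intro h2
      exact hj (Fin.castAdd_injective m m h2).symm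
    · intro hi
      exact absurd (Finset.mem_univ i) hi
  have h2 : vv ψ * star (vv ψ) = (∑ a, ψ a a) * ∑ i : Fin m, ψ (Fin.castAdd m i) (Fin.castAdd m i) := by
    rw [star_vv h, vv, Finset.sum_mul_sum, Finset.mul_sum]
    refine Finset.sum_congr rfl fun i _ => ?_
    rw [Finset.sum_eq_single i]
    · rw [h.mul_apply, if_pos rfl]
    · intro j _ hj
      rw [h.mul_apply, if_neg]
      intro h2
      exact hj (Fin.natAdd_injective m m h2).symm
    · intro hi
      exact absurd (Finset.mem_univ i) hi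
  rw [h1, h2, ← mul_add, sum_ab (fun a => ψ a a)]
  congr 1
  exact add_comm _ _

theorem tsq_le_one (h : IsOZ ψ) : (∑ a, ψ a a) * (∑ a, ψ a a) ≤ 1 := by
  set T := ∑ a, ψ a a with hT
  have h1 : ‖T‖ ≤ 1 := (CStarAlgebra.norm_le_one_iff_of_nonneg T h.nonneg).2 h.le_one
  have hsa : IsSelfAdjoint T := h.nonneg.isSelfAdjoint
  have h2 : 0 ≤ T * T := by
    have := star_mul_self_nonneg T
    rwa [hsa.star_eq] at this
  refine (CStarAlgebra.norm_le_one_iff_of_nonneg (T * T) h2).1 ?_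
  calc ‖T * T‖ ≤ ‖T‖ * ‖T‖ := norm_mul_le _ _
    _ ≤ 1 := by nlinarith [norm_nonneg T]

theorem norm_vv_le (h : IsOZ ψ) : ‖vv ψ‖ ≤ 1 := by
  have h1 : star (vv ψ) * vv ψ ≤ 1 := by
    refine le_trans ?_ (tsq_le_one h)
    rw [← vv_sum h]
    exact le_add_of_nonneg_right (mul_star_self_nonneg (vv ψ))
  have h2 : ‖star (vv ψ) * vv ψ‖ ≤ 1 :=
    (CStarAlgebra.norm_le_one_iff_of_nonneg _ (star_mul_self_nonneg (vv ψ))).2 h1
  rw [CStarRing.norm_star_mul_self] at h2
  nlinarith [norm_nonneg (vv ψ)]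

/-- The trace bound. -/
theorem trace_bound {N : ℕ} {ψ : Fin (N + 1) → Fin (N + 1) → B} (h : IsOZ ψ) {s : B}
    (hs : star s * s = 1 - ∑ a, ψ a a) (hs' : ψ 0 0 * s = s) {τ : B →ₗ[ℂ] ℂ} (hτ : IsTrace τ) :
    ((N : ℝ) + 1) * (τ (1 - ∑ a, ψ a a)).re ≤ 1 := by
  set T := ∑ a, ψ a a with hT
  have hTsa : IsSelfAdjoint T := h.nonneg.isSelfAdjoint
  have hnn : ∀ x, 0 ≤ τ (star x * x) := hτ.nonneg
  have h1 : (τ (1 - T)).re ≤ (τ (T * ψ 0 0)).re := by
    have hs1 : ‖star s‖ ≤ 1 := by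
      rw [norm_star]
      have h2 : star s * s ≤ 1 := by
        rw [hs]
        exact sub_le_self 1 h.nonneg
      have h3 : ‖star s * s‖ ≤ 1 :=
        (CStarAlgebra.norm_le_one_iff_of_nonneg _ (star_mul_self_nonneg s)).2 h2
      rw [CStarRing.norm_star_mul_self] at h3
      nlinarith [norm_nonneg s]
    have h4 := sq_mul_le hnn hs1 (ψ 0 0)
    have h5 : star s * ψ 0 0 = star s := by
      have := congrArg star hs'
      rwa [star_mul, h.star_apply] at this
    rw [h5, sq, sq, star_star, ← hτ.trace, hs, h.star_apply, h.mul_apply, if_pos rfl] at h4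
    exact h4
  have h2 : ∀ a, τ (T * ψ a a) = τ (T * ψ 0 0) := by
    intro a
    have e1 : T * ψ a a = ψ a 0 * ψ 0 a := by rw [h.mul_apply, if_pos rfl]
    have e2 : T * ψ 0 0 = ψ 0 a * ψ a 0 := by rw [h.mul_apply, if_pos rfl]
    rw [e1, e2, hτ.trace]
  have h3 : (τ (T * T)).re = ((N : ℝ) + 1) * (τ (T * ψ 0 0)).re := by
    have : T * T = ∑ a, T * ψ a a := by
      rw [← Finset.mul_sum]
    rw [this, map_sum, Finset.sum_congr rfl fun a _ => h2 a, Finset.sum_const, Finset.card_univ,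
      Fintype.card_fin, nsmul_eq_mul]
    have : ((N + 1 : ℕ) : ℂ) = (((N : ℝ) + 1 : ℝ) : ℂ) := by push_cast; ring
    rw [this, Complex.re_ofReal_mul]
  have h4 : (τ (T * T)).re ≤ 1 := by
    have hT1 : ‖T‖ ≤ 1 := (CStarAlgebra.norm_le_one_iff_of_nonneg T h.nonneg).2 h.le_one
    have h5 := sq_le_one hnn hT1
    rw [sq_sa hTsa, hτ.map_one] at h5
    simpa using h5
  have hN : (0 : ℝ) ≤ (N : ℝ) + 1 := by positivity
  calc ((N : ℝ) + 1) * (τ (1 - T)).re ≤ ((N : ℝ) + 1) * (τ (T * ψ 0 0)).re :=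
        mul_le_mul_of_nonneg_left h1 hN
    _ ≤ 1 := by rw [← h3]; exact h4

/-- The defect bound. -/
theorem defect_bound {T : B} (hT0 : 0 ≤ T) (hT1 : T ≤ 1) {τ : B →ₗ[ℂ] ℂ} (hτ : IsTrace τ) :
    (τ (star (1 - T * T) * (1 - T * T))).re ≤ 2 * (τ (1 - T)).re := by
  have hTsa : IsSelfAdjoint T := hT0.isSelfAdjoint
  have hnn : ∀ x, 0 ≤ τ (star x * x) := hτ.nonneg
  have hr : IsSelfAdjoint (1 - T * T) := by
    refine (IsSelfAdjoint.one B).sub ?_
    rw [IsSelfAdjoint, star_mul, hTsa.star_eq]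
  have h0 : 0 ≤ 1 - T * T := by
    have h1 : ‖T‖ ≤ 1 := (CStarAlgebra.norm_le_one_iff_of_nonneg T hT0).2 hT1
    have h2 : 0 ≤ T * T := by
      have := star_mul_self_nonneg T
      rwa [hTsa.star_eq] at this
    refine sub_nonneg.2 ((CStarAlgebra.norm_le_one_iff_of_nonneg (T * T) h2).1 ?_)
    calc ‖T * T‖ ≤ ‖T‖ * ‖T‖ := norm_mul_le _ _
      _ ≤ 1 := by nlinarith [norm_nonneg T]
  have h1 : 0 ≤ T * (1 - T * T) * T := by
    have := star_left_conjugate_nonneg h0 T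
    rwa [hTsa.star_eq] at this
  have h2 : star (1 - T * T) * (1 - T * T) ≤ 1 - T * T := by
    rw [hr.star_eq, ← sub_nonneg]
    have : 1 - T * T - (1 - T * T) * (1 - T * T) = T * (1 - T * T) * T := by noncomm_ring
    rw [this]
    exact h1
  have h3 : 1 - T * T ≤ (1 - T) + (1 - T) := by
    rw [← sub_nonneg]
    have h4 : (1 - T) + (1 - T) - (1 - T * T) = star (1 - T) * (1 - T) := by
      rw [star_sub, star_one, hTsa.star_eq]
      noncomm_ring
    rw [h4]
    exact star_mul_self_nonneg _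
  have h5 := IsPosTrace.re_mono hnn (h2.trans h3)
  rw [map_add, Complex.add_re] at h5
  linarith

end OZ

/-- Approximate seeds. -/
theorem exists_approx_seed {B : Type*} [CStarAlgebra B] (hcc : HasCommutingCopies B)
    (hchar : IsEmpty (B →⋆ₐ[ℂ] ℂ)) (k : ℕ) :
    ∃ v : B, ‖v‖ ≤ 1 ∧ v * v = 0 ∧ ∀ τ : B →ₗ[ℂ] ℂ, IsTrace τ →
      ((k : ℝ) + 1) * (τ (star (1 - star v * v - v * star v) * (1 - star v * v - v * star v))).re
        ≤ 1 := by
  let _ := CStarAlgebra.spectralOrder B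
  have _ := CStarAlgebra.spectralOrderedRing B
  obtain ⟨ψ, s, hψ, hs, hs'⟩ := exists_small_defect hcc (exists_orthogonal_full hcc hchar)
    ((k + 1) + k)
  let ψ' : Fin ((k + 1) + (k + 1)) → Fin ((k + 1) + (k + 1)) → B := ψ
  have hψ' : IsOZ ψ' := hψ
  refine ⟨vv ψ', norm_vv_le hψ', vv_mul_vv hψ', fun τ hτ => ?_⟩
  have h1 := trace_bound hψ hs hs' hτ
  have h2 := defect_bound hψ.nonneg hψ.le_one hτ
  have e : 1 - star (vv ψ') * vv ψ' - vv ψ' * star (vv ψ') =
      1 - (∑ a, ψ a a) * ∑ a, ψ a a := by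
    rw [sub_sub, vv_sum hψ']
    rfl
  rw [e]
  have h3 : (((k + 1 + k : ℕ) : ℝ) + 1) = 2 * ((k : ℝ) + 1) := by push_cast; ring
  rw [h3] at h1
  have hk : (0 : ℝ) ≤ (k : ℝ) + 1 := by positivity
  nlinarith [mul_le_mul_of_nonneg_left h2 hk]

end Seed

theorem hasSeed_centralSeq {A : Type u} [CStarAlgebra A] {ω : Ultrafilter ℕ}
    (hω : (ω : Filter ℕ) ≤ cofinite) [SeparableSpace A]
    (h : ∀ p q : ℕ, 0 < p → 0 < q → Nat.Coprime p q →
      Nonempty (DimDrop p q →⋆ₐ[ℂ] centralSeq ω A)) : HasSeed (nullSet ω A) := by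
  classical
  obtain ⟨φ⟩ := h 2 3 (by norm_num) (by norm_num) (by decide)
  have hchar : IsEmpty (centralSeq ω A →⋆ₐ[ℂ] ℂ) := Seed.isEmpty_char φ
  have hcc : HasCommutingCopies (centralSeq ω A) := hasCommutingCopies_centralSeq hω
  obtain ⟨a, ha⟩ := exists_dense_seq A
  have hX : Nonempty {x : A // ‖x‖ ≤ 1} := ⟨⟨0, by rw [norm_zero]; exact zero_le_one⟩⟩
  let f : Bool ⊕ ℕ → (n : ℕ) → {x : A // ‖x‖ ≤ 1} → ℝ := fun k _ x =>
    match k with
    | Sum.inl true => ‖x.1 * x.1‖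
    | Sum.inl false => trSup (1 - star x.1 * x.1 - x.1 * star x.1)
    | Sum.inr j => ‖a j * x.1 - x.1 * a j‖
  obtain ⟨x, hx⟩ := eps_test_countable (X := fun _ => {x : A // ‖x‖ ≤ 1}) (ω : Filter ℕ) hω f (by
    rintro ((_ | _) | j) n x
    · exact trSup_nonneg _
    · exact norm_nonneg _
    · exact norm_nonneg _) (by
    intro F ε hε
    obtain ⟨k, hk⟩ := exists_nat_one_div_lt (show (0 : ℝ) < ε / 4 by positivity)
    obtain ⟨v, hv1, hv2, hv3⟩ := Seed.exists_approx_seed hcc hchar k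
    obtain ⟨y, hy, hyn⟩ := Ultra.exists_rep (v : Ultra ω A)
    have hyn1 : ∀ n, ‖y n‖ ≤ 1 := fun n => (hyn n).trans hv1
    refine ⟨fun n => ⟨y n, hyn1 n⟩, ?_⟩
    rintro ((_ | _) | j) -
    · -- the trace condition
      set R : centralSeq ω A := 1 - star v * v - v * star v with hR
      have hRy : Ultra.mk ω (star (1 - star y * y - y * star y) * (1 - star y * y - y * star y)) =
          ((star R * R : centralSeq ω A) : Ultra ω A) := by
        rw [map_mul, map_star, map_sub, map_sub, map_one, map_mul, map_mul, map_star, hy]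
        rfl
      have hle : ∀ τ ∈ limTraces ω A, ‖τ (star R * R)‖ ≤ ε / 4 := by
        intro τ hτ
        have hτ' := isTrace_of_mem_limTraces hτ
        have h1 := hv3 τ hτ'
        rw [apply_eq_sq hτ'.nonneg, Complex.norm_real, Real.norm_eq_abs,
          abs_of_nonneg (sq_nonneg' hτ'.nonneg R)]
        have hk1 : (0 : ℝ) < (k : ℝ) + 1 := by positivity
        have h2 : sq τ R ≤ 1 / ((k : ℝ) + 1) := by
          rw [le_div_iff₀ hk1, mul_comm]
          exact h1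
        exact h2.trans hk.le
      have h3 := eventually_of_limTraces (star R * R) _ hRy (ε / 4) (ε / 4) (by positivity) hle
      filter_upwards [h3] with n hn
      show trSup (1 - star (y n) * y n - y n * star (y n)) < ε
      refine (trSup_le_iff (c := ε / 2) (by positivity) fun τ hτ => ?_).trans_lt (by linarith)
      have h4 := hn τ hτ
      have h5 : (τ (star (1 - star (y n) * y n - y n * star (y n)) *
          (1 - star (y n) * y n - y n * star (y n)))).re ≤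
          ‖τ (star (1 - star (y n) * y n - y n * star (y n)) *
          (1 - star (y n) * y n - y n * star (y n)))‖ := Complex.re_le_norm _
      refine h5.trans (le_trans ?_ (show ε / 4 + ε / 4 ≤ ε / 2 by linarith))
      exact h4
    · have h1 : Tendsto (fun n => ‖(y * y) n‖) ω (𝓝 0) := by
        rw [← Ultra.mk_eq_zero_iff, map_mul, hy]
        have := congrArg (Subtype.val : centralSeq ω A → Ultra ω A) hv2
        exact this
      exact h1.eventually (gt_mem_nhds hε)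
    · have h1 : Ultra.mk ω y ∈ centralSeq ω A := by
        rw [hy]
        exact v.2
      have h2 := mk_mem_centralSeq_iff.1 h1 (a j)
      exact h2.eventually (gt_mem_nhds hε))
  let y : ℕ →ᵇ A := BoundedContinuousFunction.ofNormedAddCommGroupDiscrete (fun n => (x n).1) 1
    (fun n => (x n).2)
  have hyx : ∀ n, y n = (x n).1 := fun n => rfl
  have hcentral : Ultra.mk ω y ∈ centralSeq ω A := by
    rw [mem_centralSeq_iff]
    have hcl : IsClosed {b : A | Commute (Ultra.diag ω b) (Ultra.mk ω y)} := by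
      have hc : Continuous (Ultra.diag ω : A → Ultra ω A) :=
        AddMonoidHomClass.continuous_of_bound (Ultra.diag ω) 1
          (fun b => by rw [one_mul, Ultra.norm_diag])
      exact isClosed_eq (hc.mul continuous_const) (continuous_const.mul hc)
    intro b
    have h1 : closure (Set.range a) ⊆ {b : A | Commute (Ultra.diag ω b) (Ultra.mk ω y)} := by
      apply closure_minimal _ hcl
      rintro _ ⟨j, rfl⟩
      show Commute (Ultra.diag ω (a j)) (Ultra.mk ω y)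
      rw [commute_iff_eq, Ultra.diag_apply, ← map_mul, ← map_mul,
        Ultra.mk_eq_mk_iff]
      exact hx (Sum.inr j)
    exact h1 (ha.closure_range ▸ Set.mem_univ b)
  refine ⟨⟨Ultra.mk ω y, hcentral⟩, ?_, ?_, ?_⟩
  · show ‖Ultra.mk ω y‖ ≤ 1
    exact Ultra.norm_mk_le_of_eventually (Eventually.of_forall fun n => (x n).2)
  · apply Subtype.ext
    show Ultra.mk ω y * Ultra.mk ω y = 0
    rw [← map_mul, Ultra.mk_eq_zero_iff]
    exact hx (Sum.inl true)
  · rw [mem_nullSet_iff (y := 1 - star y * y - y * star y) (by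
      rw [map_sub, map_sub, map_one, map_mul, map_mul, map_star]
      rfl)]
    exact hx (Sum.inl false)

end Vale.Agent.P095
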