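import Vale.Agent.P095.TDefs
import Mathlib.Analysis.SpecialFunctions.ContinuousFunctionalCalculus.Rpow.Order

/-!
# P095: the abstract Powers-Størmer type estimate (for row B2b)
-/

open scoped ComplexOrder

namespace Vale.Agent.P095

namespace MatEst

set_option linter.unusedSectionVars false

variable {𝓜 : Type*} [CStarAlgebra 𝓜] [PartialOrder 𝓜] [StarOrderedRing 𝓜]

theorem exists_star_mul_self {a : 𝓜} (ha : 0 ≤ a) : ∃ y : 𝓜, a = star y * y :=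
  CStarAlgebra.nonneg_iff_eq_star_mul_self.mp ha

theorem re_nonneg {Φ : 𝓜 →ₗ[ℂ] ℂ} (hΦ : IsPosTrace Φ) {a : 𝓜} (ha : 0 ≤ a) : 0 ≤ (Φ a).re := by
  obtain ⟨y, rfl⟩ := exists_star_mul_self ha
  exact (Complex.le_def.mp (hΦ.nonneg y)).1

theorem re_mono {Φ : 𝓜 →ₗ[ℂ] ℂ} (hΦ : IsPosTrace Φ) {a b : 𝓜} (hab : a ≤ b) :
    (Φ a).re ≤ (Φ b).re := by
  have h := re_nonneg hΦ (sub_nonneg.mpr hab)
  rw [map_sub, Complex.sub_re] at h
  linarith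

/-- For a selfadjoint `h` with `‖h‖ ≤ c`, `|Φ h| ≤ c Φ 1`. -/
theorem abs_re_le {Φ : 𝓜 →ₗ[ℂ] ℂ} (hΦ : IsPosTrace Φ) {h : 𝓜} (hh : IsSelfAdjoint h) {c : ℝ}
    (hc : ‖h‖ ≤ c) : |(Φ h).re| ≤ c * (Φ 1).re := by
  have h1 : 0 ≤ (Φ 1).re := by
    have := re_nonneg hΦ (zero_le_one (α := 𝓜))
    exact this
  have e : ∀ r : ℝ, (Φ (algebraMap ℝ 𝓜 r)).re = r * (Φ 1).re := by
    intro r
    have : algebraMap ℝ 𝓜 r = ((r : ℂ)) • (1 : 𝓜) := by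
      rw [Algebra.algebraMap_eq_smul_one, ← Complex.coe_smul]
    rw [this, map_smul, smul_eq_mul, Complex.mul_re]
    simp
  have h2 := re_mono hΦ (IsSelfAdjoint.le_algebraMap_norm_self (a := h) hh)
  have h3 := re_mono hΦ (IsSelfAdjoint.neg_algebraMap_norm_le_self (a := h) hh)
  rw [e] at h2
  rw [map_neg, Complex.neg_re, e] at h3
  have h4 : ‖h‖ * (Φ 1).re ≤ c * (Φ 1).re := mul_le_mul_of_nonneg_right hc h1
  rw [abs_le]
  constructor <;> linarith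

/-- A selfadjoint square is at most the square of a norm bound. -/
theorem re_sq_le {Φ : 𝓜 →ₗ[ℂ] ℂ} (hΦ : IsPosTrace Φ) {h : 𝓜} (hh : IsSelfAdjoint h) {c : ℝ}
    (hc : ‖h‖ ≤ c) : (Φ (h * h)).re ≤ c ^ 2 * (Φ 1).re := by
  have hsa : IsSelfAdjoint (h * h) := by
    rw [IsSelfAdjoint, star_mul, hh.star_eq]
  have hn : ‖h * h‖ ≤ c ^ 2 := by
    calc ‖h * h‖ ≤ ‖h‖ * ‖h‖ := norm_mul_le _ _
      _ ≤ c * c := by
          have := norm_nonneg h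
          exact mul_le_mul hc hc this (this.trans hc)
      _ = c ^ 2 := by ring
  exact (le_abs_self _).trans (abs_re_le hΦ hsa hn)

theorem re_sq_nonneg {Φ : 𝓜 →ₗ[ℂ] ℂ} (hΦ : IsPosTrace Φ) {h : 𝓜} (hh : IsSelfAdjoint h) :
    0 ≤ (Φ (h * h)).re := by
  have := (Complex.le_def.mp (hΦ.nonneg h)).1
  rwa [hh.star_eq] at this

/-- `(a+b)² ≤ 2a² + 2b²`. -/
theorem re_add_sq_le {Φ : 𝓜 →ₗ[ℂ] ℂ} (hΦ : IsPosTrace Φ) {a b : 𝓜} (ha : IsSelfAdjoint a)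
    (hb : IsSelfAdjoint b) :
    (Φ ((a + b) * (a + b))).re ≤ 2 * (Φ (a * a)).re + 2 * (Φ (b * b)).re := by
  have h := re_sq_nonneg hΦ (ha.sub hb)
  have e : (Φ ((a + b) * (a + b))).re + (Φ ((a - b) * (a - b))).re
      = 2 * (Φ (a * a)).re + 2 * (Φ (b * b)).re := by
    have : (a + b) * (a + b) + (a - b) * (a - b) = a * a + a * a + (b * b + b * b) := by
      noncomm_ring
    rw [← Complex.add_re, ← map_add, this]
    simp only [map_add, Complex.add_re]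
    ring
  linarith

/-- Powers-Størmer: for `0 ≤ S₀ ≤ S`, `Φ((√S - √S₀)²) ≤ Φ(S - S₀)`. -/
theorem powers_stormer {Φ : 𝓜 →ₗ[ℂ] ℂ} (hΦ : IsPosTrace Φ) {S₀ S : 𝓜} (h0 : 0 ≤ S₀)
    (hS : S₀ ≤ S) :
    (Φ ((CFC.sqrt S - CFC.sqrt S₀) * (CFC.sqrt S - CFC.sqrt S₀))).re ≤
      (Φ S).re - (Φ S₀).re := by
  set A := CFC.sqrt S with hA
  set B := CFC.sqrt S₀ with hB
  have hSn : 0 ≤ S := h0.trans hS
  have eA : A * A = S := CFC.sqrt_mul_sqrt_self S hSn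
  have eB : B * B = S₀ := CFC.sqrt_mul_sqrt_self S₀ h0
  have hBn : 0 ≤ B := CFC.sqrt_nonneg S₀
  have hAB : B ≤ A := CFC.sqrt_le_sqrt _ _ hS
  set b := CFC.sqrt B with hb
  have hbn : 0 ≤ b := CFC.sqrt_nonneg B
  have eb : b * b = B := CFC.sqrt_mul_sqrt_self B hBn
  have hbs : IsSelfAdjoint b := IsSelfAdjoint.of_nonneg hbn
  have hpos : 0 ≤ b * (A - B) * b := by
    have := conjugate_nonneg_of_nonneg (sub_nonneg.mpr hAB) hbn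
    simpa [mul_assoc] using this
  have h1 : 0 ≤ (Φ (B * (A - B))).re := by
    have h2 := re_nonneg hΦ hpos
    have h3 : Φ (b * (A - B) * b) = Φ (B * (A - B)) := by
      rw [hΦ.trace (b * (A - B)) b, ← mul_assoc, eb]
    rwa [h3] at h2
  have e1 : (Φ ((A - B) * (A - B))).re
      = (Φ (A * A)).re - (Φ (A * B)).re - (Φ (B * A)).re + (Φ (B * B)).re := by
    have : (A - B) * (A - B) = A * A - A * B - B * A + B * B := by noncomm_ring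
    rw [this]
    simp only [map_add, map_sub, Complex.add_re, Complex.sub_re]
  have e2 : Φ (A * B) = Φ (B * A) := hΦ.trace A B
  have e3 : (Φ (B * (A - B))).re = (Φ (B * A)).re - (Φ (B * B)).re := by
    rw [mul_sub, map_sub, Complex.sub_re]
  rw [e1, e2, eA, eB]
  rw [e3, eB] at h1
  linarith

/-- the polynomial `p(S)`. -/
noncomputable def polyS (M : ℕ) (p : ℕ → ℝ) (S : 𝓜) : 𝓜 :=
  ∑ m ∈ Finset.Icc 1 M, ((p m : ℝ) : ℂ) • S ^ m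

theorem polyS_eq_cfc (M : ℕ) (p : ℕ → ℝ) {S : 𝓜} (hS : IsSelfAdjoint S) :
    polyS M p S = cfc (fun t : ℝ => ∑ m ∈ Finset.Icc 1 M, p m * t ^ m) S := by
  unfold polyS
  have e : (fun t : ℝ => ∑ m ∈ Finset.Icc 1 M, p m * t ^ m)
      = ∑ m ∈ Finset.Icc 1 M, fun t : ℝ => p m * t ^ m := by
    ext t
    simp
  rw [e, cfc_sum (R := ℝ) (fun m t => p m * t ^ m) S (Finset.Icc 1 M) (by fun_prop)]
  refine Finset.sum_congr rfl fun m _ => ?_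
  rw [cfc_const_mul (p m) (fun t : ℝ => t ^ m) S (by fun_prop), cfc_pow_id S m]
  rw [Complex.coe_smul]

theorem spectrum_mem {S : 𝓜} (h0 : 0 ≤ S) (h1 : S ≤ 1) {t : ℝ} (ht : t ∈ spectrum ℝ S) :
    t ∈ Set.Icc (0 : ℝ) 1 := by
  refine ⟨spectrum_nonneg_of_nonneg h0 ht, ?_⟩
  have := (le_algebraMap_iff_spectrum_le (R := ℝ) (a := S) (r := 1)
    (ha := IsSelfAdjoint.of_nonneg h0)).mp (by simpa using h1)
  exact this t ht

theorem norm_poly_sub_sqrt {M : ℕ} {p : ℕ → ℝ} {η : ℝ} (hη : 0 ≤ η)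
    (hp : ∀ t ∈ Set.Icc (0 : ℝ) 1, |∑ m ∈ Finset.Icc 1 M, p m * t ^ m - √t| ≤ η)
    {S : 𝓜} (h0 : 0 ≤ S) (h1 : S ≤ 1) : ‖polyS M p S - CFC.sqrt S‖ ≤ η := by
  have hS : IsSelfAdjoint S := IsSelfAdjoint.of_nonneg h0
  rw [polyS_eq_cfc M p hS, CFC.sqrt_eq_real_sqrt S h0, cfcₙ_eq_cfc, ← cfc_sub _ _ S]
  refine norm_cfc_le hη fun t ht => ?_
  rw [Real.norm_eq_abs]
  exact hp t (spectrum_mem h0 h1 ht)

theorem norm_poly_sq_sub {M : ℕ} {p : ℕ → ℝ} {η : ℝ} (hη : 0 ≤ η) (hη1 : η ≤ 1)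
    (hp : ∀ t ∈ Set.Icc (0 : ℝ) 1, |∑ m ∈ Finset.Icc 1 M, p m * t ^ m - √t| ≤ η)
    {S : 𝓜} (h0 : 0 ≤ S) (h1 : S ≤ 1) : ‖polyS M p S * polyS M p S - S‖ ≤ 3 * η := by
  have hS : IsSelfAdjoint S := IsSelfAdjoint.of_nonneg h0
  have key : polyS M p S * polyS M p S - S = cfc (fun t : ℝ =>
      (∑ m ∈ Finset.Icc 1 M, p m * t ^ m) * (∑ m ∈ Finset.Icc 1 M, p m * t ^ m) - t) S := by
    rw [cfc_sub _ _ S, cfc_mul _ _ S, cfc_id' ℝ S, polyS_eq_cfc M p hS]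
  rw [key]
  refine norm_cfc_le (by positivity) fun t ht => ?_
  obtain ⟨ht0, ht1⟩ := spectrum_mem h0 h1 ht
  have h2 := hp t ⟨ht0, ht1⟩
  set P := ∑ m ∈ Finset.Icc 1 M, p m * t ^ m with hP
  have hs := Real.mul_self_sqrt ht0
  have hs0 := Real.sqrt_nonneg t
  have hs1 : √t ≤ 1 := Real.sqrt_le_one.mpr ht1
  rw [Real.norm_eq_abs]
  have e : P * P - t = (P - √t) * (P - √t) + 2 * √t * (P - √t) := by
    linear_combination hs
  rw [e]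
  have h3 : |(P - √t) * (P - √t)| ≤ η := by
    rw [abs_mul]
    calc |P - √t| * |P - √t| ≤ η * 1 := mul_le_mul h2 (h2.trans hη1) (abs_nonneg _) hη
      _ = η := mul_one _
  have h4 : |2 * √t * (P - √t)| ≤ 2 * η := by
    rw [abs_mul, abs_of_nonneg (by positivity)]
    have : 2 * √t ≤ 2 := by linarith
    exact mul_le_mul this h2 (abs_nonneg _) (by norm_num)
  calc _ ≤ |(P - √t) * (P - √t)| + |2 * √t * (P - √t)| := abs_add_le _ _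
    _ ≤ 3 * η := by linarith

theorem polyS_sa (M : ℕ) (p : ℕ → ℝ) {S : 𝓜} (hS : IsSelfAdjoint S) :
    IsSelfAdjoint (polyS M p S) := by
  rw [polyS_eq_cfc M p hS]
  exact cfc_predicate _ _

/-- The abstract form of both parts. -/
theorem poly_main1 {Φ : 𝓜 →ₗ[ℂ] ℂ} (hΦ : IsPosTrace Φ) {M : ℕ} {p : ℕ → ℝ} {η : ℝ}
    (hη : 0 ≤ η) (hη1 : η ≤ 1)
    (hp : ∀ t ∈ Set.Icc (0 : ℝ) 1, |∑ m ∈ Finset.Icc 1 M, p m * t ^ m - √t| ≤ η)
    {S : 𝓜} (h0 : 0 ≤ S) (h1 : S ≤ 1) :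
    |(Φ (polyS M p S * polyS M p S)).re - (Φ S).re| ≤ 3 * η * (Φ 1).re := by
  have hS : IsSelfAdjoint S := IsSelfAdjoint.of_nonneg h0
  have hP := polyS_sa M p hS
  rw [← Complex.sub_re, ← map_sub]
  refine abs_re_le hΦ ?_ (norm_poly_sq_sub hη hη1 hp h0 h1)
  refine IsSelfAdjoint.sub ?_ hS
  rw [IsSelfAdjoint, star_mul, hP.star_eq]

theorem sqrt_diff {Φ : 𝓜 →ₗ[ℂ] ℂ} (hΦ : IsPosTrace Φ) {S₀ S S' : 𝓜} (h0 : 0 ≤ S₀)
    (hS : S₀ ≤ S) (hS' : S₀ ≤ S') :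
    (Φ ((CFC.sqrt S - CFC.sqrt S') * (CFC.sqrt S - CFC.sqrt S'))).re ≤
      2 * ((Φ S).re - (Φ S₀).re) + 2 * ((Φ S').re - (Φ S₀).re) := by
  have sA : ∀ X : 𝓜, IsSelfAdjoint (CFC.sqrt X) := fun X =>
    IsSelfAdjoint.of_nonneg (CFC.sqrt_nonneg X)
  have h := re_add_sq_le hΦ ((sA S).sub (sA S₀)) ((sA S₀).sub (sA S'))
  have e : CFC.sqrt S - CFC.sqrt S₀ + (CFC.sqrt S₀ - CFC.sqrt S')
      = CFC.sqrt S - CFC.sqrt S' := by abel
  rw [e] at h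
  have h1 := powers_stormer hΦ h0 hS
  have h2 := powers_stormer hΦ h0 hS'
  have e2 : (CFC.sqrt S₀ - CFC.sqrt S') * (CFC.sqrt S₀ - CFC.sqrt S')
      = (CFC.sqrt S' - CFC.sqrt S₀) * (CFC.sqrt S' - CFC.sqrt S₀) := by noncomm_ring
  rw [e2] at h
  linarith

theorem poly_main2 {Φ : 𝓜 →ₗ[ℂ] ℂ} (hΦ : IsPosTrace Φ) {M : ℕ} {p : ℕ → ℝ} {η : ℝ}
    (hη : 0 ≤ η)
    (hp : ∀ t ∈ Set.Icc (0 : ℝ) 1, |∑ m ∈ Finset.Icc 1 M, p m * t ^ m - √t| ≤ η)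
    {S₀ S S' : 𝓜} (h0 : 0 ≤ S₀) (hS : S₀ ≤ S) (hS' : S₀ ≤ S') (h1 : S ≤ 1) (h1' : S' ≤ 1) :
    (Φ ((polyS M p S - polyS M p S') * (polyS M p S - polyS M p S'))).re ≤
      4 * ((Φ S).re - (Φ S₀).re) + 4 * ((Φ S').re - (Φ S₀).re) + 8 * η ^ 2 * (Φ 1).re := by
  have hSn := h0.trans hS
  have hSn' := h0.trans hS'
  have sS : IsSelfAdjoint S := IsSelfAdjoint.of_nonneg hSn
  have sS' : IsSelfAdjoint S' := IsSelfAdjoint.of_nonneg hSn'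
  have sA : ∀ X : 𝓜, IsSelfAdjoint (CFC.sqrt X) := fun X =>
    IsSelfAdjoint.of_nonneg (CFC.sqrt_nonneg X)
  have sE : IsSelfAdjoint (polyS M p S - CFC.sqrt S) := (polyS_sa M p sS).sub (sA S)
  have sE' : IsSelfAdjoint (CFC.sqrt S' - polyS M p S') := (sA S').sub (polyS_sa M p sS')
  have h2 := re_add_sq_le hΦ ((sA S).sub (sA S')) (sE.add sE')
  have e : CFC.sqrt S - CFC.sqrt S' + (polyS M p S - CFC.sqrt S + (CFC.sqrt S' - polyS M p S'))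
      = polyS M p S - polyS M p S' := by abel
  rw [e] at h2
  have h3 := re_add_sq_le hΦ sE sE'
  have h4 := sqrt_diff hΦ h0 hS hS'
  have h5 := re_sq_le hΦ sE (norm_poly_sub_sqrt hη hp hSn h1)
  have h6 := re_sq_le hΦ sE' (c := η) (by
    rw [← norm_neg, neg_sub]; exact norm_poly_sub_sqrt hη hp hSn' h1')
  linarith

/-! ### Algebraic identities -/

theorem pow_mul_eq {R : Type*} [Ring R] (c D : R) (m : ℕ) :
    (c * c * D) ^ m * c = c * (c * D * c) ^ m := by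
  induction m with
  | zero => simp
  | succ k ih =>
    rw [pow_succ', mul_assoc, ih, pow_succ' (c * D * c)]
    simp only [mul_assoc]

theorem trace_pow_eq {R : Type*} [CStarAlgebra R] {Φ : R →ₗ[ℂ] ℂ} (hΦ : IsPosTrace Φ)
    (c D D' : R) (m : ℕ) {m' : ℕ} (hm' : 1 ≤ m') :
    Φ ((c * c * D) ^ m * (c * c * D') ^ m') = Φ ((c * D * c) ^ m * (c * D' * c) ^ m') := by
  obtain ⟨k, rfl⟩ : ∃ k, m' = k + 1 := ⟨m' - 1, by omega⟩
  have e1 : (c * c * D) ^ m * (c * c * D') ^ (k + 1)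
      = c * ((c * D * c) ^ m * (c * D' * (c * c * D') ^ k)) := by
    rw [pow_succ' (c * c * D')]
    calc (c * c * D) ^ m * (c * c * D' * (c * c * D') ^ k)
        = ((c * c * D) ^ m * c) * (c * D' * (c * c * D') ^ k) := by simp only [mul_assoc]
      _ = c * ((c * D * c) ^ m * (c * D' * (c * c * D') ^ k)) := by
          rw [pow_mul_eq]; simp only [mul_assoc]
  rw [e1, hΦ.trace]
  congr 1
  calc (c * D * c) ^ m * (c * D' * (c * c * D') ^ k) * c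
      = (c * D * c) ^ m * (c * D' * ((c * c * D') ^ k * c)) := by simp only [mul_assoc]
    _ = (c * D * c) ^ m * (c * D' * c) ^ (k + 1) := by
        rw [pow_mul_eq, pow_succ' (c * D' * c)]; simp only [mul_assoc]

/-- the conjugate `√C D √C`. -/
noncomputable def sS (C D : 𝓜) : 𝓜 := CFC.sqrt C * D * CFC.sqrt C

theorem sS_nonneg (C : 𝓜) {D : 𝓜} (hD : 0 ≤ D) : 0 ≤ sS C D :=
  conjugate_nonneg_of_nonneg hD (CFC.sqrt_nonneg _)

theorem sS_mono (C : 𝓜) {D D' : 𝓜} (h : D ≤ D') : sS C D ≤ sS C D' := by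
  rw [← sub_nonneg]
  have e : sS C D' - sS C D = sS C (D' - D) := by
    unfold sS
    noncomm_ring
  rw [e]
  exact sS_nonneg C (sub_nonneg.mpr h)

theorem sS_le_one {C D E : 𝓜} (hC : 0 ≤ C) (hD : 0 ≤ D) (hE : IsSelfAdjoint E) (hEE : E * E = D)
    (hn : ‖E * C * E‖ ≤ 1) : sS C D ≤ 1 := by
  refine (CStarAlgebra.norm_le_one_iff_of_nonneg _ (sS_nonneg C hD)).mp ?_
  set c := CFC.sqrt C with hc
  have hcs : star c = c := (IsSelfAdjoint.of_nonneg (CFC.sqrt_nonneg _)).star_eq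
  have hcc : c * c = C := CFC.sqrt_mul_sqrt_self _ hC
  have e1 : sS C D = star (E * c) * (E * c) := by
    unfold sS
    rw [star_mul, hcs, hE.star_eq, ← hEE, ← hc]
    simp only [mul_assoc]
  have e2 : (E * c) * star (E * c) = E * C * E := by
    rw [star_mul, hcs, hE.star_eq, ← hcc]
    simp only [mul_assoc]
  rw [e1, CStarRing.norm_star_mul_self, ← CStarRing.norm_self_mul_star, e2]
  exact hn

theorem tr_sS {Φ : 𝓜 →ₗ[ℂ] ℂ} (hΦ : IsPosTrace Φ) {C : 𝓜} (hC : 0 ≤ C) (D : 𝓜) :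
    Φ (sS C D) = Φ (C * D) := by
  unfold sS
  rw [hΦ.trace, ← mul_assoc, CFC.sqrt_mul_sqrt_self _ hC]

/-- the quadratic expression. -/
noncomputable def qd (Φ : 𝓜 →ₗ[ℂ] ℂ) (M : ℕ) (p : ℕ → ℝ) (C D D' : 𝓜) : ℝ :=
  (∑ m ∈ Finset.Icc 1 M, ∑ m' ∈ Finset.Icc 1 M, ((p m * p m' : ℝ) : ℂ) *
    Φ ((C * D) ^ m * (C * D') ^ m')).re

theorem qd_eq {Φ : 𝓜 →ₗ[ℂ] ℂ} (hΦ : IsPosTrace Φ) (M : ℕ) (p : ℕ → ℝ) {C : 𝓜} (hC : 0 ≤ C)
    (D D' : 𝓜) :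
    qd Φ M p C D D' = (Φ (polyS M p (sS C D) * polyS M p (sS C D'))).re := by
  unfold qd polyS
  congr 1
  rw [Finset.sum_mul, map_sum]
  refine Finset.sum_congr rfl fun m _ => ?_
  rw [Finset.mul_sum, map_sum]
  refine Finset.sum_congr rfl fun m' hm' => ?_
  rw [smul_mul_smul_comm, map_smul, smul_eq_mul, Complex.ofReal_mul]
  congr 1
  have := trace_pow_eq hΦ (CFC.sqrt C) D D' m (m' := m') (Finset.mem_Icc.mp hm').1
  rw [CFC.sqrt_mul_sqrt_self _ hC] at this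
  exact this

theorem abs_main {Φ : 𝓜 →ₗ[ℂ] ℂ} (hΦ : IsPosTrace Φ) {M : ℕ} {p : ℕ → ℝ} {η : ℝ}
    (hη : 0 ≤ η) (hη1 : η ≤ 1)
    (hp : ∀ t ∈ Set.Icc (0 : ℝ) 1, |∑ m ∈ Finset.Icc 1 M, p m * t ^ m - √t| ≤ η)
    {C D D' D₀ E E' : 𝓜} (hC : 0 ≤ C) (h0 : 0 ≤ D₀) (hD : D₀ ≤ D) (hD' : D₀ ≤ D')
    (hE : IsSelfAdjoint E) (hEE : E * E = D) (hn : ‖E * C * E‖ ≤ 1)
    (hE' : IsSelfAdjoint E') (hEE' : E' * E' = D') (hn' : ‖E' * C * E'‖ ≤ 1) :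
    |qd Φ M p C D D - (Φ (C * D)).re| ≤ 3 * η * (Φ 1).re ∧
    qd Φ M p C D D - qd Φ M p C D D' - qd Φ M p C D' D + qd Φ M p C D' D' ≤
      4 * ((Φ (C * D)).re - (Φ (C * D₀)).re) + 4 * ((Φ (C * D')).re - (Φ (C * D₀)).re)
        + 8 * η ^ 2 * (Φ 1).re := by
  have h1 := sS_le_one hC (h0.trans hD) hE hEE hn
  have h1' := sS_le_one hC (h0.trans hD') hE' hEE' hn'
  constructor
  · have := poly_main1 hΦ hη hη1 hp (sS_nonneg C (h0.trans hD)) h1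
    rw [qd_eq hΦ M p hC, ← tr_sS hΦ hC]
    exact this
  · have := poly_main2 hΦ hη hp (sS_nonneg C h0) (sS_mono C hD) (sS_mono C hD') h1 h1'
    rw [tr_sS hΦ hC, tr_sS hΦ hC, tr_sS hΦ hC] at this
    refine le_trans (le_of_eq ?_) this
    simp only [qd_eq hΦ M p hC]
    rw [← Complex.sub_re, ← Complex.sub_re, ← Complex.add_re, ← map_sub, ← map_sub, ← map_add]
    congr 2
    noncomm_ring

end MatEst

end Vale.Agent.P095
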