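import Mathlib

/-!
# P095: two auxiliary lemmas for the combinatorial second moment
-/

namespace Vale.Agent.P095.MomAux

/-! ### Counting functions with prescribed coincidences -/

theorem card_fixed {X : Type*} [Fintype X] [DecidableEq X] (N : ℕ) (S : Finset X) (r : X → X) :
    (Finset.univ.filter (fun f : X → Fin N => ∀ s ∈ S, r s ∉ S ∧ f s = f (r s))).card ≤
      N ^ (Fintype.card X - S.card) := by
  classical
  have h1 : Fintype.card ({x // x ∉ S} → Fin N) = N ^ (Fintype.card X - S.card) := by
    rw [Fintype.card_fun, Fintype.card_fin, Fintype.card_subtype_compl, Fintype.card_coe]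
  rw [← h1, ← Finset.card_univ]
  apply Finset.card_le_card_of_injOn (fun f x => f x.1) (fun _ _ => Finset.mem_univ _)
  intro f hf g hg hfg
  rw [Finset.mem_coe, Finset.mem_filter] at hf hg
  have h2 : ∀ x, x ∉ S → f x = g x := fun x hx => congrFun hfg ⟨x, hx⟩
  funext x
  by_cases hx : x ∈ S
  · rw [(hf.2 x hx).2, (hg.2 x hx).2]
    exact h2 _ (hf.2 x hx).1
  · exact h2 x hx

/-- The number of functions with at least `k` independent coincidences. -/
theorem card_coincidence {X : Type*} [Fintype X] [DecidableEq X] (N k : ℕ)
    (F : Finset (X → Fin N))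
    (hF : ∀ f ∈ F, ∃ (S : Finset X) (r : X → X), S.card = k ∧
      ∀ s ∈ S, r s ∉ S ∧ f s = f (r s)) :
    F.card ≤ 2 ^ Fintype.card X * Fintype.card X ^ Fintype.card X *
      N ^ (Fintype.card X - k) := by
  classical
  let I : Finset (Finset X × (X → X)) := Finset.univ.filter (fun p => p.1.card = k)
  have h1 : F ⊆ I.biUnion (fun p =>
      Finset.univ.filter (fun f : X → Fin N => ∀ s ∈ p.1, p.2 s ∉ p.1 ∧ f s = f (p.2 s))) := by
    intro f hf
    obtain ⟨S, r, hS, hr⟩ := hF f hf
    rw [Finset.mem_biUnion]
    exact ⟨(S, r), by simp [I, hS], by simpa using hr⟩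
  calc F.card ≤ _ := Finset.card_le_card h1
    _ ≤ ∑ p ∈ I, _ := Finset.card_biUnion_le
    _ ≤ ∑ p ∈ I, N ^ (Fintype.card X - k) := by
        refine Finset.sum_le_sum (fun p hp => ?_)
        have hp' : p.1.card = k := by simpa [I] using hp
        rw [← hp']
        exact card_fixed N p.1 p.2
    _ = I.card * N ^ (Fintype.card X - k) := by rw [Finset.sum_const, smul_eq_mul]
    _ ≤ _ := by
        apply Nat.mul_le_mul_right
        refine (Finset.card_filter_le _ _).trans ?_
        rw [Finset.card_univ, Fintype.card_prod, Fintype.card_finset, Fintype.card_fun]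

/-! ### Invariance of a trace under permutations -/

/-- If different tags commute and every tag occurs at most twice, a tracial functional of the
product does not depend on the order of the factors. -/
theorem trace_perm {K R κ : Type*} [Monoid K] [DecidableEq κ] (φ : K → R)
    (hφ : ∀ x y, φ (x * y) = φ (y * x)) {L L' : List (κ × K)} (h : L.Perm L') :
    ∀ p : List (κ × K),
      (∀ a ∈ p ++ L, ∀ b ∈ p ++ L, a.1 ≠ b.1 → Commute a.2 b.2) →
      (∀ i, ((p ++ L).map Prod.fst).count i ≤ 2) →
      φ ((p ++ L).map Prod.snd).prod = φ ((p ++ L').map Prod.snd).prod := by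
  induction h with
  | nil => intros; rfl
  | cons a h ih =>
    intro p h1 h2
    have := ih (p ++ [a])
    simp only [List.append_assoc, List.singleton_append] at this
    exact this h1 h2
  | @trans L₁ L₂ L₃ h12 h23 ih1 ih2 =>
    intro p h1 h2
    rw [ih1 p h1 h2]
    have hp : (p ++ L₁).Perm (p ++ L₂) := List.Perm.append_left p h12
    apply ih2 p
    · intro a ha b hb
      exact h1 a (hp.mem_iff.2 ha) b (hp.mem_iff.2 hb)
    · intro i
      rw [← (hp.map Prod.fst).count_eq]
      exact h2 i
  | swap a b l =>
    intro p h1 h2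
    simp only [List.map_append, List.map_cons, List.prod_append, List.prod_cons]
    by_cases hab : a.1 = b.1
    · -- all the others have a different tag
      have h3 : ∀ c ∈ p ++ l, c.1 ≠ a.1 := by
        intro c hc hca
        have h4 := h2 a.1
        have h5 : 0 < ((p ++ l).map Prod.fst).count a.1 := by
          rw [List.count_pos_iff]
          exact List.mem_map.2 ⟨c, hc, hca⟩
        simp only [List.map_append, List.count_append, List.map_cons, List.count_cons, beq_self_eq_true, if_true] at h4 h5
        rw [if_pos (by simpa using hab.symm)] at h4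
        omega
      have h6 : ∀ c ∈ p ++ l, Commute a.2 c.2 := by
        intro c hc
        refine h1 a (by simp) c ?_ (h3 c hc).symm
        rw [List.mem_append] at hc
        rcases hc with hc | hc
        · exact List.mem_append_left _ hc
        · exact List.mem_append_right _ (by simp [hc])
      have h7 : Commute a.2 ((l.map Prod.snd).prod * (p.map Prod.snd).prod) := by
        apply Commute.mul_right
        · apply Commute.list_prod_right
          intro x hx
          obtain ⟨c, hc, rfl⟩ := List.mem_map.1 hx
          exact h6 c (List.mem_append_right _ hc)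
        · apply Commute.list_prod_right
          intro x hx
          obtain ⟨c, hc, rfl⟩ := List.mem_map.1 hx
          exact h6 c (List.mem_append_left _ hc)
      set P := (p.map Prod.snd).prod
      set Q := (l.map Prod.snd).prod
      calc φ (P * (b.2 * (a.2 * Q))) = φ ((P * b.2) * (a.2 * Q)) := by rw [mul_assoc]
        _ = φ ((a.2 * Q) * (P * b.2)) := hφ _ _
        _ = φ ((a.2 * (Q * P)) * b.2) := by simp only [mul_assoc]
        _ = φ (((Q * P) * a.2) * b.2) := by rw [h7.eq]
        _ = φ (Q * (P * (a.2 * b.2))) := by simp only [mul_assoc]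
        _ = φ ((P * (a.2 * b.2)) * Q) := hφ _ _
        _ = _ := by simp only [mul_assoc]
    · have h8 : Commute b.2 a.2 := h1 b (by simp) a (by simp) (Ne.symm hab)
      rw [← mul_assoc b.2, h8.eq, mul_assoc a.2]

theorem trace_perm' {K R κ : Type*} [Monoid K] [DecidableEq κ] (φ : K → R)
    (hφ : ∀ x y, φ (x * y) = φ (y * x)) {L L' : List (κ × K)} (h : L.Perm L')
    (h1 : ∀ a ∈ L, ∀ b ∈ L, a.1 ≠ b.1 → Commute a.2 b.2)
    (h2 : ∀ i, (L.map Prod.fst).count i ≤ 2) :
    φ (L.map Prod.snd).prod = φ (L'.map Prod.snd).prod :=
  trace_perm φ hφ h [] h1 h2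

end Vale.Agent.P095.MomAux
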