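import Vale.Agent.P095.BlockDefs

/-!
# P095, row B1, part I: trace formula, counting, reduction of the second moment
-/

open Filter Topology TopologicalSpace
open scoped BoundedContinuousFunction ComplexOrder

namespace Vale.Agent.P095

open Vale.Agent.P101

universe u v w

namespace Moment

/-! ### Powers of a matrix as sums over paths -/

theorem pow_apply_path {R : Type*} [Semiring R] {n : Type*} [Fintype n] [DecidableEq n]
    (A : Matrix n n R) (m : ℕ) (i j : n) :
    (A ^ m) i j = ∑ t : Fin (m + 1) → n, if t 0 = i ∧ t (Fin.last m) = j then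
      (List.ofFn fun a : Fin m => A (t a.castSucc) (t a.succ)).prod else 0 := by
  induction m generalizing i with
  | zero =>
    rw [pow_zero, Matrix.one_apply]
    rw [← (Equiv.funUnique (Fin 1) n).symm.sum_comp]
    by_cases hij : i = j
    · subst hij
      simp
    · simp only [hij, if_false]
      symm
      apply Finset.sum_eq_zero
      intro k _
      rw [if_neg]
      rintro ⟨h1, h2⟩
      apply hij
      have h3 : k = i := by simpa using h1
      have h4 : k = j := by simpa using h2
      rw [← h3, ← h4]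
  | succ m ih =>
    rw [pow_succ', Matrix.mul_apply]
    rw [← (Fin.consEquiv (fun _ : Fin (m + 2) => n)).sum_comp, Fintype.sum_prod_type]
    have h1 : ∀ k : n, ∀ s : Fin (m + 1) → n,
        (if (Fin.consEquiv (fun _ : Fin (m + 2) => n)) (k, s) 0 = i ∧
            (Fin.consEquiv (fun _ : Fin (m + 2) => n)) (k, s) (Fin.last (m + 1)) = j then
          (List.ofFn fun a : Fin (m + 1) => A ((Fin.consEquiv (fun _ : Fin (m + 2) => n)) (k, s) a.castSucc)
            ((Fin.consEquiv (fun _ : Fin (m + 2) => n)) (k, s) a.succ)).prod else 0) =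
        if k = i then (if s (Fin.last m) = j then A i (s 0) *
          (List.ofFn fun a : Fin m => A (s a.castSucc) (s a.succ)).prod else 0) else 0 := by
      intro k s
      have e1 : (Fin.consEquiv (fun _ : Fin (m + 2) => n)) (k, s) 0 = k := by
        simp [Fin.consEquiv]
      have e2 : ∀ a : Fin (m + 1), (Fin.consEquiv (fun _ : Fin (m + 2) => n)) (k, s) a.succ = s a := by
        intro a
        simp [Fin.consEquiv]
      have e3 : (Fin.consEquiv (fun _ : Fin (m + 2) => n)) (k, s) (Fin.last (m + 1)) =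
          s (Fin.last m) := by
        rw [← Fin.succ_last, e2]
      rw [e1, e3]
      by_cases hk : k = i
      · subst hk
        by_cases hj : s (Fin.last m) = j
        · simp only [hj, and_self, if_true]
          rw [List.ofFn_succ, List.prod_cons]
          rfl
        · simp [hj]
      · simp [hk]
    simp only [h1]
    rw [Finset.sum_comm]
    simp only [Finset.sum_ite_eq', Finset.mem_univ, if_true]
    have h2 : ∀ k : n, A i k * (A ^ m) k j = ∑ s : Fin (m + 1) → n,
        if s 0 = k then (if s (Fin.last m) = j then A i (s 0) *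
          (List.ofFn fun a : Fin m => A (s a.castSucc) (s a.succ)).prod else 0) else 0 := by
      intro k
      rw [ih k, Finset.mul_sum]
      refine Finset.sum_congr rfl fun s _ => ?_
      by_cases h0 : s 0 = k
      · by_cases hl : s (Fin.last m) = j
        · simp [h0, hl]
        · simp [h0, hl]
      · simp [h0]
    simp only [h2]
    rw [Finset.sum_comm]
    refine Finset.sum_congr rfl fun s _ => ?_
    simp

theorem sum4_comm {R : Type*} [AddCommMonoid R] {α β γ δ : Type*} [Fintype α] [Fintype β]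
    [Fintype γ] [Fintype δ] (F : α → β → γ → δ → R) :
    ∑ a, ∑ b, ∑ c, ∑ d, F a b c d = ∑ c, ∑ d, ∑ a, ∑ b, F a b c d := by
  calc ∑ a, ∑ b, ∑ c, ∑ d, F a b c d = ∑ a, ∑ c, ∑ b, ∑ d, F a b c d :=
        Finset.sum_congr rfl fun a _ => Finset.sum_comm
    _ = ∑ c, ∑ a, ∑ b, ∑ d, F a b c d := Finset.sum_comm
    _ = ∑ c, ∑ a, ∑ d, ∑ b, F a b c d :=
        Finset.sum_congr rfl fun c _ => Finset.sum_congr rfl fun a _ => Finset.sum_comm
    _ = _ := Finset.sum_congr rfl fun c _ => Finset.sum_comm

/-! ### Rectangular matrices -/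

theorem rect_pow {R : Type*} [Semiring R] {a b : Type*} [Fintype a] [Fintype b] [DecidableEq a]
    [DecidableEq b] (U : Matrix a b R) (V : Matrix b a R) (m : ℕ) :
    (U * V) ^ (m + 1) = U * (V * U) ^ m * V := by
  induction m with
  | zero => simp
  | succ m ih =>
    rw [pow_succ, ih, pow_succ]
    simp only [Matrix.mul_assoc]

variable {K : Type*} [CStarAlgebra K] {ι : Type*} [Fintype ι] [DecidableEq ι]

omit [DecidableEq ι] in
/-- cyclicity of `Tr ⊗ φ` for rectangular matrices. -/
theorem trφ_rect {κ : Type*} [Fintype κ] (φ : K →ₗ[ℂ] ℂ) (hφ : ∀ x y, φ (x * y) = φ (y * x))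
    (U : Matrix ι κ K) (V : Matrix κ ι K) :
    trφ φ (U * V) = trφ φ (V * U) := by
  unfold trφ
  simp only [Matrix.mul_apply, map_sum]
  rw [Finset.sum_comm]
  exact Finset.sum_congr rfl fun i _ => Finset.sum_congr rfl fun g _ => hφ _ _

omit [DecidableEq ι] in
/-- the matrix of bonds. -/
theorem bond_matrix {N : ℕ} (ν : ι → ℝ) (x : Fin N → ι → K) :
    (Matrix.of fun (i : Fin N) (h : ι) => (ν h : ℂ) • x i h) *
      (Matrix.of fun (g : ι) (i : Fin N) => x i g) = Matrix.of fun i j => bondP ν x i j := by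
  ext i j
  simp only [Matrix.mul_apply, Matrix.of_apply, bondP, smul_mul_assoc]

theorem gram_factor {N : ℕ} (ν : ι → ℝ) (x : Fin N → ι → K) :
    gramC x * diagD K ν = ((N : ℂ)⁻¹) • ((Matrix.of fun (g : ι) (i : Fin N) => x i g) *
      (Matrix.of fun (i : Fin N) (h : ι) => (ν h : ℂ) • x i h)) := by
  ext g h
  unfold gramC diagD
  rw [Matrix.mul_diagonal, Matrix.smul_apply, Matrix.mul_apply]
  simp only [Matrix.of_apply, smul_mul_assoc, Finset.sum_mul, mul_smul_comm]
  congr 1
  refine Finset.sum_congr rfl fun i _ => ?_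
  rw [mul_assoc, ← Algebra.commutes, ← Algebra.smul_def, mul_smul_comm]

theorem trφ_formula {N : ℕ} (φ : K →ₗ[ℂ] ℂ) (hφ : ∀ x y, φ (x * y) = φ (y * x))
    (x : Fin N → ι → K) (ν ν' : ι → ℝ) (m m' : ℕ) (hm : 1 ≤ m) (hm' : 1 ≤ m') :
    trφ φ ((gramC x * diagD K ν) ^ m * (gramC x * diagD K ν') ^ m') =
      ((N : ℂ) ^ (m + m'))⁻¹ * ∑ t : Fin (m + 1) → Fin N, ∑ t' : Fin (m' + 1) → Fin N,
        if t' 0 = t (Fin.last m) ∧ t' (Fin.last m') = t 0 then
          φ (pathW ν x t * pathW ν' x t') else 0 := by
  obtain ⟨k, rfl⟩ : ∃ k, m = k + 1 := ⟨m - 1, by omega⟩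
  obtain ⟨k', rfl⟩ : ∃ k', m' = k' + 1 := ⟨m' - 1, by omega⟩
  set U : Matrix ι (Fin N) K := Matrix.of fun (g : ι) (i : Fin N) => x i g with hU
  set R : Matrix (Fin N) ι K := Matrix.of fun (i : Fin N) (h : ι) => (ν h : ℂ) • x i h with hR
  set R' : Matrix (Fin N) ι K := Matrix.of fun (i : Fin N) (h : ι) => (ν' h : ℂ) • x i h with hR'
  have h1 : (gramC x * diagD K ν) ^ (k + 1) * (gramC x * diagD K ν') ^ (k' + 1) =
      ((N : ℂ) ^ (k + 1 + (k' + 1)))⁻¹ • (U * ((R * U) ^ (k + 1) * (R' * U) ^ k' * R')) := by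
    rw [gram_factor, gram_factor, ← hU, ← hR, ← hR', smul_pow, smul_pow, rect_pow, rect_pow,
      smul_mul_smul_comm, ← pow_add, inv_pow]
    congr 1
    rw [pow_succ (R * U)]
    simp only [Matrix.mul_assoc]
  rw [h1]
  have h2 : ∀ (c : ℂ) (X : Matrix ι ι K), trφ φ (c • X) = c * trφ φ X := by
    intro c X
    unfold trφ
    simp only [Matrix.smul_apply, map_smul, smul_eq_mul, Finset.mul_sum]
  rw [h2, trφ_rect φ hφ]
  have h3 : (R * U) ^ (k + 1) * (R' * U) ^ k' * R' * U = (R * U) ^ (k + 1) * (R' * U) ^ (k' + 1) := by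
    rw [pow_succ (R' * U)]
    simp only [Matrix.mul_assoc]
  rw [h3]
  congr 1
  unfold trφ
  have h4 : R * U = Matrix.of fun i j => bondP ν x i j := bond_matrix ν x
  have h5 : R' * U = Matrix.of fun i j => bondP ν' x i j := bond_matrix ν' x
  rw [h4, h5]
  simp only [Matrix.mul_apply, pow_apply_path, Matrix.of_apply]
  simp only [Finset.sum_mul, Finset.mul_sum, map_sum]
  -- Σ_i Σ_j Σ_t Σ_t'
  have h6 : ∀ (i j : Fin N) (t : Fin (k + 1 + 1) → Fin N) (t' : Fin (k' + 1 + 1) → Fin N),
      φ ((if t 0 = i ∧ t (Fin.last (k + 1)) = j then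
          (List.ofFn fun a : Fin (k + 1) => bondP ν x (t a.castSucc) (t a.succ)).prod else 0) *
        (if t' 0 = j ∧ t' (Fin.last (k' + 1)) = i then
          (List.ofFn fun a : Fin (k' + 1) => bondP ν' x (t' a.castSucc) (t' a.succ)).prod else 0)) =
      if i = t 0 then (if j = t (Fin.last (k + 1)) then
        (if t' 0 = t (Fin.last (k + 1)) ∧ t' (Fin.last (k' + 1)) = t 0 then
          φ (pathW ν x t * pathW ν' x t') else 0) else 0) else 0 := by
    intro i j t t'
    by_cases e1 : t 0 = i
    · subst e1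
      by_cases e2 : t (Fin.last (k + 1)) = j
      · subst e2
        by_cases e3 : t' 0 = t (Fin.last (k + 1)) ∧ t' (Fin.last (k' + 1)) = t 0
        · simp only [e3, and_self, if_true]
          rfl
        · simp only [e3, and_self, if_true, if_false, mul_zero, map_zero]
      · simp only [e2, and_false, if_false, zero_mul, map_zero, if_true]
        rw [if_neg (Ne.symm e2)]
    · simp only [e1, false_and, if_false, zero_mul, map_zero]
      rw [if_neg (Ne.symm e1)]
  calc _ = ∑ i : Fin N, ∑ j : Fin N, ∑ t : Fin (k + 1 + 1) → Fin N,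
        ∑ t' : Fin (k' + 1 + 1) → Fin N, (if i = t 0 then (if j = t (Fin.last (k + 1)) then
        (if t' 0 = t (Fin.last (k + 1)) ∧ t' (Fin.last (k' + 1)) = t 0 then
          φ (pathW ν x t * pathW ν' x t') else 0) else 0) else 0) := by
        refine Finset.sum_congr rfl fun i _ => Finset.sum_congr rfl fun j _ => ?_
        first
          | exact Finset.sum_congr rfl fun t _ => Finset.sum_congr rfl fun t' _ => h6 i j t t'
          | (rw [Finset.sum_comm]
             exact Finset.sum_congr rfl fun t _ => Finset.sum_congr rfl fun t' _ => h6 i j t t')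
    _ = ∑ t : Fin (k + 1 + 1) → Fin N, ∑ t' : Fin (k' + 1 + 1) → Fin N, ∑ i : Fin N, ∑ j : Fin N,
        (if i = t 0 then (if j = t (Fin.last (k + 1)) then
        (if t' 0 = t (Fin.last (k + 1)) ∧ t' (Fin.last (k' + 1)) = t 0 then
          φ (pathW ν x t * pathW ν' x t') else 0) else 0) else 0) := by
        exact sum4_comm _
    _ = _ := by
        refine Finset.sum_congr rfl fun t _ => Finset.sum_congr rfl fun t' _ => ?_
        simp

/-! ### Counting -/

theorem card_range_le {A : Type*} [Fintype A] [DecidableEq A] [Nonempty A] (N r : ℕ) :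
    (Finset.univ.filter (fun f : A → Fin N => (Finset.univ.image f).card ≤ r)).card ≤
      r ^ Fintype.card A * N ^ r := by
  classical
  have h1 : (Finset.univ.filter (fun f : A → Fin N => (Finset.univ.image f).card ≤ r)) ⊆
      (Finset.univ : Finset ((A → Fin r) × (Fin r → Fin N))).image (fun p => p.2 ∘ p.1) := by
    intro f hf
    rw [Finset.mem_filter] at hf
    have hc : Fintype.card (Finset.univ.image f) ≤ Fintype.card (Fin r) := by
      rw [Fintype.card_coe, Fintype.card_fin]
      exact hf.2
    obtain ⟨e⟩ := Function.Embedding.nonempty_of_card_le hc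
    rw [Finset.mem_image]
    refine ⟨(fun a => e ⟨f a, Finset.mem_image_of_mem f (Finset.mem_univ a)⟩,
      Function.extend e (fun y => (y : Fin N)) (fun _ => f (Classical.arbitrary A))),
      Finset.mem_univ _, ?_⟩
    funext a
    simp only [Function.comp]
    rw [e.injective.extend_apply]
  calc _ ≤ _ := Finset.card_le_card h1
    _ ≤ _ := Finset.card_image_le
    _ = _ := by
      rw [Finset.card_univ, Fintype.card_prod, Fintype.card_fun, Fintype.card_fun,
        Fintype.card_fin, Fintype.card_fin]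

theorem card_pairs_le (N m m' r : ℕ) :
    (Finset.univ.filter (fun p : (Fin (m + 1) → Fin N) × (Fin (m' + 1) → Fin N) =>
      (Finset.univ.image p.1 ∪ Finset.univ.image p.2).card ≤ r)).card ≤
      r ^ (m + 1 + (m' + 1)) * N ^ r := by
  classical
  have h1 := card_range_le (A := Fin (m + 1) ⊕ Fin (m' + 1)) N r
  rw [Fintype.card_sum, Fintype.card_fin, Fintype.card_fin] at h1
  refine le_trans ?_ h1
  apply Finset.card_le_card_of_injOn (fun p => Sum.elim p.1 p.2)
  · intro p hp
    rw [Finset.mem_coe, Finset.mem_filter] at hp ⊢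
    refine ⟨Finset.mem_univ _, le_trans (le_of_eq ?_) hp.2⟩
    congr 1
    ext y
    simp
  · intro p _ q _ hpq
    have h2 : Sum.elim p.1 p.2 = Sum.elim q.1 q.2 := hpq
    ext1
    · funext a
      exact congrFun h2 (Sum.inl a)
    · funext a
      exact congrFun h2 (Sum.inr a)

end Moment

end Vale.Agent.P095
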