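import Vale.Agent.P095.UnitDefs
import Vale.Agent.P095.SeedSeq
import Vale.Agent.P095.FixState

/-!
# P095: auxiliary facts for one piece (null ideal, orthogonal labels, relative commutant)
-/

open Filter Topology TopologicalSpace
open scoped BoundedContinuousFunction ComplexOrder

namespace Vale.Agent.P095

open Vale.Agent.P101

universe u v w

namespace PieceAux

section Null

variable {G : Type*} [Group G] {B : Type u} [CStarAlgebra B] {β : G →* (B ≃⋆ₐ[ℂ] B)}
  {T : Set (B →ₗ[ℂ] ℂ)} {J : Set B} (sys : TracialSystem β T J)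

include sys

theorem map_mul_null {τ : B →ₗ[ℂ] ℂ} (hτ : τ ∈ T) {z : B} (hz : z ∈ J) (y : B) :
    τ (y * z) = 0 :=
  map_mul_eq_zero_of_null (sys.trace τ hτ).nonneg ((sys.null z).1 hz τ hτ) y

theorem map_null {τ : B →ₗ[ℂ] ℂ} (hτ : τ ∈ T) {z : B} (hz : z ∈ J) : τ z = 0 := by
  have := map_mul_null sys hτ hz 1
  rwa [one_mul] at this

theorem mul_left_mem {z : B} (hz : z ∈ J) (y : B) : y * z ∈ J := by
  refine (sys.null _).2 fun τ hτ => ?_
  rw [star_mul, ← mul_assoc]
  exact map_mul_null sys hτ hz _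

theorem mul_right_mem {z : B} (hz : z ∈ J) (y : B) : z * y ∈ J := by
  refine (sys.null _).2 fun τ hτ => ?_
  rw [(sys.trace τ hτ).trace, star_mul, mul_assoc, (sys.trace τ hτ).trace]
  exact map_mul_null sys hτ hz _

theorem star_mem {z : B} (hz : z ∈ J) : star z ∈ J := by
  refine (sys.null _).2 fun τ hτ => ?_
  rw [star_star, (sys.trace τ hτ).trace]
  exact map_mul_null sys hτ hz _

theorem zero_mem : (0 : B) ∈ J := by
  refine (sys.null _).2 fun τ _ => ?_
  rw [mul_zero, map_zero]

theorem add_mem {y z : B} (hy : y ∈ J) (hz : z ∈ J) : y + z ∈ J := by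
  refine (sys.null _).2 fun τ hτ => ?_
  rw [mul_add, map_add, map_mul_null sys hτ hy, map_mul_null sys hτ hz, add_zero]

theorem neg_mem {z : B} (hz : z ∈ J) : -z ∈ J := by
  have := mul_left_mem sys hz (-1)
  rwa [neg_one_mul] at this

theorem sub_mem {y z : B} (hy : y ∈ J) (hz : z ∈ J) : y - z ∈ J := by
  rw [sub_eq_add_neg]
  exact add_mem sys hy (neg_mem sys hz)

theorem smul_mem {z : B} (hz : z ∈ J) (c : ℂ) : c • z ∈ J := by
  have := mul_left_mem sys hz (algebraMap ℂ B c)
  rwa [← Algebra.smul_def] at this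

theorem sum_mem {ι : Type*} (s : Finset ι) {f : ι → B} (h : ∀ i ∈ s, f i ∈ J) :
    ∑ i ∈ s, f i ∈ J := by
  classical
  induction s using Finset.induction_on with
  | empty => exact zero_mem sys
  | insert a s ha ih =>
    rw [Finset.sum_insert ha]
    exact add_mem sys (h a (Finset.mem_insert_self _ _))
      (ih fun i hi => h i (Finset.mem_insert_of_mem hi))

theorem act_mem {z : B} (hz : z ∈ J) (g : G) : β g z ∈ J := by
  refine (sys.null _).2 fun τ hτ => ?_
  rw [← map_star, ← map_mul]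
  exact map_mul_null sys (sys.inv τ hτ g) hz _

/-- Congruence of products. -/
theorem mul_sub_mul_mem {x x' y y' : B} (hx : x - x' ∈ J) (hy : y - y' ∈ J) :
    x * y - x' * y' ∈ J := by
  have e : x * y - x' * y' = (x - x') * y + x' * (y - y') := by noncomm_ring
  rw [e]
  exact add_mem sys (mul_right_mem sys hx _) (mul_left_mem sys hy _)

theorem map_congr {τ : B →ₗ[ℂ] ℂ} (hτ : τ ∈ T) {x x' : B} (hx : x - x' ∈ J) (b : B) :
    τ (b * x) = τ (b * x') := by
  have := map_mul_null sys hτ hx b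
  rwa [mul_sub, map_sub, sub_eq_zero] at this

theorem continuous_trace {τ : B →ₗ[ℂ] ℂ} (hτ : τ ∈ T) : Continuous τ := by
  have h := sys.trace τ hτ
  have hst : FixState.IsSt (τ : B → ℂ) :=
    ⟨fun x y => map_add τ x y, fun c x => by rw [map_smul, smul_eq_mul], h.map_one, h.nonneg⟩
  exact AddMonoidHomClass.continuous_of_bound τ 1 fun x => by
    rw [one_mul]
    exact hst.norm_le x

theorem isClosed_null : IsClosed J := by
  have e : J = ⋂ τ ∈ T, {x | τ (star x * x) = 0} := by
    ext x
    rw [sys.null x]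
    simp
  rw [e]
  refine isClosed_biInter fun τ hτ => ?_
  exact isClosed_eq ((continuous_trace sys hτ).comp (continuous_star.mul continuous_id))
    continuous_const

/-- The star subalgebra of the elements commuting with `v` and `star v` modulo `J`. -/
def commAlg (sys : TracialSystem β T J) (v : B) : StarSubalgebra ℂ B where
  carrier := {x | x * v - v * x ∈ J ∧ x * star v - star v * x ∈ J}
  mul_mem' := by
    rintro a b ⟨ha, ha'⟩ ⟨hb, hb'⟩
    have key : ∀ v, a * v - v * a ∈ J → b * v - v * b ∈ J → a * b * v - v * (a * b) ∈ J := by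
      intro v h1 h2
      have e : a * b * v - v * (a * b) = a * (b * v - v * b) + (a * v - v * a) * b := by
        noncomm_ring
      rw [e]
      exact add_mem sys (mul_left_mem sys h2 _) (mul_right_mem sys h1 _)
    exact ⟨key v ha hb, key _ ha' hb'⟩
  add_mem' := by
    rintro a b ⟨ha, ha'⟩ ⟨hb, hb'⟩
    have key : ∀ v, a * v - v * a ∈ J → b * v - v * b ∈ J → (a + b) * v - v * (a + b) ∈ J := by
      intro v h1 h2
      have e : (a + b) * v - v * (a + b) = (a * v - v * a) + (b * v - v * b) := by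
        noncomm_ring
      rw [e]
      exact add_mem sys h1 h2
    exact ⟨key v ha hb, key _ ha' hb'⟩
  algebraMap_mem' := by
    intro c
    refine ⟨?_, ?_⟩
    · rw [Algebra.commutes, sub_self]
      exact zero_mem sys
    · rw [Algebra.commutes, sub_self]
      exact zero_mem sys
  star_mem' := by
    rintro a ⟨ha, ha'⟩
    refine ⟨?_, ?_⟩
    · have := neg_mem sys (star_mem sys ha')
      have e : star a * v - v * star a = -star (a * star v - star v * a) := by
        rw [star_sub, star_mul, star_mul, star_star]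
        abel
      rw [e]
      exact this
    · have := neg_mem sys (star_mem sys ha)
      have e : star a * star v - star v * star a = -star (a * v - v * a) := by
        rw [star_sub, star_mul, star_mul]
        abel
      rw [e]
      exact this

theorem isClosed_commAlg (v : B) : IsClosed (commAlg sys v : Set B) := by
  have h := isClosed_null sys
  have e : (commAlg sys v : Set B) =
      (fun x => x * v - v * x) ⁻¹' J ∩ (fun x => x * star v - star v * x) ⁻¹' J := by
    ext x
    rfl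
  rw [e]
  refine IsClosed.inter (h.preimage ?_) (h.preimage ?_)
  · exact (continuous_id.mul continuous_const).sub (continuous_const.mul continuous_id)
  · exact (continuous_id.mul continuous_const).sub (continuous_const.mul continuous_id)

end Null

section Norm

variable {B : Type*} [CStarAlgebra B]

/-- Orthogonal sums of positive contractions. -/
theorem norm_sum_selfAdjoint_le_one {n : ℕ} (x : Fin n → B) (hx : ∀ i, IsSelfAdjoint (x i))
    (h1 : ∀ i, ‖x i‖ ≤ 1) (h0 : ∀ i j, i ≠ j → x i * x j = 0) : ‖∑ i, x i‖ ≤ 1 := by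
  have hpow : ∀ m : ℕ, (∑ i, x i) ^ (m + 1) = ∑ i, x i ^ (m + 1) := by
    intro m
    induction m with
    | zero => simp
    | succ m ih =>
      rw [pow_succ, ih, Finset.sum_mul]
      refine Finset.sum_congr rfl fun i _ => ?_
      rw [Finset.mul_sum, Finset.sum_eq_single i]
      · rw [← pow_succ]
      · intro j _ hj
        rw [pow_succ, mul_assoc, h0 i j (Ne.symm hj), mul_zero]
      · intro h
        exact absurd (Finset.mem_univ i) h
  have hsa : IsSelfAdjoint (∑ i, x i) := by
    rw [IsSelfAdjoint, star_sum]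
    exact Finset.sum_congr rfl fun i _ => hx i
  have hle : ∀ m : ℕ, ‖∑ i, x i‖ ^ (2 ^ m) ≤ n := by
    intro m
    rw [← hsa.norm_pow_two_pow m]
    obtain ⟨k, hk⟩ : ∃ k, 2 ^ m = k + 1 := ⟨2 ^ m - 1, by
      have : 0 < 2 ^ m := by positivity
      omega⟩
    rw [hk, hpow k]
    refine (norm_sum_le _ _).trans ?_
    calc ∑ i, ‖x i ^ (k + 1)‖ ≤ ∑ _i : Fin n, (1 : ℝ) := by
          refine Finset.sum_le_sum fun i _ => ?_
          refine (norm_pow_le' _ (Nat.succ_pos k)).trans ?_
          exact pow_le_one₀ (norm_nonneg _) (h1 i)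
      _ = n := by simp
  by_contra hlt
  rw [not_le] at hlt
  have h2 : Tendsto (fun m : ℕ => ‖∑ i, x i‖ ^ (2 ^ m)) atTop atTop :=
    (tendsto_pow_atTop_atTop_of_one_lt hlt).comp
      (tendsto_pow_atTop_atTop_of_one_lt (by norm_num))
  obtain ⟨m, hm⟩ := (h2.eventually_gt_atTop (n : ℝ)).exists
  exact absurd (hle m) (not_le.2 hm)

theorem norm_sum_le_one {n : ℕ} (x : Fin n → B) (h1 : ∀ i, ‖x i‖ ≤ 1)
    (h0 : ∀ i j, i ≠ j → star (x i) * x j = 0) (h0' : ∀ i j, i ≠ j → x i * star (x j) = 0) :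
    ‖∑ i, x i‖ ≤ 1 := by
  have e : star (∑ i, x i) * ∑ i, x i = ∑ i, star (x i) * x i := by
    rw [star_sum, Finset.sum_mul]
    refine Finset.sum_congr rfl fun i _ => ?_
    rw [Finset.mul_sum, Finset.sum_eq_single i]
    · intro j _ hj
      exact h0 i j (Ne.symm hj)
    · intro h
      exact absurd (Finset.mem_univ i) h
  have h := norm_sum_selfAdjoint_le_one (fun i => star (x i) * x i)
    (fun i => IsSelfAdjoint.star_mul_self _) (fun i => by
      rw [CStarRing.norm_star_mul_self]
      exact mul_le_one₀ (h1 i) (norm_nonneg _) (h1 i)) (fun i j hij => by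
      rw [mul_assoc, ← mul_assoc (x i), h0' i j hij, zero_mul, mul_zero])
  rw [← e, CStarRing.norm_star_mul_self] at h
  by_contra hlt
  rw [not_le] at hlt
  nlinarith [norm_nonneg (∑ i, x i)]

end Norm

section Hom

variable {K L : Type*} [CStarAlgebra K] [CStarAlgebra L] {ι : Type*} [Fintype ι]

theorem continuous_rampH (R j : ℕ) : Continuous (rampH R j) := by
  unfold rampH
  fun_prop

theorem continuous_rampK (R j : ℕ) (hR : 1 ≤ R) : Continuous (rampK R j) := by
  have hR' : (0 : ℝ) < 1 / R := by positivity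
  unfold rampK
  refine Real.continuous_sqrt.comp (Continuous.div (by fun_prop) (by fun_prop) fun x => ?_)
  exact (lt_of_lt_of_le hR' (le_max_right _ _)).ne'

theorem isSelfAdjoint_avgA (ν : ι → ℝ) {q : ι → K} (hq : ∀ g, IsSelfAdjoint (q g)) :
    IsSelfAdjoint (avgA ν q) := by
  rw [IsSelfAdjoint, avgA, star_sum]
  refine Finset.sum_congr rfl fun g _ => ?_
  rw [star_smul, star_mul, (hq g).star_eq, Complex.star_def, Complex.conj_ofReal]

theorem map_avgA (f : K →⋆ₐ[ℂ] L) (ν : ι → ℝ) (q : ι → K) :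
    f (avgA ν q) = avgA ν fun g => f (q g) := by
  simp only [avgA, map_sum, map_smul, map_mul]

theorem map_avgZ (f : K →⋆ₐ[ℂ] L) (ν : ι → ℝ) (q v : ι → K) :
    f (avgZ ν q v) = avgZ ν (fun g => f (q g)) fun g => f (v g) := by
  simp only [avgZ, map_sum, map_smul, map_mul]

theorem map_cfc_avgA (f : K →⋆ₐ[ℂ] L) (hf : Continuous f) (ν : ι → ℝ) {q : ι → K}
    (hq : ∀ g, IsSelfAdjoint (q g)) {F : ℝ → ℝ} (hF : Continuous F) :
    f (cfc F (avgA ν q)) = cfc F (avgA ν fun g => f (q g)) := by
  have h1 : IsSelfAdjoint (avgA ν q) := isSelfAdjoint_avgA ν hq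
  have h2 : IsSelfAdjoint (avgA ν fun g => f (q g)) :=
    isSelfAdjoint_avgA ν fun g => (hq g).map f
  rw [← map_avgA]
  exact StarAlgHom.map_cfc f F (avgA ν q) hF.continuousOn hf h1 (by rw [map_avgA]; exact h2)

theorem map_pieceH (f : K →⋆ₐ[ℂ] L) (hf : Continuous f) (R j : ℕ) (ν : ι → ℝ) {q : ι → K}
    (hq : ∀ g, IsSelfAdjoint (q g)) :
    f (pieceH R j ν q) = pieceH R j ν fun g => f (q g) :=
  map_cfc_avgA f hf ν hq (continuous_rampH R j)

theorem map_pieceW (f : K →⋆ₐ[ℂ] L) (hf : Continuous f) (R j : ℕ) (hR : 1 ≤ R) (ν : ι → ℝ)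
    {q : ι → K} (hq : ∀ g, IsSelfAdjoint (q g)) (v : ι → K) :
    f (pieceW R j ν q v) = pieceW R j ν (fun g => f (q g)) fun g => f (v g) := by
  rw [pieceW, map_mul, map_mul, map_cfc_avgA f hf ν hq (continuous_rampK R j hR), map_avgZ]
  rfl

end Hom

section Mem

variable {B : Type*} [CStarAlgebra B] {ι : Type*} [Fintype ι] {S : StarSubalgebra ℂ B}

theorem cfc_mem' (hS : IsClosed (S : Set B)) (F : ℝ → ℝ) {a : B} (ha : a ∈ S) : cfc F a ∈ S := by
  have : IsClosed (S : Set B) := hS
  exact cfc_mem F ha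

theorem avgA_mem (ν : ι → ℝ) {q : ι → B} (hq : ∀ g, q g ∈ S) : avgA ν q ∈ S :=
  _root_.sum_mem fun g _ => SMulMemClass.smul_mem _ (mul_mem (hq g) (hq g))

theorem avgZ_mem (ν : ι → ℝ) {q v : ι → B} (hq : ∀ g, q g ∈ S) (hv : ∀ g, v g ∈ S) :
    avgZ ν q v ∈ S :=
  _root_.sum_mem fun g _ => SMulMemClass.smul_mem _ (mul_mem (mul_mem (hq g) (hv g)) (hq g))

theorem pieceH_mem (hS : IsClosed (S : Set B)) (R j : ℕ) (ν : ι → ℝ) {q : ι → B}
    (hq : ∀ g, q g ∈ S) : pieceH R j ν q ∈ S :=
  cfc_mem' hS _ (avgA_mem ν hq)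

theorem pieceW_mem (hS : IsClosed (S : Set B)) (R j : ℕ) (ν : ι → ℝ) {q v : ι → B}
    (hq : ∀ g, q g ∈ S) (hv : ∀ g, v g ∈ S) : pieceW R j ν q v ∈ S :=
  mul_mem (mul_mem (cfc_mem' hS _ (avgA_mem ν hq)) (avgZ_mem ν hq hv))
    (cfc_mem' hS _ (avgA_mem ν hq))

end Mem

section Labels

variable {G : Type*} [Group G] {B : Type u} [CStarAlgebra B] {β : G →* (B ≃⋆ₐ[ℂ] B)}
  {T : Set (B →ₗ[ℂ] ℂ)} {J : Set B}

/-- A partition of unity modulo `J`, independent of `S`. -/
structure Lab (T : Set (B →ₗ[ℂ] ℂ)) (J : Set B) (S : StarSubalgebra ℂ B) {m : ℕ}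
    (R : Fin m → B) : Prop where
  sa : ∀ k, IsSelfAdjoint (R k)
  orth : ∀ k k', k ≠ k' → R k * R k' = 0
  idem : ∀ k, R k * R k - R k ∈ J
  comm : ∀ x ∈ S, ∀ k, Commute x (R k)
  tr : ∀ τ ∈ T, ∀ b ∈ S, ∀ k, τ (b * R k) = τ b / m

/-- The combination of elements with the labels as coefficients. -/
def lam {m : ℕ} (R x : Fin m → B) : B := ∑ k, R k * x k

variable {S : StarSubalgebra ℂ B} {m : ℕ} {R : Fin m → B}

theorem lam_add (R x y : Fin m → B) : lam R (fun k => x k + y k) = lam R x + lam R y := by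
  simp only [lam, mul_add, Finset.sum_add_distrib]

theorem lam_sub (R x y : Fin m → B) : lam R (fun k => x k - y k) = lam R x - lam R y := by
  simp only [lam, mul_sub, Finset.sum_sub_distrib]

theorem lam_star (h : Lab T J S R) {x : Fin m → B} (hx : ∀ k, x k ∈ S) :
    star (lam R x) = lam R fun k => star (x k) := by
  rw [lam, lam, star_sum]
  refine Finset.sum_congr rfl fun k _ => ?_
  rw [star_mul, (h.sa k).star_eq]
  exact (h.comm _ (StarMemClass.star_mem (hx k)) k).eq

theorem lam_mul_eq (h : Lab T J S R) {x : Fin m → B} (hx : ∀ k, x k ∈ S) (y : Fin m → B) :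
    lam R x * lam R y = ∑ k, R k * R k * (x k * y k) := by
  rw [lam, lam, Finset.sum_mul]
  refine Finset.sum_congr rfl fun k _ => ?_
  rw [Finset.mul_sum, Finset.sum_eq_single k]
  · rw [mul_assoc, ← mul_assoc (x k), (h.comm _ (hx k) k).eq, mul_assoc (R k) (x k), mul_assoc]
  · intro j _ hj
    rw [mul_assoc, ← mul_assoc (x k), (h.comm _ (hx k) j).eq, mul_assoc (R j) (x k), ← mul_assoc,
      h.orth k j (Ne.symm hj), zero_mul]
  · intro hk
    exact absurd (Finset.mem_univ k) hk

theorem lam_mul (sys : TracialSystem β T J) (h : Lab T J S R) {x : Fin m → B}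
    (hx : ∀ k, x k ∈ S) (y : Fin m → B) :
    lam R x * lam R y - lam R (fun k => x k * y k) ∈ J := by
  rw [lam_mul_eq h hx, lam, ← Finset.sum_sub_distrib]
  refine sum_mem sys _ fun k _ => ?_
  rw [← sub_mul]
  exact mul_right_mem sys (h.idem k) _

theorem tr_lam (h : Lab T J S R) {τ : B →ₗ[ℂ] ℂ} (hτ : τ ∈ T)
    {b : B} (hb : b ∈ S) {x : Fin m → B} (hx : ∀ k, x k ∈ S) :
    τ (b * lam R x) = (∑ k, τ (b * x k)) / m := by
  rw [lam, Finset.mul_sum, map_sum, Finset.sum_div]
  refine Finset.sum_congr rfl fun k _ => ?_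
  have h1 : b * (R k * x k) = b * x k * R k := by
    rw [← (h.comm _ (hx k) k).eq, mul_assoc]
  rw [h1]
  exact h.tr τ hτ _ (mul_mem hb (hx k)) k

end Labels

section Commutant

variable {B : Type u} [CStarAlgebra B]

/-- The relative commutant of a star subalgebra. -/
def rc (S : StarSubalgebra ℂ B) : StarSubalgebra ℂ B := StarSubalgebra.centralizer ℂ (S : Set B)

theorem mem_rc {S : StarSubalgebra ℂ B} {z : B} : z ∈ rc S ↔ ∀ x ∈ S, Commute z x := by
  rw [rc, StarSubalgebra.mem_centralizer_iff]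
  constructor
  · intro h x hx
    exact (h x hx).1.symm
  · intro h x hx
    exact ⟨(h x hx).symm, (h _ (StarMemClass.star_mem hx)).symm⟩

instance isClosed_rc (S : StarSubalgebra ℂ B) : IsClosed (rc S : Set B) := by
  have e : (rc S : Set B) = ⋂ x ∈ S, {z | z * x = x * z} := by
    ext z
    rw [SetLike.mem_coe, mem_rc]
    simp [Commute, SemiconjBy]
  rw [e]
  refine isClosed_biInter fun x _ => ?_
  exact isClosed_eq (continuous_id.mul continuous_const) (continuous_const.mul continuous_id)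

/-- The functional `x ↦ τ (b * x)` on the relative commutant. -/
noncomputable def fb (S : StarSubalgebra ℂ B) (τ : B →ₗ[ℂ] ℂ) (b : B) : rc S →ₗ[ℂ] ℂ where
  toFun x := τ (b * x)
  map_add' x y := by
    rw [← map_add, ← mul_add]
    rfl
  map_smul' c x := by
    rw [RingHom.id_apply, ← map_smul, ← mul_smul_comm]
    rfl

theorem fb_apply (S : StarSubalgebra ℂ B) (τ : B →ₗ[ℂ] ℂ) (b : B) (x : rc S) :
    fb S τ b x = τ (b * x) := rfl

theorem isPosTrace_fb {S : StarSubalgebra ℂ B} {τ : B →ₗ[ℂ] ℂ} (hτ : IsTrace τ) {y : B}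
    (hy : y ∈ S) : IsPosTrace (fb S τ (star y * y)) where
  nonneg x := by
    rw [fb_apply]
    have h1 := mem_rc.1 x.2 y hy
    have h2 := mem_rc.1 x.2 _ (StarMemClass.star_mem hy)
    have e : star y * y * ((star x * x : rc S) : B) = star (y * x) * (y * x) := by
      have h3 : Commute (star (x : B)) y := by
        have := h2.star_star
        rwa [star_star] at this
      have h4 : star (x : B) * star y = star y * star (x : B) :=
        (mem_rc.1 (StarMemClass.star_mem x.2) _ (StarMemClass.star_mem hy)).eq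
      show star y * y * (star (x : B) * x) = _
      calc star y * y * (star (x : B) * x) = star y * (y * star (x : B)) * x := by noncomm_ring
        _ = star y * (star (x : B) * y) * x := by rw [h3.eq]
        _ = star y * star (x : B) * (y * x) := by noncomm_ring
        _ = star (y * (x : B)) * (y * x) := by rw [← h4, star_mul]
    rw [e]
    exact hτ.nonneg _
  trace x z := by
    rw [fb_apply, fb_apply]
    have hb : star y * y ∈ S := mul_mem (StarMemClass.star_mem hy) hy
    show τ (star y * y * ((x : B) * z)) = τ (star y * y * ((z : B) * x))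
    rw [← mul_assoc, ← (mem_rc.1 x.2 _ hb).eq, mul_assoc, hτ.trace, mul_assoc]

/-- Positive elements of the relative commutant. -/
theorem nonneg_rc {S : StarSubalgebra ℂ B} [PartialOrder (rc S)] [StarOrderedRing (rc S)]
    {q : B} (hq : q ∈ rc S) (h : ∃ y, q = star y * y) : (0 : rc S) ≤ ⟨q, hq⟩ := by
  let _ := CStarAlgebra.spectralOrder B
  have _ := CStarAlgebra.spectralOrderedRing B
  have h0 : 0 ≤ q := by
    obtain ⟨y, rfl⟩ := h
    exact star_mul_self_nonneg y
  have h1 : CFC.sqrt q ∈ rc S := by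
    rw [mem_rc] at hq ⊢
    intro x hx
    rw [CFC.sqrt_eq_cfc]
    exact (hq x hx).cfc_nnreal _
  have h2 : (⟨q, hq⟩ : rc S) = star ⟨CFC.sqrt q, h1⟩ * ⟨CFC.sqrt q, h1⟩ := by
    refine Subtype.ext ?_
    show q = star (CFC.sqrt q) * CFC.sqrt q
    rw [(IsSelfAdjoint.of_nonneg (CFC.sqrt_nonneg q)).star_eq, CFC.sqrt_mul_sqrt_self q h0]
  rw [h2]
  exact star_mul_self_nonneg _

end Commutant

end PieceAux

end Vale.Agent.P095
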