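import Vale.Agent.P095.EqFree
import Vale.Agent.P095.FreeFam
import Vale.Agent.P095.EpsCentral
import Vale.Agent.P095.PieceAux

/-!
# P095: mean field elements: moved almost self-commuting elements
-/

open Filter Topology TopologicalSpace
open scoped BoundedContinuousFunction ComplexOrder

namespace Vale.Agent.P095

open Vale.Agent.P101

universe u v w

namespace Moved

/-- the bump at `s` of width `r` -/
noncomputable def bump (s r t : ℝ) : ℝ := max 0 (1 - |t - s| / r)

theorem continuous_bump (s r : ℝ) : Continuous (bump s r) := by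
  unfold bump
  fun_prop

theorem bump_self (s r : ℝ) : bump s r s = 1 := by simp [bump]

theorem abs_bump_le {r : ℝ} (hr : 0 < r) (s t : ℝ) : |bump s r t| ≤ 1 := by
  unfold bump
  rw [abs_of_nonneg (le_max_left _ _)]
  refine max_le zero_le_one ?_
  have : 0 ≤ |t - s| / r := by positivity
  linarith

theorem abs_mul_bump_le {r : ℝ} (hr : 0 < r) (s t : ℝ) : |(t - s) * bump s r t| ≤ r := by
  rcases le_or_gt (|t - s|) r with h | h
  · rw [abs_mul]
    have h1 := abs_bump_le hr s t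
    nlinarith [abs_nonneg (t - s), abs_nonneg (bump s r t)]
  · have h1 : bump s r t = 0 := by
      unfold bump
      refine max_eq_left ?_
      have : 1 < |t - s| / r := by rwa [one_lt_div hr]
      linarith
    rw [h1, mul_zero, abs_zero]
    exact hr.le

theorem mul_prod_ofFn {M : Type*} [Monoid M] (a : M) : ∀ {m : ℕ} (u : Fin m → M) (j : Fin m),
    (∀ i, i ≠ j → Commute a (u i)) →
    a * (List.ofFn u).prod = (List.ofFn (Function.update u j (a * u j))).prod := by
  intro m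
  induction m with
  | zero => intro u j; exact j.elim0
  | succ m ih =>
    intro u j h
    rw [List.ofFn_succ, List.ofFn_succ, List.prod_cons, List.prod_cons]
    obtain rfl | ⟨j', rfl⟩ := Fin.eq_zero_or_eq_succ j
    · rw [Function.update_self, mul_assoc]
      have h1 : (fun i : Fin m => Function.update u 0 (a * u 0) i.succ) = fun i => u i.succ := by
        funext i
        rw [Function.update_of_ne (Fin.succ_ne_zero i)]
      rw [h1]
    · have h1 : (fun i : Fin m => Function.update u j'.succ (a * u j'.succ) i.succ) =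
          Function.update (fun i : Fin m => u i.succ) j' (a * u j'.succ) := by
        funext i
        by_cases hi : i = j'
        · subst hi
          rw [Function.update_self, Function.update_self]
        · rw [Function.update_of_ne hi, Function.update_of_ne (fun h2 => hi (Fin.succ_injective _ h2))]
      rw [h1, Function.update_of_ne (Fin.succ_ne_zero j').symm,
        ← ih (fun i : Fin m => u i.succ) j' (fun i hi => h _ (fun h2 => hi (Fin.succ_injective _ h2))),
        ← mul_assoc, (h 0 (Fin.succ_ne_zero j').symm).eq, mul_assoc]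

/-- a spectral bump at a point of maximal modulus -/
theorem exists_bump {B : Type*} [CStarAlgebra B] [Nontrivial B] (y : B) (hy : IsSelfAdjoint y)
    (hy0 : y ≠ 0) : ∃ (s r : ℝ), |s| = ‖y‖ ∧ ‖cfc (bump s r) y‖ = 1 ∧
      ‖(y - algebraMap ℂ B s) * cfc (bump s r) y‖ ≤ ‖y‖ / 2 := by
  obtain ⟨⟨s, hs, hs2⟩, -⟩ :=
    IsometricContinuousFunctionalCalculus.isGreatest_norm_spectrum (𝕜 := ℝ) y hy
  have hr : 0 < ‖y‖ / 2 := by positivity
  refine ⟨s, ‖y‖ / 2, hs2, le_antisymm ?_ ?_, ?_⟩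
  · exact norm_cfc_le zero_le_one fun t _ => abs_bump_le hr s t
  · have h1 := norm_apply_le_norm_cfc (bump s (‖y‖ / 2)) y hs (continuous_bump _ _).continuousOn
    rwa [bump_self, norm_one] at h1
  · have h1 : (y - algebraMap ℂ B s) * cfc (bump s (‖y‖ / 2)) y =
        cfc (fun t : ℝ => (t - s) * bump s (‖y‖ / 2) t) y := by
      rw [cfc_mul (fun t : ℝ => t - s) (bump s (‖y‖ / 2)) y (by fun_prop)
        (continuous_bump _ _).continuousOn,
        cfc_sub (fun t : ℝ => t) (fun _ : ℝ => s) y (by fun_prop) (by fun_prop),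
        cfc_id' ℝ y, cfc_const s y]
      rfl
    rw [h1]
    exact norm_cfc_le hr.le fun t _ => abs_mul_bump_le hr s t

theorem comm_sum {B : Type*} [Ring B] {m : ℕ} (a b : Fin m → B)
    (h : ∀ i j, i ≠ j → Commute (a i) (b j)) :
    (∑ i, a i) * (∑ j, b j) - (∑ j, b j) * (∑ i, a i) = ∑ i, (a i * b i - b i * a i) := by
  rw [Finset.sum_mul_sum, Finset.sum_mul_sum, Finset.sum_comm (f := fun i j => b i * a j),
    ← Finset.sum_sub_distrib]
  refine Finset.sum_congr rfl fun i _ => ?_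
  rw [← Finset.sum_sub_distrib]
  refine Finset.sum_eq_single i (fun j _ hj => ?_) (fun h2 => absurd (Finset.mem_univ _) h2)
  rw [(h i j hj.symm).eq, sub_self]

end Moved

open Moved in
theorem exists_mean_field {G : Type*} [Group G] [Countable G] {B : Type*} [CStarAlgebra B]
    {β : G →* (B ≃⋆ₐ[ℂ] B)} (hf : HasFreeCopies β) (g : G) (hg : β g ≠ 1) :
    ∃ d > 0, ∀ ε > 0, ∃ S : B, IsSelfAdjoint S ∧ ‖S‖ ≤ 1 ∧ ‖S * β g S - β g S * S‖ ≤ ε ∧
      d ≤ ‖S - β g S‖ := by
  classical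
  -- a moved selfadjoint contraction
  have h1 : ∃ z : B, IsSelfAdjoint z ∧ β g z ≠ z := by
    by_contra hcon
    push Not at hcon
    apply hg
    ext x
    show β g x = x
    have hre := hcon (realPart x : B) (realPart x).2
    have him := hcon (imaginaryPart x : B) (imaginaryPart x).2
    have hx := realPart_add_I_smul_imaginaryPart x
    calc β g x = β g ((realPart x : B) + Complex.I • (imaginaryPart x : B)) := by rw [hx]
      _ = x := by rw [map_add, map_smul, hre, him, hx]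
  obtain ⟨z0, hz0, hz0g⟩ := h1
  have : Nontrivial B := ⟨⟨_, _, hz0g⟩⟩
  have hz00 : z0 ≠ 0 := by
    rintro rfl
    exact hz0g (map_zero _)
  have hn0 : 0 < ‖z0‖ := norm_pos_iff.2 hz00
  obtain ⟨z, hz, hz1, hzg⟩ : ∃ z : B, IsSelfAdjoint z ∧ ‖z‖ ≤ 1 ∧ β g z ≠ z := by
    have hc : IsSelfAdjoint ((‖z0‖ : ℂ)⁻¹) := by simp [IsSelfAdjoint]
    refine ⟨((‖z0‖ : ℂ)⁻¹) • z0, hc.smul hz0, ?_, ?_⟩
    · rw [norm_smul, norm_inv, Complex.norm_real, norm_norm, inv_mul_cancel₀ hn0.ne']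
    · rw [map_smul]
      intro h
      refine hz0g ?_
      have h2 : ((‖z0‖ : ℂ)⁻¹) ≠ 0 := inv_ne_zero (by exact_mod_cast hn0.ne')
      exact smul_right_injective B h2 h
  obtain ⟨S, hSc, hSs, hSi, hSz⟩ := exists_invariant_subalgebra β {z}
    (Set.finite_singleton z).isSeparable
  have hzS : z ∈ S := hSz rfl
  have hgS : β g z ∈ S := hSi g z hzS
  have hβz : IsSelfAdjoint (β g z) := hz.map (β g)
  have hβz1 : ‖β g z‖ ≤ 1 := by rwa [norm_act]
  set y : B := z - β g z with hy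
  have hyS : y ∈ S := sub_mem hzS hgS
  have hysa : IsSelfAdjoint y := hz.sub hβz
  have hy0 : y ≠ 0 := sub_ne_zero.2 (Ne.symm hzg)
  have hD : 0 < ‖y‖ := norm_pos_iff.2 hy0
  obtain ⟨s, r, hs, hp1, hp2⟩ := exists_bump y hysa hy0
  set p : B := cfc (bump s r) y with hp
  have hpS : p ∈ S := PieceAux.cfc_mem' hSc _ hyS
  refine ⟨‖y‖ / 2, half_pos hD, fun ε hε => ?_⟩
  obtain ⟨m, hm⟩ := exists_nat_gt (2 / ε)
  have hm0 : (0 : ℝ) < m := lt_trans (by positivity) hm
  have hm1 : (m : ℂ) ≠ 0 := by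
    intro h
    have h2 : (m : ℝ) = 0 := by exact_mod_cast h
    exact hm0.ne' h2
  obtain ⟨Φ, hΦ1, hΦ2, hΦ3, hΦ4⟩ := exists_free_family hf S hSc hSs hSi m
  have hcl : IsClosed (S : Set B) := hSc
  let zS : S := ⟨z, hzS⟩
  let gS : S := ⟨β g z, hgS⟩
  let yS : S := ⟨y, hyS⟩
  let pS : S := ⟨p, hpS⟩
  have hΦn : ∀ j (x : S), ‖Φ j x‖ ≤ ‖x‖ := fun j x => NonUnitalStarAlgHom.norm_apply_le (Φ j) x
  have hΦg : ∀ j, Φ j gS = β g (Φ j zS) := fun j => hΦ3 j g zS gS rfl
  have hzS1 : ∀ j, ‖Φ j zS‖ ≤ 1 := fun j => (hΦn j zS).trans hz1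
  have hgS1 : ∀ j, ‖Φ j gS‖ ≤ 1 := fun j => (hΦn j gS).trans hβz1
  set c : ℂ := (m : ℂ)⁻¹ with hc
  have hcsa : IsSelfAdjoint c := by simp [IsSelfAdjoint, hc]
  have hcn : ‖c‖ = (m : ℝ)⁻¹ := by rw [hc, norm_inv, Complex.norm_natCast]
  have hgT : β g (c • ∑ j, Φ j zS) = c • ∑ j, Φ j gS := by
    rw [map_smul, map_sum]
    congr 1
    exact Finset.sum_congr rfl fun j _ => (hΦg j).symm
  refine ⟨c • ∑ j, Φ j zS, ?_, ?_, ?_, ?_⟩
  · refine hcsa.smul (isSelfAdjoint_sum _ fun j _ => ?_)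
    have h2 : IsSelfAdjoint zS := Subtype.ext hz
    exact h2.map (Φ j)
  · rw [norm_smul, hcn]
    have h2 : ‖∑ j, Φ j zS‖ ≤ m := by
      refine (norm_sum_le _ _).trans ((Finset.sum_le_sum fun j _ => hzS1 j).trans ?_)
      simp
    calc (m : ℝ)⁻¹ * ‖∑ j, Φ j zS‖ ≤ (m : ℝ)⁻¹ * m := by gcongr
      _ = 1 := inv_mul_cancel₀ hm0.ne'
  · rw [hgT]
    have h2 : (c • ∑ j, Φ j zS) * (c • ∑ j, Φ j gS) - (c • ∑ j, Φ j gS) * (c • ∑ j, Φ j zS) =
        (c * c) • ∑ i, (Φ i zS * Φ i gS - Φ i gS * Φ i zS) := by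
      rw [← comm_sum (fun i => Φ i zS) (fun j => Φ j gS) (fun i j hij => hΦ1 i j hij _ _),
        smul_mul_smul_comm, smul_mul_smul_comm, ← smul_sub]
    rw [h2, norm_smul, norm_mul, hcn]
    have h3 : ‖∑ i, (Φ i zS * Φ i gS - Φ i gS * Φ i zS)‖ ≤ m * 2 := by
      refine (norm_sum_le _ _).trans ((Finset.sum_le_sum fun j _ => (?_ : _ ≤ (2 : ℝ))).trans ?_)
      · refine (norm_sub_le _ _).trans ?_
        have h4 := norm_mul_le (Φ j zS) (Φ j gS)
        have h5 := norm_mul_le (Φ j gS) (Φ j zS)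
        have h6 := hzS1 j
        have h7 := hgS1 j
        have h8 : ‖Φ j zS‖ * ‖Φ j gS‖ ≤ 1 := mul_le_one₀ h6 (norm_nonneg _) h7
        have h9 : ‖Φ j gS‖ * ‖Φ j zS‖ ≤ 1 := mul_le_one₀ h7 (norm_nonneg _) h6
        linarith
      · simp
    calc (m : ℝ)⁻¹ * (m : ℝ)⁻¹ * ‖∑ i, (Φ i zS * Φ i gS - Φ i gS * Φ i zS)‖
        ≤ (m : ℝ)⁻¹ * (m : ℝ)⁻¹ * (m * 2) := by gcongr
      _ = 2 / m := by field_simp
      _ ≤ ε := by
        rw [div_le_iff₀ hm0]
        rw [div_lt_iff₀ hε] at hm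
        linarith
  · rw [hgT, ← smul_sub, ← Finset.sum_sub_distrib]
    have h2 : ∀ j, Φ j zS - Φ j gS = Φ j yS := fun j => by rw [← map_sub]; rfl
    rw [Finset.sum_congr rfl fun j _ => h2 j]
    set P : B := (List.ofFn fun i => Φ i pS).prod with hP
    have hP1 : ‖P‖ = 1 := by
      have h3 := hΦ4 (fun _ => pS) 1
      have h4 : ‖pS‖ = 1 := hp1
      have h5 : ‖(1 : S)‖ = 1 := (norm_one : ‖(1 : B)‖ = 1)
      rw [h4, h5, Finset.prod_const_one, mul_one] at h3
      rw [hP, ← h3]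
      congr 1
      exact (mul_one _).symm
    let wS : S := yS - algebraMap ℂ S s
    have hw : ‖wS * pS‖ ≤ ‖y‖ / 2 := hp2
    have h6 : ∀ j, ‖Φ j wS * P‖ ≤ ‖y‖ / 2 := by
      intro j
      rw [hP, mul_prod_ofFn (Φ j wS) (fun i => Φ i pS) j (fun i hi => hΦ1 j i hi.symm _ _)]
      have h7 : Function.update (fun i => Φ i pS) j (Φ j wS * Φ j pS) =
          fun i => Φ i (Function.update (fun _ => pS) j (wS * pS) i) := by
        funext i
        by_cases hi : i = j
        · subst hi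
          rw [Function.update_self, Function.update_self, map_mul]
        · rw [Function.update_of_ne hi, Function.update_of_ne hi]
      have h8 := hΦ4 (Function.update (fun _ => pS) j (wS * pS)) 1
      have h5 : ‖(1 : S)‖ = 1 := (norm_one : ‖(1 : B)‖ = 1)
      rw [h5, mul_one] at h8
      have h9 : (List.ofFn fun i => Φ i (Function.update (fun _ => pS) j (wS * pS) i)).prod *
          ((1 : S) : B) = (List.ofFn fun i =>
            Φ i (Function.update (fun _ => pS) j (wS * pS) i)).prod := mul_one _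
      rw [h9] at h8
      rw [h7, h8]
      have h10 : ∏ i, ‖Function.update (fun _ : Fin m => pS) j (wS * pS) i‖ =
          ‖wS * pS‖ := by
        rw [Finset.prod_eq_single j]
        · rw [Function.update_self]
        · intro i _ hi
          rw [Function.update_of_ne hi]
          exact hp1
        · intro h11
          exact absurd (Finset.mem_univ _) h11
      rw [h10]
      exact hw
    have h11 : (c • ∑ j, Φ j yS) * P = (s : ℂ) • P + c • ∑ j, Φ j wS * P := by
      have h12 : ∀ j, Φ j wS * P = Φ j yS * P - (s : ℂ) • P := by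
        intro j
        rw [map_sub, sub_mul, AlgHomClass.commutes, Algebra.algebraMap_eq_smul_one, smul_mul_assoc,
          one_mul]
      rw [Finset.sum_congr rfl fun j _ => h12 j, Finset.sum_sub_distrib, Finset.sum_const,
        Finset.card_univ, Fintype.card_fin, smul_sub, smul_mul_assoc, Finset.sum_mul]
      have h13 : c • m • (s : ℂ) • P = (s : ℂ) • P := by
        rw [← Nat.cast_smul_eq_nsmul ℂ, smul_smul, hc, inv_mul_cancel₀ hm1, one_smul]
      rw [h13]
      abel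
    have h14 : ‖c • ∑ j, Φ j wS * P‖ ≤ ‖y‖ / 2 := by
      rw [norm_smul, hcn]
      have h15 : ‖∑ j, Φ j wS * P‖ ≤ m * (‖y‖ / 2) := by
        refine (norm_sum_le _ _).trans ((Finset.sum_le_sum fun j _ => h6 j).trans ?_)
        simp
      calc (m : ℝ)⁻¹ * ‖∑ j, Φ j wS * P‖ ≤ (m : ℝ)⁻¹ * (m * (‖y‖ / 2)) := by gcongr
        _ = ‖y‖ / 2 := by field_simp
    have h16 : ‖(s : ℂ) • P‖ = ‖y‖ := by
      rw [norm_smul, hP1, mul_one, Complex.norm_real, Real.norm_eq_abs, hs]
    have h17 : ‖(s : ℂ) • P‖ ≤ ‖(c • ∑ j, Φ j yS) * P‖ + ‖c • ∑ j, Φ j wS * P‖ := by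
      have h18 : (s : ℂ) • P = (c • ∑ j, Φ j yS) * P - c • ∑ j, Φ j wS * P := by
        rw [h11]
        abel
      rw [h18]
      exact norm_sub_le _ _
    have h19 := norm_mul_le (c • ∑ j, Φ j yS) P
    rw [hP1, mul_one] at h19
    linarith

theorem exists_moved {G : Type*} [Group G] [Countable G] {A : Type u} [CStarAlgebra A]
    [SeparableSpace A] [IsSimpleRing A] {ω : Ultrafilter ℕ} (hω : (ω : Filter ℕ) ≤ cofinite)
    (α : G →* (A ≃⋆ₐ[ℂ] A)) (g : G) (hg : centralAct ω α g ≠ 1) :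
    ∃ S : centralSeq ω A, IsSelfAdjoint S ∧ Commute S (centralAct ω α g S) ∧
      S ≠ centralAct ω α g S := by
  classical
  obtain ⟨d, hd, hS⟩ := exists_mean_field (hasFreeCopies_centralSeq hω α) g hg
  let f : Fin 3 → ℕ → A → ℝ := fun k _ x =>
    if k = 0 then ‖x - star x‖ else if k = 1 then ‖x * α g x - α g x * x‖
      else max 0 (d - ‖x - α g x‖)
  have hf : ∀ k n x, 0 ≤ f k n x := by
    intro k n x
    show 0 ≤ (if k = 0 then ‖x - star x‖ else if k = 1 then ‖x * α g x - α g x * x‖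
      else max 0 (d - ‖x - α g x‖))
    split_ifs
    · exact norm_nonneg _
    · exact norm_nonneg _
    · exact le_max_left _ _
  have hseq : ∀ y : ℕ →ᵇ A, ultraAct ω α g (Ultra.mk ω y) =
      Ultra.mk ω (seqMap (α g : A →⋆ₐ[ℂ] A) y) := fun y => ultraAct_mk ω α g y
  have hlim0 : ∀ y : ℕ →ᵇ A, Tendsto (fun n => ‖y n - star (y n)‖) ω
      (𝓝 ‖Ultra.mk ω y - star (Ultra.mk ω y)‖) := by
    intro y
    have h1 := Ultra.tendsto_norm_mk (ω := ω) (y - star y)
    rwa [map_sub, map_star] at h1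
  have hlim1 : ∀ y : ℕ →ᵇ A, Tendsto (fun n => ‖y n * α g (y n) - α g (y n) * y n‖) ω
      (𝓝 ‖Ultra.mk ω y * ultraAct ω α g (Ultra.mk ω y) -
        ultraAct ω α g (Ultra.mk ω y) * Ultra.mk ω y‖) := by
    intro y
    have h1 := Ultra.tendsto_norm_mk (ω := ω) (y * seqMap (α g : A →⋆ₐ[ℂ] A) y -
      seqMap (α g : A →⋆ₐ[ℂ] A) y * y)
    rwa [map_sub, map_mul, map_mul, ← hseq] at h1
  have hlim2 : ∀ y : ℕ →ᵇ A, Tendsto (fun n => ‖y n - α g (y n)‖) ω
      (𝓝 ‖Ultra.mk ω y - ultraAct ω α g (Ultra.mk ω y)‖) := by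
    intro y
    have h1 := Ultra.tendsto_norm_mk (ω := ω) (y - seqMap (α g : A →⋆ₐ[ℂ] A) y)
    rwa [map_sub, ← hseq] at h1
  obtain ⟨y, hy1, hy2, hy3⟩ := exists_central_seq hω f hf (by
    intro F ε hε
    obtain ⟨S, hSa, hSn, hSc, hSd⟩ := hS (ε / 2) (half_pos hε)
    obtain ⟨y, hy, hyn⟩ := Ultra.exists_rep (S : Ultra ω A)
    have hSc' : ‖(S : Ultra ω A) * ultraAct ω α g (S : Ultra ω A) -
        ultraAct ω α g (S : Ultra ω A) * (S : Ultra ω A)‖ ≤ ε / 2 := hSc
    have hSd' : d ≤ ‖(S : Ultra ω A) - ultraAct ω α g (S : Ultra ω A)‖ := hSd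
    have hSa' : star (S : Ultra ω A) = S := congrArg Subtype.val hSa
    refine ⟨y, fun n => (hyn n).trans hSn, by rw [hy]; exact S.2, ?_⟩
    intro k _
    have b0 : ‖Ultra.mk ω y - star (Ultra.mk ω y)‖ < ε := by
      rw [hy, hSa', sub_self, norm_zero]; exact hε
    have b1 : ‖Ultra.mk ω y * ultraAct ω α g (Ultra.mk ω y) -
        ultraAct ω α g (Ultra.mk ω y) * Ultra.mk ω y‖ < ε := by
      rw [hy]; exact lt_of_le_of_lt hSc' (half_lt_self hε)
    have b2 : d - ε < ‖Ultra.mk ω y - ultraAct ω α g (Ultra.mk ω y)‖ := by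
      rw [hy]; linarith
    have h0 := (hlim0 y).eventually (gt_mem_nhds b0)
    have h1 := (hlim1 y).eventually (gt_mem_nhds b1)
    have h2 := (hlim2 y).eventually (lt_mem_nhds b2)
    filter_upwards [h0, h1, h2] with n hn0 hn1 hn2
    show (if k = 0 then ‖y n - star (y n)‖ else if k = 1 then ‖y n * α g (y n) - α g (y n) * y n‖
      else max 0 (d - ‖y n - α g (y n)‖)) < ε
    split_ifs
    · exact hn0
    · exact hn1
    · exact max_lt hε (by linarith))
  have h0 : Tendsto (fun n => ‖y n - star (y n)‖) ω (𝓝 0) := hy3 0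
  have h1 : Tendsto (fun n => ‖y n * α g (y n) - α g (y n) * y n‖) ω (𝓝 0) := hy3 1
  have h2 : Tendsto (fun n => max 0 (d - ‖y n - α g (y n)‖)) ω (𝓝 0) := hy3 2
  have e0 := tendsto_nhds_unique (hlim0 y) h0
  have e1 := tendsto_nhds_unique (hlim1 y) h1
  have e2 := tendsto_nhds_unique ((tendsto_const_nhds (x := (0 : ℝ))).max
    ((tendsto_const_nhds (x := d)).sub (hlim2 y))) h2
  rw [norm_eq_zero, sub_eq_zero] at e0 e1
  refine ⟨⟨Ultra.mk ω y, hy2⟩, Subtype.ext e0.symm, Subtype.ext e1, fun h => ?_⟩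
  have h3 : Ultra.mk ω y = ultraAct ω α g (Ultra.mk ω y) := congrArg Subtype.val h
  rw [← h3, sub_self, norm_zero, sub_zero, max_eq_right hd.le] at e2
  exact hd.ne' e2

end Vale.Agent.P095
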