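import Vale.Agent.P095.SI
import Vale.Agent.P095.LimTrace
import Vale.Agent.P095.EpsCentral

/-!
# P095: definitions for target T5 (simple nuclear algebras with strict comparison)
-/

open Filter Topology TopologicalSpace
open scoped BoundedContinuousFunction ComplexOrder

namespace Vale.Agent.P095

open Vale.Agent.P101

universe u v w

/-- Positivity, in the form `x = y* y`. -/
def IsPos {A : Type*} [Mul A] [Star A] (x : A) : Prop := ∃ y, x = star y * y

/-- Completely positive linear maps: all matrix amplifications preserve positivity, where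
positive elements of a matrix algebra are the elements `Y* Y`. -/
def IsCP {A B : Type*} [Ring A] [StarRing A] [Module ℂ A] [Ring B] [StarRing B] [Module ℂ B]
    (φ : A →ₗ[ℂ] B) : Prop :=
  ∀ (n : ℕ) (X : Matrix (Fin n) (Fin n) A), IsPos X → IsPos (X.map φ)

/-- Nuclearity in the form of the completely positive approximation property: the identity is
approximated pointwise in norm by compositions of completely positive maps through matrix
algebras. -/
def IsNuclear (A : Type*) [CStarAlgebra A] : Prop :=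
  ∀ (F : Finset A) (ε : ℝ), 0 < ε → ∃ (k : ℕ) (φ : A →ₗ[ℂ] Matrix (Fin k) (Fin k) ℂ)
    (ψ : Matrix (Fin k) (Fin k) ℂ →ₗ[ℂ] A), IsCP φ ∧ IsCP ψ ∧ ∀ a ∈ F, ‖ψ (φ a) - a‖ < ε

/-- The rank (dimension) function of a trace: `d_τ(a) = lim τ(min(1, n a))` for positive `a`. -/
noncomputable def rankFn {A : Type*} [CStarAlgebra A] (τ : A →ₗ[ℂ] ℂ) (a : A) : ℝ :=
  ⨆ n : ℕ, (τ (cfc (fun t : ℝ => min 1 (n * t)) a)).re

/-- Cuntz subequivalence. -/
def CuntzLE {A : Type*} [CStarAlgebra A] (a b : A) : Prop :=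
  ∀ ε : ℝ, 0 < ε → ∃ z : A, ‖star z * b * z - a‖ < ε

/-- Strict comparison of positive elements by traces. -/
def StrictComparison (A : Type*) [CStarAlgebra A] : Prop :=
  ∀ a b : A, IsPos a → IsPos b → b ≠ 0 →
    (∀ τ : A →ₗ[ℂ] ℂ, IsTrace τ → rankFn τ a < rankFn τ b) → CuntzLE a b

/-- A functional which can be excised. -/
def Excisable {A : Type*} [CStarAlgebra A] (lam : A →ₗ[ℂ] ℂ) : Prop :=
  ∀ (F : Finset A) (δ : ℝ), 0 < δ → ∃ x : A, IsPos x ∧ ‖x‖ = 1 ∧
    ∀ a ∈ F, ‖x * a * x - lam a • (x * x)‖ ≤ δ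

/-- The identity is approximated by sums `a ↦ ∑ λ_p(b_i* a b_j) c_i* c_j` with excisable `λ_p`. -/
def ExcApprox (A : Type*) [CStarAlgebra A] : Prop :=
  ∀ (F : Finset A) (ε : ℝ), 0 < ε → ∃ (m k : ℕ) (lam : Fin m → A →ₗ[ℂ] ℂ)
    (b c : Fin m → Fin k → A), (∀ p, Excisable (lam p)) ∧
    ∀ a ∈ F, ‖∑ p, ∑ i, ∑ j, lam p (star (b p i) * a * b p j) • (star (c p i) * c p j) - a‖ < ε

/-- Free equivariant copies: like `HasEqCopies`, with `‖Φ(x) y‖ = ‖x‖ ‖y‖`. -/
def HasFreeCopies {G : Type*} [Group G] {B : Type*} [CStarAlgebra B]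
    (β : G →* (B ≃⋆ₐ[ℂ] B)) : Prop :=
  ∀ S : StarSubalgebra ℂ B, IsClosed (S : Set B) → TopologicalSpace.IsSeparable (S : Set B) →
    (∀ g, ∀ x ∈ S, β g x ∈ S) →
    ∃ Φ : S →⋆ₐ[ℂ] B, (∀ x y : S, Commute (Φ x) (y : B)) ∧
      (∀ g (x y : S), (y : B) = β g x → Φ y = β g (Φ x)) ∧
      ∀ x y : S, ‖Φ x * (y : B)‖ = ‖x‖ * ‖y‖

end Vale.Agent.P095
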