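import Vale.Agent.P095.ConeApprox

/-!
# P095: nuclear algebras have excision approximations (row E6)
-/

open Filter Topology TopologicalSpace
open scoped BoundedContinuousFunction ComplexOrder

namespace Vale.Agent.P095

open Vale.Agent.P101

universe u

namespace NucExcAux

theorem matUnits_pos (k : ℕ) :
    IsPos (Matrix.of fun i j => Matrix.single i j 1 :
      Matrix (Fin k) (Fin k) (Matrix (Fin k) (Fin k) ℂ)) := by
  refine ⟨Matrix.of fun l j => ((√(k : ℝ))⁻¹ : ℂ) • Matrix.single l j 1, ?_⟩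
  funext i j
  have hk : 0 < k := i.pos
  have hk' : (0 : ℝ) < k := by exact_mod_cast hk
  rw [Matrix.mul_apply]
  have h1 : ∀ l : Fin k, star (Matrix.of fun l j => ((√(k : ℝ))⁻¹ : ℂ) • Matrix.single l j 1 :
      Matrix (Fin k) (Fin k) (Matrix (Fin k) (Fin k) ℂ)) i l *
      (Matrix.of fun l j => ((√(k : ℝ))⁻¹ : ℂ) • Matrix.single l j 1 :
      Matrix (Fin k) (Fin k) (Matrix (Fin k) (Fin k) ℂ)) l j =
      ((k : ℂ)⁻¹) • Matrix.single i j 1 := by
    intro l
    rw [Matrix.star_apply]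
    have h2 : star (((√(k : ℝ))⁻¹ : ℂ) • (Matrix.single l i 1 : Matrix (Fin k) (Fin k) ℂ)) =
        ((√(k : ℝ))⁻¹ : ℂ) • Matrix.single i l 1 := by
      rw [star_smul, Matrix.star_eq_conjTranspose, Matrix.conjTranspose_single, star_one]
      congr 1
      rw [← Complex.ofReal_inv]
      exact Complex.conj_ofReal _
    show star (((√(k : ℝ))⁻¹ : ℂ) • (Matrix.single l i 1 : Matrix (Fin k) (Fin k) ℂ)) *
      ((√(k : ℝ))⁻¹ : ℂ) • (Matrix.single l j 1 : Matrix (Fin k) (Fin k) ℂ) = _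
    rw [h2, smul_mul_smul_comm, Matrix.single_mul_single_same, one_mul]
    congr 1
    rw [← Complex.ofReal_inv, ← Complex.ofReal_mul, ← mul_inv, Real.mul_self_sqrt hk'.le]
    push_cast
    rfl
  rw [Finset.sum_congr rfl (fun l _ => h1 l), Finset.sum_const, Finset.card_univ,
    Fintype.card_fin, ← Nat.cast_smul_eq_nsmul ℂ, smul_smul,
    mul_inv_cancel₀ (by exact_mod_cast hk.ne'), one_smul]
  rfl

end NucExcAux

theorem excApprox_of_isNuclear {A : Type u} [CStarAlgebra A] [SeparableSpace A]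
    (h : IsNuclear A) : ExcApprox A := by
  classical
  intro F ε hε
  obtain ⟨k, φ, ψ, hφ, hψ, hF⟩ := h F (ε / 2) (half_pos hε)
  obtain ⟨Y, hY⟩ := hψ k _ (NucExcAux.matUnits_pos k)
  have hψe : ∀ i j, ψ (Matrix.single i j 1) = ∑ l, star (Y l i) * Y l j := by
    intro i j
    have h1 := congrFun (congrFun hY i) j
    rw [Matrix.mul_apply] at h1
    exact h1
  obtain ⟨C, hC⟩ : ∃ C : ℝ, C = ∑ i, ∑ j, ‖ψ (Matrix.single i j 1)‖ := ⟨_, rfl⟩
  have hC0 : 0 ≤ C := by
    rw [hC]
    exact Finset.sum_nonneg fun i _ => Finset.sum_nonneg fun j _ => norm_nonneg _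
  obtain ⟨m, lam, b, hlam, hb⟩ := exists_cone_approx φ hφ F (ε / 2 / (C + 1)) (by positivity)
  let e : Fin m × Fin k ≃ Fin (m * k) := finProdFinEquiv
  refine ⟨m * k, k, fun q => lam (e.symm q).1, fun q => b (e.symm q).1, fun q => Y (e.symm q).2,
    fun q => hlam _, fun a ha => ?_⟩
  have h1 : ∑ q : Fin (m * k), ∑ i, ∑ j,
      lam (e.symm q).1 (star (b (e.symm q).1 i) * a * b (e.symm q).1 j) •
        (star (Y (e.symm q).2 i) * Y (e.symm q).2 j) =
      ∑ i, ∑ j, (∑ p, lam p (star (b p i) * a * b p j)) • ψ (Matrix.single i j 1) := by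
    rw [← Equiv.sum_comp e, Fintype.sum_prod_type]
    simp only [Equiv.symm_apply_apply]
    calc ∑ p, ∑ l, ∑ i, ∑ j, lam p (star (b p i) * a * b p j) • (star (Y l i) * Y l j)
        = ∑ p, ∑ i, ∑ l, ∑ j, lam p (star (b p i) * a * b p j) • (star (Y l i) * Y l j) :=
          Finset.sum_congr rfl fun p _ => Finset.sum_comm
      _ = ∑ p, ∑ i, ∑ j, ∑ l, lam p (star (b p i) * a * b p j) • (star (Y l i) * Y l j) :=
          Finset.sum_congr rfl fun p _ => Finset.sum_congr rfl fun i _ => Finset.sum_comm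
      _ = ∑ p, ∑ i, ∑ j, lam p (star (b p i) * a * b p j) • ψ (Matrix.single i j 1) := by
          refine Finset.sum_congr rfl fun p _ => Finset.sum_congr rfl fun i _ =>
            Finset.sum_congr rfl fun j _ => ?_
          rw [hψe, Finset.smul_sum]
      _ = ∑ i, ∑ p, ∑ j, lam p (star (b p i) * a * b p j) • ψ (Matrix.single i j 1) :=
          Finset.sum_comm
      _ = ∑ i, ∑ j, ∑ p, lam p (star (b p i) * a * b p j) • ψ (Matrix.single i j 1) :=
          Finset.sum_congr rfl fun i _ => Finset.sum_comm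
      _ = _ := by
          refine Finset.sum_congr rfl fun i _ => Finset.sum_congr rfl fun j _ => ?_
          rw [Finset.sum_smul]
  have h2 : ψ (φ a) = ∑ i, ∑ j, φ a i j • ψ (Matrix.single i j 1) := by
    conv_lhs => rw [Matrix.matrix_eq_sum_single (φ a)]
    rw [map_sum]
    refine Finset.sum_congr rfl fun i _ => ?_
    rw [map_sum]
    refine Finset.sum_congr rfl fun j _ => ?_
    rw [← map_smul, Matrix.smul_single, smul_eq_mul, mul_one]
  rw [h1]
  have h3 : (∑ i, ∑ j, (∑ p, lam p (star (b p i) * a * b p j)) • ψ (Matrix.single i j 1)) - a =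
      -(∑ i, ∑ j, (φ a i j - ∑ p, lam p (star (b p i) * a * b p j)) •
        ψ (Matrix.single i j 1)) + (ψ (φ a) - a) := by
    rw [h2]
    simp only [sub_smul, Finset.sum_sub_distrib]
    abel
  rw [h3]
  have h4 : ‖∑ i, ∑ j, (φ a i j - ∑ p, lam p (star (b p i) * a * b p j)) •
      ψ (Matrix.single i j 1)‖ ≤ ε / 2 / (C + 1) * C := by
    rw [hC, Finset.mul_sum, ← hC]
    refine (norm_sum_le _ _).trans (Finset.sum_le_sum fun i _ => ?_)
    rw [Finset.mul_sum]
    refine (norm_sum_le _ _).trans (Finset.sum_le_sum fun j _ => ?_)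
    rw [norm_smul]
    exact mul_le_mul_of_nonneg_right (hb a ha i j).le (norm_nonneg _)
  have h5 : ε / 2 / (C + 1) * C ≤ ε / 2 := by
    rw [div_mul_eq_mul_div, div_le_iff₀ (by positivity)]
    nlinarith
  calc _ ≤ ‖-(∑ i, ∑ j, (φ a i j - ∑ p, lam p (star (b p i) * a * b p j)) •
        ψ (Matrix.single i j 1))‖ + ‖ψ (φ a) - a‖ := norm_add_le _ _
    _ < ε / 2 + ε / 2 := by
        rw [norm_neg]
        exact add_lt_add_of_le_of_lt (h4.trans h5) (hF a ha)
    _ = ε := add_halves ε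

end Vale.Agent.P095
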