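import Vale.Agent.P095.NucDim

/-!
# P095: the pair form of (SI) removes the characters (row F8)
-/

open Filter Topology TopologicalSpace
open scoped BoundedContinuousFunction ComplexOrder

namespace Vale.Agent.P095

open Vale.Agent.P101

universe u v w

theorem isEmpty_character_of_pairSI {G : Type*} [Group G] {A : Type u} [CStarAlgebra A]
    {ω : Ultrafilter ℕ} (α : G →* (A ≃⋆ₐ[ℂ] A))
    (hu : HasFixedUnits (centralAct ω α) (nullSet ω A)) (hSI : PairSI ω α) :
    IsEmpty (fixedAlg (centralAct ω α) →⋆ₐ[ℂ] ℂ) := by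
  refine ⟨fun χ => ?_⟩
  obtain ⟨w, hw1, hwf, hw2, hw3⟩ := hu
  let N : Set (fixedAlg (centralAct ω α)) := {x | (x : centralSeq ω A) ∈ nullSet ω A}
  have hN : ∀ x ∈ N, ∀ y, y * x ∈ N := fun x hx y => nullSet_mul_left hx _
  let W : fixedAlg (centralAct ω α) := ⟨w, hwf⟩
  have hW2 : W * W ∈ N := hw2
  have hW3 : 1 - star W * W - W * star W ∈ N := hw3
  obtain ⟨c, hc, hχc⟩ := char_exists_ne χ N W hW2 hW3
  obtain ⟨e, -, ⟨y, hy⟩, he1, -, -, -, hχe, hen, -⟩ := exists_null_pair χ N hN c hc hχc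
  have hy1 : (e : centralSeq ω A) = star (y : centralSeq ω A) * y := congrArg Subtype.val hy
  obtain ⟨S, hSf, hS⟩ := hSI e ⟨y, hy1⟩ he1 hen e.2
  let T : Fin 2 → fixedAlg (centralAct ω α) := fun i => ⟨S i, fun g => hSf g i⟩
  have h0 : star (T 0) * T 1 = 0 := Subtype.ext ((hS 0 1).trans (by simp))
  have h1 : ∀ i, star (T i) * T i = e := fun i => Subtype.ext ((hS i i).trans (by simp))
  have h2 : ∀ i, χ (T i) ≠ 0 := by
    intro i h3
    have h4 := congrArg χ (h1 i)
    rw [map_mul, h3, mul_zero, hχe] at h4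
    exact zero_ne_one h4
  have h5 := congrArg χ h0
  rw [map_mul, map_star, map_zero] at h5
  rcases mul_eq_zero.1 h5 with h6 | h6
  · exact h2 0 (star_eq_zero.1 h6)
  · exact h2 1 h6

end Vale.Agent.P095
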