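import Vale.Agent.P095.NucDim
import Vale.Agent.P095.LocFin
import Vale.Agent.P095.EpsCentral

/-!
# P095: exact pairs of shifts by the ε-test (row F6b)
-/

open Filter Topology TopologicalSpace
open scoped BoundedContinuousFunction ComplexOrder

namespace Vale.Agent.P095

open Vale.Agent.P101

universe u v w

theorem exists_shift2 {G : Type*} [Group G] [Countable G] {A : Type u} [CStarAlgebra A]
    [SeparableSpace A] {ω : Ultrafilter ℕ} (hω : (ω : Filter ℕ) ≤ cofinite)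
    (α : G →* (A ≃⋆ₐ[ℂ] A)) (e : centralSeq ω A) (he1 : ‖e‖ ≤ 1)
    (h : ∀ (F : Finset A) (K : Finset G), (∀ g ∈ K, centralAct ω α g ≠ 1) → ∀ ε > 0,
      ∃ s : Fin 2 → Ultra ω A,
      (∀ i j, ‖star (s i) * s j - (if i = j then (e : Ultra ω A) else 0)‖ < ε) ∧
      (∀ i, ∀ a ∈ F, ‖Ultra.diag ω a * s i - s i * Ultra.diag ω a‖ < ε) ∧
      ∀ i j, ∀ g ∈ K, ‖star (s i) * ultraAct ω α g (s j)‖ < ε) :
    ∃ s : Fin 2 → centralSeq ω A, (∀ i j, star (s i) * s j = if i = j then e else 0) ∧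
      ∀ i j g, centralAct ω α g ≠ 1 → star (s i) * centralAct ω α g (s j) = 0 := by
  classical
  obtain ⟨a, ha⟩ := exists_dense_seq A
  obtain ⟨E, hE, -⟩ := Ultra.exists_rep (e : Ultra ω A)
  have hev : ∀ (z : ℕ →ᵇ A) (ε : ℝ), ‖Ultra.mk ω z‖ < ε → ∀ᶠ n in (ω : Filter ℕ), ‖z n‖ < ε :=
    fun z ε hz => (Ultra.tendsto_norm_mk z).eventually (gt_mem_nhds hz)
  let X : Type u := {x : Fin 2 → A // ∀ i, ‖x i‖ ≤ 2}
  let κ := (Fin 2 × Fin 2) ⊕ ((Fin 2 × ℕ) ⊕ (Fin 2 × Fin 2 × {g : G // centralAct ω α g ≠ 1}))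
  let F : κ → (n : ℕ) → X → ℝ := fun k n x =>
    match k with
    | Sum.inl p => ‖star (x.1 p.1) * x.1 p.2 - (if p.1 = p.2 then E n else 0)‖
    | Sum.inr (Sum.inl q) => ‖a q.2 * x.1 q.1 - x.1 q.1 * a q.2‖
    | Sum.inr (Sum.inr r) => ‖star (x.1 r.1) * α r.2.2.1 (x.1 r.2.1)‖
  have hne : Nonempty X := ⟨⟨0, by simp⟩⟩
  have hF : ∀ k n x, 0 ≤ F k n x := by
    rintro (p | (q | r)) n x <;> exact norm_nonneg _
  have hF2 : ∀ (S : Finset κ) (ε : ℝ), 0 < ε →
      ∃ x : ∀ _ : ℕ, X, ∀ k ∈ S, ∀ᶠ n in (ω : Filter ℕ), F k n (x n) < ε := by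
    intro S ε hε
    let FA : Finset A := S.biUnion fun k => match k with
      | Sum.inr (Sum.inl q) => {a q.2}
      | _ => ∅
    let FG : Finset G := S.biUnion fun k => match k with
      | Sum.inr (Sum.inr r) => {r.2.2.1}
      | _ => ∅
    obtain ⟨s, hs1, hs3, hs4⟩ := h FA FG (by
        intro g hg
        obtain ⟨k, -, hk⟩ := Finset.mem_biUnion.1 hg
        rcases k with p | (q | r)
        · simp at hk
        · simp at hk
        · simp only [Finset.mem_singleton] at hk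
          rw [hk]
          exact r.2.2.2) (min ε 1) (lt_min hε one_pos)
    have hsn : ∀ i, ‖s i‖ ≤ 2 := by
      intro i
      have h1 : ‖s i‖ * ‖s i‖ ≤ 2 := by
        rw [← CStarRing.norm_star_mul_self]
        have h2 : star (s i) * s i = (star (s i) * s i - e) + e := by abel
        rw [h2]
        refine (norm_add_le _ _).trans ?_
        have h3 : ‖(e : Ultra ω A)‖ ≤ 1 := he1
        have h4 := (hs1 i i).le.trans (min_le_right _ _)
        rw [if_pos rfl] at h4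
        linarith
      nlinarith [norm_nonneg (s i)]
    choose y hy hyn using fun i => Ultra.exists_rep (s i)
    refine ⟨fun n => ⟨fun i => y i n, fun i => (hyn i n).trans (hsn i)⟩, ?_⟩
    rintro (p | (q | r)) hk
    · show ∀ᶠ n in (ω : Filter ℕ),
        ‖star (y p.1 n) * y p.2 n - (if p.1 = p.2 then E n else 0)‖ < ε
      have h1 := hs1 p.1 p.2
      by_cases hp : p.1 = p.2
      · simp only [if_pos hp] at h1 ⊢
        refine hev (star (y p.1) * y p.2 - E) ε ?_
        rw [map_sub, map_mul, map_star, hy, hy, hE]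
        exact h1.trans_le (min_le_left _ _)
      · simp only [if_neg hp, sub_zero] at h1 ⊢
        refine hev (star (y p.1) * y p.2) ε ?_
        rw [map_mul, map_star, hy, hy]
        exact h1.trans_le (min_le_left _ _)
    · show ∀ᶠ n in (ω : Filter ℕ), ‖a q.2 * y q.1 n - y q.1 n * a q.2‖ < ε
      refine hev (Ultra.const (a q.2) * y q.1 - y q.1 * Ultra.const (a q.2)) ε ?_
      rw [map_sub, map_mul, map_mul, hy, ← Ultra.diag_apply]
      refine (hs3 q.1 (a q.2) ?_).trans_le (min_le_left _ _)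
      exact Finset.mem_biUnion.2 ⟨_, hk, by simp⟩
    · show ∀ᶠ n in (ω : Filter ℕ), ‖star (y r.1 n) * α r.2.2.1 (y r.2.1 n)‖ < ε
      refine hev (star (y r.1) * seqMap (α r.2.2.1 : A →⋆ₐ[ℂ] A) (y r.2.1)) ε ?_
      rw [map_mul, map_star, ← ultraAct_mk, hy, hy]
      refine (hs4 r.1 r.2.1 r.2.2.1 ?_).trans_le (min_le_left _ _)
      exact Finset.mem_biUnion.2 ⟨_, hk, by simp⟩
  obtain ⟨x, hx⟩ := @eps_test_countable κ _ (fun _ => X)
    (fun _ => hne) (ω : Filter ℕ) hω F hF hF2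
  let y : Fin 2 → (ℕ →ᵇ A) := fun i =>
    BoundedContinuousFunction.ofNormedAddCommGroup (fun n => (x n).1 i)
      continuous_of_discreteTopology 2 (fun n => (x n).2 i)
  have hyc : ∀ i, Ultra.mk ω (y i) ∈ centralSeq ω A := fun i =>
    LocFin.mem_centralSeq_of_dense a ha (y i) fun j => hx (Sum.inr (Sum.inl (i, j)))
  refine ⟨fun i => ⟨Ultra.mk ω (y i), hyc i⟩, fun i j => Subtype.ext ?_,
    fun i j g hg => Subtype.ext ?_⟩
  · have h1 := hx (Sum.inl (i, j))
    show star (Ultra.mk ω (y i)) * Ultra.mk ω (y j) = ((if i = j then e else 0 : centralSeq ω A) : Ultra ω A)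
    by_cases hij : i = j
    · simp only [if_pos hij, F] at h1 ⊢
      rw [← hE, ← map_star, ← map_mul, Ultra.mk_eq_mk_iff]
      exact h1
    · simp only [if_neg hij, F, sub_zero] at h1 ⊢
      rw [← map_star, ← map_mul]
      show _ = (0 : Ultra ω A)
      rw [Ultra.mk_eq_zero_iff]
      exact h1
  · show star (Ultra.mk ω (y i)) * ultraAct ω α g (Ultra.mk ω (y j)) = 0
    rw [ultraAct_mk, ← map_star, ← map_mul, Ultra.mk_eq_zero_iff]
    exact hx (Sum.inr (Sum.inr (i, j, ⟨g, hg⟩)))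

end Vale.Agent.P095
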