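import Vale.Agent.P095.WDefs

/-!
# P095: the algebraic core of the shift construction (rows E9, F6a)
-/

open Filter Topology TopologicalSpace
open scoped BoundedContinuousFunction ComplexOrder

namespace Vale.Agent.P095

open Vale.Agent.P101

universe u v w

namespace ShiftApprox

section Core

variable {U : Type*} [CStarAlgebra U]

theorem norm_sum_sum_le {I : Type*} [Fintype I] (C C' : I → U) (M : I → I → U) (δ : ℝ)
    (hM : ∀ i j, ‖M i j‖ ≤ δ) :
    ‖∑ i, ∑ j, star (C i) * M i j * C' j‖ ≤ δ * (∑ i, ‖C i‖) * ∑ j, ‖C' j‖ := by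
  calc ‖∑ i, ∑ j, star (C i) * M i j * C' j‖ ≤ ∑ i, ∑ j, ‖star (C i) * M i j * C' j‖ :=
        (norm_sum_le _ _).trans (Finset.sum_le_sum fun i _ => norm_sum_le _ _)
    _ ≤ ∑ i, ∑ j, ‖C i‖ * δ * ‖C' j‖ := by
        refine Finset.sum_le_sum fun i _ => Finset.sum_le_sum fun j _ => ?_
        refine (norm_mul_le _ _).trans (mul_le_mul_of_nonneg_right ?_ (norm_nonneg _))
        refine (norm_mul_le _ _).trans ?_
        rw [norm_star]
        exact mul_le_mul_of_nonneg_left (hM i j) (norm_nonneg _)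
    _ = δ * (∑ i, ‖C i‖) * ∑ j, ‖C' j‖ := by
        rw [mul_assoc, Finset.sum_mul_sum, Finset.mul_sum]
        refine Finset.sum_congr rfl fun i _ => ?_
        rw [Finset.mul_sum]
        exact Finset.sum_congr rfl fun j _ => by ring

variable {A : Type*} [CStarAlgebra A] (D : A →⋆ₐ[ℂ] U)

/-- the shift element -/
def shiftEl {I : Type*} [Fintype I] (b c : I → A) (rho : I → U) : U :=
  ∑ i, D (b i) * rho i * D (c i)

theorem star_mul_shiftEl {I : Type*} [Fintype I] (b c b' c' : I → A) (rho rho' : I → U) (a : A) :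
    star (shiftEl D b c rho) * D a * shiftEl D b' c' rho' =
      ∑ i, ∑ j, star (D (c i)) * (star (rho i) * D (star (b i) * a * b' j) * rho' j) * D (c' j) := by
  unfold shiftEl
  rw [star_sum, Finset.sum_mul, Finset.sum_mul_sum]
  refine Finset.sum_congr rfl fun i _ => Finset.sum_congr rfl fun j _ => ?_
  rw [star_mul, star_mul, map_mul D, map_mul D, map_star D]
  noncomm_ring

theorem shift_core {I J : Type*} [Fintype I] [Fintype J] [DecidableEq I] {e : U} (he1 : ‖e‖ ≤ 1)
    (hcomm : ∀ a, Commute (D a) e) (lam : I → A →ₗ[ℂ] ℂ) (b c : I × J → A) (rho : I → U)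
    (a : A) (δ η L : ℝ) (hL : ∑ i, ‖c i‖ ≤ L) (hδ : 0 ≤ δ)
    (h1 : ∀ p i j, ‖star (rho p) * D (star (b (p, i)) * a * b (p, j)) * rho p -
      lam p (star (b (p, i)) * a * b (p, j)) • e‖ ≤ δ)
    (h2 : ∀ p q i j, p ≠ q → ‖star (rho p) * D (star (b (p, i)) * a * b (q, j)) * rho q‖ ≤ δ)
    (h3 : ‖∑ p, ∑ i, ∑ j, lam p (star (b (p, i)) * a * b (p, j)) •
      (star (c (p, i)) * c (p, j)) - a‖ < η) :
    ‖star (shiftEl D b c (fun i => rho i.1)) * D a * shiftEl D b c (fun i => rho i.1) -
      D a * e‖ ≤ δ * L * L + η := by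
  let N : I × J → I × J → U := fun i j =>
    if i.1 = j.1 then lam i.1 (star (b i) * a * b j) • e else 0
  have hDn : ∀ x, ‖D x‖ ≤ ‖x‖ := fun x => NonUnitalStarAlgHom.norm_apply_le D x
  have hN : ∑ i, ∑ j, star (D (c i)) * N i j * D (c j) = D (∑ p, ∑ i, ∑ j,
      lam p (star (b (p, i)) * a * b (p, j)) • (star (c (p, i)) * c (p, j))) * e := by
    rw [Fintype.sum_prod_type]
    simp only [map_sum, Finset.sum_mul]
    refine Finset.sum_congr rfl fun p _ => Finset.sum_congr rfl fun i _ => ?_
    rw [Fintype.sum_prod_type, Finset.sum_eq_single p]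
    · refine Finset.sum_congr rfl fun j _ => ?_
      simp only [N, if_true]
      rw [map_smul, map_mul D, map_star D, mul_smul_comm, smul_mul_assoc, smul_mul_assoc]
      congr 1
      rw [mul_assoc, ← (hcomm (c (p, j))).eq, ← mul_assoc]
    · intro q _ hq
      refine Finset.sum_eq_zero fun j _ => ?_
      simp only [N, if_neg (Ne.symm hq), mul_zero, zero_mul]
    · simp
  have h4 : star (shiftEl D b c (fun i => rho i.1)) * D a * shiftEl D b c (fun i => rho i.1) -
      D (∑ p, ∑ i, ∑ j, lam p (star (b (p, i)) * a * b (p, j)) •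
        (star (c (p, i)) * c (p, j))) * e =
      ∑ i, ∑ j, star (D (c i)) * (star (rho i.1) * D (star (b i) * a * b j) * rho j.1 - N i j) *
        D (c j) := by
    rw [star_mul_shiftEl, ← hN, ← Finset.sum_sub_distrib]
    refine Finset.sum_congr rfl fun i _ => ?_
    rw [← Finset.sum_sub_distrib]
    refine Finset.sum_congr rfl fun j _ => ?_
    noncomm_ring
  have hM : ∀ i j, ‖star (rho i.1) * D (star (b i) * a * b j) * rho j.1 - N i j‖ ≤ δ := by
    rintro ⟨p, i⟩ ⟨q, j⟩
    by_cases hpq : p = q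
    · subst hpq
      simp only [N, if_true]
      exact h1 p i j
    · simp only [N, if_neg hpq, sub_zero]
      exact h2 p q i j hpq
  have h5 := norm_sum_sum_le (fun i => D (c i)) (fun i => D (c i)) _ δ hM
  rw [← h4] at h5
  have hL' : ∑ i, ‖D (c i)‖ ≤ L := (Finset.sum_le_sum fun i _ => hDn _).trans hL
  have hL0 : 0 ≤ ∑ i, ‖D (c i)‖ := Finset.sum_nonneg fun i _ => norm_nonneg _
  have h6 : δ * (∑ i, ‖D (c i)‖) * ∑ i, ‖D (c i)‖ ≤ δ * L * L :=
    mul_le_mul (mul_le_mul_of_nonneg_left hL' hδ) hL' hL0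
      (mul_nonneg hδ (hL0.trans hL'))
  have h7 : ‖D (∑ p, ∑ i, ∑ j, lam p (star (b (p, i)) * a * b (p, j)) •
        (star (c (p, i)) * c (p, j))) * e - D a * e‖ ≤ η := by
    rw [← sub_mul, ← map_sub]
    refine (norm_mul_le _ _).trans ?_
    exact (mul_le_of_le_one_right (norm_nonneg _) he1).trans ((hDn _).trans h3.le)
  calc _ ≤ _ := norm_sub_le_norm_sub_add_norm_sub _ (D (∑ p, ∑ i, ∑ j,
        lam p (star (b (p, i)) * a * b (p, j)) • (star (c (p, i)) * c (p, j))) * e) _
    _ ≤ _ := add_le_add (h5.trans h6) h7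

/-- commutator estimate -/
theorem norm_comm_sq_le {e s d : U} (hde : Commute d e) (η R : ℝ)
    (hd : ‖d‖ ≤ R) (hR : 0 ≤ R)
    (h1 : ‖star s * s - e‖ ≤ η) (h2 : ‖star s * d * s - d * e‖ ≤ η)
    (h3 : ‖star s * star d * s - star d * e‖ ≤ η)
    (h4 : ‖star s * (star d * d) * s - star d * d * e‖ ≤ η) :
    ‖d * s - s * d‖ ^ 2 ≤ η * (1 + R) ^ 2 := by
  have hη : 0 ≤ η := (norm_nonneg _).trans h1
  have h5 : star (d * s - s * d) * (d * s - s * d) =
      (star s * (star d * d) * s - star d * d * e) - (star s * star d * s - star d * e) * d -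
        star d * (star s * d * s - d * e) + star d * (star s * s - e) * d := by
    rw [star_sub, star_mul, star_mul]
    have e1 : star d * e * d = star d * d * e := by rw [mul_assoc, ← hde.eq, mul_assoc]
    have e2 : star d * (star s * s - e) * d = star d * star s * s * d - star d * d * e := by
      rw [mul_sub, sub_mul, e1]; noncomm_ring
    have e3 : (star s * star d * s - star d * e) * d = star s * star d * s * d - star d * d * e := by
      rw [sub_mul, e1]
    rw [e2, e3]
    noncomm_ring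
  have h6 : ‖d * s - s * d‖ ^ 2 = ‖star (d * s - s * d) * (d * s - s * d)‖ := by
    rw [CStarRing.norm_star_mul_self, pow_two]
  rw [h6, h5]
  have n1 : ‖(star s * star d * s - star d * e) * d‖ ≤ η * R :=
    (norm_mul_le _ _).trans (mul_le_mul h3 hd (norm_nonneg _) hη)
  have n2 : ‖star d * (star s * d * s - d * e)‖ ≤ R * η := by
    refine (norm_mul_le _ _).trans ?_
    rw [norm_star]
    exact mul_le_mul hd h2 (norm_nonneg _) hR
  have n3 : ‖star d * (star s * s - e) * d‖ ≤ R * η * R := by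
    refine (norm_mul_le _ _).trans (mul_le_mul ?_ hd (norm_nonneg _) (mul_nonneg hR hη))
    refine (norm_mul_le _ _).trans ?_
    rw [norm_star]
    exact mul_le_mul hd h1 (norm_nonneg _) hR
  calc _ ≤ ‖(star s * (star d * d) * s - star d * d * e) - (star s * star d * s - star d * e) * d -
        star d * (star s * d * s - d * e)‖ + ‖star d * (star s * s - e) * d‖ := norm_add_le _ _
    _ ≤ (‖star s * (star d * d) * s - star d * d * e‖ +
        ‖(star s * star d * s - star d * e) * d‖ + ‖star d * (star s * d * s - d * e)‖) +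
        ‖star d * (star s * s - e) * d‖ := by
          gcongr
          exact (norm_sub_le _ _).trans (add_le_add (norm_sub_le _ _) le_rfl)
    _ ≤ (η + η * R + R * η) + R * η * R := by gcongr
    _ = η * (1 + R) ^ 2 := by ring

end Core

end ShiftApprox

end Vale.Agent.P095
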