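import Vale.Agent.P095.NucDim

/-!
# P095, row F2c: a local inverse for order zero maps
-/

open Filter Topology TopologicalSpace
open scoped BoundedContinuousFunction ComplexOrder

namespace Vale.Agent.P095

open Vale.Agent.P101

namespace OZCalc

section CP

variable {F A : Type*} [Ring F] [StarRing F] [Module ℂ F] [CStarAlgebra A]

theorem two_by_two {ψ : F →ₗ[ℂ] A} (hψ : IsCP ψ) (x : F) :
    ∃ Y : Matrix (Fin 2) (Fin 2) A,
      ψ 1 = star (Y 0 1) * Y 0 1 + star (Y 1 1) * Y 1 1 ∧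
      ψ (star x) = star (Y 0 0) * Y 0 1 + star (Y 1 0) * Y 1 1 ∧
      ψ x = star (Y 0 1) * Y 0 0 + star (Y 1 1) * Y 1 0 := by
  have hX : IsPos (!![star x * x, star x; x, 1] : Matrix (Fin 2) (Fin 2) F) := by
    refine ⟨!![x, 1; 0, 0], ?_⟩
    ext i j
    fin_cases i <;> fin_cases j <;>
      simp [Matrix.mul_apply, Matrix.star_apply, Fin.sum_univ_two]
  obtain ⟨Y, hY⟩ := hψ 2 _ hX
  refine ⟨Y, ?_, ?_, ?_⟩
  · have := congr_fun (congr_fun hY 1) 1
    simpa [Matrix.mul_apply, Matrix.star_apply, Fin.sum_univ_two] using this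
  · have := congr_fun (congr_fun hY 0) 1
    simpa [Matrix.mul_apply, Matrix.star_apply, Fin.sum_univ_two] using this
  · have := congr_fun (congr_fun hY 1) 0
    simpa [Matrix.mul_apply, Matrix.star_apply, Fin.sum_univ_two] using this

/-- completely positive maps are hermitian -/
theorem map_star {ψ : F →ₗ[ℂ] A} (hψ : IsCP ψ) (x : F) : ψ (star x) = star (ψ x) := by
  obtain ⟨Y, -, h1, h2⟩ := two_by_two hψ x
  rw [h1, h2]
  simp only [star_add, star_mul, star_star]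

theorem map_one_pos {ψ : F →ₗ[ℂ] A} (hψ : IsCP ψ) :
    ∃ a b : A, ψ 1 = star a * a + star b * b := by
  obtain ⟨Y, h, -, -⟩ := two_by_two hψ 1
  exact ⟨_, _, h⟩

theorem map_one_sa {ψ : F →ₗ[ℂ] A} (hψ : IsCP ψ) : IsSelfAdjoint (ψ 1) := by
  have := map_star hψ (1 : F)
  rw [star_one] at this
  exact this.symm

theorem spectrum_nonneg {ψ : F →ₗ[ℂ] A} (hψ : IsCP ψ) :
    ∀ t ∈ spectrum ℝ (ψ 1), 0 ≤ t := by
  let _ := CStarAlgebra.spectralOrder A
  let _ := CStarAlgebra.spectralOrderedRing A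
  obtain ⟨a, b, h⟩ := map_one_pos hψ
  have h0 : 0 ≤ ψ 1 := by
    rw [h]
    exact add_nonneg (star_mul_self_nonneg a) (star_mul_self_nonneg b)
  intro t ht
  exact _root_.spectrum_nonneg_of_nonneg h0 ht

end CP

/-- the cut off inverse square root -/
noncomputable def kk (d : ℝ) (t : ℝ) : ℝ := (Real.sqrt (max t d))⁻¹

theorem continuous_kk {d : ℝ} (hd : 0 < d) : Continuous (kk d) := by
  unfold kk
  refine Continuous.inv₀ (by fun_prop) ?_
  intro t
  have : 0 < max t d := lt_max_of_lt_right hd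
  exact (Real.sqrt_pos.2 this).ne'

theorem kk_sq {d : ℝ} (hd : 0 < d) (t : ℝ) : kk d t * kk d t = (max t d)⁻¹ := by
  unfold kk
  have : 0 < max t d := lt_max_of_lt_right hd
  rw [← mul_inv, Real.mul_self_sqrt this.le]

theorem bound {d : ℝ} (hd : 0 < d) {t : ℝ} (ht : 0 ≤ t) :
    |(1 - kk d t * kk d t * t) * (1 - kk d t * kk d t * t) * t| ≤ d := by
  rw [kk_sq hd]
  rcases le_or_gt d t with h | h
  · rw [max_eq_left h, inv_mul_cancel₀ (by linarith : t ≠ 0)]
    simpa using hd.le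
  · rw [max_eq_right h.le]
    have h1 : 0 ≤ d⁻¹ * t := by positivity
    have h2 : d⁻¹ * t ≤ 1 := by
      rw [inv_mul_le_iff₀ hd]
      linarith
    rw [abs_of_nonneg (by positivity)]
    have h3 : (1 - d⁻¹ * t) * (1 - d⁻¹ * t) ≤ 1 := by nlinarith
    nlinarith [mul_le_mul_of_nonneg_right h3 ht]

end OZCalc

open OZCalc

theorem exists_oz_unit {F A : Type*} [Ring F] [StarRing F] [Module ℂ F] [CStarAlgebra A]
    (ψ : F →ₗ[ℂ] A) (hψ : IsOrderZero ψ) (X : Finset F) (δ : ℝ) (hδ : 0 < δ) :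
    ∃ g : A, IsSelfAdjoint g ∧ (∀ x, Commute g (ψ x)) ∧
      ∀ x ∈ X, ‖g * g * ψ 1 * ψ x - ψ x‖ ≤ δ := by
  have hsa : IsSelfAdjoint (ψ 1) := map_one_sa hψ.cp
  have hcomm : ∀ x, Commute (ψ 1) (ψ x) := by
    intro x
    have h1 := hψ.mul x 1
    rw [mul_one] at h1
    exact h1.symm
  set M : ℝ := ∑ x ∈ X, ‖ψ (star x * x)‖ with hM
  have hM0 : 0 ≤ M := Finset.sum_nonneg fun _ _ => norm_nonneg _
  set d : ℝ := δ ^ 2 / (1 + M) with hd
  have hd0 : 0 < d := by positivity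
  have hk := continuous_kk hd0
  have hid : cfc (fun t : ℝ => t) (ψ 1) = ψ 1 := cfc_id' ℝ (ψ 1)
  set g : A := cfc (kk d) (ψ 1) with hg
  have hgsa : IsSelfAdjoint g := cfc_predicate _ _
  have hgc : ∀ x, Commute g (ψ x) := fun x => Commute.cfc_real (hcomm x) _
  refine ⟨g, hgsa, hgc, ?_⟩
  intro x hx
  have h1 : g * g * ψ 1 = cfc (fun t => kk d t * kk d t * t) (ψ 1) := by
    rw [cfc_mul (fun t => kk d t * kk d t) (fun t => t) (ψ 1) (by fun_prop) (by fun_prop),
      cfc_mul (kk d) (kk d) (ψ 1) (by fun_prop) (by fun_prop), hid]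
  set e : A := 1 - g * g * ψ 1 with he
  have h2 : e = cfc (fun t => 1 - kk d t * kk d t * t) (ψ 1) := by
    rw [he, h1, cfc_sub (fun _ => (1 : ℝ)) (fun t => kk d t * kk d t * t) (ψ 1) (by fun_prop)
      (by fun_prop), cfc_const_one ℝ (ψ 1)]
  have hesa : IsSelfAdjoint e := by
    rw [h2]
    exact cfc_predicate _ _
  have hec : ∀ y, Commute e (ψ y) := by
    intro y
    rw [h2]
    exact Commute.cfc_real (hcomm y) _
  have h3 : e * e * ψ 1 = cfc (fun t => (1 - kk d t * kk d t * t) * (1 - kk d t * kk d t * t) * t)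
      (ψ 1) := by
    rw [cfc_mul (fun t => (1 - kk d t * kk d t * t) * (1 - kk d t * kk d t * t)) (fun t => t) (ψ 1)
      (by fun_prop) (by fun_prop), cfc_mul (fun t => 1 - kk d t * kk d t * t)
      (fun t => 1 - kk d t * kk d t * t) (ψ 1) (by fun_prop) (by fun_prop), hid, ← h2]
  have h4 : ‖e * e * ψ 1‖ ≤ d := by
    rw [h3]
    refine norm_cfc_le hd0.le ?_
    intro t ht
    exact bound hd0 (OZCalc.spectrum_nonneg hψ.cp t ht)
  have h5 : g * g * ψ 1 * ψ x - ψ x = -(e * ψ x) := by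
    rw [he, sub_mul, one_mul]
    abel
  have h6 : star (e * ψ x) * (e * ψ x) = e * e * ψ 1 * ψ (star x * x) := by
    have a1 := hψ.mul (star x) x
    have a2 := map_star hψ.cp x
    rw [star_mul, hesa.star_eq, ← a2]
    have c1 := (hec (star x)).eq
    calc ψ (star x) * e * (e * ψ x) = ψ (star x) * e * e * ψ x := by noncomm_ring
      _ = e * ψ (star x) * e * ψ x := by rw [c1]
      _ = e * (ψ (star x) * e) * ψ x := by noncomm_ring
      _ = e * (e * ψ (star x)) * ψ x := by rw [c1]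
      _ = e * e * (ψ (star x) * ψ x) := by noncomm_ring
      _ = e * e * (ψ 1 * ψ (star x * x)) := by rw [a1]
      _ = e * e * ψ 1 * ψ (star x * x) := by noncomm_ring
  rw [h5, norm_neg]
  have h7 : ‖e * ψ x‖ * ‖e * ψ x‖ ≤ d * M := by
    rw [← CStarRing.norm_star_mul_self, h6]
    refine (norm_mul_le _ _).trans ?_
    refine mul_le_mul h4 ?_ (norm_nonneg _) hd0.le
    exact Finset.single_le_sum (f := fun x => ‖ψ (star x * x)‖) (fun _ _ => norm_nonneg _) hx
  have h8 : d * M ≤ δ ^ 2 := by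
    rw [hd, div_mul_eq_mul_div, div_le_iff₀ (by positivity)]
    nlinarith [sq_nonneg δ]
  have h9 : ‖e * ψ x‖ ^ 2 ≤ δ ^ 2 := by
    rw [pow_two]
    linarith
  exact (pow_le_pow_iff_left₀ (norm_nonneg _) hδ.le two_ne_zero).1 h9

end Vale.Agent.P095
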