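import Vale.Agent.P095.RankStepOf
import Vale.Agent.P095.CuntzPed2
import Vale.Agent.P095.BlockSplit
import Vale.Agent.P095.OZCalc

/-!
# P095: elements of small trace in algebras of finite nuclear dimension (row F2d of target T6)
-/

open Filter Topology TopologicalSpace
open scoped BoundedContinuousFunction ComplexOrder

namespace Vale.Agent.P095

open Vale.Agent.P101

universe u v w

theorem exists_rank_small {A : Type u} [CStarAlgebra A] {d : ℕ} (hd : HasNuclearDim A d) (N : ℕ)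
    (hN : 0 < N) (ε : ℝ) (hε : 0 < ε) :
    ∃ η : ℝ, 0 < η ∧ ∀ a : A, IsPos a → ‖a‖ ≤ 1 →
      (∀ τ : A →ₗ[ℂ] ℂ, IsTrace τ → (τ a).re ≤ η) →
      ∃ z : Fin (d + 1) → Fin N → A, ∀ j j',
        ‖∑ c, star (z c j) * z c j' - (if j = j' then a * a else 0)‖ ≤ ε :=
  exists_rank_small_of
    (fun a ha η η' h0 hη h ε hε => exists_cp_decomp a ha η η' h0 hη h ε hε)
    (fun hN Q hQ κ ε hε hκ h => exists_block_split hN Q hQ κ ε hε hκ h)
    (fun ψ hψ X δ hδ => exists_oz_unit ψ hψ X δ hδ) hd N hN ε hε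

end Vale.Agent.P095
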