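import Vale.Agent.P095.NDefs

/-!
# P095: finite nuclear dimension (definitions for target T6)
-/

open Filter Topology TopologicalSpace
open scoped BoundedContinuousFunction ComplexOrder

namespace Vale.Agent.P095

open Vale.Agent.P101

universe u v w

/-- Contractive completely positive order zero maps, in the form of the Winter-Zacharias structure
theorem: `ψ(x) ψ(y) = ψ(1) ψ(xy)`. -/
structure IsOrderZero {F A : Type*} [Ring F] [StarRing F] [Module ℂ F] [CStarAlgebra A]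
    (ψ : F →ₗ[ℂ] A) : Prop where
  cp : IsCP ψ
  mul : ∀ x y, ψ x * ψ y = ψ 1 * ψ (x * y)
  norm_one : ‖ψ 1‖ ≤ 1

/-- `A` has nuclear dimension at most `d`: the identity is approximated by sums of `d + 1`
composites of completely positive contractions into finite-dimensional algebras and contractive
order zero maps back to `A`. -/
def HasNuclearDim (A : Type*) [CStarAlgebra A] (d : ℕ) : Prop :=
  ∀ (S : Finset A) (ε : ℝ), 0 < ε → ∃ (m : ℕ) (n : Fin (d + 1) → Fin m → ℕ)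
    (φ : ∀ c, A →ₗ[ℂ] (∀ i, Matrix (Fin (n c i)) (Fin (n c i)) ℂ))
    (ψ : ∀ c, (∀ i, Matrix (Fin (n c i)) (Fin (n c i)) ℂ) →ₗ[ℂ] A),
    (∀ c, IsCP (φ c)) ∧ (∀ c, IsPos (1 - φ c 1)) ∧ (∀ c, IsOrderZero (ψ c)) ∧
    ∀ a ∈ S, ‖∑ c, ψ c (φ c a) - a‖ < ε

/-- Very weak comparison, with a bound for the comparison element. -/
def VWComparison (A : Type*) [CStarAlgebra A] : Prop :=
  ∀ x : A, IsPos x → x ≠ 0 → ∃ C : ℝ, ∀ ε : ℝ, 0 < ε → ∃ η : ℝ, 0 < η ∧ ∀ a : A, IsPos a →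
    ‖a‖ ≤ 1 → (∀ τ : A →ₗ[ℂ] ℂ, IsTrace τ → (τ a).re ≤ η) →
    ∃ r : A, ‖r‖ ≤ C ∧ ‖star r * (x * x) * r - a * a‖ ≤ ε

/-- Pair form of property (SI): for fixed null positive contractions `e` there are fixed `s₁, s₂`
with `sᵢ* sⱼ = δᵢⱼ e`. -/
def PairSI {G : Type*} [Group G] (ω : Ultrafilter ℕ) {A : Type u} [CStarAlgebra A]
    (α : G →* (A ≃⋆ₐ[ℂ] A)) : Prop :=
  ∀ e : centralSeq ω A, IsPos e → ‖e‖ ≤ 1 → e ∈ nullSet ω A → (∀ g, centralAct ω α g e = e) →
    ∃ S : Fin 2 → centralSeq ω A, (∀ g i, centralAct ω α g (S i) = S i) ∧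
      ∀ i j, star (S i) * S j = if i = j then e else 0

end Vale.Agent.P095
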