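import Vale.Agent.P095.NDefs
import Vale.Agent.P095.SeedSeq

/-!
# P095, row E3d: orthogonal families from free copies
-/

open Filter Topology TopologicalSpace
open scoped BoundedContinuousFunction ComplexOrder

namespace Vale.Agent.P095

open Vale.Agent.P101

namespace Orth

variable {G : Type*} [Group G] {B : Type*} [CStarAlgebra B]

/-- every separable set lies in a closed separable invariant star subalgebra -/
theorem exists_inv_alg [Countable G] (β : G →* (B ≃⋆ₐ[ℂ] B)) (X : Set B) (hX : IsSeparable X) :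
    ∃ S : StarSubalgebra ℂ B, IsClosed (S : Set B) ∧ IsSeparable (S : Set B) ∧
      (∀ g, ∀ x ∈ S, β g x ∈ S) ∧ X ⊆ S := by
  let Y : Set B := ⋃ g, β g '' X
  have hY : IsSeparable Y := IsSeparable.iUnion fun g => hX.image (continuous_act β g)
  have hYinv : ∀ g, ∀ x ∈ Y, β g x ∈ Y := by
    intro g x hx
    obtain ⟨h, y, hy, rfl⟩ := Set.mem_iUnion.1 hx
    refine Set.mem_iUnion.2 ⟨g * h, y, hy, ?_⟩
    rw [map_mul]
    rfl
  refine ⟨cgen Y, isClosed_cgen Y, isSeparable_cgen hY, fun g => cgen_invariant β hYinv g, ?_⟩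
  intro x hx
  refine subset_cgen Y (Set.mem_iUnion.2 ⟨1, x, hx, ?_⟩)
  rw [map_one]
  rfl

theorem isPos_mul {x y : B} (hx : IsPos x) (hy : IsPos y) (h : Commute x y) : IsPos (x * y) := by
  let _ := CStarAlgebra.spectralOrder B
  let _ := CStarAlgebra.spectralOrderedRing B
  exact CStarAlgebra.nonneg_iff_eq_star_mul_self.1 (Commute.mul_nonneg
    (CStarAlgebra.nonneg_iff_eq_star_mul_self.2 hx) (CStarAlgebra.nonneg_iff_eq_star_mul_self.2 hy) h)

theorem isPos_star {x : B} (hx : IsPos x) : star x = x := by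
  obtain ⟨y, rfl⟩ := hx
  rw [star_mul, star_star]

theorem isPos_one : IsPos (1 : B) := ⟨1, by rw [star_one, one_mul]⟩

/-- image of a positive element of the subalgebra, the root being taken in `B` -/
theorem isPos_map {S : StarSubalgebra ℂ B} (hS : IsClosed (S : Set B)) (Φ : S →⋆ₐ[ℂ] B)
    {x : S} (hx : IsPos (x : B)) : IsPos (Φ x) := by
  let _ := CStarAlgebra.spectralOrder B
  let _ := CStarAlgebra.spectralOrderedRing B
  have hx0 : 0 ≤ (x : B) := CStarAlgebra.nonneg_iff_eq_star_mul_self.2 hx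
  have hm : cfc Real.sqrt (x : B) ∈ S := by
    have : IsClosed (S : Set B) := hS
    exact cfc_mem Real.sqrt x.2
  have hss : cfc Real.sqrt (x : B) * cfc Real.sqrt (x : B) = x := by
    rw [← cfc_mul Real.sqrt Real.sqrt (x : B) Real.continuous_sqrt.continuousOn
      Real.continuous_sqrt.continuousOn]
    conv_rhs => rw [← cfc_id' ℝ (x : B)]
    exact cfc_congr fun t ht => Real.mul_self_sqrt (spectrum_nonneg_of_nonneg hx0 ht)
  have hsa : star (cfc Real.sqrt (x : B)) = cfc Real.sqrt (x : B) :=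
    (IsSelfAdjoint.cfc : IsSelfAdjoint (cfc Real.sqrt (x : B)))
  refine ⟨Φ ⟨cfc Real.sqrt (x : B), hm⟩, ?_⟩
  rw [← map_star, ← map_mul]
  congr 1
  apply Subtype.ext
  show (x : B) = star (cfc Real.sqrt (x : B)) * cfc Real.sqrt (x : B)
  rw [hsa, hss]

/-- A packaged free copy: an algebra containing a given finite family and a free copy of it. -/
theorem exists_free_copy [Countable G] {β : G →* (B ≃⋆ₐ[ℂ] B)} (hf : HasFreeCopies β)
    (X : Set B) (hX : X.Countable) :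
    ∃ Φ : B → B, (∀ x ∈ X, ∀ y ∈ X, Commute (Φ x) y) ∧
      (∀ x ∈ X, ∀ y ∈ X, ∀ g, Commute (Φ x) (β g y)) ∧
      (∀ x ∈ X, IsPos x → IsPos (Φ x)) ∧
      (∀ x ∈ X, ∀ y ∈ X, ‖Φ x * y‖ = ‖x‖ * ‖y‖) ∧
      (∀ x ∈ X, ‖Φ x‖ = ‖x‖ * ‖(1 : B)‖) ∧
      (∀ x ∈ X, ∀ y ∈ X, x * y = 0 → Φ x * Φ y = 0) ∧
      (∀ x ∈ X, ∀ y ∈ X, ∀ g, x * β g y = 0 → Φ x * β g (Φ y) = 0) ∧
      (∀ x ∈ X, ∀ g, β g x = x → β g (Φ x) = Φ x) := by
  classical
  obtain ⟨S, hS, hS2, hS3, hXS⟩ := exists_inv_alg β X hX.isSeparable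
  obtain ⟨Φ, h1, h2, h3⟩ := hf S hS hS2 hS3
  have e : ∀ x (hx : x ∈ S), (fun x => if h : x ∈ S then Φ ⟨x, h⟩ else 0) x = Φ ⟨x, hx⟩ :=
    fun x hx => dif_pos hx
  refine ⟨fun x => if h : x ∈ S then Φ ⟨x, h⟩ else 0, ?_, ?_, ?_, ?_, ?_, ?_, ?_, ?_⟩
  · intro x hx y hy
    rw [e x (hXS hx)]
    exact h1 _ ⟨y, hXS hy⟩
  · intro x hx y hy g
    rw [e x (hXS hx)]
    exact h1 _ ⟨β g y, hS3 g y (hXS hy)⟩
  · intro x hx hp
    rw [e x (hXS hx)]
    exact isPos_map hS Φ hp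
  · intro x hx y hy
    rw [e x (hXS hx)]
    exact h3 ⟨x, hXS hx⟩ ⟨y, hXS hy⟩
  · intro x hx
    rw [e x (hXS hx)]
    have := h3 ⟨x, hXS hx⟩ 1
    rw [show ((1 : S) : B) = 1 from rfl, mul_one] at this
    exact this
  · intro x hx y hy h0
    rw [e x (hXS hx), e y (hXS hy), ← map_mul]
    rw [show (⟨x, hXS hx⟩ * ⟨y, hXS hy⟩ : S) = 0 from Subtype.ext h0, map_zero]
  · intro x hx y hy g h0
    rw [e x (hXS hx), e y (hXS hy), ← h2 g ⟨y, hXS hy⟩ ⟨β g y, hS3 g y (hXS hy)⟩ rfl, ← map_mul]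
    rw [show (⟨x, hXS hx⟩ * ⟨β g y, hS3 g y (hXS hy)⟩ : S) = 0 from Subtype.ext h0, map_zero]
  · intro x hx g h0
    rw [e x (hXS hx), ← h2 g ⟨x, hXS hx⟩ ⟨x, hXS hx⟩ h0.symm]

end Orth

open Orth

theorem exists_orth_fixed {G : Type*} [Group G] [Countable G] {B : Type*} [CStarAlgebra B]
    {β : G →* (B ≃⋆ₐ[ℂ] B)} (hf : HasFreeCopies β) (D D' : B) (hD : IsPos D) (hD' : IsPos D')
    (hn : ‖D‖ = 1) (hn' : ‖D'‖ = 1) (h0 : D * D' = 0) (hfix : ∀ g, β g D = D)
    (hfix' : ∀ g, β g D' = D') (m : ℕ) :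
    ∃ E : Fin m → B, (∀ p, IsPos (E p)) ∧ (∀ p, ‖E p‖ = 1) ∧ (∀ g p, β g (E p) = E p) ∧
      ∀ p q, p ≠ q → E p * E q = 0 := by
  have hnt : Nontrivial B := ⟨⟨D, 0, fun h => by
    rw [h, norm_zero] at hn
    exact zero_ne_one hn⟩⟩
  have h0' : D' * D = 0 := by
    have := congrArg star h0
    rwa [star_mul, star_zero, isPos_star hD, isPos_star hD'] at this
  induction m with
  | zero =>
    exact ⟨fun i => i.elim0, fun i => i.elim0, fun i => i.elim0, fun _ i => i.elim0,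
      fun i => i.elim0⟩
  | succ m ih =>
    obtain ⟨E, hE1, hE2, hE3, hE4⟩ := ih
    obtain ⟨Φ, c1, -, c3, c4, c5, c6, -, c8⟩ := exists_free_copy hf ({D, D'} ∪ Set.range E)
      ((Set.toFinite _).countable.union (Set.finite_range E).countable)
    have mD : D ∈ ({D, D'} ∪ Set.range E : Set B) := Or.inl (Or.inl rfl)
    have mD' : D' ∈ ({D, D'} ∪ Set.range E : Set B) := Or.inl (Or.inr rfl)
    have mE : ∀ p, E p ∈ ({D, D'} ∪ Set.range E : Set B) := fun p => Or.inr ⟨p, rfl⟩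
    have hcomm : ∀ p, Commute (Φ D) (E p) := fun p => c1 D mD _ (mE p)
    have hcomm' : ∀ p, Commute (Φ D') (E p) := fun p => c1 D' mD' _ (mE p)
    have z1 : Φ D * Φ D' = 0 := c6 D mD D' mD' h0
    have z2 : Φ D' * Φ D = 0 := c6 D' mD' D mD h0'
    refine ⟨Fin.cons (Φ D') fun p => Φ D * E p, ?_, ?_, ?_, ?_⟩
    · intro p
      refine Fin.cases ?_ (fun p => ?_) p
      · exact c3 D' mD' hD'
      · exact isPos_mul (c3 D mD hD) (hE1 p) (hcomm p)
    · intro p
      refine Fin.cases ?_ (fun p => ?_) p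
      · show ‖Φ D'‖ = 1
        rw [c5 D' mD', hn', norm_one, mul_one]
      · show ‖Φ D * E p‖ = 1
        rw [c4 D mD _ (mE p), hn, hE2, mul_one]
    · intro g p
      refine Fin.cases ?_ (fun p => ?_) p
      · exact c8 D' mD' g (hfix' g)
      · show β g (Φ D * E p) = Φ D * E p
        rw [map_mul, c8 D mD g (hfix g), hE3]
    · intro p q
      refine Fin.cases ?_ (fun p => ?_) p
      · refine Fin.cases ?_ (fun q => ?_) q
        · intro h
          exact absurd rfl h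
        · intro _
          show Φ D' * (Φ D * E q) = 0
          rw [← mul_assoc, z2, zero_mul]
      · refine Fin.cases ?_ (fun q => ?_) q
        · intro _
          show Φ D * E p * Φ D' = 0
          rw [mul_assoc, ← (hcomm' p).eq, ← mul_assoc, z1, zero_mul]
        · intro h
          show Φ D * E p * (Φ D * E q) = 0
          have hpq : E p * E q = 0 := hE4 p q fun h' => h (by rw [h'])
          calc Φ D * E p * (Φ D * E q) = Φ D * (E p * Φ D) * E q := by simp only [mul_assoc]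
            _ = Φ D * (Φ D * E p) * E q := by rw [(hcomm p).eq]
            _ = Φ D * Φ D * (E p * E q) := by simp only [mul_assoc]
            _ = 0 := by rw [hpq, mul_zero]

theorem exists_orth_moved {G : Type*} [Group G] [Countable G] {B : Type*} [CStarAlgebra B]
    [Nontrivial B] {β : G →* (B ≃⋆ₐ[ℂ] B)} (hf : HasFreeCopies β) (K : Finset G)
    (hK : ∀ g ∈ K, ∃ H : B, IsPos H ∧ ‖H‖ = 1 ∧ H * β g H = 0) :
    ∃ H : B, IsPos H ∧ ‖H‖ = 1 ∧ ∀ g ∈ K, H * β g H = 0 := by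
  classical
  induction K using Finset.induction_on with
  | empty => exact ⟨1, isPos_one, norm_one, fun g hg => absurd hg (Finset.notMem_empty g)⟩
  | insert a K ha ih =>
    obtain ⟨H, hH1, hH2, hH3⟩ := ih fun g hg => hK g (Finset.mem_insert_of_mem hg)
    obtain ⟨L, hL1, hL2, hL3⟩ := hK a (Finset.mem_insert_self a K)
    obtain ⟨Φ, c1, c2, c3, c4, -, -, c7, -⟩ := exists_free_copy hf {H, L}
      (Set.toFinite _).countable
    have mH : H ∈ ({H, L} : Set B) := Or.inl rfl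
    have mL : L ∈ ({H, L} : Set B) := Or.inr rfl
    refine ⟨Φ L * H, isPos_mul (c3 L mL hL1) hH1 (c1 L mL H mH), ?_, ?_⟩
    · rw [c4 L mL H mH, hL2, hH2, mul_one]
    · intro g hg
      have hc : Commute (Φ L) H := c1 L mL H mH
      have hc2 : Commute H (β g (Φ L)) := by
        have h1 := (c2 L mL H mH g⁻¹).map (β g)
        have h2 : β g (β g⁻¹ H) = H := by
          have : (β g * β g⁻¹) H = H := by rw [← map_mul, mul_inv_cancel, map_one]; rfl
          exact this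
        rw [h2] at h1
        exact h1.symm
      rcases Finset.mem_insert.1 hg with rfl | hg'
      · calc Φ L * H * β g (Φ L * H) = Φ L * (H * β g (Φ L)) * β g H := by
              rw [map_mul]; simp only [mul_assoc]
          _ = Φ L * β g (Φ L) * (H * β g H) := by rw [hc2.eq]; simp only [mul_assoc]
          _ = 0 := by rw [c7 L mL L mL g hL3, zero_mul]
      · calc Φ L * H * β g (Φ L * H) = Φ L * (H * β g (Φ L)) * β g H := by
              rw [map_mul]; simp only [mul_assoc]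
          _ = Φ L * β g (Φ L) * (H * β g H) := by rw [hc2.eq]; simp only [mul_assoc]
          _ = 0 := by rw [hH3 g hg', mul_zero]

theorem exists_orth_family {G : Type*} [Group G] [Countable G] {B : Type*} [CStarAlgebra B]
    [Nontrivial B] {β : G →* (B ≃⋆ₐ[ℂ] B)} (hf : HasFreeCopies β) (K : Finset G)
    (hK : ∀ g ∈ K, ∃ H : B, IsPos H ∧ ‖H‖ = 1 ∧ H * β g H = 0)
    (D D' : B) (hD : IsPos D) (hD' : IsPos D')
    (hn : ‖D‖ = 1) (hn' : ‖D'‖ = 1) (h0 : D * D' = 0) (hfix : ∀ g, β g D = D)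
    (hfix' : ∀ g, β g D' = D') (m : ℕ) :
    ∃ H : Fin m → B, (∀ p, IsPos (H p)) ∧ (∀ p, ‖H p‖ = 1) ∧
      (∀ p q, p ≠ q → H p * H q = 0) ∧ ∀ p q, ∀ g ∈ K, H p * β g (H q) = 0 := by
  obtain ⟨E, hE1, hE2, hE3, hE4⟩ := exists_orth_fixed hf D D' hD hD' hn hn' h0 hfix hfix' m
  obtain ⟨H, hH1, hH2, hH3⟩ := exists_orth_moved hf K hK
  obtain ⟨Φ, c1, c2, c3, c4, -, c6, -, c8⟩ := exists_free_copy hf ({H} ∪ Set.range E)
    ((Set.toFinite _).countable.union (Set.finite_range E).countable)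
  have mH : H ∈ ({H} ∪ Set.range E : Set B) := Or.inl rfl
  have mE : ∀ p, E p ∈ ({H} ∪ Set.range E : Set B) := fun p => Or.inr ⟨p, rfl⟩
  have hcomm : ∀ p, Commute (Φ (E p)) H := fun p => c1 _ (mE p) H mH
  have hfixΦ : ∀ p g, β g (Φ (E p)) = Φ (E p) := fun p g => c8 _ (mE p) g (hE3 g p)
  refine ⟨fun p => Φ (E p) * H, ?_, ?_, ?_, ?_⟩
  · exact fun p => isPos_mul (c3 _ (mE p) (hE1 p)) hH1 (hcomm p)
  · intro p
    show ‖Φ (E p) * H‖ = 1
    rw [c4 _ (mE p) H mH, hE2, hH2, mul_one]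
  · intro p q hpq
    show Φ (E p) * H * (Φ (E q) * H) = 0
    calc Φ (E p) * H * (Φ (E q) * H) = Φ (E p) * (H * Φ (E q)) * H := by simp only [mul_assoc]
      _ = Φ (E p) * Φ (E q) * (H * H) := by rw [← (hcomm q).eq]; simp only [mul_assoc]
      _ = 0 := by rw [c6 _ (mE p) _ (mE q) (hE4 p q hpq), zero_mul]
  · intro p q g hg
    show Φ (E p) * H * β g (Φ (E q) * H) = 0
    calc Φ (E p) * H * β g (Φ (E q) * H) = Φ (E p) * (H * Φ (E q)) * β g H := by
          rw [map_mul, hfixΦ]; simp only [mul_assoc]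
      _ = Φ (E p) * Φ (E q) * (H * β g H) := by rw [← (hcomm q).eq]; simp only [mul_assoc]
      _ = 0 := by rw [hH3 g hg, mul_zero]

end Vale.Agent.P095
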