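import Vale.Agent.P095.LiteSI
import Vale.Agent.P095.Moved
import Vale.Agent.P095.Bumps
import Vale.Agent.P095.OrthFam
import Vale.Agent.P095.EqFree
import Vale.Agent.P095.FreeFam

/-!
# P095: orthogonal families moved to orthogonal position by the action
-/

open Filter Topology TopologicalSpace
open scoped BoundedContinuousFunction ComplexOrder

namespace Vale.Agent.P095

open Vale.Agent.P101

universe u v w

theorem exists_orth_families {G : Type*} [Group G] [Countable G] {A : Type u} [CStarAlgebra A]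
    [SeparableSpace A] [IsSimpleRing A] {ω : Ultrafilter ℕ} (hω : (ω : Filter ℕ) ≤ cofinite)
    (hG : ReiterAmenable G) (hseed : HasSeed (nullSet ω A)) (α : G →* (A ≃⋆ₐ[ℂ] A))
    (htr : ∃ τ : A →ₗ[ℂ] ℂ, IsTrace τ) (m : ℕ) (K : Finset G)
    (hK : ∀ g ∈ K, centralAct ω α g ≠ 1) :
    ∃ H : Fin m → centralSeq ω A, (∀ p, IsPos (H p)) ∧ (∀ p, ‖H p‖ = 1) ∧
      (∀ p q, p ≠ q → H p * H q = 0) ∧ ∀ p q, ∀ g ∈ K, H p * centralAct ω α g (H q) = 0 := by
  have hf := hasFreeCopies_centralSeq hω α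
  obtain ⟨S, hS, hS2, -, -⟩ := exists_invariant_subalgebra (centralAct ω α) {0}
    (Set.countable_singleton 0).isSeparable
  obtain ⟨s, hsa, hfix, hns⟩ := exists_fixed_nonscalar hω hG hseed α htr S hS hS2
  have hnt : Nontrivial (centralSeq ω A) := by
    refine ⟨⟨s, 0, fun h => hns 0 ?_⟩⟩
    rw [h, map_zero]
  obtain ⟨D, D', hD, hD', hn, hn', h0, hf'⟩ := exists_orth_pair s hsa hns
  refine exists_orth_family hf K (fun g hg => ?_) D D' hD hD' hn hn' h0
    (fun g => (hf' _ (hfix g)).1) (fun g => (hf' _ (hfix g)).2) m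
  obtain ⟨T, hT1, hT2, hT3⟩ := exists_moved hω α g (hK g hg)
  exact exists_pos_of_moved (centralAct ω α g) T hT1 hT2 hT3

end Vale.Agent.P095
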