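import Vale.Agent.P095.OrthFam
import Vale.Agent.P095.OrthFamilies

/-!
# P095: orthogonal families without traces
-/

open Filter Topology TopologicalSpace
open scoped BoundedContinuousFunction ComplexOrder

namespace Vale.Agent.P095

open Vale.Agent.P101 Orth

universe u v w

theorem exists_orth_any {G : Type*} [Group G] [Countable G] {B : Type*} [CStarAlgebra B]
    {β : G →* (B ≃⋆ₐ[ℂ] B)} (hf : HasFreeCopies β) (D D' : B) (hD : IsPos D) (hD' : IsPos D')
    (hn : ‖D‖ = 1) (hn' : ‖D'‖ = 1) (h0 : D * D' = 0) (m : ℕ) :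
    ∃ E : Fin m → B, (∀ p, IsPos (E p)) ∧ (∀ p, ‖E p‖ = 1) ∧ ∀ p q, p ≠ q → E p * E q = 0 := by
  have hnt : Nontrivial B := ⟨⟨D, 0, fun h => by
    rw [h, norm_zero] at hn
    exact zero_ne_one hn⟩⟩
  have h0' : D' * D = 0 := by
    have := congrArg star h0
    rwa [star_mul, star_zero, isPos_star hD, isPos_star hD'] at this
  induction m with
  | zero =>
    exact ⟨fun i => i.elim0, fun i => i.elim0, fun i => i.elim0, fun i => i.elim0⟩
  | succ m ih =>
    obtain ⟨E, hE1, hE2, hE4⟩ := ih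
    obtain ⟨Φ, c1, -, c3, c4, c5, c6, -, -⟩ := exists_free_copy hf ({D, D'} ∪ Set.range E)
      ((Set.toFinite _).countable.union (Set.finite_range E).countable)
    have mD : D ∈ ({D, D'} ∪ Set.range E : Set B) := Or.inl (Or.inl rfl)
    have mD' : D' ∈ ({D, D'} ∪ Set.range E : Set B) := Or.inl (Or.inr rfl)
    have mE : ∀ p, E p ∈ ({D, D'} ∪ Set.range E : Set B) := fun p => Or.inr ⟨p, rfl⟩
    have hcomm : ∀ p, Commute (Φ D) (E p) := fun p => c1 D mD _ (mE p)
    have hcomm' : ∀ p, Commute (Φ D') (E p) := fun p => c1 D' mD' _ (mE p)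
    have z1 : Φ D * Φ D' = 0 := c6 D mD D' mD' h0
    have z2 : Φ D' * Φ D = 0 := c6 D' mD' D mD h0'
    refine ⟨Fin.cons (Φ D') fun p => Φ D * E p, ?_, ?_, ?_⟩
    · intro p
      refine Fin.cases ?_ (fun p => ?_) p
      · exact c3 D' mD' hD'
      · exact isPos_mul (c3 D mD hD) (hE1 p) (hcomm p)
    · intro p
      refine Fin.cases ?_ (fun p => ?_) p
      · show ‖Φ D'‖ = 1
        rw [c5 D' mD', hn', norm_one, mul_one]
      · show ‖Φ D * E p‖ = 1
        rw [c4 D mD _ (mE p), hn, hE2, mul_one]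
    · intro p q
      refine Fin.cases ?_ (fun p => ?_) p
      · refine Fin.cases ?_ (fun q => ?_) q
        · intro h
          exact absurd rfl h
        · intro _
          show Φ D' * (Φ D * E q) = 0
          rw [← mul_assoc, z2, zero_mul]
      · refine Fin.cases ?_ (fun q => ?_) q
        · intro _
          show Φ D * E p * Φ D' = 0
          rw [mul_assoc, ← (hcomm' p).eq, ← mul_assoc, z1, zero_mul]
        · intro h
          show Φ D * E p * (Φ D * E q) = 0
          have hpq : E p * E q = 0 := hE4 p q fun h' => h (by rw [h'])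
          calc Φ D * E p * (Φ D * E q) = Φ D * (E p * Φ D) * E q := by simp only [mul_assoc]
            _ = Φ D * (Φ D * E p) * E q := by rw [(hcomm p).eq]
            _ = Φ D * Φ D * (E p * E q) := by simp only [mul_assoc]
            _ = 0 := by rw [hpq, mul_zero]

theorem exists_orth_family_any {G : Type*} [Group G] [Countable G] {B : Type*} [CStarAlgebra B]
    [Nontrivial B] {β : G →* (B ≃⋆ₐ[ℂ] B)} (hf : HasFreeCopies β) (K : Finset G)
    (hK : ∀ g ∈ K, ∃ H : B, IsPos H ∧ ‖H‖ = 1 ∧ H * β g H = 0)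
    (D D' : B) (hD : IsPos D) (hD' : IsPos D')
    (hn : ‖D‖ = 1) (hn' : ‖D'‖ = 1) (h0 : D * D' = 0) (m : ℕ) :
    ∃ H : Fin m → B, (∀ p, IsPos (H p)) ∧ (∀ p, ‖H p‖ = 1) ∧
      (∀ p q, p ≠ q → H p * H q = 0) ∧ ∀ p q, ∀ g ∈ K, H p * β g (H q) = 0 := by
  obtain ⟨E, hE1, hE2, hE4⟩ := exists_orth_any hf D D' hD hD' hn hn' h0 m
  obtain ⟨H, hH1, hH2, hH3⟩ := exists_orth_moved hf K hK
  obtain ⟨Φ, c1, c2, c3, c4, -, c6, -, -⟩ := exists_free_copy hf ({H} ∪ Set.range E)
    ((Set.toFinite _).countable.union (Set.finite_range E).countable)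
  have mH : H ∈ ({H} ∪ Set.range E : Set B) := Or.inl rfl
  have mE : ∀ p, E p ∈ ({H} ∪ Set.range E : Set B) := fun p => Or.inr ⟨p, rfl⟩
  have hcomm : ∀ p, Commute (Φ (E p)) H := fun p => c1 _ (mE p) H mH
  have hc2 : ∀ p g, Commute H (β g (Φ (E p))) := fun p g => by
    have h1 := (c2 _ (mE p) H mH g⁻¹).map (β g)
    have h2 : β g (β g⁻¹ H) = H := by
      have : (β g * β g⁻¹) H = H := by rw [← map_mul, mul_inv_cancel, map_one]; rfl
      exact this
    rw [h2] at h1
    exact h1.symm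
  refine ⟨fun p => Φ (E p) * H, ?_, ?_, ?_, ?_⟩
  · exact fun p => isPos_mul (c3 _ (mE p) (hE1 p)) hH1 (hcomm p)
  · intro p
    show ‖Φ (E p) * H‖ = 1
    rw [c4 _ (mE p) H mH, hE2, hH2, mul_one]
  · intro p q hpq
    show Φ (E p) * H * (Φ (E q) * H) = 0
    calc Φ (E p) * H * (Φ (E q) * H) = Φ (E p) * (H * Φ (E q)) * H := by simp only [mul_assoc]
      _ = Φ (E p) * Φ (E q) * (H * H) := by rw [← (hcomm q).eq]; simp only [mul_assoc]
      _ = 0 := by rw [c6 _ (mE p) _ (mE q) (hE4 p q hpq), zero_mul]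
  · intro p q g hg
    show Φ (E p) * H * β g (Φ (E q) * H) = 0
    calc Φ (E p) * H * β g (Φ (E q) * H) = Φ (E p) * (H * β g (Φ (E q))) * β g H := by
          rw [map_mul]; simp only [mul_assoc]
      _ = Φ (E p) * β g (Φ (E q)) * (H * β g H) := by rw [(hc2 q g).eq]; simp only [mul_assoc]
      _ = 0 := by rw [hH3 g hg, mul_zero]

/-- A unital algebra without characters has a nonscalar selfadjoint element. -/
theorem exists_nonscalar {B : Type*} [CStarAlgebra B] [Nontrivial B]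
    (h : IsEmpty (B →⋆ₐ[ℂ] ℂ)) : ∃ s : B, IsSelfAdjoint s ∧ ∀ c : ℂ, s ≠ algebraMap ℂ B c := by
  by_contra hcon
  push Not at hcon
  -- every element is scalar
  have hall : ∀ x : B, ∃ c : ℂ, x = algebraMap ℂ B c := by
    intro x
    obtain ⟨a, ha⟩ := hcon (realPart x : B) (realPart x).2
    obtain ⟨b, hb⟩ := hcon (imaginaryPart x : B) (imaginaryPart x).2
    refine ⟨a + Complex.I * b, ?_⟩
    rw [← realPart_add_I_smul_imaginaryPart x, ha, hb, map_add, map_mul, Algebra.smul_def]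
  have hinj : Function.Injective (algebraMap ℂ B) := (algebraMap ℂ B).injective
  choose f hf using hall
  refine h.false ?_
  exact
    { toFun := f
      map_one' := hinj (by rw [← hf, map_one])
      map_mul' := fun x y => hinj (by rw [← hf, map_mul, ← hf, ← hf])
      map_zero' := hinj (by rw [← hf, map_zero])
      map_add' := fun x y => hinj (by rw [← hf, map_add, ← hf, ← hf])
      commutes' := fun c => hinj (by rw [← hf]; rfl)
      map_star' := fun x => hinj (by
        rw [← hf, Complex.star_def, ← Complex.star_def, algebraMap_star_comm, ← hf]) }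

theorem exists_orth_families_any {G : Type*} [Group G] [Countable G] {A : Type u}
    [CStarAlgebra A] [SeparableSpace A] [IsSimpleRing A] {ω : Ultrafilter ℕ}
    (hω : (ω : Filter ℕ) ≤ cofinite) (α : G →* (A ≃⋆ₐ[ℂ] A))
    (hchar : IsEmpty (centralSeq ω A →⋆ₐ[ℂ] ℂ)) (m : ℕ) (K : Finset G)
    (hK : ∀ g ∈ K, centralAct ω α g ≠ 1) :
    ∃ H : Fin m → centralSeq ω A, (∀ p, IsPos (H p)) ∧ (∀ p, ‖H p‖ = 1) ∧
      (∀ p q, p ≠ q → H p * H q = 0) ∧ ∀ p q, ∀ g ∈ K, H p * centralAct ω α g (H q) = 0 := by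
  have hf := hasFreeCopies_centralSeq hω α
  have hA : Nontrivial A := inferInstance
  have hnt : Nontrivial (centralSeq ω A) := by
    refine ⟨⟨1, 0, fun h => ?_⟩⟩
    have h1 : (1 : Ultra ω A) = 0 := congrArg Subtype.val h
    have h2 : ‖Ultra.diag ω (1 : A)‖ = ‖(1 : A)‖ := Ultra.norm_diag 1
    rw [map_one, h1, norm_zero, norm_one] at h2
    exact zero_ne_one h2
  obtain ⟨s, hsa, hns⟩ := exists_nonscalar hchar
  obtain ⟨D, D', hD, hD', hn, hn', h0, -⟩ := exists_orth_pair s hsa hns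
  refine exists_orth_family_any hf K (fun g hg => ?_) D D' hD hD' hn hn' h0 m
  obtain ⟨T, hT1, hT2, hT3⟩ := exists_moved hω α g (hK g hg)
  exact exists_pos_of_moved (centralAct ω α g) T hT1 hT2 hT3

end Vale.Agent.P095
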