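import Vale.Agent.P095.NucDim

/-!
# P095: very weak comparison from finite nuclear dimension (row F4 of target T6)
-/

open Filter Topology TopologicalSpace
open scoped BoundedContinuousFunction ComplexOrder

namespace Vale.Agent.P095

open Vale.Agent.P101

universe u v w

/-- In a simple unital algebra every nonzero positive element is full. -/
theorem exists_full_sum {A : Type u} [CStarAlgebra A] [IsSimpleRing A] (x : A) (hx : IsPos x)
    (hx0 : x ≠ 0) : ∃ (k : ℕ) (d : Fin k → A), ∑ q, star (d q) * (x * x) * d q = 1 := by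
  let _ := CStarAlgebra.spectralOrder A
  let _ := CStarAlgebra.spectralOrderedRing A
  have hxs : star x = x := by
    obtain ⟨y, rfl⟩ := hx
    rw [star_mul, star_star]
  have hxx : x * x ≠ 0 := by
    intro h
    apply hx0
    rw [← CStarRing.star_mul_self_eq_zero_iff, hxs]
    exact h
  have hfull : IsFull (x * x) := by
    rw [isFull_iff]
    intro M hM hmem
    rcases eq_bot_or_eq_top M with h | h
    · rw [h, TwoSidedIdeal.mem_bot] at hmem
      exact hxx hmem
    · exact hM.1 h
  obtain ⟨n, a, b, hab⟩ := hfull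
  set s : A := ∑ i, (a i * (x * x) * star (a i) + star (b i) * (x * x) * b i) with hs
  have hle : (2 : A) ≤ s := by
    have h1 : 0 ≤ ∑ i, star (x * star (a i) - x * b i) * (x * star (a i) - x * b i) :=
      Finset.sum_nonneg fun i _ => star_mul_self_nonneg _
    have h2 : ∑ i, star (x * star (a i) - x * b i) * (x * star (a i) - x * b i) =
        s - (∑ i, a i * (x * x) * b i) - star (∑ i, a i * (x * x) * b i) := by
      rw [hs, star_sum, ← Finset.sum_sub_distrib, ← Finset.sum_sub_distrib]
      refine Finset.sum_congr rfl fun i _ => ?_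
      simp only [star_sub, star_mul, star_star, hxs]
      noncomm_ring
    rw [h2, hab, star_one] at h1
    have h3 : s - 1 - 1 = s - 2 := by rw [sub_sub, one_add_one_eq_two]
    rw [h3] at h1
    exact sub_nonneg.1 h1
  have hssa : IsSelfAdjoint s := by
    rw [isSelfAdjoint_iff, hs, star_sum]
    refine Finset.sum_congr rfl fun i _ => ?_
    simp only [star_add, star_mul, star_star, hxs, mul_assoc]
  have hspec : ∀ t ∈ spectrum ℝ s, 2 ≤ t := by
    refine (algebraMap_le_iff_le_spectrum (R := ℝ) (a := s) (ha := hssa)).1 ?_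
    have h4 : algebraMap ℝ A 2 = 2 := map_ofNat (algebraMap ℝ A) 2
    rw [h4]
    exact hle
  have hc0 : ∀ t : ℝ, √(max t 1) ≠ 0 := fun t =>
    (Real.sqrt_pos.2 (lt_of_lt_of_le one_pos (le_max_right _ _))).ne'
  have hc : Continuous fun t : ℝ => (√(max t 1))⁻¹ := Continuous.inv₀ (by fun_prop) hc0
  set h : A := cfc (fun t : ℝ => (√(max t 1))⁻¹) s with hh
  have hhs : star h = h := (cfc_predicate (fun t : ℝ => (√(max t 1))⁻¹) s : IsSelfAdjoint h)
  have hhsh : h * s * h = 1 := by
    have h5 : h * s = cfc (fun t : ℝ => (√(max t 1))⁻¹ * t) s := by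
      rw [cfc_mul (fun t : ℝ => (√(max t 1))⁻¹) (fun t : ℝ => t) s hc.continuousOn
        (by fun_prop), cfc_id' ℝ s]
    rw [h5, hh, ← cfc_mul (fun t : ℝ => (√(max t 1))⁻¹ * t) (fun t : ℝ => (√(max t 1))⁻¹) s
      (hc.mul continuous_id).continuousOn hc.continuousOn]
    have h6 : cfc (fun t : ℝ => (√(max t 1))⁻¹ * t * (√(max t 1))⁻¹) s =
        cfc (fun _ : ℝ => (1 : ℝ)) s := by
      refine cfc_congr fun t ht => ?_
      have h7 := hspec t ht
      change (√(max t 1))⁻¹ * t * (√(max t 1))⁻¹ = 1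
      rw [max_eq_left (by linarith)]
      have h8 : 0 < √t := Real.sqrt_pos.2 (by linarith)
      have h9 : √t * √t = t := Real.mul_self_sqrt (by linarith)
      field_simp
      nlinarith
    rw [h6, cfc_const_one ℝ s]
  refine ⟨n + n, Fin.append (fun i => star (a i) * h) (fun i => b i * h), ?_⟩
  rw [Fin.sum_univ_add]
  simp only [Fin.append_left, Fin.append_right]
  rw [← hhsh, hs, Finset.mul_sum, Finset.sum_mul, ← Finset.sum_add_distrib]
  refine Finset.sum_congr rfl fun i _ => ?_
  simp only [star_mul, star_star, hhs]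
  noncomm_ring

namespace VWComp

section Alg

variable {B : Type*} [Ring B] [StarRing B]

/-- the computation of `R* X R` -/
theorem star_mul_mul {ι : Type*} [Fintype ι] [DecidableEq ι] (v W : ι → B) (X t : B)
    (hv : ∀ i i', star (v i) * v i' = if i = i' then t else 0)
    (hX : ∀ i, Commute X (v i)) (hX' : star X = X) :
    star (∑ i, v i * W i) * X * (∑ i, v i * W i) = ∑ i, star (W i) * (X * t) * W i := by
  have hXs : ∀ i, Commute X (star (v i)) := fun i => by
    have h1 := (hX i).star_star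
    rw [hX'] at h1
    exact h1
  rw [star_sum, Finset.sum_mul, Finset.sum_mul]
  refine Finset.sum_congr rfl fun i _ => ?_
  rw [Finset.mul_sum, Finset.sum_eq_single i]
  · have h1 := hv i i
    rw [if_pos rfl] at h1
    calc star (v i * W i) * X * (v i * W i) = star (W i) * (star (v i) * X) * (v i * W i) := by
          rw [star_mul]; noncomm_ring
      _ = star (W i) * (X * star (v i)) * (v i * W i) := by rw [(hXs i).eq]
      _ = star (W i) * X * (star (v i) * v i) * W i := by noncomm_ring
      _ = _ := by rw [h1]; noncomm_ring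
  · intro i' _ hne
    have h1 := hv i i'
    rw [if_neg (Ne.symm hne)] at h1
    calc star (v i * W i) * X * (v i' * W i') =
          star (W i) * (star (v i) * X) * (v i' * W i') := by
          rw [star_mul]; noncomm_ring
      _ = star (W i) * (X * star (v i)) * (v i' * W i') := by rw [(hXs i).eq]
      _ = star (W i) * X * (star (v i) * v i') * W i' := by noncomm_ring
      _ = 0 := by rw [h1]; noncomm_ring
  · intro h
    exact absurd (Finset.mem_univ _) h

end Alg

variable {A : Type u} [CStarAlgebra A] {ω : Ultrafilter ℕ}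

theorem commute_diag (a : A) (x : centralSeq ω A) : Commute (Ultra.diag ω a) (x : Ultra ω A) :=
  mem_centralSeq_iff.1 x.2 a

/-- a column entry is bounded by the norm of the sum -/
theorem norm_le_two {m : ℕ} (z : Fin m → A) (a : A) (ha : ‖a‖ ≤ 1) {ε : ℝ} (hε : ε ≤ 1)
    (h : ‖∑ c, star (z c) * z c - a * a‖ ≤ ε) (c : Fin m) : ‖z c‖ ≤ 2 := by
  let _ := CStarAlgebra.spectralOrder A
  let _ := CStarAlgebra.spectralOrderedRing A
  have h1 : ‖star (z c) * z c‖ ≤ ‖∑ c, star (z c) * z c‖ := by
    refine CStarAlgebra.norm_le_norm_of_nonneg_of_le (star_mul_self_nonneg _) ?_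
    exact Finset.single_le_sum (f := fun c => star (z c) * z c)
      (fun c _ => star_mul_self_nonneg (z c)) (Finset.mem_univ c)
  have h2 : ‖∑ c, star (z c) * z c‖ ≤ 2 := by
    have h3 : ∑ c, star (z c) * z c = (∑ c, star (z c) * z c - a * a) + a * a := by abel
    rw [h3]
    refine (norm_add_le _ _).trans ?_
    have h4 : ‖a * a‖ ≤ 1 := (norm_mul_le _ _).trans (by nlinarith [norm_nonneg a])
    linarith
  rw [CStarRing.norm_star_mul_self] at h1
  nlinarith [norm_nonneg (z c)]

/-- The comparison element in the ultrapower. -/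
theorem exists_ultra {M N m k : ℕ} (x a : A) (hx : star x = x) (ha1 : ‖a‖ ≤ 1)
    (dd : Fin k → A) (hdd : ∑ q, star (dd q) * (x * x) * dd q = 1)
    (z : Fin m → Fin N → A) {ε1 ε2 : ℝ} (h1 : ε1 ≤ 1)
    (hz : ∀ j j', ‖∑ c, star (z c j) * z c j' - (if j = j' then a * a else 0)‖ ≤ ε1)
    (e : Fin m × Fin k ≃ Fin M)
    (t : centralSeq ω A) (v : Fin M → centralSeq ω A) (u : Fin N → centralSeq ω A)
    (hv1 : ∀ i, ‖v i‖ ≤ 1) (hu1 : ∀ j, ‖u j‖ ≤ 1) (ht1 : ‖t‖ ≤ 1)
    (hv : ∀ i i', star (v i) * v i' = if i = i' then t else 0)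
    (hu : ‖∑ j, star (u j) * t * u j - 1‖ ≤ ε2) :
    ∃ R : Ultra ω A, ‖R‖ ≤ ∑ p : Fin m × Fin k, ∑ _j : Fin N, ‖dd p.2‖ * 2 ∧
      ‖star R * Ultra.diag ω (x * x) * R - Ultra.diag ω (a * a)‖ ≤ N * (N * ε1) + ε2 := by
  have hv1' : ∀ i, ‖(v i : Ultra ω A)‖ ≤ 1 := hv1
  have hu1' : ∀ i, ‖(u i : Ultra ω A)‖ ≤ 1 := hu1
  have ht1' : ‖(t : Ultra ω A)‖ ≤ 1 := ht1
  have hu' : ‖∑ j, star (u j : Ultra ω A) * (t : Ultra ω A) * (u j : Ultra ω A) - 1‖ ≤ ε2 := by
    have h2 : ((∑ j, star (u j) * t * u j - 1 : centralSeq ω A) : Ultra ω A) =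
        ∑ j, star (u j : Ultra ω A) * (t : Ultra ω A) * (u j : Ultra ω A) - 1 := by
      push_cast
      rfl
    rw [← h2]
    exact hu
  have hv' : ∀ i i', star (v i : Ultra ω A) * (v i' : Ultra ω A) =
      if i = i' then (t : Ultra ω A) else 0 := by
    intro i i'
    have h2 := congrArg (fun y : centralSeq ω A => (y : Ultra ω A)) (hv i i')
    have h3 : ((star (v i) * v i' : centralSeq ω A) : Ultra ω A) =
      star (v i : Ultra ω A) * (v i' : Ultra ω A) := rfl
    rw [h3] at h2
    rw [h2]
    split_ifs <;> rfl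
  have hznorm : ∀ c j, ‖z c j‖ ≤ 2 := by
    intro c j
    have h2 := hz j j
    rw [if_pos rfl] at h2
    exact norm_le_two (fun c => z c j) a ha1 h1 h2 c
  let D := Ultra.diag ω (A := A)
  let W : Fin m × Fin k → Ultra ω A := fun p => ∑ j, D (dd p.2 * z p.1 j) * (u j : Ultra ω A)
  let R : Ultra ω A := ∑ p : Fin m × Fin k, (v (e p) : Ultra ω A) * W p
  have hxx : star (D (x * x)) = D (x * x) := by
    rw [← map_star, star_mul, hx]
  refine ⟨R, ?_, ?_⟩
  · refine (norm_sum_le _ _).trans (Finset.sum_le_sum fun p _ => ?_)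
    have h2 : ‖W p‖ ≤ ∑ _j : Fin N, ‖dd p.2‖ * 2 := by
      refine (norm_sum_le _ _).trans (Finset.sum_le_sum fun j _ => ?_)
      refine (norm_mul_le _ _).trans ?_
      have h3 : ‖D (dd p.2 * z p.1 j)‖ ≤ ‖dd p.2‖ * 2 := by
        have h4 : ‖D (dd p.2 * z p.1 j)‖ = ‖dd p.2 * z p.1 j‖ := Ultra.norm_diag _
        rw [h4]
        exact (norm_mul_le _ _).trans (mul_le_mul_of_nonneg_left (hznorm _ _) (norm_nonneg _))
      calc ‖D (dd p.2 * z p.1 j)‖ * ‖(u j : Ultra ω A)‖
          ≤ (‖dd p.2‖ * 2) * 1 := mul_le_mul h3 (hu1' j) (norm_nonneg _) (by positivity)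
        _ = _ := mul_one _
    refine (norm_mul_le _ _).trans ?_
    calc ‖(v (e p) : Ultra ω A)‖ * ‖W p‖ ≤ 1 * ‖W p‖ :=
          mul_le_mul_of_nonneg_right (hv1' _) (norm_nonneg _)
      _ = ‖W p‖ := one_mul _
      _ ≤ _ := h2
  · -- the product
    have h2 : star R * D (x * x) * R = ∑ p, star (W p) * (D (x * x) * (t : Ultra ω A)) * W p := by
      refine star_mul_mul (fun p => (v (e p) : Ultra ω A)) W (D (x * x)) (t : Ultra ω A) ?_ ?_ hxx
      · intro p p'
        rw [hv' (e p) (e p')]
        simp only [EmbeddingLike.apply_eq_iff_eq]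
      · intro p
        exact commute_diag (x * x) (v (e p))
    have h3 : ∀ p, star (W p) * (D (x * x) * (t : Ultra ω A)) * W p =
        ∑ j, ∑ j', star (u j : Ultra ω A) *
          D (star (z p.1 j) * (star (dd p.2) * (x * x) * dd p.2) * z p.1 j') *
            (t : Ultra ω A) * (u j' : Ultra ω A) := by
      intro p
      change star (∑ j, D (dd p.2 * z p.1 j) * (u j : Ultra ω A)) *
        (D (x * x) * (t : Ultra ω A)) * (∑ j, D (dd p.2 * z p.1 j) * (u j : Ultra ω A)) = _
      rw [star_sum, Finset.sum_mul, Finset.sum_mul]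
      refine Finset.sum_congr rfl fun j _ => ?_
      rw [Finset.mul_sum]
      refine Finset.sum_congr rfl fun j' _ => ?_
      have h4 := (commute_diag (dd p.2 * z p.1 j') t).eq
      calc star (D (dd p.2 * z p.1 j) * (u j : Ultra ω A)) * (D (x * x) * (t : Ultra ω A)) *
            (D (dd p.2 * z p.1 j') * (u j' : Ultra ω A))
          = star (u j : Ultra ω A) * (star (D (dd p.2 * z p.1 j)) * D (x * x)) *
              ((t : Ultra ω A) * D (dd p.2 * z p.1 j')) * (u j' : Ultra ω A) := by
            rw [star_mul]; noncomm_ring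
        _ = star (u j : Ultra ω A) * (star (D (dd p.2 * z p.1 j)) * D (x * x)) *
              (D (dd p.2 * z p.1 j') * (t : Ultra ω A)) * (u j' : Ultra ω A) := by
            rw [← h4]
        _ = star (u j : Ultra ω A) * (star (D (dd p.2 * z p.1 j)) * D (x * x) *
              D (dd p.2 * z p.1 j')) * (t : Ultra ω A) * (u j' : Ultra ω A) := by
            noncomm_ring
        _ = _ := by
            rw [← map_star, ← map_mul, ← map_mul]
            congr 4
            rw [star_mul]
            noncomm_ring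
    have h4 : star R * D (x * x) * R = ∑ j, ∑ j', star (u j : Ultra ω A) *
        D (∑ c, star (z c j) * z c j') * (t : Ultra ω A) * (u j' : Ultra ω A) := by
      rw [h2, Finset.sum_congr rfl fun p _ => h3 p, Finset.sum_comm]
      refine Finset.sum_congr rfl fun j _ => ?_
      rw [Finset.sum_comm]
      refine Finset.sum_congr rfl fun j' _ => ?_
      rw [← Finset.sum_mul, ← Finset.sum_mul, ← Finset.mul_sum, ← map_sum]
      congr 4
      rw [Fintype.sum_prod_type]
      refine Finset.sum_congr rfl fun c _ => ?_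
      simp only
      rw [← Finset.sum_mul, ← Finset.mul_sum, hdd, mul_one]
    -- the main part
    have h5 : ∑ j, ∑ j', star (u j : Ultra ω A) *
        D (if j = j' then a * a else 0) * (t : Ultra ω A) * (u j' : Ultra ω A) =
        D (a * a) * ∑ j, star (u j : Ultra ω A) * (t : Ultra ω A) * (u j : Ultra ω A) := by
      rw [Finset.mul_sum]
      refine Finset.sum_congr rfl fun j _ => ?_
      rw [Finset.sum_eq_single j]
      · rw [if_pos rfl]
        have h6 := (commute_diag (a * a) (star (u j))).eq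
        have h7 : ((star (u j) : centralSeq ω A) : Ultra ω A) = star (u j : Ultra ω A) := rfl
        rw [h7] at h6
        rw [← h6]
        noncomm_ring
      · intro j' _ hne
        rw [if_neg (Ne.symm hne), map_zero, mul_zero, zero_mul, zero_mul]
      · intro h
        exact absurd (Finset.mem_univ _) h
    have h6 : star R * D (x * x) * R - D (a * a) =
        (∑ j, ∑ j', star (u j : Ultra ω A) *
          D (∑ c, star (z c j) * z c j' - (if j = j' then a * a else 0)) *
            (t : Ultra ω A) * (u j' : Ultra ω A)) +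
        D (a * a) * (∑ j, star (u j : Ultra ω A) * (t : Ultra ω A) * (u j : Ultra ω A) - 1) := by
      rw [h4, mul_sub, mul_one, ← h5]
      have h7 : ∀ j j', star (u j : Ultra ω A) *
          D (∑ c, star (z c j) * z c j' - (if j = j' then a * a else 0)) *
            (t : Ultra ω A) * (u j' : Ultra ω A) =
          star (u j : Ultra ω A) * D (∑ c, star (z c j) * z c j') * (t : Ultra ω A) *
            (u j' : Ultra ω A) -
          star (u j : Ultra ω A) * D (if j = j' then a * a else 0) * (t : Ultra ω A) *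
            (u j' : Ultra ω A) := by
        intro j j'
        rw [map_sub]
        noncomm_ring
      simp only [h7, Finset.sum_sub_distrib]
      abel
    change ‖star R * D (x * x) * R - D (a * a)‖ ≤ _
    rw [h6]
    refine (norm_add_le _ _).trans (add_le_add ?_ ?_)
    · have h8 : ∀ j j', ‖star (u j : Ultra ω A) *
          D (∑ c, star (z c j) * z c j' - (if j = j' then a * a else 0)) *
            (t : Ultra ω A) * (u j' : Ultra ω A)‖ ≤ ε1 := by
        intro j j'
        have h9 : ‖D (∑ c, star (z c j) * z c j' - (if j = j' then a * a else 0))‖ ≤ ε1 :=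
          (Ultra.norm_diag _).trans_le (hz j j')
        have h10 : 0 ≤ ε1 := (norm_nonneg _).trans h9
        have h11 : ‖star (u j : Ultra ω A)‖ ≤ 1 := by
          rw [norm_star]
          exact hu1' j
        calc _ ≤ ‖star (u j : Ultra ω A)‖ *
              ‖D (∑ c, star (z c j) * z c j' - (if j = j' then a * a else 0))‖ *
              ‖(t : Ultra ω A)‖ * ‖(u j' : Ultra ω A)‖ := by
              refine (norm_mul_le _ _).trans (mul_le_mul_of_nonneg_right ?_ (norm_nonneg _))
              refine (norm_mul_le _ _).trans (mul_le_mul_of_nonneg_right ?_ (norm_nonneg _))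
              exact norm_mul_le _ _
          _ ≤ 1 * ε1 * 1 * 1 := by
              refine mul_le_mul ?_ (hu1' j') (norm_nonneg _) (by positivity)
              refine mul_le_mul ?_ ht1' (norm_nonneg _) (by positivity)
              exact mul_le_mul h11 h9 (norm_nonneg _) zero_le_one
          _ = ε1 := by ring
      refine (norm_sum_le _ _).trans ?_
      have h9 : ∀ j : Fin N, ‖∑ j', star (u j : Ultra ω A) *
          D (∑ c, star (z c j) * z c j' - (if j = j' then a * a else 0)) *
            (t : Ultra ω A) * (u j' : Ultra ω A)‖ ≤ N * ε1 := by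
        intro j
        refine (norm_sum_le _ _).trans ?_
        refine (Finset.sum_le_sum fun j' _ => h8 j j').trans ?_
        rw [Finset.sum_const, Finset.card_univ, Fintype.card_fin, nsmul_eq_mul]
      refine (Finset.sum_le_sum fun j _ => h9 j).trans ?_
      rw [Finset.sum_const, Finset.card_univ, Fintype.card_fin, nsmul_eq_mul]
    · refine (norm_mul_le _ _).trans ?_
      have h8 : ‖D (a * a)‖ ≤ 1 := by
        refine (Ultra.norm_diag (ω := ω) (a * a)).trans_le ?_
        exact (norm_mul_le _ _).trans (by nlinarith [norm_nonneg a])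
      calc _ ≤ 1 * ‖∑ j, star (u j : Ultra ω A) * (t : Ultra ω A) * (u j : Ultra ω A) - 1‖ :=
            mul_le_mul_of_nonneg_right h8 (norm_nonneg _)
        _ ≤ ε2 := by rw [one_mul]; exact hu'

end VWComp

/-- Very weak comparison, from the rank estimate and the order zero data. -/
theorem vwComparison_of {A : Type u} [CStarAlgebra A] [IsSimpleRing A] {ω : Ultrafilter ℕ}
    {d : ℕ}
    (hrank : ∀ N : ℕ, 0 < N → ∀ ε : ℝ, 0 < ε → ∃ η : ℝ, 0 < η ∧ ∀ a : A, IsPos a → ‖a‖ ≤ 1 →
      (∀ τ : A →ₗ[ℂ] ℂ, IsTrace τ → (τ a).re ≤ η) →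
      ∃ z : Fin (d + 1) → Fin N → A, ∀ j j',
        ‖∑ c, star (z c j) * z c j' - (if j = j' then a * a else 0)‖ ≤ ε)
    (hoz : ∀ M : ℕ, 0 < M → ∀ ε : ℝ, 0 < ε →
      ∃ (t : centralSeq ω A) (v : Fin M → centralSeq ω A) (u : Fin (M + 1) → centralSeq ω A),
      (∀ i, ‖v i‖ ≤ 1) ∧ (∀ j, ‖u j‖ ≤ 1) ∧ ‖t‖ ≤ 1 ∧
      (∀ i i', star (v i) * v i' = if i = i' then t else 0) ∧
      ‖∑ j, star (u j) * t * u j - 1‖ ≤ ε) : VWComparison A := by
  intro x hx hx0
  have hxs : star x = x := by
    obtain ⟨y, rfl⟩ := hx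
    rw [star_mul, star_star]
  obtain ⟨k, dd, hdd⟩ := exists_full_sum x hx hx0
  have hk : 0 < k := by
    rcases Nat.eq_zero_or_pos k with h | h
    · subst h
      rw [Finset.univ_eq_empty, Finset.sum_empty] at hdd
      exact absurd hdd zero_ne_one
    · exact h
  have hM : 0 < (d + 1) * k := by positivity
  refine ⟨∑ p : Fin (d + 1) × Fin k, ∑ _j : Fin ((d + 1) * k + 1), ‖dd p.2‖ * 2,
    fun ε hε => ?_⟩
  set N : ℕ := (d + 1) * k + 1 with hN
  have hNr : (0 : ℝ) < N := by
    rw [hN]
    positivity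
  obtain ⟨η, hη, hrank'⟩ := hrank N (by omega) (min 1 (ε / (4 * N * N))) (by positivity)
  refine ⟨η, hη, fun a ha ha1 htr => ?_⟩
  obtain ⟨z, hz⟩ := hrank' a ha ha1 htr
  obtain ⟨t, v, u, hv1, hu1, ht1, hv, hu⟩ := hoz ((d + 1) * k) hM (ε / 4) (by positivity)
  obtain ⟨R, hR1, hR2⟩ := VWComp.exists_ultra (ω := ω) x a hxs ha1 dd hdd z (min_le_left _ _) hz
    finProdFinEquiv t v u hv1 hu1 ht1 hv hu
  obtain ⟨r, hr, hr1⟩ := Ultra.exists_rep R
  have h1 : (N : ℝ) * (N * min 1 (ε / (4 * N * N))) ≤ ε / 4 := by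
    have h2 : min 1 (ε / (4 * (N : ℝ) * N)) ≤ ε / (4 * N * N) := min_le_right _ _
    have h3 : (N : ℝ) * (N * (ε / (4 * N * N))) = ε / 4 := by
      field_simp
    rw [← h3]
    gcongr
  have h2 : ‖star R * Ultra.diag ω (x * x) * R - Ultra.diag ω (a * a)‖ < ε := by
    linarith
  have h3 : Ultra.mk ω (star r * Ultra.const (x * x) * r - Ultra.const (a * a)) =
      star R * Ultra.diag ω (x * x) * R - Ultra.diag ω (a * a) := by
    rw [map_sub, map_mul, map_mul, map_star, hr]
    rfl
  rw [← h3] at h2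
  obtain ⟨n, hn⟩ := ((Ultra.tendsto_norm_mk (ω := ω) _).eventually (gt_mem_nhds h2)).exists
  refine ⟨r n, (hr1 n).trans hR1, ?_⟩
  exact hn.le

end Vale.Agent.P095
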