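import Vale.Agent.P095.PosTr

/-!
# P095: the Powers-Stoermer inequality
-/

open Filter Topology TopologicalSpace
open scoped BoundedContinuousFunction ComplexOrder

namespace Vale.Agent.P095

open Vale.Agent.P101 PosTr

variable {K : Type*} [CStarAlgebra K] [PartialOrder K] [StarOrderedRing K]

theorem PStormerAux.sqrt_eq (a : K) (ha : 0 ≤ a) : cfc Real.sqrt a = CFC.sqrt a := by
  rw [CFC.sqrt_eq_real_sqrt a ha, cfcₙ_eq_cfc]

theorem PStormerAux.aux (φ : K →ₗ[ℂ] ℂ) (hφ : IsPosTrace φ) (a c : K) (hc : 0 ≤ c) (ha : c ≤ a) :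
    sq φ (cfc Real.sqrt a - cfc Real.sqrt c) ≤ (φ (a - c)).re := by
  have ha0 : 0 ≤ a := hc.trans ha
  rw [PStormerAux.sqrt_eq a ha0, PStormerAux.sqrt_eq c hc]
  set x := CFC.sqrt a with hx
  set y := CFC.sqrt c with hy
  have hx0 : 0 ≤ x := CFC.sqrt_nonneg a
  have hy0 : 0 ≤ y := CFC.sqrt_nonneg c
  have hxx : x * x = a := CFC.sqrt_mul_sqrt_self a ha0
  have hyy : y * y = c := CFC.sqrt_mul_sqrt_self c hc
  have hle : y ≤ x := CFC.sqrt_le_sqrt c a ha
  have h1 := re_mul_mono hφ hy0 hle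
  rw [hyy] at h1
  have hsx : star x = x := (IsSelfAdjoint.of_nonneg hx0).star_eq
  have hsy : star y = y := (IsSelfAdjoint.of_nonneg hy0).star_eq
  rw [sq_sub hφ, sq, sq, hsx, hsy, hxx, hyy, hφ.trace x y, map_sub, Complex.sub_re]
  linarith

theorem powers_stormer (φ : K →ₗ[ℂ] ℂ) (hφ : IsPosTrace φ) (a b c : K) (hc : 0 ≤ c) (ha : c ≤ a)
    (hb : c ≤ b) :
    sq φ (cfc Real.sqrt a - cfc Real.sqrt b) ≤ 2 * (φ (a - c)).re + 2 * (φ (b - c)).re := by
  have h1 := PStormerAux.aux φ hφ a c hc ha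
  have h2 := PStormerAux.aux φ hφ b c hc hb
  have h3 := sq_sub_le hφ (cfc Real.sqrt a - cfc Real.sqrt c) (cfc Real.sqrt b - cfc Real.sqrt c)
  rw [sub_sub_sub_cancel_right] at h3
  linarith

end Vale.Agent.P095
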