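import Mathlib

/-!
# P095: a finite family of complex numbers with vanishing power sums is zero
-/

namespace Vale.Agent.P095

open Polynomial

theorem power_sums {T : Type*} [Fintype T] (l : T → ℂ) (h : ∀ k, 0 < k → ∑ t, l t ^ k = 0) :
    ∀ t, l t = 0 := by
  classical
  intro t₀
  by_contra hne
  let V : Finset ℂ := insert 0 (Finset.univ.image l)
  let P : ℂ[X] := Lagrange.basis V id (l t₀)
  have hmem : l t₀ ∈ V := Finset.mem_insert_of_mem (Finset.mem_image_of_mem _ (Finset.mem_univ _))
  have hinj : Set.InjOn (id : ℂ → ℂ) V := fun _ _ _ _ h => h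
  have h1 : P.eval (l t₀) = 1 := Lagrange.eval_basis_self hinj hmem
  have h0 : ∀ v ∈ V, v ≠ l t₀ → P.eval v = 0 := fun v hv hvne => by
    have := Lagrange.eval_basis_of_ne (v := (id : ℂ → ℂ)) (Ne.symm hvne) hv
    exact this
  have hc : P.coeff 0 = 0 := by
    rw [coeff_zero_eq_eval_zero]
    exact h0 0 (Finset.mem_insert_self _ _) (Ne.symm hne)
  have hsum : ∑ t, P.eval (l t) = 0 := by
    have e : ∀ t, P.eval (l t) = ∑ k ∈ Finset.range (P.natDegree + 1), P.coeff k * l t ^ k :=
      fun t => eval_eq_sum_range _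
    simp_rw [e]
    rw [Finset.sum_comm]
    refine Finset.sum_eq_zero fun k _ => ?_
    rw [← Finset.mul_sum]
    rcases Nat.eq_zero_or_pos k with rfl | hk
    · rw [hc, zero_mul]
    · rw [h k hk, mul_zero]
  have hsum2 : ∑ t, P.eval (l t) = ((Finset.univ.filter fun t => l t = l t₀).card : ℂ) := by
    rw [Finset.card_filter]
    push_cast
    refine Finset.sum_congr rfl fun t _ => ?_
    by_cases ht : l t = l t₀
    · rw [if_pos ht, ht, h1]
    · rw [if_neg ht]
      exact h0 _ (Finset.mem_insert_of_mem (Finset.mem_image_of_mem _ (Finset.mem_univ _))) ht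
  rw [hsum] at hsum2
  have hcard : (Finset.univ.filter fun t => l t = l t₀).card = 0 := by
    exact_mod_cast hsum2.symm
  rw [Finset.card_eq_zero] at hcard
  have : t₀ ∈ (Finset.univ.filter fun t => l t = l t₀) := by simp
  rw [hcard] at this
  exact absurd this (Finset.notMem_empty _)

end Vale.Agent.P095
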