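import Vale.Agent.P095.EqCC
import Vale.Agent.P095.TDefs

/-!
# P095: equivariant property (SI) removes the characters of `F_ω(A)^G`
-/

open Filter Topology TopologicalSpace
open scoped BoundedContinuousFunction ComplexOrder

namespace Vale.Agent.P095

open Vale.Agent.P101

universe u v w

/-- Tracially full positive contractions: `inf_m lim_ω inf_τ τ(f_n^m) > 0`. -/
def fullSet (ω : Ultrafilter ℕ) (A : Type u) [CStarAlgebra A] : Set (centralSeq ω A) :=
  {x | ∃ y : ℕ →ᵇ A, Ultra.mk ω y = x ∧ ∃ c > 0, ∀ m : ℕ, ∀ᶠ n in (ω : Filter ℕ),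
    ∀ τ : A →ₗ[ℂ] ℂ, IsTrace τ → c ≤ (τ (y n ^ m)).re}

/-- Equivariant property (SI) (Matui-Sato, Sato, Szabó): for fixed positive contractions `e`
(tracially null) and `f` (tracially full) of `F_ω(A)` there is a fixed `s` with `s* s = e` and
`f s = s`. -/
def EquivariantSI {G : Type*} [Group G] (ω : Ultrafilter ℕ) {A : Type u} [CStarAlgebra A]
    (α : G →* (A ≃⋆ₐ[ℂ] A)) : Prop :=
  ∀ e f : centralSeq ω A, (∃ y, e = star y * y) → ‖e‖ ≤ 1 → (∃ y, f = star y * y) → ‖f‖ ≤ 1 →
    (∀ g, centralAct ω α g e = e) → (∀ g, centralAct ω α g f = f) → e ∈ nullSet ω A →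
    f ∈ fullSet ω A →
    ∃ s : centralSeq ω A, (∀ g, centralAct ω α g s = s) ∧ star s * s = e ∧ f * s = s

section Tr

variable {A : Type u} [CStarAlgebra A]

theorem IsTrace.re_mul_le {τ : A →ₗ[ℂ] ℂ} (h : IsTrace τ) (a b : A) :
    (τ (star (a * b) * (a * b))).re ≤ ‖a‖ ^ 2 * (τ (star b * b)).re := by
  let _ := CStarAlgebra.spectralOrder A
  let _ := CStarAlgebra.spectralOrderedRing A
  have h1 : star a * a ≤ algebraMap ℝ A (‖a‖ ^ 2) := CStarAlgebra.star_mul_le_algebraMap_norm_sq
  obtain ⟨c, hc⟩ := CStarAlgebra.nonneg_iff_eq_star_mul_self.1 (sub_nonneg.2 h1)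
  have h2 : ((‖a‖ ^ 2 : ℝ) : ℂ) • (star b * b) - star (a * b) * (a * b) = star (c * b) * (c * b) := by
    have h3 : star (c * b) * (c * b) = star b * (star c * c) * b := by
      rw [star_mul]; noncomm_ring
    rw [h3, ← hc, mul_sub, sub_mul, Algebra.algebraMap_eq_smul_one]
    congr 1
    · rw [mul_smul_comm, mul_one, smul_mul_assoc, Complex.coe_smul]
    · rw [star_mul]; noncomm_ring
  have h4 := (Complex.nonneg_iff.1 (h.nonneg (c * b))).1
  rw [← h2, map_sub, map_smul, smul_eq_mul, Complex.sub_re, Complex.re_ofReal_mul] at h4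
  linarith

theorem trSup_mul_le (a b : A) : trSup (a * b) ≤ ‖a‖ ^ 2 * trSup b :=
  trSup_le_iff (mul_nonneg (by positivity) (trSup_nonneg b)) fun τ h =>
    (IsTrace.re_mul_le h a b).trans (mul_le_mul_of_nonneg_left (le_trSup b h) (by positivity))

theorem trSup_star_le (a : A) : trSup (star a) ≤ trSup a :=
  trSup_le_iff (trSup_nonneg a) fun τ h => by
    rw [star_star, h.trace]
    exact le_trSup a h

variable {ω : Ultrafilter ℕ}

theorem nullSet_mul_left {x : centralSeq ω A} (hx : x ∈ nullSet ω A) (y : centralSeq ω A) :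
    y * x ∈ nullSet ω A := by
  obtain ⟨a, ha, ha'⟩ := Ultra.exists_rep (y : Ultra ω A)
  obtain ⟨b, hb⟩ := Ultra.mk_surjective (x : Ultra ω A)
  have h1 := (mem_nullSet_iff hb).1 hx
  refine (mem_nullSet_iff (y := a * b) (by rw [map_mul, ha, hb]; rfl)).2 ?_
  refine squeeze_zero (fun n => trSup_nonneg _) (fun n => ?_)
    (by simpa using h1.const_mul (‖(y : Ultra ω A)‖ ^ 2))
  refine (trSup_mul_le (a n) (b n)).trans ?_
  exact mul_le_mul_of_nonneg_right (pow_le_pow_left₀ (norm_nonneg _) (ha' n) 2) (trSup_nonneg _)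

theorem nullSet_star {x : centralSeq ω A} (hx : x ∈ nullSet ω A) : star x ∈ nullSet ω A := by
  obtain ⟨b, hb⟩ := Ultra.mk_surjective (x : Ultra ω A)
  have h1 := (mem_nullSet_iff hb).1 hx
  refine (mem_nullSet_iff (y := star b) (by rw [map_star, hb]; rfl)).2 ?_
  exact squeeze_zero (fun n => trSup_nonneg _) (fun n => trSup_star_le (b n)) h1

theorem nullSet_mul_right {x : centralSeq ω A} (hx : x ∈ nullSet ω A) (y : centralSeq ω A) :
    x * y ∈ nullSet ω A := by
  have h := nullSet_star (nullSet_mul_left (nullSet_star hx) (star y))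
  rwa [star_mul, star_star, star_star] at h

/-- Cauchy-Schwarz for a trace. -/
theorem IsTrace.norm_mul_le {τ : A →ₗ[ℂ] ℂ} (h : IsTrace τ) (a b : A) :
    |(τ (a * b)).re| ≤ ‖a‖ * √(τ (star b * b)).re := by
  have key : ∀ t : ℝ, 0 ≤ (τ (star (star a + (t : ℂ) • b) * (star a + (t : ℂ) • b))).re := fun t =>
    (Complex.nonneg_iff.1 (h.nonneg _)).1
  have h1 : ∀ t : ℝ, (τ (star (star a + (t : ℂ) • b) * (star a + (t : ℂ) • b))).re =
      (τ (a * star a)).re + t * ((τ (a * b)).re + (τ (star b * star a)).re) +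
        t ^ 2 * (τ (star b * b)).re := by
    intro t
    rw [star_add, star_smul, star_star, add_mul, mul_add, mul_add]
    simp only [mul_smul_comm, smul_mul_assoc, map_add, map_smul, smul_eq_mul, Complex.star_def,
      Complex.conj_ofReal, Complex.add_re, Complex.re_ofReal_mul]
    ring
  have h2 : (τ (star b * star a)).re = (τ (a * b)).re := by
    have h3 : ∀ x : A, (τ (star x)).re = (τ x).re := by
      intro x
      have e1 : ∀ z : A, (τ (star z * z)).im = 0 := fun z =>
        (Complex.nonneg_iff.1 (h.nonneg z)).2.symm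
      have e2 := e1 (1 + Complex.I • x)
      have e3 := e1 x
      have e4 := e1 (1 : A)
      rw [star_add, star_smul, star_one, add_mul, mul_add, mul_add, one_mul, one_mul, mul_one] at e2
      simp only [mul_smul_comm, smul_mul_assoc, map_add, map_smul, smul_eq_mul, smul_smul,
        Complex.star_def, Complex.conj_I, Complex.add_im, Complex.mul_im, Complex.I_re,
        Complex.I_im, Complex.neg_re, Complex.neg_im, Complex.mul_re] at e2
      rw [star_one, one_mul] at e4
      rw [e3, e4] at e2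
      linarith
    rw [← h3, star_mul, star_star, star_star]
  have h5 : (τ (a * star a)).re ≤ ‖a‖ ^ 2 := by
    have := IsTrace.re_le h (star a)
    rwa [star_star, norm_star] at this
  have hb := IsTrace.re_nonneg h b
  set c := (τ (a * b)).re with hc
  set s := (τ (star b * b)).re with hs
  have h6 : ∀ t : ℝ, 0 ≤ ‖a‖ ^ 2 + t * (2 * c) + t ^ 2 * s := by
    intro t
    have := key t
    rw [h1, h2] at this
    linarith
  have h7 : c ^ 2 ≤ ‖a‖ ^ 2 * s := by
    have h8 : discrim s (2 * c) (‖a‖ ^ 2) ≤ 0 := by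
      refine discrim_le_zero fun t => ?_
      have := h6 t
      nlinarith
    unfold discrim at h8
    nlinarith
  calc |c| = √(c ^ 2) := (Real.sqrt_sq_eq_abs c).symm
    _ ≤ √(‖a‖ ^ 2 * s) := Real.sqrt_le_sqrt h7
    _ = ‖a‖ * √s := by rw [Real.sqrt_mul (by positivity), Real.sqrt_sq (norm_nonneg a)]

/-- If `1 - f` is null then `f` is tracially full. -/
theorem mem_fullSet_of_null {f : centralSeq ω A} (h : 1 - f ∈ nullSet ω A) : f ∈ fullSet ω A := by
  obtain ⟨z, hz, hzn⟩ := Ultra.exists_rep ((1 - f : centralSeq ω A) : Ultra ω A)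
  have h1 := (mem_nullSet_iff hz).1 h
  refine ⟨1 - z, ?_, 1 / 2, by norm_num, ?_⟩
  · rw [map_sub, map_one, hz]
    simp
  intro m
  -- `(1 - z)^m = 1 - P z` with `P` bounded
  let C : ℝ := ‖((1 - f : centralSeq ω A) : Ultra ω A)‖
  have hgeom : ∀ n, (1 - z n) ^ m = 1 - (∑ i ∈ Finset.range m, (1 - z n) ^ i) * z n := by
    intro n
    have h2 := geom_sum_mul (1 - z n) m
    have h3 : (1 - z n) - 1 = - z n := by abel
    rw [h3, mul_neg] at h2
    have h4 : (∑ i ∈ Finset.range m, (1 - z n) ^ i) * z n = 1 - (1 - z n) ^ m := by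
      rw [← neg_neg ((∑ i ∈ Finset.range m, (1 - z n) ^ i) * z n), h2]
      abel
    rw [h4]
    abel
  let D : ℝ := ∑ i ∈ Finset.range m, (‖(1 : A)‖ + C) ^ i
  have hD : 0 ≤ D := Finset.sum_nonneg fun i _ => by positivity
  have hbound : ∀ n, ‖∑ i ∈ Finset.range m, (1 - z n) ^ i‖ ≤ D + ‖(1 : A)‖ := by
    intro n
    have h2 : ∀ i, ‖(1 - z n) ^ i‖ ≤ (‖(1 : A)‖ + C) ^ i + (if i = 0 then ‖(1 : A)‖ else 0) := by
      intro i
      rcases Nat.eq_zero_or_pos i with rfl | hi
      · simp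
      · rw [if_neg hi.ne', add_zero]
        refine (norm_pow_le' _ hi).trans (pow_le_pow_left₀ (norm_nonneg _) ?_ i)
        exact (norm_sub_le _ _).trans (add_le_add le_rfl (hzn n))
    refine (norm_sum_le _ _).trans ((Finset.sum_le_sum fun i _ => h2 i).trans ?_)
    rw [Finset.sum_add_distrib]
    refine add_le_add le_rfl ?_
    rw [Finset.sum_ite_eq' (Finset.range m) 0]
    split_ifs
    · exact le_rfl
    · exact norm_nonneg _
  have hD' : 0 ≤ D + ‖(1 : A)‖ := add_nonneg hD (norm_nonneg _)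
  -- eventually small
  have h5 : Tendsto (fun n => (D + ‖(1 : A)‖) * √(trSup (z n))) ω (𝓝 0) := by
    have h6 := (Real.continuous_sqrt.tendsto 0).comp h1
    rw [Real.sqrt_zero] at h6
    simpa using h6.const_mul (D + ‖(1 : A)‖)
  filter_upwards [h5.eventually (gt_mem_nhds (show (0 : ℝ) < 1 / 2 by norm_num))] with n hn τ hτ
  show 1 / 2 ≤ (τ ((1 - z n) ^ m)).re
  rw [hgeom n, map_sub, hτ.map_one, Complex.sub_re, Complex.one_re]
  have h7 := IsTrace.norm_mul_le hτ (∑ i ∈ Finset.range m, (1 - z n) ^ i) (z n)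
  have h8 : ‖∑ i ∈ Finset.range m, (1 - z n) ^ i‖ * √(τ (star (z n) * z n)).re ≤
      (D + ‖(1 : A)‖) * √(trSup (z n)) :=
    mul_le_mul (hbound n) (Real.sqrt_le_sqrt (le_trSup _ hτ)) (Real.sqrt_nonneg _) hD'
  have h9 := (abs_le.1 (h7.trans h8)).2
  linarith

end Tr

section Char

section Abstract

variable {F : Type*} [CStarAlgebra F]

theorem char_exists_ne (χ : F →⋆ₐ[ℂ] ℂ) (N : Set F) (W : F) (h1 : W * W ∈ N)
    (h2 : 1 - star W * W - W * star W ∈ N) : ∃ c ∈ N, χ c ≠ 0 := by
  by_contra hcon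
  push Not at hcon
  have h1 : χ (W * W) = 0 := hcon _ h1
  have h2 : χ (1 - star W * W - W * star W) = 0 := hcon _ h2
  have h3 : χ W = 0 := by
    rw [map_mul] at h1
    exact mul_self_eq_zero.1 h1
  rw [map_sub, map_sub, map_mul, map_mul, h3, map_one] at h2
  simp at h2

theorem char_false (χ : F →⋆ₐ[ℂ] ℂ) {e e' S : F} (hee : e * e' = e) (hχe : χ e = 1)
    (h1 : star S * S = e) (h2 : (1 - e') * S = S) : False := by
  have h3 : e * S = 0 := by
    rw [← h2, ← mul_assoc, mul_sub, mul_one, hee, sub_self, zero_mul]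
  have h4 : χ S = 0 := by
    have := congrArg χ h3
    rw [map_mul, hχe, one_mul, map_zero] at this
    exact this
  have h5 : χ e = 0 := by
    rw [← h1, map_mul, h4, mul_zero]
  rw [hχe] at h5
  exact one_ne_zero h5

/-- Functional calculus with a function vanishing near `0` stays in the null ideal. -/
theorem exists_null_pair (χ : F →⋆ₐ[ℂ] ℂ) (N : Set F) (hN : ∀ x ∈ N, ∀ y, y * x ∈ N)
    (c : F) (hc : c ∈ N) (hχ : χ c ≠ 0) :
    ∃ e e' : F, (∃ y, e = star y * y) ∧ ‖e‖ ≤ 1 ∧
      (∃ y, 1 - e' = star y * y) ∧ ‖1 - e'‖ ≤ 1 ∧ e * e' = e ∧ χ e = 1 ∧ e ∈ N ∧ e' ∈ N := by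
  let _ := CStarAlgebra.spectralOrder F
  have _ := CStarAlgebra.spectralOrderedRing F
  set l : ℝ := ‖χ c‖ ^ 2 with hl
  have hlpos : 0 < l := by positivity
  -- the positive element `x` with `χ x = 1`
  set x : F := (l⁻¹ : ℝ) • (star c * c) with hx
  have hxnn : 0 ≤ x := smul_nonneg (by positivity) (star_mul_self_nonneg c)
  have hxsa : IsSelfAdjoint x := hxnn.isSelfAdjoint
  have hχx : χ x = 1 := by
    have h1 : x = ((l⁻¹ : ℝ) : ℂ) • (star c * c) := by
      rw [hx, Complex.coe_smul]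
    rw [h1, map_smul, map_mul, map_star, smul_eq_mul]
    have h2 : star (χ c) * χ c = ((l : ℝ) : ℂ) := by
      rw [hl, Complex.star_def, mul_comm, Complex.mul_conj, Complex.normSq_eq_norm_sq]
    rw [h2, ← Complex.ofReal_mul, inv_mul_cancel₀ hlpos.ne', Complex.ofReal_one]
  have hxN : ∀ y, y * x ∈ N := by
    intro y
    have : y * x = ((((l⁻¹ : ℝ) : ℂ) • y) * star c) * c := by
      rw [hx, ← Complex.coe_smul, mul_smul_comm, smul_mul_assoc, smul_mul_assoc, mul_assoc]
    rw [this]
    exact hN c hc _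
  let h : ℝ → ℝ := fun t => max 0 (min 1 (4 * t - 3))
  let h' : ℝ → ℝ := fun t => max 0 (min 1 (4 * t - 2))
  have hcont : Continuous h := by fun_prop
  have hcont' : Continuous h' := by fun_prop
  have hcont2 : Continuous fun t : ℝ => max t (1 / 2) := by fun_prop
  have hne : ∀ t : ℝ, max t (1 / 2) ≠ 0 := fun t => by
    have : (1 / 2 : ℝ) ≤ max t (1 / 2) := le_max_right _ _
    intro h0
    linarith
  have hk : Continuous fun t => h t / max t (1 / 2) := hcont.div hcont2 hne
  have hk' : Continuous fun t => h' t / max t (1 / 2) := hcont'.div hcont2 hne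
  have hfac : ∀ t, h t / max t (1 / 2) * t = h t := by
    intro t
    rcases le_or_gt (1 / 2) t with ht | ht
    · rw [max_eq_left ht, div_mul_cancel₀]
      linarith
    · have : h t = 0 := by
        simp only [h]
        rw [max_eq_left]
        exact (min_le_right _ _).trans (by linarith)
      rw [this, zero_div, zero_mul]
  have hfac' : ∀ t, h' t / max t (1 / 2) * t = h' t := by
    intro t
    rcases le_or_gt (1 / 2) t with ht | ht
    · rw [max_eq_left ht, div_mul_cancel₀]
      linarith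
    · have : h' t = 0 := by
        simp only [h']
        rw [max_eq_left]
        exact (min_le_right _ _).trans (by linarith)
      rw [this, zero_div, zero_mul]
  have hprod : ∀ t, h t * h' t = h t := by
    intro t
    rcases le_or_gt t (3 / 4) with ht | ht
    · have : h t = 0 := by
        simp only [h]
        rw [max_eq_left]
        exact (min_le_right _ _).trans (by linarith)
      rw [this, zero_mul]
    · have : h' t = 1 := by
        simp only [h']
        rw [min_eq_left (by linarith), max_eq_right zero_le_one]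
      rw [this, mul_one]
  have h01 : ∀ t, 0 ≤ h t ∧ h t ≤ 1 := fun t =>
    ⟨le_max_left _ _, max_le zero_le_one (min_le_left _ _)⟩
  have h01' : ∀ t, 0 ≤ h' t ∧ h' t ≤ 1 := fun t =>
    ⟨le_max_left _ _, max_le zero_le_one (min_le_left _ _)⟩
  refine ⟨cfc h x, cfc h' x, ?_, ?_, ?_, ?_, ?_, ?_, ?_, ?_⟩
  · exact CStarAlgebra.nonneg_iff_eq_star_mul_self.1 (cfc_nonneg fun t _ => (h01 t).1)
  · refine norm_cfc_le zero_le_one fun t _ => ?_
    rw [Real.norm_eq_abs, abs_of_nonneg (h01 t).1]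
    exact (h01 t).2
  · have h1 : 1 - cfc h' x = cfc (fun t => 1 - h' t) x := by
      rw [cfc_sub (fun _ => (1 : ℝ)) h' x, cfc_const_one ℝ x]
    rw [h1]
    exact CStarAlgebra.nonneg_iff_eq_star_mul_self.1
      (cfc_nonneg fun t _ => by linarith [(h01' t).2])
  · have h1 : 1 - cfc h' x = cfc (fun t => 1 - h' t) x := by
      rw [cfc_sub (fun _ => (1 : ℝ)) h' x, cfc_const_one ℝ x]
    rw [h1]
    refine norm_cfc_le zero_le_one fun t _ => ?_
    rw [Real.norm_eq_abs, abs_of_nonneg (by linarith [(h01' t).2])]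
    linarith [(h01' t).1]
  · rw [← cfc_mul h h' x]
    exact cfc_congr fun t _ => hprod t
  · have h1 := StarAlgHomClass.map_cfc χ h x (by fun_prop)
      (hφ := AddMonoidHomClass.continuous_of_bound χ 1 fun y => by
        rw [one_mul]; exact NonUnitalStarAlgHom.norm_apply_le χ y)
    rw [h1, hχx]
    have h2 : cfc h (1 : ℂ) = algebraMap ℝ ℂ (h 1) := by
      have h3 := cfc_algebraMap (A := ℂ) (1 : ℝ) h
      rwa [map_one] at h3
    rw [h2]
    simp only [h]
    norm_num
  · have h1 : cfc h x = cfc (fun t => h t / max t (1 / 2)) x * x := by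
      have h2 := cfc_mul (fun t : ℝ => h t / max t (1 / 2)) (fun t : ℝ => t) x hk.continuousOn
        continuousOn_id
      rw [cfc_id' ℝ x] at h2
      rw [← h2]
      exact cfc_congr fun t _ => (hfac t).symm
    rw [h1]
    exact hxN _
  · have h1 : cfc h' x = cfc (fun t => h' t / max t (1 / 2)) x * x := by
      have h2 := cfc_mul (fun t : ℝ => h' t / max t (1 / 2)) (fun t : ℝ => t) x hk'.continuousOn
        continuousOn_id
      rw [cfc_id' ℝ x] at h2
      rw [← h2]
      exact cfc_congr fun t _ => (hfac' t).symm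
    rw [h1]
    exact hxN _

end Abstract

variable {G : Type*} [Group G] {A : Type u} [CStarAlgebra A] {ω : Ultrafilter ℕ}

theorem isEmpty_character_of_SI (α : G →* (A ≃⋆ₐ[ℂ] A))
    (hu : HasFixedUnits (centralAct ω α) (nullSet ω A)) (hSI : EquivariantSI ω α) :
    IsEmpty (fixedAlg (centralAct ω α) →⋆ₐ[ℂ] ℂ) := by
  refine ⟨fun χ => ?_⟩
  obtain ⟨w, hw1, hwf, hw2, hw3⟩ := hu
  let N : Set (fixedAlg (centralAct ω α)) := {x | (x : centralSeq ω A) ∈ nullSet ω A}
  have hN : ∀ x ∈ N, ∀ y, y * x ∈ N := fun x hx y => nullSet_mul_left hx _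
  let W : fixedAlg (centralAct ω α) := ⟨w, hwf⟩
  have hW2 : W * W ∈ N := hw2
  have hW3 : 1 - star W * W - W * star W ∈ N := hw3
  obtain ⟨c, hc, hχc⟩ := char_exists_ne χ N W hW2 hW3
  obtain ⟨e, e', ⟨y, hy⟩, he1, ⟨y', hy'⟩, he1', hee, hχe, hen, hen'⟩ :=
    exists_null_pair χ N hN c hc hχc
  have hcoe : ((1 - e' : fixedAlg (centralAct ω α)) : centralSeq ω A) = 1 - e' := rfl
  have hy1 : (e : centralSeq ω A) = star (y : centralSeq ω A) * y := congrArg Subtype.val hy
  have hy1' : (1 - e' : centralSeq ω A) = star (y' : centralSeq ω A) * y' :=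
    hcoe.symm.trans (congrArg Subtype.val hy')
  have hfix : ∀ g, centralAct ω α g (1 - e' : centralSeq ω A) = 1 - e' := fun g => by
    rw [map_sub, map_one, e'.2 g]
  have hful : (1 - e' : centralSeq ω A) ∈ fullSet ω A := mem_fullSet_of_null (by
    rw [sub_sub_cancel]
    exact hen')
  obtain ⟨s, hsf, hs1, hs2⟩ := hSI e (1 - e' : centralSeq ω A) ⟨y, hy1⟩ he1 ⟨y', hy1'⟩ he1' e.2
    hfix hen hful
  exact char_false χ (S := ⟨s, hsf⟩) hee hχe (Subtype.ext hs1) (Subtype.ext hs2)

end Char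

end Vale.Agent.P095
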