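import Vale.Agent.P095.NDefs

/-!
# P095: exact shifts from approximate shifts (ε-test)
-/

open Filter Topology TopologicalSpace
open scoped BoundedContinuousFunction ComplexOrder

namespace Vale.Agent.P095

open Vale.Agent.P101

universe u

theorem exists_shift {G : Type*} [Group G] [Countable G] {A : Type u} [CStarAlgebra A]
    [SeparableSpace A] {ω : Ultrafilter ℕ} (hω : (ω : Filter ℕ) ≤ cofinite)
    (α : G →* (A ≃⋆ₐ[ℂ] A)) (e : centralSeq ω A) (he1 : ‖e‖ ≤ 1)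
    (h : ∀ (F : Finset A) (K : Finset G), (∀ g ∈ K, centralAct ω α g ≠ 1) → ∀ ε > 0,
      ∃ s : Ultra ω A, (e : Ultra ω A) * s = 0 ∧ ‖star s * s - e‖ < ε ∧
      (∀ a ∈ F, ‖Ultra.diag ω a * s - s * Ultra.diag ω a‖ < ε) ∧
      ∀ g ∈ K, ‖star s * ultraAct ω α g s‖ < ε) :
    ∃ s : centralSeq ω A, star s * s = e ∧ e * s = 0 ∧
      ∀ g, centralAct ω α g ≠ 1 → star s * centralAct ω α g s = 0 := by
  classical
  obtain ⟨a, ha⟩ := exists_dense_seq A
  obtain ⟨E, hE, -⟩ := Ultra.exists_rep (e : Ultra ω A)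
  have hev : ∀ (z : ℕ →ᵇ A) (ε : ℝ), ‖Ultra.mk ω z‖ < ε → ∀ᶠ n in (ω : Filter ℕ), ‖z n‖ < ε :=
    fun z ε hz => (Ultra.tendsto_norm_mk z).eventually (gt_mem_nhds hz)
  let F : Bool ⊕ (ℕ ⊕ {g : G // centralAct ω α g ≠ 1}) → (n : ℕ) → {x : A // ‖x‖ ≤ 2} → ℝ :=
    fun k n x =>
    match k with
    | Sum.inl true => ‖E n * x‖
    | Sum.inl false => ‖star (x : A) * x - E n‖
    | Sum.inr (Sum.inl j) => ‖a j * x - x * a j‖
    | Sum.inr (Sum.inr g) => ‖star (x : A) * α g.1 x‖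
  have hne : Nonempty {x : A // ‖x‖ ≤ 2} := ⟨⟨0, by simp⟩⟩
  have hF : ∀ k n x, 0 ≤ F k n x := by
    rintro ((_ | _) | (j | g)) n x <;> exact norm_nonneg _
  have hF2 : ∀ (S : Finset (Bool ⊕ (ℕ ⊕ {g : G // centralAct ω α g ≠ 1}))) (ε : ℝ), 0 < ε →
      ∃ x : ∀ _ : ℕ, {x : A // ‖x‖ ≤ 2}, ∀ k ∈ S, ∀ᶠ n in (ω : Filter ℕ), F k n (x n) < ε := by
    intro S ε hε
    have hinj1 : Function.Injective
        (fun j : ℕ => (Sum.inr (Sum.inl j) : Bool ⊕ (ℕ ⊕ {g : G // centralAct ω α g ≠ 1}))) :=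
      Sum.inr_injective.comp Sum.inl_injective
    have hinj2 : Function.Injective
        (fun g : {g : G // centralAct ω α g ≠ 1} =>
          (Sum.inr (Sum.inr g) : Bool ⊕ (ℕ ⊕ {g : G // centralAct ω α g ≠ 1}))) :=
      Sum.inr_injective.comp Sum.inr_injective
    obtain ⟨s, hs1, hs2, hs3, hs4⟩ := h ((S.preimage _ hinj1.injOn).image a)
      ((S.preimage _ hinj2.injOn).image Subtype.val) (by
        intro g hg
        rw [Finset.mem_image] at hg
        obtain ⟨g', -, rfl⟩ := hg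
        exact g'.2) (min ε 1) (lt_min hε one_pos)
    have hsn : ‖s‖ ≤ 2 := by
      have h1 : ‖s‖ * ‖s‖ ≤ 2 := by
        rw [← CStarRing.norm_star_mul_self]
        have h2 : star s * s = (star s * s - e) + e := by abel
        rw [h2]
        refine (norm_add_le _ _).trans ?_
        have h3 : ‖(e : Ultra ω A)‖ ≤ 1 := he1
        have h4 := hs2.le.trans (min_le_right _ _)
        linarith
      nlinarith [norm_nonneg s]
    obtain ⟨y, hy, hyn⟩ := Ultra.exists_rep s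
    refine ⟨fun n => ⟨y n, (hyn n).trans hsn⟩, ?_⟩
    rintro ((_ | _) | (j | g)) hk
    · show ∀ᶠ n in (ω : Filter ℕ), ‖star (y n) * y n - E n‖ < ε
      refine hev (star y * y - E) ε ?_
      rw [map_sub, map_mul, map_star, hy, hE]
      exact hs2.trans_le (min_le_left _ _)
    · show ∀ᶠ n in (ω : Filter ℕ), ‖E n * y n‖ < ε
      refine hev (E * y) ε ?_
      rw [map_mul, hy, hE, hs1, norm_zero]
      exact hε
    · show ∀ᶠ n in (ω : Filter ℕ), ‖a j * y n - y n * a j‖ < ε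
      refine hev (Ultra.const (a j) * y - y * Ultra.const (a j)) ε ?_
      rw [map_sub, map_mul, map_mul, hy, ← Ultra.diag_apply]
      refine (hs3 (a j) ?_).trans_le (min_le_left _ _)
      rw [Finset.mem_image]
      exact ⟨j, by simpa using hk, rfl⟩
    · show ∀ᶠ n in (ω : Filter ℕ), ‖star (y n) * α g.1 (y n)‖ < ε
      refine hev (star y * seqMap (α g.1 : A →⋆ₐ[ℂ] A) y) ε ?_
      rw [map_mul, map_star, ← ultraAct_mk, hy]
      refine (hs4 g.1 ?_).trans_le (min_le_left _ _)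
      rw [Finset.mem_image]
      exact ⟨g, by simpa using hk, rfl⟩
  obtain ⟨x, hx⟩ := @eps_test_countable _ _ (fun _ => {x : A // ‖x‖ ≤ 2})
    (fun _ => hne) (ω : Filter ℕ) hω F hF hF2
  let y : ℕ →ᵇ A := BoundedContinuousFunction.ofNormedAddCommGroup (fun n => (x n : A))
    continuous_of_discreteTopology 2 (fun n => (x n).2)
  have hyc : Ultra.mk ω y ∈ centralSeq ω A :=
    LocFin.mem_centralSeq_of_dense a ha y fun j => hx (Sum.inr (Sum.inl j))
  refine ⟨⟨Ultra.mk ω y, hyc⟩, Subtype.ext ?_, Subtype.ext ?_, fun g hg => Subtype.ext ?_⟩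
  · show star (Ultra.mk ω y) * Ultra.mk ω y = (e : Ultra ω A)
    rw [← hE, ← map_star, ← map_mul, Ultra.mk_eq_mk_iff]
    exact hx (Sum.inl false)
  · show (e : Ultra ω A) * Ultra.mk ω y = 0
    rw [← hE, ← map_mul, Ultra.mk_eq_zero_iff]
    exact hx (Sum.inl true)
  · show star (Ultra.mk ω y) * ultraAct ω α g (Ultra.mk ω y) = 0
    rw [ultraAct_mk, ← map_star, ← map_mul, Ultra.mk_eq_zero_iff]
    exact hx (Sum.inr (Sum.inr ⟨g, hg⟩))

end Vale.Agent.P095
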