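import Vale.Agent.P095.Excisors
import Vale.Agent.P095.Compare
import Vale.Agent.P095.ShiftCore

/-!
# P095: the approximate shift (row E9)
-/

open Filter Topology TopologicalSpace
open scoped BoundedContinuousFunction ComplexOrder

namespace Vale.Agent.P095

open Vale.Agent.P101

universe u v w


open ShiftApprox

theorem exists_shift_approx {G : Type*} [Group G] [Countable G] {A : Type u} [CStarAlgebra A]
    [SeparableSpace A] [IsSimpleRing A] (hcomp : WeakComparison A)
    (hT : ∃ τ : A →ₗ[ℂ] ℂ, IsTrace τ) (hexc : ExcApprox A)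
    {ω : Ultrafilter ℕ} (hω : (ω : Filter ℕ) ≤ cofinite) (α : G →* (A ≃⋆ₐ[ℂ] A))
    (hH : ∀ (m : ℕ) (K : Finset G), (∀ g ∈ K, centralAct ω α g ≠ 1) →
      ∃ H : Fin m → centralSeq ω A, (∀ p, IsPos (H p)) ∧ (∀ p, ‖H p‖ = 1) ∧
      (∀ p q, p ≠ q → H p * H q = 0) ∧ ∀ p q, ∀ g ∈ K, H p * centralAct ω α g (H q) = 0)
    (e e' : centralSeq ω A) (he : IsPos e) (he1 : ‖e‖ ≤ 1) (hen : e ∈ nullSet ω A)
    (he' : IsPos (1 - e')) (he1' : ‖1 - e'‖ ≤ 1) (hen' : e' ∈ nullSet ω A) (hee : e * e' = e)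
    (F : Finset A) (K : Finset G) (hK : ∀ g ∈ K, centralAct ω α g ≠ 1) (ε : ℝ) (hε : 0 < ε) :
    ∃ s : Ultra ω A, (e : Ultra ω A) * s = 0 ∧ ‖star s * s - e‖ < ε ∧
      (∀ a ∈ F, ‖Ultra.diag ω a * s - s * Ultra.diag ω a‖ < ε) ∧
      ∀ g ∈ K, ‖star s * ultraAct ω α g s‖ < ε := by
  classical
  -- constants
  set R : ℝ := ∑ a ∈ F, ‖a‖ with hR
  have hR0 : 0 ≤ R := Finset.sum_nonneg fun a _ => norm_nonneg a
  have hRa : ∀ a ∈ F, ‖a‖ ≤ R := fun a ha =>
    Finset.single_le_sum (f := fun a => ‖a‖) (fun a _ => norm_nonneg a) ha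
  obtain ⟨η, hη, hη1, hη2⟩ : ∃ η > 0, 2 * η < ε ∧ 2 * η * (1 + R) ^ 2 < ε ^ 2 := by
    refine ⟨min (ε / 4) (ε ^ 2 / (4 * (1 + R) ^ 2)), by positivity, ?_, ?_⟩
    · have := min_le_left (ε / 4) (ε ^ 2 / (4 * (1 + R) ^ 2))
      linarith
    · have h1 := min_le_right (ε / 4) (ε ^ 2 / (4 * (1 + R) ^ 2))
      have h2 : (0 : ℝ) < (1 + R) ^ 2 := by positivity
      calc 2 * min (ε / 4) (ε ^ 2 / (4 * (1 + R) ^ 2)) * (1 + R) ^ 2
          ≤ 2 * (ε ^ 2 / (4 * (1 + R) ^ 2)) * (1 + R) ^ 2 := by gcongr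
        _ = ε ^ 2 / 2 := by field_simp; ring
        _ < ε ^ 2 := by have : 0 < ε ^ 2 := by positivity
                        linarith
  let F' : Finset A := {1} ∪ F ∪ F.image star ∪ F.image fun a => star a * a
  obtain ⟨m, k, lam, b, c, hlam, happ⟩ := hexc F' η hη
  set L : ℝ := ∑ i : Fin m × Fin k, ‖c i.1 i.2‖ with hLdef
  have hL0 : 0 ≤ L := Finset.sum_nonneg fun a _ => norm_nonneg _
  obtain ⟨δ, hδ, hδL⟩ : ∃ δ > 0, δ * L * L ≤ η := by
    refine ⟨η / (L * L + 1), by positivity, ?_⟩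
    rw [mul_assoc, div_mul_eq_mul_div, div_le_iff₀ (by positivity)]
    nlinarith [mul_nonneg hL0 hL0]
  let F'' : Finset A := (Finset.univ.biUnion fun i : Fin m × Fin k =>
      Finset.univ.biUnion fun j : Fin m × Fin k =>
        (F'.image fun a => star (b i.1 i.2) * a * b j.1 j.2) ∪
        (K.image fun g => star (b i.1 i.2) * α g (b j.1 j.2)))
  have hF1 : ∀ i j : Fin m × Fin k, ∀ a ∈ F', star (b i.1 i.2) * a * b j.1 j.2 ∈ F'' := by
    intro i j a ha
    refine Finset.mem_biUnion.2 ⟨i, Finset.mem_univ _, Finset.mem_biUnion.2 ⟨j, Finset.mem_univ _,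
      Finset.mem_union_left _ (Finset.mem_image_of_mem _ ha)⟩⟩
  have hF2 : ∀ i j : Fin m × Fin k, ∀ g ∈ K, star (b i.1 i.2) * α g (b j.1 j.2) ∈ F'' := by
    intro i j g hg
    refine Finset.mem_biUnion.2 ⟨i, Finset.mem_univ _, Finset.mem_biUnion.2 ⟨j, Finset.mem_univ _,
      Finset.mem_union_right _ (Finset.mem_image.2 ⟨g, hg, rfl⟩)⟩⟩
  obtain ⟨x, y, hx, hx0, hy1, hysa, hyx, hexc1, hexc2, hexc3⟩ :=
    exists_excisors (ω := ω) α lam hlam F'' K (hH m K hK) δ hδ
  choose r hr hr0 using fun p => exists_compare hcomp hT hω e e' he he1 hen he' he1' hen' hee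
    (x p) (hx p) (hx0 p)
  have hxsa : ∀ p, star (x p) = x p := fun p => by
    obtain ⟨z, hz⟩ := hx p
    rw [hz, star_mul, star_star]
  let D := Ultra.diag ω (A := A)
  let E : Ultra ω A := e
  have hecomm : ∀ a, Commute (D a) E := fun a => mem_centralSeq_iff.1 e.2 a
  let rho : Fin m → Ultra ω A := fun p => D (x p) * r p
  have hE1 : ‖E‖ ≤ 1 := he1
  have hrho : ∀ p, star (rho p) * rho p = E := fun p => by
    have h1 := hr p
    rw [map_mul] at h1
    refine Eq.trans ?_ h1
    simp only [rho]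
    rw [star_mul, ← map_star D, hxsa p]
    simp only [D, mul_assoc]
  have hrho1 : ∀ p, ‖rho p‖ ≤ 1 := fun p => by
    have h1 : ‖rho p‖ * ‖rho p‖ ≤ 1 := by
      rw [← CStarRing.norm_star_mul_self, hrho p]
      exact hE1
    nlinarith [norm_nonneg (rho p)]
  have hrhoy : ∀ p, D (y p) * rho p = rho p := fun p => by
    simp only [rho]
    rw [← mul_assoc, ← map_mul, hyx p]
  have hrhoy' : ∀ p, star (rho p) * D (y p) = star (rho p) := fun p => by
    have h1 := congrArg star (hrhoy p)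
    rwa [star_mul, ← map_star D, (hysa p).star_eq] at h1
  have hrho0 : ∀ p, E * rho p = 0 := fun p => by
    simp only [rho]
    rw [← mul_assoc, ← (hecomm (x p)).eq, mul_assoc, hr0 p, mul_zero]
  clear_value rho
  -- compression
  have hcompr : ∀ p q (d : A), star (rho p) * D d * rho q =
      star (rho p) * D (y p * d * y q) * rho q := by
    intro p q d
    rw [map_mul, map_mul]
    calc star (rho p) * D d * rho q = (star (rho p) * D (y p)) * D d * (D (y q) * rho q) := by
          rw [hrhoy', hrhoy]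
      _ = _ := by noncomm_ring
  have hsand : ∀ p (d : A) (u : Ultra ω A), ‖u‖ ≤ 1 → ‖star (rho p) * D d * u‖ ≤ ‖d‖ := by
    intro p d u hu
    calc ‖star (rho p) * D d * u‖ ≤ ‖star (rho p)‖ * ‖D d‖ * ‖u‖ :=
          (norm_mul_le _ _).trans (mul_le_mul_of_nonneg_right (norm_mul_le _ _) (norm_nonneg _))
      _ ≤ 1 * ‖d‖ * 1 := by
          rw [norm_star]
          have : ‖D d‖ = ‖d‖ := Ultra.norm_diag d
          rw [this]
          gcongr
          exact hrho1 p
      _ = ‖d‖ := by ring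
  have k1 : ∀ p, ∀ d ∈ F'', ‖star (rho p) * D d * rho p - lam p d • E‖ ≤ δ := by
    intro p d hd
    have h1 : star (rho p) * D d * rho p - lam p d • E =
        star (rho p) * D (y p * d * y p - lam p d • (y p * y p)) * rho p := by
      have h2 : star (rho p) * D (y p * y p) * rho p = E := by
        rw [map_mul, ← mul_assoc, hrhoy', mul_assoc, hrhoy, hrho]
      rw [map_sub, map_smul, mul_sub, sub_mul, ← hcompr, mul_smul_comm, smul_mul_assoc, h2]
    rw [h1]
    exact (hsand p _ _ (hrho1 p)).trans (hexc1 p d hd)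
  have k2 : ∀ p q, p ≠ q → ∀ d ∈ F'', ‖star (rho p) * D d * rho q‖ ≤ δ := by
    intro p q hpq d hd
    rw [hcompr]
    exact (hsand p _ _ (hrho1 q)).trans (hexc2 p q hpq d hd)
  have k3 : ∀ p q, ∀ g ∈ K, ∀ d ∈ F'', ‖star (rho p) * D d * ultraAct ω α g (rho q)‖ ≤ δ := by
    intro p q g hg d hd
    have h1 : star (rho p) * D d * ultraAct ω α g (rho q) =
        star (rho p) * D (y p * d * α g (y q)) * ultraAct ω α g (rho q) := by
      have h2 : D (α g (y q)) * ultraAct ω α g (rho q) = ultraAct ω α g (rho q) := by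
        have h3 : D (α g (y q)) = ultraAct ω α g (D (y q)) := (ultraAct_diag ω α g (y q)).symm
        rw [h3, ← map_mul]
        exact congrArg _ (hrhoy q)
      generalize ultraAct ω α g (rho q) = w at h2 ⊢
      calc star (rho p) * D d * w = (star (rho p) * D (y p)) * D d * (D (α g (y q)) * w) := by
            rw [hrhoy', h2]
        _ = _ := by rw [map_mul, map_mul]; noncomm_ring
    rw [h1]
    refine (hsand p _ _ ?_).trans (hexc3 p q g hg d hd)
    rw [norm_act]
    exact hrho1 q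
  -- the shift
  let b' : Fin m × Fin k → A := fun i => b i.1 i.2
  let c' : Fin m × Fin k → A := fun i => c i.1 i.2
  let s : Ultra ω A := shiftEl D b' c' fun i => rho i.1
  have hT : ∀ a ∈ F', ‖star s * D a * s - D a * E‖ ≤ 2 * η := by
    intro a ha
    have h1 := shift_core D hE1 hecomm lam b' c' rho a δ η L le_rfl hδ.le
      (fun p i j => k1 p _ (hF1 (p, i) (p, j) a ha))
      (fun p q i j hpq => k2 p q hpq _ (hF1 (p, i) (q, j) a ha)) (happ a ha)
    exact h1.trans (by linarith)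
  have h1F : (1 : A) ∈ F' := by simp [F']
  have hT1 : ‖star s * s - E‖ ≤ 2 * η := by
    have := hT 1 h1F
    rwa [map_one, mul_one, one_mul] at this
  refine ⟨s, ?_, hT1.trans_lt hη1, ?_, ?_⟩
  · show E * s = 0
    simp only [s, shiftEl]
    rw [Finset.mul_sum]
    refine Finset.sum_eq_zero fun i _ => ?_
    rw [← mul_assoc, ← mul_assoc, ← (hecomm (b' i)).eq, mul_assoc (D (b' i)), hrho0, mul_zero,
      zero_mul]
  · intro a ha
    have m1 : a ∈ F' := by simp [F', ha]
    have m2 : star a ∈ F' := by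
      simp only [F', Finset.mem_union, Finset.mem_image]
      exact Or.inl (Or.inr ⟨a, ha, rfl⟩)
    have m3 : star a * a ∈ F' := by
      simp only [F', Finset.mem_union, Finset.mem_image]
      exact Or.inr ⟨a, ha, rfl⟩
    have h1 := norm_comm_sq_le (hecomm a) (2 * η) R
      ((Ultra.norm_diag (ω := ω) a).le.trans (hRa a ha)) hR0 hT1 (hT a m1)
      (by rw [← map_star D]; exact hT _ m2) (by rw [← map_star D, ← map_mul]; exact hT _ m3)
    exact lt_of_pow_lt_pow_left₀ 2 hε.le (h1.trans_lt hη2)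
  · intro g hg
    let rho' : Fin m × Fin k → Ultra ω A := fun i => ultraAct ω α g (rho i.1)
    have h1 : ultraAct ω α g s = shiftEl D (fun i => α g (b' i)) (fun i => α g (c' i)) rho' := by
      simp only [s, shiftEl]
      rw [map_sum]
      refine Finset.sum_congr rfl fun i _ => ?_
      rw [map_mul, map_mul, ← ultraAct_diag, ← ultraAct_diag]
    have h2 := star_mul_shiftEl D b' c' (fun i => α g (b' i)) (fun i => α g (c' i))
      (fun i => rho i.1) rho' 1
    rw [map_one, mul_one, ← h1] at h2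
    rw [show shiftEl D b' c' (fun i => rho i.1) = s from rfl] at h2
    rw [h2]
    have h3 := norm_sum_sum_le (fun i => D (c' i)) (fun i => D (α g (c' i)))
      (fun i j => star (rho i.1) * D (star (b' i) * 1 * α g (b' j)) * rho' j) δ (fun i j => by
        rw [mul_one]
        exact k3 i.1 j.1 g hg _ (hF2 i j g hg))
    refine h3.trans_lt ?_
    have h4 : ∑ i, ‖D (c' i)‖ = L := Finset.sum_congr rfl fun i _ => Ultra.norm_diag _
    have h5 : ∑ i, ‖D (α g (c' i))‖ = L := Finset.sum_congr rfl fun i _ => by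
      rw [show ‖D (α g (c' i))‖ = ‖α g (c' i)‖ from Ultra.norm_diag _]
      exact norm_act α g _
    rw [h4, h5]
    linarith

end Vale.Agent.P095
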