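import Vale.Agent.P095.NDefs

/-!
# P095: weak comparison by traces
-/

open Filter Topology TopologicalSpace
open scoped BoundedContinuousFunction ComplexOrder

namespace Vale.Agent.P095

open Vale.Agent.P101

/-- Weak comparison by traces: positive contractions of small rank (uniformly over traces) are
Cuntz subequivalent to positive contractions whose traces are bounded below. -/
def WeakComparison (A : Type*) [CStarAlgebra A] : Prop :=
  ∀ c : ℝ, 0 < c → ∃ δ : ℝ, 0 < δ ∧ ∀ a b : A, IsPos a → IsPos b → ‖a‖ ≤ 1 → ‖b‖ ≤ 1 → b ≠ 0 →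
    (∀ τ : A →ₗ[ℂ] ℂ, IsTrace τ → rankFn τ a ≤ δ) →
    (∀ τ : A →ₗ[ℂ] ℂ, IsTrace τ → c ≤ (τ b).re) → CuntzLE a b

section Rank

variable {A : Type*} [CStarAlgebra A]

theorem rankFn_term_le {τ : A →ₗ[ℂ] ℂ} (h : IsTrace τ) (a : A) (n : ℕ) :
    (τ (cfc (fun t : ℝ => min 1 (n * t)) a)).re ≤ 1 := by
  let _ := CStarAlgebra.spectralOrder A
  let _ := CStarAlgebra.spectralOrderedRing A
  have h0 : ∀ x : A, 0 ≤ x → 0 ≤ (τ x).re := fun x hx => by
    obtain ⟨z, rfl⟩ := CStarAlgebra.nonneg_iff_eq_star_mul_self.1 hx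
    exact (Complex.nonneg_iff.1 (h.nonneg z)).1
  by_cases ha : IsSelfAdjoint a
  · have h1 : 0 ≤ 1 - cfc (fun t : ℝ => min 1 (n * t)) a := by
      have h2 : 1 - cfc (fun t : ℝ => min 1 (n * t)) a =
          cfc (fun t : ℝ => 1 - min 1 (n * t)) a := by
        rw [cfc_sub (fun _ => (1 : ℝ)) _ a, cfc_const_one ℝ a]
      rw [h2]
      exact cfc_nonneg fun t _ => sub_nonneg.2 (min_le_left _ _)
    have h3 := h0 _ h1
    rw [map_sub, h.map_one, Complex.sub_re, Complex.one_re] at h3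
    linarith
  · rw [cfc_apply_of_not_predicate a ha, map_zero]
    simp

theorem bddAbove_rankFn {τ : A →ₗ[ℂ] ℂ} (h : IsTrace τ) (a : A) :
    BddAbove (Set.range fun n : ℕ => (τ (cfc (fun t : ℝ => min 1 (n * t)) a)).re) :=
  ⟨1, by rintro _ ⟨n, rfl⟩; exact rankFn_term_le h a n⟩

theorem re_le_rankFn {τ : A →ₗ[ℂ] ℂ} (h : IsTrace τ) (b : A) (hb : IsPos b) (hb1 : ‖b‖ ≤ 1) :
    (τ b).re ≤ rankFn τ b := by
  let _ := CStarAlgebra.spectralOrder A
  let _ := CStarAlgebra.spectralOrderedRing A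
  have hb0 : 0 ≤ b := CStarAlgebra.nonneg_iff_eq_star_mul_self.2 hb
  have hnt : Nontrivial A := ⟨⟨1, 0, fun h0 => by
    have h1 := h.map_one
    rw [h0, map_zero] at h1
    exact zero_ne_one h1⟩⟩
  have h1 : cfc (fun t : ℝ => min 1 (((1 : ℕ) : ℝ) * t)) b = b := by
    have h2 : cfc (fun t : ℝ => min 1 (((1 : ℕ) : ℝ) * t)) b = cfc (fun t : ℝ => t) b := by
      refine cfc_congr fun t ht => ?_
      have h3 : t ≤ 1 := by
        have h4 := spectrum.norm_le_norm_of_mem (𝕜 := ℝ) ht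
        exact (le_abs_self t).trans (h4.trans hb1)
      simp [h3]
    rw [h2, cfc_id' ℝ b]
  have h5 := le_ciSup (bddAbove_rankFn h b) 1
  rw [h1] at h5
  exact h5

/-- Strict comparison implies weak comparison. -/
theorem weakComparison_of_strict (h : StrictComparison A) : WeakComparison A := by
  intro c hc
  refine ⟨c / 2, by positivity, fun a b ha hb _ hb1 hb0 h1 h2 => h a b ha hb hb0 fun τ hτ => ?_⟩
  have h3 := re_le_rankFn hτ b hb hb1
  have h4 := h1 τ hτ
  have h5 := h2 τ hτ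
  linarith

end Rank

end Vale.Agent.P095
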